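import Crest.Agent.R62.DefsA

set_option autoImplicit false
set_option linter.unusedSectionVars false

namespace Crest.Agent.R62

open Matrix Finset

namespace ALG

variable {ι : Type} [Fintype ι] [DecidableEq ι]

theorem sq_app (F : Mat ι) (x y : ι) : (F ^ 2) x y = ∑ z, F x z * F z y := by
  rw [pow_two, Matrix.mul_apply]

theorem cube_app (F : Mat ι) (x y : ι) : (F ^ 3) x y = ∑ z, F x z * (F ^ 2) z y := by
  rw [pow_succ', Matrix.mul_apply]

theorem rr_eq (F : Mat ι) (h : Sy F) (x : ι) : rr F x = (F ^ 2) x x := by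
  rw [sq_app, rr]
  refine Finset.sum_congr rfl fun y _ => ?_
  rw [h y x, pow_two]

theorem sq_sy (F : Mat ι) (h : Sy F) : Sy (F ^ 2) := by
  intro x y
  rw [sq_app, sq_app]
  refine Finset.sum_congr rfl fun z _ => ?_
  rw [h x z, h z y, mul_comm]

theorem tk_two (F : Mat ι) (h : Sy F) : tk F 2 = ∑ x, rr F x := by
  unfold tk trace
  exact Finset.sum_congr rfl fun x _ => (rr_eq F h x).symm

theorem step_sy (F : Mat ι) (h : Sy F) (i j : ι) : Sy (step F i j) := by
  intro x y
  simp only [step, Matrix.of_apply, wf]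
  by_cases hc : x = i ∨ x = j ∨ y = i ∨ y = j
  · rw [if_pos hc, if_pos (by tauto)]
  · rw [if_neg hc, if_neg (by tauto), h x y]; ring

/-- row formula for `x ∉ {i, j}` valid for every `y`. -/
theorem step_row (F : Mat ι) (h : Sy F) (i j : ι) (hij : i ≠ j) (hD : Dl F i j ≠ 0) (x : ι)
    (hxi : x ≠ i) (hxj : x ≠ j) (y : ι) :
    step F i j x y = F x y + ch1 F i j x * (F y i - if y = j then 1 else 0)
      + ch2 F i j x * (F y j - if y = i then 1 else 0) := by
  simp only [step, Matrix.of_apply, wf, ch1, ch2, al]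
  by_cases hyi : y = i
  · subst hyi
    rw [if_pos (by tauto), if_neg hij, if_pos rfl]
    field_simp
    unfold Dl
    ring
  by_cases hyj : y = j
  · subst hyj
    rw [if_pos (by tauto), if_pos rfl, if_neg hyi, h y i]
    field_simp
    unfold Dl
    ring
  · rw [if_neg (by tauto), if_neg hyj, if_neg hyi]
    field_simp
    ring

theorem sum_split (i j : ι) (hij : i ≠ j) (f g : ι → ℝ) (hi : f i = 0) (hj : f j = 0)
    (h : ∀ x, x ≠ i → x ≠ j → f x = g x) : ∑ x, f x = ∑ x, g x - g i - g j := by
  have : ∀ x, f x = g x - (if x = i then g i else 0) - (if x = j then g j else 0) := by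
    intro x
    by_cases hxi : x = i
    · subst hxi; simp [hi, hij]
    by_cases hxj : x = j
    · subst hxj; simp [hj, hxi]
    · simp [hxi, hxj, h x hxi hxj]
  simp_rw [this]
  simp [Finset.sum_sub_distrib]

theorem rr_step (F : Mat ι) (h : Sy F) (i j : ι) (hij : i ≠ j) (hD : Dl F i j ≠ 0) (x : ι)
    (hxi : x ≠ i) (hxj : x ≠ j) : rr (step F i j) x = rnew F i j x := by
  have e1 : ∀ y, step F i j x y ^ 2 = F x y ^ 2
      + 2 * ch1 F i j x * (F x y * F y i) + 2 * ch2 F i j x * (F x y * F y j)
      + ch1 F i j x ^ 2 * F i y ^ 2 + ch2 F i j x ^ 2 * F j y ^ 2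
      + 2 * ch1 F i j x * ch2 F i j x * (F i y * F y j)
      + (if y = j then ch1 F i j x ^ 2 - 2 * ch1 F i j x * (F x j + ch1 F i j x * F i j
          + ch2 F i j x * F j j) else 0)
      + (if y = i then ch2 F i j x ^ 2 - 2 * ch2 F i j x * (F x i + ch1 F i j x * F i i
          + ch2 F i j x * F i j) else 0) := by
    intro y
    rw [step_row F h i j hij hD x hxi hxj y]
    by_cases hyi : y = i
    · subst hyi
      simp only [if_neg hij, if_true]
      rw [h j y]; ring
    by_cases hyj : y = j
    · subst hyj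
      simp only [if_neg hyi, if_true]
      rw [h y i]; ring
    · simp only [if_neg hyi, if_neg hyj]
      rw [h i y, h j y]; ring
  unfold rr at *
  simp_rw [e1]
  simp only [Finset.sum_add_distrib, ← Finset.mul_sum, Finset.sum_ite_eq', Finset.mem_univ,
    if_true, ← sq_app]
  simp only [rnew, rr, ch1, ch2, al]
  field_simp
  unfold Dl
  ring

end ALG

open ALG in
theorem ALG_proof : AlgStmt := by
  intro ι _ _ F i j h hij hD
  have hzi : ∀ y, step F i j i y = 0 := fun y => by simp [step]
  have hzj : ∀ y, step F i j j y = 0 := fun y => by simp [step]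
  have hri : rr (step F i j) i = 0 := by simp [rr, hzi]
  have hrj : rr (step F i j) j = 0 := by simp [rr, hzj]
  refine ⟨step_sy F h i j, ?_, ?_, ?_, fun x => rr_step F h i j hij hD x, hri, hrj⟩
  · intro U hB hi hj
    refine ⟨step_sy F h i j, ?_, ?_⟩
    · intro x y hx
      by_cases hxi : x = i
      · subst hxi; exact hzi y
      by_cases hxj : x = j
      · subst hxj; exact hzj y
      have hxU : x ∉ U := fun hxU => hx (by simp [hxi, hxj, hxU])
      rw [step_row F h i j hij hD x hxi hxj y]
      simp [ch1, ch2, hB.su x _ hxU]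
    · intro x hx
      simp only [Finset.mem_erase] at hx
      obtain ⟨hxj, hxi, hxU⟩ := hx
      simp_rw [step_row F h i j hij hD x hxi hxj]
      have s1 : ∑ y, F y i = 1 := by
        rw [← hB.on i hi]; exact Finset.sum_congr rfl fun y _ => h y i
      have s2 : ∑ y, F y j = 1 := by
        rw [← hB.on j hj]; exact Finset.sum_congr rfl fun y _ => h y j
      simp [Finset.sum_add_distrib, ← Finset.mul_sum, Finset.sum_sub_distrib, s1, s2, hB.on x hxU]
  · have e : tk (step F i j) 1 = ∑ x, step F i j x x := by simp [tk, trace]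
    have e' : tk F 1 = ∑ x, F x x := by simp [tk, trace]
    rw [e, e', sum_split i j hij (fun x => step F i j x x)
      (fun x => F x x + (F j j / Dl F i j * F i x ^ 2 + F i i / Dl F i j * F j x ^ 2
        + 2 * al F i j * (F i x * F x j))) (hzi i) (hzj j)]
    · simp only [Finset.sum_add_distrib, ← Finset.mul_sum, ← sq_app]
      simp only [rr, al]
      rw [h j i]
      field_simp
      unfold Dl
      ring
    · intro x hxi hxj
      rw [step_row F h i j hij hD x hxi hxj x]
      simp only [if_neg hxi, if_neg hxj, ch1, ch2]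
      rw [h i x, h j x]; ring
  · rw [tk_two _ (step_sy F h i j), tk_two F h, sum_split i j hij _ (rnew F i j) hri hrj
      (fun x => rr_step F h i j hij hD x)]
    have e1 : ∀ x, rnew F i j x = rr F x
        + 2 * al F i j * (F j x * (F ^ 2) x i) + 2 * (F j j / Dl F i j) * (F i x * (F ^ 2) x i)
        + 2 * al F i j * (F i x * (F ^ 2) x j) + 2 * (F i i / Dl F i j) * (F j x * (F ^ 2) x j)
        + ((F j j / Dl F i j) ^ 2 * (rr F i - 1) + al F i j ^ 2 * (rr F j - 1)
            + 2 * (F ^ 2) i j * al F i j * (F j j / Dl F i j)) * F i x ^ 2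
        + (al F i j ^ 2 * (rr F i - 1) + (F i i / Dl F i j) ^ 2 * (rr F j - 1)
            + 2 * (F ^ 2) i j * al F i j * (F i i / Dl F i j)) * F j x ^ 2
        + (2 * al F i j * (F j j / Dl F i j) * (rr F i - 1)
            + 2 * al F i j * (F i i / Dl F i j) * (rr F j - 1)
            + 2 * (F ^ 2) i j * (al F i j ^ 2 + F j j / Dl F i j * (F i i / Dl F i j)))
            * (F i x * F x j) := by
      intro x
      simp only [rnew, ch1, ch2]
      rw [h i x, h j x]; ring
    have h3 : (F ^ 3) j i = (F ^ 3) i j := by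
      rw [cube_app, pow_succ F 2, Matrix.mul_apply]
      refine Finset.sum_congr rfl fun z _ => ?_
      rw [h j z, sq_sy F h z i, mul_comm]
    conv_lhs => rw [Finset.sum_congr rfl fun x _ => e1 x]
    simp only [Finset.sum_add_distrib, ← Finset.mul_sum, ← sq_app, ← cube_app]
    rw [h3]
    have r1 : ∑ x, F i x ^ 2 = rr F i := rfl
    have r2 : ∑ x, F j x ^ 2 = rr F j := rfl
    rw [r1, r2]
    simp only [rnew, ch1, ch2, al]
    rw [← rr_eq F h i, ← rr_eq F h j, sq_sy F h j i, h j i]
    field_simp
    unfold Dl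
    ring

end Crest.Agent.R62
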