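import Crest.Agent.R62.DefsA

/-! Row 62: averaging over pairs. -/

set_option autoImplicit false

namespace Crest.Agent.R62

open Matrix Finset

namespace AVG

variable {ι : Type} [Fintype ι] [DecidableEq ι]

theorem abs_cs (a b : ι → ℝ) : |∑ x, a x * b x| ≤ √(∑ x, a x ^ 2) * √(∑ x, b x ^ 2) := by
  have h := Real.sum_mul_le_sqrt_mul_sqrt univ (fun x => |a x|) (fun x => |b x|)
  simp only [sq_abs] at h
  refine le_trans ?_ h
  refine (abs_sum_le_sum_abs _ _).trans (le_of_eq ?_)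
  simp only [abs_mul]

omit [DecidableEq ι] in
theorem abs_sum2_le (M X Y : ι → ι → ℝ) (h : ∀ i j, M i j ≠ 0 → |X i j| ≤ Y i j) :
    |∑ i, ∑ j, M i j * X i j| ≤ ∑ i, ∑ j, |M i j| * Y i j := by
  refine (abs_sum_le_sum_abs _ _).trans (sum_le_sum fun i _ => ?_)
  refine (abs_sum_le_sum_abs _ _).trans (sum_le_sum fun j _ => ?_)
  rw [abs_mul]
  by_cases h0 : M i j = 0
  · simp [h0]
  · exact mul_le_mul_of_nonneg_left (h i j h0) (abs_nonneg _)

omit [DecidableEq ι] in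
theorem row_le (M : Mat ι) (R : ℝ) (hr : ∀ i, ∑ j, |M i j| ≤ R) (n : ι → ℝ) (hn : ∀ i, 0 ≤ n i) :
    ∑ i, ∑ j, |M i j| * n i ≤ R * ∑ i, n i := by
  rw [mul_sum]
  refine sum_le_sum fun i _ => ?_
  rw [← sum_mul]
  exact mul_le_mul_of_nonneg_right (hr i) (hn i)

omit [DecidableEq ι] in
theorem col_le (M : Mat ι) (hs : Sy M) (R : ℝ) (hr : ∀ i, ∑ j, |M i j| ≤ R) (n : ι → ℝ)
    (hn : ∀ i, 0 ≤ n i) : ∑ i, ∑ j, |M i j| * n j ≤ R * ∑ i, n i := by
  rw [sum_comm]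
  simp only [fun i j => hs j i]
  exact row_le M R hr n hn

omit [DecidableEq ι] in
/-- Schur test -/
theorem schur (M : Mat ι) (hs : Sy M) (R : ℝ) (hR : 0 ≤ R) (hr : ∀ i, ∑ j, |M i j| ≤ R)
    (H : ι → ι → ℝ) (α β : ι → ℝ) (hα : ∀ i, 0 ≤ α i) (hβ : ∀ i, 0 ≤ β i)
    (h : ∀ i j, H i j ^ 2 ≤ α i * β j) :
    |∑ i, ∑ j, M i j * H i j| ≤ R * √(∑ x, α x) * √(∑ x, β x) := by
  have h1 := abs_sum2_le M H (fun i j => √(α i) * √(β j)) (fun i j _ => by
    rw [← Real.sqrt_mul (hα i)]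
    exact Real.abs_le_sqrt (h i j))
  have h2 := Real.sum_mul_le_sqrt_mul_sqrt (univ : Finset (ι × ι))
    (fun q => √|M q.1 q.2| * √(α q.1)) (fun q => √|M q.1 q.2| * √(β q.2))
  simp only [Fintype.sum_prod_type, mul_pow, Real.sq_sqrt (abs_nonneg _), Real.sq_sqrt (hα _),
    Real.sq_sqrt (hβ _)] at h2
  have e : ∀ i j, √|M i j| * √(α i) * (√|M i j| * √(β j)) = |M i j| * (√(α i) * √(β j)) := by
    intro i j
    have := Real.mul_self_sqrt (abs_nonneg (M i j))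
    calc _ = (√|M i j| * √|M i j|) * (√(α i) * √(β j)) := by ring
      _ = _ := by rw [this]
  simp only [e] at h2
  have h3 := Real.sqrt_le_sqrt (row_le M R hr α hα)
  have h4 := Real.sqrt_le_sqrt (col_le M hs R hr β hβ)
  rw [Real.sqrt_mul hR] at h3 h4
  refine h1.trans (h2.trans ((mul_le_mul h3 h4 (Real.sqrt_nonneg _) (by positivity)).trans
    (le_of_eq ?_)))
  have := Real.mul_self_sqrt hR
  calc _ = (√R * √R) * √(∑ x, α x) * √(∑ x, β x) := by ring
    _ = _ := by rw [this]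

omit [DecidableEq ι] in
theorem schur' (M : Mat ι) (hs : Sy M) (R : ℝ) (hR : 0 ≤ R) (hr : ∀ i, ∑ j, |M i j| ≤ R)
    (a b : ι → ℝ) :
    |∑ i, ∑ j, M i j * (a i * b j)| ≤ R * √(∑ x, a x ^ 2) * √(∑ x, b x ^ 2) :=
  schur M hs R hR hr _ (fun x => a x ^ 2) (fun x => b x ^ 2) (fun _ => sq_nonneg _)
    (fun _ => sq_nonneg _) (fun i j => le_of_eq (mul_pow _ _ _))

omit [DecidableEq ι] in
theorem rowM (M : Mat ι) (R : ℝ) (hr : ∀ i, ∑ j, |M i j| ≤ R) (a b : ι → ℝ) (m : ℝ)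
    (hb : ∀ j, |b j| ≤ m) : |∑ i, ∑ j, M i j * (a i * b j)| ≤ (∑ x, |a x|) * (R * m) := by
  rcases isEmpty_or_nonempty ι with hι | ⟨⟨j₀⟩⟩
  · simp
  have hm : 0 ≤ m := (abs_nonneg _).trans (hb j₀)
  have h1 := abs_sum2_le M (fun i j => a i * b j) (fun i _ => |a i| * m) (fun i j _ => by
    rw [abs_mul]
    exact mul_le_mul_of_nonneg_left (hb j) (abs_nonneg _))
  have h2 := row_le M R hr (fun i => |a i| * m) (fun i => by positivity)
  rw [← sum_mul] at h2
  linarith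

theorem op_bil (C : Mat ι) (w : ℝ) (hw : 0 ≤ w) (h : Op C w) (a b : ι → ℝ) :
    |∑ i, ∑ j, C i j * (a i * b j)| ≤ w * √(∑ x, a x ^ 2) * √(∑ x, b x ^ 2) := by
  have e : ∑ i, ∑ j, C i j * (a i * b j) = ∑ i, a i * (C *ᵥ b) i := by
    refine sum_congr rfl fun i _ => ?_
    simp only [mulVec, dotProduct, mul_sum]
    exact sum_congr rfl fun j _ => by ring
  have h1 := Real.sqrt_le_sqrt (h b)
  rw [Real.sqrt_mul (sq_nonneg _), Real.sqrt_sq hw] at h1
  rw [e]
  refine (abs_cs _ _).trans ((mul_le_mul_of_nonneg_left h1 (Real.sqrt_nonneg _)).trans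
    (le_of_eq (by ring)))

variable {E : Env ι}

theorem sum_one (E : Env ι) (a : ι → ℝ) : ∑ x, E.one x * a x = ∑ x ∈ E.U, a x := by
  simp [Env.one, ite_mul]

theorem decomp (h : E.Ok) (X : ι → ι → ℝ) :
    E.av X = ∑ i ∈ E.U, ∑ j ∈ E.U, X i j - E.th * ∑ i, ∑ j, E.C i j * X i j -
      ∑ i, ∑ j, E.e i j * X i j := by
  rw [← sum_one E, mul_sum, ← sum_sub_distrib, ← sum_sub_distrib]
  refine sum_congr rfl fun i _ => ?_
  rw [← sum_one E, mul_sum, mul_sum, ← sum_sub_distrib, ← sum_sub_distrib]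
  refine sum_congr rfl fun j _ => ?_
  rw [h.hp]
  ring

theorem p_supp (h : E.Ok) {i j : ι} (hp : E.p i j ≠ 0) : i ∈ E.U ∧ j ∈ E.U ∧ i ≠ j := by
  have h0 := h.p0 i j
  have h2 := h.p2 i j
  refine ⟨?_, ?_, ?_⟩
  · by_contra hi
    simp only [Env.one, if_neg hi, zero_mul, mul_zero] at h2
    exact hp (le_antisymm h2 h0)
  · by_contra hj
    simp only [Env.one, if_neg hj, mul_zero] at h2
    exact hp (le_antisymm h2 h0)
  · rintro rfl
    exact hp (h.pd i)

theorem C_supp (h : E.Ok) {i j : ι} (hc : E.C i j ≠ 0) : i ∈ E.U ∧ j ∈ E.U := by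
  constructor
  · by_contra hi
    exact hc (h.C0 i j hi)
  · by_contra hj
    exact hc ((h.Cs i j).trans (h.C0 j i hj))

theorem e_supp (h : E.Ok) {i j : ι} (he : E.e i j ≠ 0) : i ∈ E.U ∧ j ∈ E.U := by
  by_contra hn
  have h1 : E.p i j = 0 := by
    by_contra hp
    exact hn ⟨(p_supp h hp).1, (p_supp h hp).2.1⟩
  have h2 : E.C i j = 0 := by
    by_contra hc
    exact hn (C_supp h hc)
  have h3 : E.one i * E.one j = 0 := by
    unfold Env.one
    split_ifs <;> simp_all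
  have := h.hp i j
  rw [h1, h2, h3] at this
  apply he
  linarith

theorem C_row (h : E.Ok) (i : ι) : ∑ j, |E.C i j| ≤ √(4 * E.L * E.N) := by
  have e : ∑ j, |E.C i j| = ∑ j, |E.C i j| * E.one j := by
    refine sum_congr rfl fun j _ => ?_
    by_cases h0 : E.C i j = 0
    · simp [h0]
    · simp [Env.one, (C_supp h h0).2]
  have h1 := Real.sum_mul_le_sqrt_mul_sqrt univ (fun j => |E.C i j|) E.one
  have e2 : ∑ j, E.one j ^ 2 = E.N := by
    simp only [sq]
    rw [sum_one]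
    simp [Env.one, Env.N]
  have hL : 0 ≤ 4 * E.L := by have := h.L2; linarith
  simp only [sq_abs] at h1
  rw [e2] at h1
  rw [e, Real.sqrt_mul hL]
  exact h1.trans (mul_le_mul_of_nonneg_right (Real.sqrt_le_sqrt (h.Cr i)) (Real.sqrt_nonneg _))

theorem pair_le (M : Mat ι) (hs : Sy M) (U : Finset ι) (hU : ∀ i j, M i j ≠ 0 → i ∈ U ∧ j ∈ U)
    (R : ℝ) (hr : ∀ i, ∑ j, |M i j| ≤ R) (X : ι → ι → ℝ) (n : ι → ℝ) (hn : ∀ i, 0 ≤ n i)
    (hX : ∀ i ∈ U, ∀ j ∈ U, |X i j| ≤ n i + n j) :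
    |∑ i, ∑ j, M i j * X i j| ≤ 2 * R * ∑ x ∈ U, n x := by
  let n' : ι → ℝ := fun x => if x ∈ U then n x else 0
  have hn' : ∀ i, 0 ≤ n' i := fun i => by
    simp only [n']
    split_ifs
    exacts [hn i, le_rfl]
  have h1 := abs_sum2_le M X (fun i j => n' i + n' j) (fun i j h0 => by
    obtain ⟨hi, hj⟩ := hU i j h0
    simp only [n', if_pos hi, if_pos hj]
    exact hX i hi j hj)
  have h2 := row_le M R hr n' hn'
  have h3 := col_le M hs R hr n' hn'
  have e : ∑ x, n' x = ∑ x ∈ U, n x := by simp [n']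
  simp only [mul_add, sum_add_distrib] at h1
  rw [e] at h2 h3
  linarith

theorem split (h : E.Ok) (X : ι → ι → ℝ) {A B : ℝ} (hA : |∑ i, ∑ j, E.C i j * X i j| ≤ A)
    (hB : |∑ i, ∑ j, E.e i j * X i j| ≤ B) :
    |E.av X - ∑ i ∈ E.U, ∑ j ∈ E.U, X i j| ≤ E.th * A + B := by
  rw [decomp h]
  have h1 := mul_le_mul_of_nonneg_left hA h.th0
  rw [← abs_of_nonneg h.th0, ← abs_mul, abs_of_nonneg h.th0] at h1
  obtain ⟨a1, a2⟩ := abs_le.1 h1
  obtain ⟨b1, b2⟩ := abs_le.1 hB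
  rw [abs_le]
  constructor <;> linarith

theorem av_two (h : E.Ok) (X : ι → ι → ℝ) (hX : ∀ i j, 0 ≤ X i j) :
    E.av X ≤ 2 * ∑ i ∈ E.U, ∑ j ∈ E.U, X i j := by
  rw [← sum_one E, mul_sum]
  refine sum_le_sum fun i _ => ?_
  rw [← sum_one E, mul_sum, mul_sum]
  refine sum_le_sum fun j _ => ?_
  have := mul_le_mul_of_nonneg_right (h.p2 i j) (hX i j)
  linarith

theorem av_mono (h : E.Ok) (X Y : ι → ι → ℝ) (hXY : ∀ i j, E.p i j ≠ 0 → X i j ≤ Y i j) :
    E.av X ≤ E.av Y := by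
  refine sum_le_sum fun i _ => sum_le_sum fun j _ => ?_
  by_cases h0 : E.p i j = 0
  · simp [h0]
  · exact mul_le_mul_of_nonneg_left (hXY i j h0) (h.p0 i j)

theorem av_row (h : E.Ok) (a : ι → ℝ) :
    |E.av (fun i _ => a i) - E.N * ∑ x ∈ E.U, a x| ≤ (2 * E.th + E.D) * ∑ x, |a x| := by
  have hA : |∑ i, ∑ j, E.C i j * a i| ≤ 2 * ∑ x, |a x| := by
    simp only [← sum_mul, h.C1]
    rw [mul_sum]
    refine (abs_sum_le_sum_abs _ _).trans (sum_le_sum fun i _ => ?_)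
    unfold Env.one
    split_ifs <;> simp [abs_mul]
  have hB : |∑ i, ∑ j, E.e i j * a i| ≤ E.D * ∑ x, |a x| :=
    (abs_sum2_le E.e (fun i _ => a i) (fun i _ => |a i|) fun _ _ _ => le_rfl).trans
      (row_le E.e E.D h.er _ fun _ => abs_nonneg _)
  have := split h (fun i _ => a i) hA hB
  have e : ∑ i ∈ E.U, ∑ _j ∈ E.U, a i = E.N * ∑ x ∈ E.U, a x := by
    simp [Env.N, mul_sum]
  rw [e] at this
  linarith

end AVG

open AVG in
theorem AVG_proof : AvgStmt := by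
  intro ι _ _ E h
  have hD : 0 ≤ E.D := by have := h.D1'; linarith
  have hu : 0 ≤ 2 * E.u := by have := h.u1; linarith
  have hL : 0 ≤ 4 * E.L := by have := h.L2; linarith
  refine ⟨?_, av_row h, ?_, ?_, ?_, ?_, ?_, ?_, ?_, ?_, av_two h, av_mono h, ?_,
    fun i j => p_supp h, ?_⟩
  · have h1 := av_row h E.one
    have e1 : E.av (fun i _ => E.one i) = E.Z := by
      refine sum_congr rfl fun i _ => sum_congr rfl fun j _ => ?_
      by_cases h0 : E.p i j = 0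
      · simp [h0]
      · simp [Env.one, (p_supp h h0).1]
    have e2 : ∑ x ∈ E.U, E.one x = E.N := by simp [Env.one, Env.N]
    have e3 : ∑ x, |E.one x| = E.N := by
      rw [← e2, ← sum_one]
      refine sum_congr rfl fun x _ => ?_
      unfold Env.one
      split_ifs <;> simp
    rw [e1, e2, e3, ← sq] at h1
    linarith
  · intro X
    unfold Env.av
    rw [sum_comm]
    refine sum_congr rfl fun i _ => sum_congr rfl fun j _ => ?_
    rw [h.hp, h.hp, h.es j i, h.Cs j i, mul_comm (E.one j)]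
  · intro a b
    have := split h _ (op_bil E.C _ hu h.Co a b) (schur' E.e h.es E.D hD h.er a b)
    rw [← sum_mul_sum] at this
    linarith
  · intro a b M hb
    have hA : |∑ i, ∑ j, E.C i j * (a i * b j)| ≤
        (∑ x, |a x|) * (√(4 * E.L) * √(∑ x, b x ^ 2)) := by
      rw [sum_mul]
      refine (abs_sum_le_sum_abs _ _).trans (sum_le_sum fun i _ => ?_)
      have e : ∑ j, E.C i j * (a i * b j) = a i * ∑ j, E.C i j * b j := by
        rw [mul_sum]
        exact sum_congr rfl fun j _ => by ring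
      rw [e, abs_mul]
      refine mul_le_mul_of_nonneg_left ((abs_cs _ _).trans ?_) (abs_nonneg _)
      exact mul_le_mul_of_nonneg_right (Real.sqrt_le_sqrt (h.Cr i)) (Real.sqrt_nonneg _)
    have := split h _ hA (rowM E.e E.D h.er a b M hb)
    rw [← sum_mul_sum] at this
    linarith
  · intro a b M hb
    have := split h _ (rowM E.C _ (C_row h) a b M hb) (rowM E.e E.D h.er a b M hb)
    rw [← sum_mul_sum] at this
    unfold Env.D1
    linarith
  · intro a b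
    have := split h _ (schur' E.C h.Cs _ (Real.sqrt_nonneg _) (C_row h) a b)
      (schur' E.e h.es E.D hD h.er a b)
    rw [← sum_mul_sum] at this
    unfold Env.D1
    linarith
  · intro X n hn hX
    have := split h X (pair_le E.C h.Cs E.U (fun _ _ => C_supp h) _ (C_row h) X n hn hX)
      (pair_le E.e h.es E.U (fun _ _ => e_supp h) _ h.er X n hn hX)
    unfold Env.D1
    linarith
  · intro H α β hα hβ hH
    rw [decomp h, sub_sub_cancel_left, abs_neg]
    exact schur E.e h.es E.D hD h.er H α β hα hβ hH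
  · intro H₁ H₂
    have e : ∑ i, ∑ j, E.C i j * (H₁ᵀ * H₂) i j = ∑ x, ∑ i, ∑ j, E.C i j * (H₁ x i * H₂ x j) := by
      simp only [Matrix.mul_apply, transpose_apply, mul_sum]
      rw [sum_congr rfl fun i _ => sum_comm, sum_comm]
    have h1 := Real.sum_mul_le_sqrt_mul_sqrt univ (fun x => √(∑ y, H₁ x y ^ 2))
      (fun x => √(∑ y, H₂ x y ^ 2))
    have s1 : ∀ (H : Mat ι) (x : ι), √(∑ y, H x y ^ 2) ^ 2 = ∑ y, H x y ^ 2 := fun H x =>
      Real.sq_sqrt (sum_nonneg fun _ _ => sq_nonneg _)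
    simp only [s1] at h1
    have h2 := mul_le_mul_of_nonneg_left h1 hu
    rw [e]
    refine (abs_sum_le_sum_abs _ _).trans ((sum_le_sum fun x _ =>
      op_bil E.C _ hu h.Co (H₁ x) (H₂ x)).trans ?_)
    simp only [mul_assoc (2 * E.u), ← mul_sum]
    exact h2
  · intro X Y hXY
    rw [abs_le]
    constructor
    · have := av_mono h (fun i j => -Y i j) X fun i j hp => (abs_le.1 (hXY i j hp)).1
      simpa [Env.av] using this
    · exact av_mono h X Y fun i j hp => (abs_le.1 (hXY i j hp)).2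
  · intro a m
    have h1 := av_two h (fun i j => (a i * a j - m ^ 2) ^ 2) fun _ _ => sq_nonneg _
    have h2 : ∑ i ∈ E.U, ∑ j ∈ E.U, (a i * a j - m ^ 2) ^ 2 ≤
        ∑ i ∈ E.U, ∑ j ∈ E.U, 3 * ((a i + m) ^ 2 * (a j + m) ^ 2 + m ^ 2 * (a i + m) ^ 2 +
          m ^ 2 * (a j + m) ^ 2) := by
      refine sum_le_sum fun i _ => sum_le_sum fun j _ => ?_
      nlinarith [sq_nonneg ((a i + m) * (a j + m) + m * (a i + m)),
        sq_nonneg ((a i + m) * (a j + m) + m * (a j + m)), sq_nonneg (m * (a i + m) - m * (a j + m))]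
    have e : ∑ i ∈ E.U, ∑ j ∈ E.U, 3 * ((a i + m) ^ 2 * (a j + m) ^ 2 + m ^ 2 * (a i + m) ^ 2 +
        m ^ 2 * (a j + m) ^ 2) =
        3 * ((∑ x ∈ E.U, (a x + m) ^ 2) ^ 2 + 2 * m ^ 2 * E.N * ∑ x ∈ E.U, (a x + m) ^ 2) := by
      simp only [← mul_sum, sum_add_distrib, ← sum_mul, sum_const, nsmul_eq_mul, Env.N]
      ring
    linarith

end Crest.Agent.R62
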