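import Crest.Agent.R62.AVG

set_option autoImplicit false

namespace Crest.Agent.R62

open Matrix Finset

namespace B1

theorem dl_facts (a b c : ℝ) (ha : |a| ≤ 1 / 20) (hb : |b| ≤ 1 / 20) (hc : |c| ≤ 1 / 20) :
    |(1 - c) / ((1 - c) ^ 2 - a * b) - 1| ≤ 2 * (|c| + |a| * |b|) ∧
      |1 / ((1 - c) ^ 2 - a * b) - 1| ≤ 3 * (|c| + |a| * |b|) ∧ |c| + |a| * |b| ≤ 1 / 10 := by
  have hab : |a * b| ≤ 1 / 400 := by
    rw [abs_mul]; nlinarith [abs_nonneg a, abs_nonneg b]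
  rw [← abs_mul]
  obtain ⟨m, hm⟩ : ∃ m, m = a * b := ⟨_, rfl⟩
  rw [← hm] at hab ⊢
  obtain ⟨c1, c2⟩ := abs_le.1 hc
  obtain ⟨m1, m2⟩ := abs_le.1 hab
  have hD : 9 / 10 ≤ (1 - c) ^ 2 - m := by nlinarith
  have hD0 : 0 < (1 - c) ^ 2 - m := by linarith
  have c3 := le_abs_self c
  have c4 := neg_abs_le c
  have m3 := le_abs_self m
  have m4 := neg_abs_le m
  have c5 := abs_nonneg c
  have m5 := abs_nonneg m
  have c6 : c ^ 2 ≤ |c| / 20 := by rw [← sq_abs]; nlinarith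
  have c7 := sq_nonneg c
  refine ⟨?_, ?_, by linarith⟩
  · rw [div_sub_one hD0.ne', abs_div, abs_of_pos hD0, div_le_iff₀ hD0, abs_le]
    constructor <;> nlinarith
  · rw [div_sub_one hD0.ne', abs_div, abs_of_pos hD0, div_le_iff₀ hD0, abs_le]
    constructor <;> nlinarith

theorem half (α w t b p q s ρ L : ℝ) (h1 : |α - 1| ≤ 2 * t) (h2 : |w - 1| ≤ 3 * t) (ht : t ≤ 1 / 10)
    (hρ : |ρ| ≤ L) :
    2 * (α - 1) * q * s + 2 * (w - 1) * b * p * s + ((α * q + b * p * w) ^ 2 - q ^ 2) * ρ ≤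
      4 * (t * (|q| * |s|)) + 6 * (t * |b| * (|p| * |s|)) +
        L * (6 * (t * q ^ 2) + 8 * (|b| * |q| * |p|) + 4 * (b ^ 2 * p ^ 2)) := by
  have t0 : 0 ≤ t := by linarith [abs_nonneg (α - 1)]
  have hα : |α| ≤ 2 := by rw [abs_le] at h1 ⊢; constructor <;> linarith
  have hα1 : |α + 1| ≤ 3 := by rw [abs_le] at h1 ⊢; constructor <;> linarith
  have hw : |w| ≤ 2 := by rw [abs_le] at h2 ⊢; constructor <;> linarith
  have a1 : (α - 1) * q * s ≤ 2 * t * |q| * |s| := by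
    refine (le_abs_self _).trans ?_
    rw [abs_mul, abs_mul]; gcongr
  have a2 : (w - 1) * b * p * s ≤ 3 * t * |b| * |p| * |s| := by
    refine (le_abs_self _).trans ?_
    rw [abs_mul, abs_mul, abs_mul]; gcongr
  have a3 : |(α - 1) * (α + 1) * q ^ 2| ≤ 2 * t * 3 * q ^ 2 := by
    rw [abs_mul, abs_mul, abs_of_nonneg (sq_nonneg q)]; gcongr
  have a4 : |α * w * b * q * p| ≤ 2 * 2 * |b| * |q| * |p| := by
    rw [abs_mul, abs_mul, abs_mul, abs_mul]; gcongr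
  have a5 : |w * w * (b ^ 2 * p ^ 2)| ≤ 2 * 2 * (b ^ 2 * p ^ 2) := by
    rw [abs_mul, abs_mul, abs_of_nonneg (by positivity : 0 ≤ b ^ 2 * p ^ 2)]; gcongr
  have a6 : |(α * q + b * p * w) ^ 2 - q ^ 2| ≤
      6 * (t * q ^ 2) + 8 * (|b| * |q| * |p|) + 4 * (b ^ 2 * p ^ 2) := by
    rw [abs_le] at a3 a4 a5 ⊢
    constructor <;> nlinarith
  have a7 : ((α * q + b * p * w) ^ 2 - q ^ 2) * ρ ≤
      (6 * (t * q ^ 2) + 8 * (|b| * |q| * |p|) + 4 * (b ^ 2 * p ^ 2)) * L := by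
    refine (le_abs_self _).trans ?_
    rw [abs_mul]
    exact mul_le_mul a6 hρ (abs_nonneg _) (by positivity)
  linarith

theorem gterm (α w a b p q g : ℝ) (hα : |α| ≤ 2) (hw : |w| ≤ 2) (ha : |a| ≤ 1) (hb : |b| ≤ 1) :
    g * (α * q + b * p * w) * (α * p + a * q * w) ≤
      8 * (|g| * (|p| * |q|)) + 4 * (|g| * |a| * q ^ 2) + 4 * (|g| * |b| * p ^ 2) := by
  have key : ∀ b p q : ℝ, |α * q + b * p * w| ≤ 2 * |q| + |b| * |p| * 2 := fun b p q => by
    refine (abs_add_le _ _).trans ?_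
    rw [abs_mul, abs_mul, abs_mul]; gcongr
  refine (le_abs_self _).trans ?_
  rw [abs_mul, abs_mul]
  have h1 : |g| * |α * q + b * p * w| * |α * p + a * q * w| ≤
      |g| * (2 * |q| + |b| * |p| * 2) * (2 * |p| + |a| * |q| * 2) := by
    have := key b p q
    have := key a q p
    gcongr
  refine h1.trans ?_
  rw [← sq_abs q, ← sq_abs p]
  have h2 : |a| * |b| * (|g| * (|p| * |q|)) ≤ 1 * 1 * (|g| * (|p| * |q|)) := by gcongr
  nlinarith

section
variable {ι : Type} [Fintype ι]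

theorem cs (f g : ι → ℝ) (A B : ℝ) (hA : 0 ≤ A) (hB : 0 ≤ B) (h1 : ∑ x, f x ^ 2 ≤ A ^ 2)
    (h2 : ∑ x, g x ^ 2 ≤ B ^ 2) : ∑ x, |f x| * |g x| ≤ A * B := by
  have h := sum_mul_sq_le_sq_mul_sq univ (fun x => |f x|) (fun x => |g x|)
  simp only [sq_abs] at h
  refine abs_le_of_sq_le_sq' (h.trans ?_) (mul_nonneg hA hB) |>.2
  rw [mul_pow]
  exact mul_le_mul h1 h2 (sum_nonneg fun _ _ => sq_nonneg _) (sq_nonneg _)

theorem cs1 [DecidableEq ι] (U : Finset ι) (f : ι → ℝ) (A : ℝ) (hA : 0 ≤ A)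
    (h0 : ∀ x, x ∉ U → f x = 0) (h1 : ∑ x, f x ^ 2 ≤ A ^ 2) :
    ∑ x, |f x| ≤ A * √(U.card : ℝ) := by
  have h := cs f (fun x => if x ∈ U then 1 else 0) A _ hA (Real.sqrt_nonneg (U.card : ℝ)) h1 (by
    rw [Real.sq_sqrt (Nat.cast_nonneg _)]; simp)
  refine le_trans (le_of_eq (sum_congr rfl fun x _ => ?_)) h
  by_cases hx : x ∈ U
  · simp [hx]
  · simp [h0 x hx]

end

/-- the majorant of the remainder -/
noncomputable def Y {ι : Type} [Fintype ι] [DecidableEq ι] (F : Mat ι) (L : ℝ) (x i j : ι) : ℝ :=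
  4 * ((|F i j| + |F i i| * |F j j|) * (|F x j| * |(F ^ 2) x i|)) +
    6 * ((|F i j| + |F i i| * |F j j|) * |F j j| * (|F x i| * |(F ^ 2) x i|)) +
    L * (6 * ((|F i j| + |F i i| * |F j j|) * F x j ^ 2) + 8 * (|F j j| * |F x j| * |F x i|) +
      4 * (F j j ^ 2 * F x i ^ 2)) +
    8 * (|(F ^ 2) i j| * (|F x i| * |F x j|)) + 8 * (|(F ^ 2) i j| * |F j j| * F x i ^ 2)

variable {ι : Type} [Fintype ι] [DecidableEq ι]

theorem sy_pow {F : Mat ι} (h : Sy F) (k : ℕ) : Sy (F ^ k) := by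
  have h1 : Fᵀ = F := by ext x y; exact h y x
  intro x y
  have : (F ^ k)ᵀ = F ^ k := by rw [transpose_pow, h1]
  rw [← this, transpose_apply, this]

theorem pointwise (F : Mat ι) (L : ℝ) (hs : Sy F) (hL : 2 ≤ L) (hr : ∀ x, rr F x ≤ L) (x i j : ι)
    (ha : |F i i| ≤ 1 / 20) (hb : |F j j| ≤ 1 / 20) (hc : |F i j| ≤ 1 / 20) :
    bx F i j x ≤ 2 * ((F ^ 2) x i * F x j) + 2 * ((F ^ 2) x j * F x i) +
      2 * (F x i * (F ^ 2) x i * F j j) + 2 * (F x j * (F ^ 2) x j * F i i) +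
      Y F L x i j + Y F L x j i := by
  obtain ⟨d1, d2, d3⟩ := dl_facts _ _ _ ha hb hc
  have hρ : ∀ y, |rr F y - 1| ≤ L := fun y => by
    have h0 : 0 ≤ rr F y := sum_nonneg fun _ _ => sq_nonneg _
    have := hr y
    rw [abs_le]; constructor <;> linarith
  obtain ⟨α, hα⟩ : ∃ α, α = (1 - F i j) / ((1 - F i j) ^ 2 - F i i * F j j) := ⟨_, rfl⟩
  obtain ⟨w, hw⟩ : ∃ w, w = 1 / ((1 - F i j) ^ 2 - F i i * F j j) := ⟨_, rfl⟩
  rw [← hα] at d1
  rw [← hw] at d2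
  have e1 : ch1 F i j x = α * F x j + F j j * F x i * w := by
    unfold ch1 al Dl; rw [hα, hw]; ring
  have e2 : ch2 F i j x = α * F x i + F i i * F x j * w := by
    unfold ch2 al Dl; rw [hα, hw]; ring
  have h1 := half α w _ (F j j) (F x i) (F x j) ((F ^ 2) x i) _ L d1 d2 d3 (hρ i)
  have h2 := half α w _ (F i i) (F x j) (F x i) ((F ^ 2) x j) _ L d1 d2 d3 (hρ j)
  have h3 := gterm α w (F i i) (F j j) (F x i) (F x j) ((F ^ 2) i j)
    (by rw [abs_le] at d1 ⊢; constructor <;> linarith)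
    (by rw [abs_le] at d2 ⊢; constructor <;> linarith) (by linarith) (by linarith)
  unfold bx rnew Y
  rw [e1, e2, hs j i, sy_pow hs 2 j i, mul_comm |F j j| |F i i|]
  linarith

theorem sumY (E : Env ι) (F : Mat ι) (ε : ℝ) (hE : E.Ok) (hS : Side E F ε) (x : ι) :
    ∑ i, ∑ j, Y F E.L x i j ≤ 50 * E.L ^ 2 * ((√E.N + E.Tf) * E.u + √E.N * √E.Tf) * rr F x := by
  have hL := hE.L2
  have hu := hE.u1
  have hT := hE.Tf1
  have hs := hS.sy
  have hs2 := sy_pow hs 2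
  set r := rr F x with hr
  have r0 : 0 ≤ r := sum_nonneg fun _ _ => sq_nonneg _
  obtain ⟨sr, sr0, hsr⟩ : ∃ s, 0 ≤ s ∧ s ^ 2 = r := ⟨√r, Real.sqrt_nonneg _, Real.sq_sqrt r0⟩
  set sT := √E.Tf with hsT
  have sT0 : 0 ≤ sT := Real.sqrt_nonneg _
  have hsT2 : sT ^ 2 = E.Tf := Real.sq_sqrt (by linarith)
  have sT1 : sT ≤ E.Tf := by nlinarith
  set sN := √E.N with hsN
  have sN0 : 0 ≤ sN := Real.sqrt_nonneg _
  have hsN2 : sN ^ 2 = E.N := Real.sq_sqrt (Nat.cast_nonneg _)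
  have L0 : 0 ≤ E.L := by linarith
  have u0 : 0 ≤ E.u := by linarith
  have hrow : ∀ i, ∑ j, F i j ^ 2 ≤ E.L ^ 2 := fun i => (hS.ro i).trans (by nlinarith)
  have hcol : ∀ j, ∑ i, F i j ^ 2 ≤ E.L ^ 2 := fun j => by simp only [fun i => hs i j]; exact hrow j
  have hφ : ∑ i, F x i ^ 2 ≤ sr ^ 2 := hsr.ge
  have hb : ∑ j, F j j ^ 2 ≤ sT ^ 2 := by rw [hsT2]; exact hS.f2
  have hψ' : ∀ y, ∑ i, (F ^ 2) y i ^ 2 ≤ E.u ^ 2 * rr F y := fun y => by
    refine le_trans (le_of_eq (sum_congr rfl fun i _ => ?_)) (hS.op (fun k => F y k))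
    congr 1
    rw [pow_two, mul_apply]
    simp only [mulVec, dotProduct]
    exact sum_congr rfl fun k _ => by rw [hs k i, mul_comm]
  have hψ : ∑ i, (F ^ 2) x i ^ 2 ≤ (E.u * sr) ^ 2 := by rw [mul_pow, hsr]; exact hψ' x
  have hg : ∀ i, ∑ j, (F ^ 2) i j ^ 2 ≤ (E.u * E.L) ^ 2 := fun i => by
    rw [mul_pow]
    exact (hψ' i).trans (mul_le_mul_of_nonneg_left (hrow i) (sq_nonneg _))
  have su2 : ∀ i j, i ∉ E.U → (F ^ 2) i j = 0 := fun i j hi => by
    rw [pow_two, mul_apply]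
    exact sum_eq_zero fun k _ => by rw [hS.su i k hi, zero_mul]
  have l1φ : ∑ i, |F x i| ≤ sr * sN :=
    cs1 E.U _ _ sr0 (fun y hy => (hs x y).trans (hS.su y x hy)) hφ
  have l1ψ : ∑ i, |(F ^ 2) x i| ≤ E.u * sr * sN :=
    cs1 E.U _ _ (by positivity) (fun y hy => (hs2 x y).trans (su2 y x hy)) hψ
  have l1b : ∑ j, |F j j| ≤ sT * sN := cs1 E.U _ _ sT0 (fun y hy => hS.su y y hy) hb
  have l1c : ∀ j, ∑ i, |F i j| ≤ E.L * sN := fun j =>
    cs1 E.U _ _ L0 (fun y hy => hS.su y j hy) (hcol j)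
  have b1 : ∀ j, |F j j| ≤ 1 := fun j => by
    have := hS.dg j; have := hE.zL; have := hE.z0; have := hE.zz; nlinarith
  have φψ := cs _ _ _ _ sr0 (by positivity) hφ hψ
  have bφ := cs _ _ _ _ sT0 sr0 hb hφ
  have bψ := cs _ _ _ _ sT0 (by positivity) hb hψ
  have t1 : ∑ i, ∑ j, |F i j| * (|F x j| * |(F ^ 2) x i|) ≤ E.L * sr * (E.u * sr * sN) := by
    refine le_trans (sum_le_sum fun i _ => ?_)
      ((mul_sum _ _ _).ge.trans (mul_le_mul_of_nonneg_left l1ψ (by positivity)))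
    simp only [← mul_assoc]
    rw [← sum_mul]
    exact mul_le_mul_of_nonneg_right (cs _ _ _ _ L0 sr0 (hrow i) hφ) (abs_nonneg _)
  have t2 : ∑ i, ∑ j, |F i i| * |F j j| * (|F x j| * |(F ^ 2) x i|) ≤ sT * (E.u * sr) * (sT * sr) := by
    refine le_trans (le_of_eq ?_) (mul_le_mul bψ bφ (by positivity) (by positivity))
    rw [sum_mul_sum]
    exact sum_congr rfl fun i _ => sum_congr rfl fun j _ => by ring
  have t3 : ∑ i, ∑ j, (|F i j| + |F i i| * |F j j|) * |F j j| * (|F x i| * |(F ^ 2) x i|) ≤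
      (E.L * sT + sT ^ 2) * (sr * (E.u * sr)) := by
    refine le_trans (sum_le_sum fun i _ => ?_)
      ((mul_sum _ _ _).ge.trans (mul_le_mul_of_nonneg_left φψ (by positivity)))
    rw [← sum_mul]
    refine mul_le_mul_of_nonneg_right ?_ (by positivity)
    simp only [add_mul]
    rw [sum_add_distrib]
    refine add_le_add (cs _ _ _ _ L0 sT0 (hrow i) hb) (le_trans (sum_le_sum fun j _ => ?_) hb)
    rw [← sq_abs]
    nlinarith [b1 i, abs_nonneg (F j j), mul_nonneg (abs_nonneg (F j j)) (abs_nonneg (F j j))]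
  have t4 : ∑ i, ∑ j, (|F i j| + |F i i| * |F j j|) * F x j ^ 2 ≤ (E.L * sN + sT * sN) * sr ^ 2 := by
    rw [sum_comm]
    refine le_trans (sum_le_sum fun j _ => ?_)
      ((mul_sum _ _ _).ge.trans (mul_le_mul_of_nonneg_left hφ (by positivity)))
    rw [← sum_mul]
    refine mul_le_mul_of_nonneg_right ?_ (by positivity)
    rw [sum_add_distrib]
    refine add_le_add (l1c j) (le_trans (sum_le_sum fun i _ => ?_) l1b)
    exact mul_le_of_le_one_right (abs_nonneg _) (b1 j)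
  have t5 : ∑ i, ∑ j, |F j j| * |F x j| * |F x i| ≤ sr * sN * (sT * sr) := by
    refine le_trans (le_of_eq ?_) (mul_le_mul l1φ bφ (by positivity) (by positivity))
    rw [sum_mul_sum]
    exact sum_congr rfl fun i _ => sum_congr rfl fun j _ => by ring
  have t6 : ∑ i, ∑ j, F j j ^ 2 * F x i ^ 2 ≤ sr ^ 2 * sT ^ 2 := by
    refine le_trans (le_of_eq ?_) (mul_le_mul hφ hb (by positivity) (by positivity))
    rw [sum_mul_sum]
    exact sum_congr rfl fun i _ => sum_congr rfl fun j _ => by ring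
  have t7 : ∑ i, ∑ j, |(F ^ 2) i j| * (|F x i| * |F x j|) ≤ E.u * E.L * sN * sr ^ 2 := by
    have a1 : ∑ q : ι × ι, (F ^ 2) q.1 q.2 ^ 2 ≤ (E.u * E.L * sN) ^ 2 := by
      rw [Fintype.sum_prod_type, ← sum_subset (subset_univ E.U) (fun i _ hi => by simp [su2 i _ hi])]
      refine (sum_le_card_nsmul _ _ _ fun i _ => hg i).trans (le_of_eq ?_)
      rw [nsmul_eq_mul, mul_pow _ sN, hsN2, mul_comm]
      rfl
    have a2 : ∑ q : ι × ι, (F x q.1 * F x q.2) ^ 2 ≤ (sr ^ 2) ^ 2 := by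
      rw [Fintype.sum_prod_type, hsr, pow_two r, hr]
      unfold rr
      rw [sum_mul_sum]
      exact le_of_eq (sum_congr rfl fun i _ => sum_congr rfl fun j _ => by ring)
    have := cs _ _ _ _ (by positivity) (by positivity) a1 a2
    rw [Fintype.sum_prod_type] at this
    simpa only [abs_mul] using this
  have t8 : ∑ i, ∑ j, |(F ^ 2) i j| * |F j j| * F x i ^ 2 ≤ E.u * E.L * sT * sr ^ 2 := by
    refine le_trans (sum_le_sum fun i _ => ?_)
      ((mul_sum _ _ _).ge.trans (mul_le_mul_of_nonneg_left hφ (by positivity)))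
    rw [← sum_mul]
    exact mul_le_mul_of_nonneg_right (cs _ _ _ _ (by positivity) sT0 (hg i) hb) (by positivity)
  have e : ∑ i, ∑ j, Y F E.L x i j =
      4 * (∑ i, ∑ j, |F i j| * (|F x j| * |(F ^ 2) x i|)) +
      4 * (∑ i, ∑ j, |F i i| * |F j j| * (|F x j| * |(F ^ 2) x i|)) +
      6 * (∑ i, ∑ j, (|F i j| + |F i i| * |F j j|) * |F j j| * (|F x i| * |(F ^ 2) x i|)) +
      E.L * (6 * (∑ i, ∑ j, (|F i j| + |F i i| * |F j j|) * F x j ^ 2) +
        8 * (∑ i, ∑ j, |F j j| * |F x j| * |F x i|) + 4 * (∑ i, ∑ j, F j j ^ 2 * F x i ^ 2)) +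
      8 * (∑ i, ∑ j, |(F ^ 2) i j| * (|F x i| * |F x j|)) +
      8 * (∑ i, ∑ j, |(F ^ 2) i j| * |F j j| * F x i ^ 2) := by
    simp only [mul_add, mul_sum, ← sum_add_distrib]
    exact sum_congr rfl fun i _ => sum_congr rfl fun j _ => by unfold Y; ring
  rw [e, ← hsr]
  have t9 := mul_le_mul_of_nonneg_left (add_le_add (add_le_add
    (mul_le_mul_of_nonneg_left t4 (by norm_num : (0 : ℝ) ≤ 6))
    (mul_le_mul_of_nonneg_left t5 (by norm_num : (0 : ℝ) ≤ 8)))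
    (mul_le_mul_of_nonneg_left t6 (by norm_num : (0 : ℝ) ≤ 4))) L0
  obtain ⟨A, hA⟩ : ∃ A, A = sN * E.u * sr ^ 2 := ⟨_, rfl⟩
  obtain ⟨B, hB⟩ : ∃ B, B = sT ^ 2 * E.u * sr ^ 2 := ⟨_, rfl⟩
  obtain ⟨C, hC⟩ : ∃ C, C = sN * sT * sr ^ 2 := ⟨_, rfl⟩
  have A0 : 0 ≤ A := by rw [hA]; positivity
  have B0 : 0 ≤ B := by rw [hB]; positivity
  have C0 : 0 ≤ C := by rw [hC]; positivity
  have s1 : sN * sr ^ 2 ≤ A := by
    rw [hA]; exact mul_le_mul_of_nonneg_right (le_mul_of_one_le_right sN0 hu) (sq_nonneg _)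
  have s2 : sT ^ 2 * sr ^ 2 ≤ B := by
    rw [hB]; exact mul_le_mul_of_nonneg_right (le_mul_of_one_le_right (sq_nonneg _) hu) (sq_nonneg _)
  have s3 : sT * E.u * sr ^ 2 ≤ B := by
    rw [hB, hsT2]; gcongr
  have L1 : E.L ≤ E.L ^ 2 := by nlinarith
  have L2 : 1 ≤ E.L ^ 2 := by nlinarith
  have p1 := mul_le_mul_of_nonneg_right L1 A0
  have p2 := mul_le_mul_of_nonneg_right L1 B0
  have p3 := mul_le_mul_of_nonneg_right L1 C0
  have p4 := mul_le_mul_of_nonneg_right L2 B0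
  have p5 := mul_le_mul_of_nonneg_left s1 (sq_nonneg E.L)
  have p6 := mul_le_mul_of_nonneg_left s2 L0
  have p7 := mul_le_mul_of_nonneg_left s3 L0
  have p8 : 0 ≤ E.L ^ 2 * A := by positivity
  have p9 : 0 ≤ E.L ^ 2 * B := by positivity
  have p10 : 0 ≤ E.L ^ 2 * C := by positivity
  rw [← hsT2]
  have f1 : E.L * sr * (E.u * sr * sN) = E.L * A := by rw [hA]; ring
  have f2 : sT * (E.u * sr) * (sT * sr) = B := by rw [hB]; ring
  have f3 : (E.L * sT + sT ^ 2) * (sr * (E.u * sr)) = E.L * (sT * E.u * sr ^ 2) + B := by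
    rw [hB]; ring
  have f4 : E.L * (6 * ((E.L * sN + sT * sN) * sr ^ 2) + 8 * (sr * sN * (sT * sr)) +
      4 * (sr ^ 2 * sT ^ 2)) = 6 * (E.L ^ 2 * (sN * sr ^ 2)) + 14 * (E.L * C) +
      4 * (E.L * (sT ^ 2 * sr ^ 2)) := by rw [hC]; ring
  have f5 : E.u * E.L * sN * sr ^ 2 = E.L * A := by rw [hA]; ring
  have f6 : E.u * E.L * sT * sr ^ 2 = E.L * (sT * E.u * sr ^ 2) := by ring
  have f7 : 50 * E.L ^ 2 * ((sN + sT ^ 2) * E.u + sN * sT) * sr ^ 2 =
      50 * (E.L ^ 2 * A) + 50 * (E.L ^ 2 * B) + 50 * (E.L ^ 2 * C) := by rw [hA, hB, hC]; ring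
  rw [f7]
  linarith

theorem Y_nonneg (F : Mat ι) (L : ℝ) (hL : 0 ≤ L) (x i j : ι) : 0 ≤ Y F L x i j := by
  unfold Y; positivity

end B1

open B1 in
theorem B1_proof (hAvg : AvgStmt) : B1Stmt := by
  refine ⟨11, fun ι _ _ E F ε hE hS x => ?_⟩
  obtain ⟨-, -, a3, -, a5, -, -, -, a9, -, a11, a12, -, -, -⟩ := hAvg ι E hE
  have hL := hE.L2
  have hu := hE.u1
  have hT := hE.Tf1
  have hD := hE.D1'
  have hth := hE.th0
  have hs := hS.sy
  have hs2 := sy_pow hs 2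
  have hz : E.z ≤ 1 / 20 := by have := hE.zL; have := hE.z0; have := hE.zz; nlinarith
  have hN : 1 ≤ E.N := by have := hE.uN; nlinarith
  have h1 := a12 _ _ fun i j hp => pointwise F E.L hs hL hS.ro x i j ((hS.dg i).trans hz)
    ((hS.dg j).trans hz) ((hS.ad i j hp).1.trans hz)
  have e1 : E.av (fun i j => 2 * ((F ^ 2) x i * F x j) + 2 * ((F ^ 2) x j * F x i) +
      2 * (F x i * (F ^ 2) x i * F j j) + 2 * (F x j * (F ^ 2) x j * F i i) +
      Y F E.L x i j + Y F E.L x j i) =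
      2 * E.av (fun i j => (F ^ 2) x i * F x j) + 2 * E.av (fun i j => (F ^ 2) x j * F x i) +
      2 * E.av (fun i j => F x i * (F ^ 2) x i * F j j) +
      2 * E.av (fun i j => F x j * (F ^ 2) x j * F i i) +
      E.av (fun i j => Y F E.L x i j) + E.av (fun i j => Y F E.L x j i) := by
    unfold Env.av
    simp only [mul_sum, ← sum_add_distrib]
    exact sum_congr rfl fun i _ => sum_congr rfl fun j _ => by ring
  rw [e1, ← a3 (fun i j => (F ^ 2) x i * F x j), ← a3 (fun i j => F x i * (F ^ 2) x i * F j j),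
    ← a3 (fun i j => Y F E.L x i j)] at h1
  set r := rr F x with hr
  have r0 : 0 ≤ r := sum_nonneg fun _ _ => sq_nonneg _
  have hψ : ∑ i, (F ^ 2) x i ^ 2 ≤ E.u ^ 2 * r := by
    refine le_trans (le_of_eq (sum_congr rfl fun i _ => ?_)) (hS.op (fun k => F x k))
    congr 1
    rw [pow_two, mul_apply]
    simp only [mulVec, dotProduct]
    exact sum_congr rfl fun k _ => by rw [hs k i, mul_comm]
  have hψ2 : √(∑ i, (F ^ 2) x i ^ 2) ≤ E.u * √r := by
    refine (Real.sqrt_le_sqrt hψ).trans (le_of_eq ?_)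
    rw [Real.sqrt_mul (sq_nonneg _), Real.sqrt_sq (by linarith)]
  have hrr : √r * √r = r := Real.mul_self_sqrt r0
  have sφ : ∀ y, y ∉ E.U → F x y = 0 := fun y hy => (hs x y).trans (hS.su y x hy)
  have one1 : ∀ y, ∑ k, F y k = if y ∈ E.U then 1 else 0 := fun y => by
    split_ifs with h
    · exact hS.on y h
    · exact sum_eq_zero fun k _ => hS.su y k h
  have sumφ : ∑ y ∈ E.U, F x y = if x ∈ E.U then 1 else 0 := by
    rw [← one1 x]; exact sum_subset (subset_univ _) fun y _ hy => sφ y hy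
  have sumψ : ∑ y ∈ E.U, (F ^ 2) x y = if x ∈ E.U then 1 else 0 := by
    rw [← one1 x, pow_two]
    simp only [mul_apply]
    rw [sum_comm]
    refine sum_congr rfl fun k _ => ?_
    rw [← mul_sum, sum_subset (subset_univ E.U) (fun y _ hy => (hs k y).trans (hS.su y k hy)), one1]
    by_cases hk : k ∈ E.U
    · simp [hk]
    · simp [sφ k hk]
  have m1 : E.av (fun i j => (F ^ 2) x i * F x j) ≤
      1 - E.th * (F ^ 2 * E.C * F) x x + E.D * E.u * r := by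
    have h := (abs_le.1 (a9 (fun i j => (F ^ 2) x i * F x j) (fun i => (F ^ 2) x i ^ 2)
      (fun j => F x j ^ 2) (fun _ => sq_nonneg _) (fun _ => sq_nonneg _)
      (fun i j => le_of_eq (mul_pow _ _ _)))).2
    have e2 : ∑ i, ∑ j, E.C i j * ((F ^ 2) x i * F x j) = (F ^ 2 * E.C * F) x x := by
      rw [mul_apply, sum_comm]
      refine sum_congr rfl fun j _ => ?_
      rw [mul_apply, sum_mul]
      exact sum_congr rfl fun i _ => by rw [hs j x]; ring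
    have e3 : ∑ i ∈ E.U, ∑ j ∈ E.U, (F ^ 2) x i * F x j ≤ 1 := by
      rw [← sum_mul_sum, sumφ, sumψ]
      split_ifs <;> norm_num
    have e4 : E.D * √(∑ i, (F ^ 2) x i ^ 2) * √r ≤ E.D * (E.u * √r) * √r := by gcongr
    have e5 : E.D * (E.u * √r) * √r = E.D * E.u * r := by
      rw [mul_assoc, mul_assoc, hrr, mul_assoc]
    rw [e2] at h
    change _ ≤ E.D * √(∑ i, (F ^ 2) x i ^ 2) * √r at h
    linarith
  have m2 : E.av (fun i j => F x i * (F ^ 2) x i * F j j) ≤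
      tk F 1 * (F ^ 3) x x + E.u * r * (E.th * (2 * E.L) * √E.Tf + E.D) := by
    have h := (abs_le.1 (a5 (fun i => F x i * (F ^ 2) x i) (fun j => F j j) 1
      (fun j => (hS.dg j).trans (by linarith)))).2
    have e2 : ∑ i ∈ E.U, F x i * (F ^ 2) x i = (F ^ 3) x x := by
      rw [sum_subset (subset_univ E.U) (fun y _ hy => by rw [sφ y hy, zero_mul]), pow_succ' F 2,
        mul_apply]
      exact sum_congr rfl fun i _ => by rw [hs2 i x]
    have e3 : ∑ j ∈ E.U, F j j = tk F 1 := by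
      rw [sum_subset (subset_univ E.U) (fun y _ hy => hS.su y y hy)]
      simp [tk, trace]
    have e4 : ∑ i, |F x i * (F ^ 2) x i| ≤ √r * (E.u * √r) := by
      simp only [abs_mul]
      refine cs _ _ _ _ (Real.sqrt_nonneg _) (by positivity) (by rw [Real.sq_sqrt r0]; exact le_rfl) ?_
      rw [mul_pow, Real.sq_sqrt r0]; exact hψ
    have e5 : √(4 * E.L) ≤ 2 * E.L := Real.sqrt_le_iff.2 ⟨by linarith, by nlinarith⟩
    have e6 : √(∑ j, F j j ^ 2) ≤ √E.Tf := Real.sqrt_le_sqrt hS.f2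
    have e7 : (∑ i, |F x i * (F ^ 2) x i|) * (E.th * √(4 * E.L) * √(∑ j, F j j ^ 2) + E.D * 1) ≤
        √r * (E.u * √r) * (E.th * (2 * E.L) * √E.Tf + E.D * 1) := by gcongr
    have e8 : √r * (E.u * √r) = E.u * r := by rw [mul_left_comm, hrr]
    rw [e8, mul_one] at e7
    rw [e2, e3, mul_one] at h
    linarith
  have m3 : E.av (fun i j => Y F E.L x i j) ≤
      2 * (50 * E.L ^ 2 * ((√E.N + E.Tf) * E.u + √E.N * √E.Tf) * r) := by
    have hY := Y_nonneg F E.L (by linarith) x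
    refine (a11 _ hY).trans (mul_le_mul_of_nonneg_left (le_trans ?_ (sumY E F ε hE hS x))
      (by norm_num))
    refine (sum_le_sum fun i _ => sum_le_sum_of_subset_of_nonneg (subset_univ _)
      fun j _ _ => hY i j).trans ?_
    exact sum_le_sum_of_subset_of_nonneg (subset_univ _) fun i _ _ => sum_nonneg fun j _ => hY i j
  obtain ⟨η, hη⟩ : ∃ η, η = (E.D + E.Tf + √E.N + E.th * √E.Tf) * E.u + √E.N * √E.Tf := ⟨_, rfl⟩
  have e9 : E.L ^ 11 * E.eta4 * E.N = E.L ^ 11 * η := by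
    unfold Env.eta4
    rw [Real.sqrt_mul (by linarith), ← hη, mul_assoc, div_mul_cancel₀ _ (by linarith)]
  rw [e9]
  have q1 : 0 ≤ E.D * E.u := by positivity
  have q2 : 0 ≤ E.th * √E.Tf * E.u := by positivity
  have q3 : 0 ≤ (√E.N + E.Tf) * E.u + √E.N * √E.Tf := by positivity
  have n1 : E.D * E.u ≤ η := by rw [hη]; nlinarith
  have n2 : E.th * √E.Tf * E.u ≤ η := by rw [hη]; nlinarith
  have n3 : (√E.N + E.Tf) * E.u + √E.N * √E.Tf ≤ η := by rw [hη]; nlinarith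
  have n4 : 1 ≤ η := le_trans (by nlinarith) n1
  set rb := max r 1
  have rb1 : r ≤ rb := le_max_left _ _
  have rb2 : 1 ≤ rb := le_max_right _ _
  have k0 : 1 ≤ η * rb := by nlinarith
  have k1 : E.D * E.u * r ≤ η * rb := by gcongr
  have k2 : E.L * (E.th * √E.Tf * E.u * r) ≤ E.L * (η * rb) := by gcongr
  have k3 : E.L ^ 2 * (((√E.N + E.Tf) * E.u + √E.N * √E.Tf) * r) ≤ E.L ^ 2 * (η * rb) := by gcongr
  have k4 : 12 + 8 * E.L + 200 * E.L ^ 2 ≤ E.L ^ 11 := by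
    have : (2 : ℝ) ^ 9 ≤ E.L ^ 9 := pow_le_pow_left₀ (by norm_num) hL 9
    have h2 : E.L ^ 11 = E.L ^ 9 * E.L ^ 2 := by ring
    nlinarith
  have k5 := mul_le_mul_of_nonneg_right k4 (by linarith : 0 ≤ η * rb)
  nlinarith

end Crest.Agent.R62
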