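import Crest.Agent.R62.DefsA

set_option autoImplicit false

namespace Crest.Agent.R62

open Matrix Finset

namespace BP

lemma max_pow_le (x y : ℝ) (hx : 0 ≤ x) (hy : 0 ≤ y) (n : ℕ) : max x y ^ n ≤ x ^ n + y ^ n := by
  have := pow_nonneg hx n
  have := pow_nonneg hy n
  rcases le_total x y with h | h
  · rw [max_eq_right h]; linarith
  · rw [max_eq_left h]; linarith

lemma five (a b c d e : ℝ) (ha : 0 ≤ a) (hb : 0 ≤ b) (hc : 0 ≤ c) (hd : 0 ≤ d) (he : 0 ≤ e)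
    (n : ℕ) : (a + b + c + d + e) ^ n ≤ 5 ^ n * (a ^ n + b ^ n + c ^ n + d ^ n + e ^ n) := by
  have h1 : a + b + c + d + e ≤ 5 * max (max (max (max a b) c) d) e := by
    have e1 := le_max_left a b
    have e2 := le_max_right a b
    have e3 := le_max_left (max a b) c
    have e4 := le_max_right (max a b) c
    have e5 := le_max_left (max (max a b) c) d
    have e6 := le_max_right (max (max a b) c) d
    have e7 := le_max_left (max (max (max a b) c) d) e
    have e8 := le_max_right (max (max (max a b) c) d) e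
    linarith
  refine (pow_le_pow_left₀ (by positivity) h1 n).trans ?_
  rw [mul_pow]
  refine mul_le_mul_of_nonneg_left ?_ (by positivity)
  have f1 := max_pow_le a b ha hb n
  have f2 := max_pow_le (max a b) c (by positivity) hc n
  have f3 := max_pow_le (max (max a b) c) d (by positivity) hd n
  have f4 := max_pow_le (max (max (max a b) c) d) e (by positivity) he n
  linarith

lemma pw (r : ℝ) (hr : 0 ≤ r) (q p : ℕ) (hq : q ≤ p) :
    r ^ q ≤ 2 ^ p * (1 + max (r - 1) 0 ^ p) := by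
  have h0 : 0 ≤ max (r - 1) 0 ^ p := by positivity
  rcases le_total r 2 with h | h
  · have h1 : r ^ q ≤ 2 ^ q := pow_le_pow_left₀ hr h q
    have h2 : (2 : ℝ) ^ q ≤ 2 ^ p := pow_le_pow_right₀ one_le_two hq
    have h3 : (0 : ℝ) ≤ 2 ^ p * max (r - 1) 0 ^ p := by positivity
    linarith
  · have h1 : r ^ q ≤ r ^ p := pow_le_pow_right₀ (by linarith) hq
    have h2 : r ^ p ≤ (2 * max (r - 1) 0) ^ p :=
      pow_le_pow_left₀ hr (by rw [max_eq_left (by linarith)]; linarith) p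
    rw [mul_pow] at h2
    have h3 : (0 : ℝ) ≤ 2 ^ p := by positivity
    linarith

lemma pw2 (r M L : ℝ) (hr : 0 ≤ r) (hM : 0 ≤ M) (hL : 0 ≤ L) (hML : M ≤ L * r) (n : ℕ) :
    r ^ n * M ≤ 2 ^ (n + 1) * (M + L * max (r - 1) 0 ^ (n + 1)) := by
  have h0 : 0 ≤ L * max (r - 1) 0 ^ (n + 1) := by positivity
  rcases le_total r 2 with h | h
  · have h1 : r ^ n ≤ 2 ^ n := pow_le_pow_left₀ hr h n
    have h2 : (2 : ℝ) ^ n ≤ 2 ^ (n + 1) := pow_le_pow_right₀ one_le_two (by omega)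
    have h3 : r ^ n * M ≤ 2 ^ (n + 1) * M := mul_le_mul_of_nonneg_right (h1.trans h2) hM
    have h4 : (0 : ℝ) ≤ 2 ^ (n + 1) * (L * max (r - 1) 0 ^ (n + 1)) := by positivity
    linarith
  · have h2 : r ^ (n + 1) ≤ (2 * max (r - 1) 0) ^ (n + 1) :=
      pow_le_pow_left₀ hr (by rw [max_eq_left (by linarith)]; linarith) _
    rw [mul_pow] at h2
    have h3 : r ^ n * M ≤ r ^ n * (L * r) := mul_le_mul_of_nonneg_left hML (by positivity)
    have h4 : L * r ^ (n + 1) ≤ L * (2 ^ (n + 1) * max (r - 1) 0 ^ (n + 1)) :=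
      mul_le_mul_of_nonneg_left h2 hL
    have h5 : (0 : ℝ) ≤ 2 ^ (n + 1) * M := by positivity
    have h6 : r ^ n * (L * r) = L * r ^ (n + 1) := by ring
    nlinarith

lemma gen {ι : Type} [Fintype ι] (M : ι → ι → ℝ) (r : ι → ℝ) (κ L R P : ℝ) (n q : ℕ)
    (hq : q ≤ n + 1) (hr : ∀ x, 0 ≤ r x) (hM : ∀ x i, 0 ≤ M x i) (hκ : 0 ≤ κ) (hL : 0 ≤ L)
    (hrow : ∀ x, ∑ i, M x i ≤ κ * r x) (hcol : ∀ i, ∑ x, M x i ≤ κ * L)
    (hent : ∀ x i, M x i ≤ L * r x) (hR : ∑ x, r x ^ (n + 1) ≤ R)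
    (hP : ∑ x, max (r x - 1) 0 ^ (n + 1) = P) :
    ∑ x, ∑ i, r x ^ n * M x i * r i ^ q ≤
      2 ^ (n + 1) * (κ * R + 2 ^ (n + 1) * (κ * L * P + L * P ^ 2)) := by
  set y : ι → ℝ := fun x => max (r x - 1) 0 ^ (n + 1) with hy
  have hy0 : ∀ x, 0 ≤ y x := fun x => by positivity
  have h1 : ∀ x i, r x ^ n * M x i * r i ^ q ≤
      2 ^ (n + 1) * (r x ^ n * M x i + 2 ^ (n + 1) * (M x i * y i + L * (y x * y i))) := by
    intro x i
    have a1 := pw (r i) (hr i) q (n + 1) hq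
    have a2 := pw2 (r x) (M x i) L (hr x) (hM x i) hL (hent x i) n
    have a0 : 0 ≤ r x ^ n * M x i := mul_nonneg (pow_nonneg (hr x) _) (hM x i)
    have a3 := mul_le_mul_of_nonneg_left a1 a0
    have a4 := mul_le_mul_of_nonneg_right a2 (hy0 i)
    have a5 := mul_le_mul_of_nonneg_left a4 (show (0 : ℝ) ≤ 2 ^ (n + 1) by positivity)
    change r x ^ n * M x i * r i ^ q ≤ r x ^ n * M x i * (2 ^ (n + 1) * (1 + y i)) at a3
    change 2 ^ (n + 1) * (r x ^ n * M x i * y i) ≤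
      2 ^ (n + 1) * (2 ^ (n + 1) * (M x i + L * y x) * y i) at a5
    nlinarith
  refine (Finset.sum_le_sum fun x _ => Finset.sum_le_sum fun i _ => h1 x i).trans ?_
  simp only [← Finset.mul_sum, Finset.sum_add_distrib]
  refine mul_le_mul_of_nonneg_left (add_le_add ?_ (mul_le_mul_of_nonneg_left (add_le_add ?_ ?_)
    (by positivity))) (by positivity)
  · refine (Finset.sum_le_sum fun x _ =>
      mul_le_mul_of_nonneg_left (hrow x) (pow_nonneg (hr x) n)).trans ?_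
    have : ∑ x, r x ^ n * (κ * r x) = κ * ∑ x, r x ^ (n + 1) := by
      rw [Finset.mul_sum]
      exact Finset.sum_congr rfl fun x _ => by ring
    rw [this]
    exact mul_le_mul_of_nonneg_left hR hκ
  · rw [Finset.sum_comm, ← hP, Finset.mul_sum]
    refine Finset.sum_le_sum fun i _ => ?_
    rw [← Finset.sum_mul]
    exact mul_le_mul_of_nonneg_right (hcol i) (hy0 i)
  · rw [← Finset.sum_mul, ← hP, sq]

lemma ptw (φi φj ψi ψj g ρi ρj δ1 δ2 s A B z : ℝ) (hs : 0 ≤ s) (hA : 0 ≤ A) (hB : 0 ≤ B)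
    (hz : 0 ≤ z) (hz' : z ≤ 1 / 20) (h1 : |φi| ≤ s) (h2 : |φj| ≤ s) (h3 : |ψi| ≤ s * A)
    (h4 : |ψj| ≤ s * B) (h5 : |g| ≤ A + B) (h6 : |ρi| ≤ A) (h7 : |ρj| ≤ B)
    (h8 : |δ1| ≤ 4 * z * s) (h9 : |δ2| ≤ 4 * z * s) :
    |2 * ((φj + δ1) * ψi + (φi + δ2) * ψj) + ((φj + δ1) ^ 2 - φj ^ 2) * ρi
        + ((φi + δ2) ^ 2 - φi ^ 2) * ρj + 2 * g * (φj + δ1) * (φi + δ2)| ≤
      50 * (|φj * ψi| + |φi * ψj| + |g * φi * φj| + z * s ^ 2 * A + z * s ^ 2 * B) := by
  have hzs : 4 * z * s ≤ s := by nlinarith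
  have m : ∀ {x y X Y : ℝ}, |x| ≤ X → |y| ≤ Y → |x * y| ≤ X * Y := fun hx hy => by
    rw [abs_mul]; exact mul_le_mul hx hy (abs_nonneg _) ((abs_nonneg _).trans hx)
  have t1 := m h8 h3
  have t2 := m h9 h4
  have t3 := m (m h8 h2) h6
  have t4 := m (m h8 (h8.trans hzs)) h6
  have t5 := m (m h9 h1) h7
  have t6 := m (m h9 (h9.trans hzs)) h7
  have t7 := m (m h9 h2) h5
  have t8 := m (m h8 h1) h5
  have t9 := m (m h8 (h9.trans hzs)) h5
  have e : 2 * ((φj + δ1) * ψi + (φi + δ2) * ψj) + ((φj + δ1) ^ 2 - φj ^ 2) * ρi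
        + ((φi + δ2) ^ 2 - φi ^ 2) * ρj + 2 * g * (φj + δ1) * (φi + δ2) =
      2 * (φj * ψi) + 2 * (φi * ψj) + 2 * (g * φi * φj) + 2 * (δ1 * ψi) + 2 * (δ2 * ψj)
        + 2 * (δ1 * φj * ρi) + δ1 * δ1 * ρi + 2 * (δ2 * φi * ρj) + δ2 * δ2 * ρj
        + 2 * (δ2 * φj * g) + 2 * (δ1 * φi * g) + 2 * (δ1 * δ2 * g) := by ring
  rw [e]
  have u1 : 0 ≤ z * s ^ 2 * A := by positivity
  have u2 : 0 ≤ z * s ^ 2 * B := by positivity
  have v1 : 4 * z * s * (s * A) = 4 * (z * s ^ 2 * A) := by ring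
  have v2 : 4 * z * s * (s * B) = 4 * (z * s ^ 2 * B) := by ring
  have v3 : 4 * z * s * s * A = 4 * (z * s ^ 2 * A) := by ring
  have v4 : 4 * z * s * s * B = 4 * (z * s ^ 2 * B) := by ring
  have v5 : 4 * z * s * s * (A + B) = 4 * (z * s ^ 2 * A) + 4 * (z * s ^ 2 * B) := by ring
  rw [v1] at t1
  rw [v2] at t2
  rw [v3] at t3 t4
  rw [v4] at t5 t6
  rw [v5] at t7 t8 t9
  have w1 := abs_le.1 t1
  have w2 := abs_le.1 t2
  have w3 := abs_le.1 t3
  have w4 := abs_le.1 t4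
  have w5 := abs_le.1 t5
  have w6 := abs_le.1 t6
  have w7 := abs_le.1 t7
  have w8 := abs_le.1 t8
  have w9 := abs_le.1 t9
  have x1 := abs_le.1 (le_refl |φj * ψi|)
  have x2 := abs_le.1 (le_refl |φi * ψj|)
  have x3 := abs_le.1 (le_refl |g * φi * φj|)
  have y1 := abs_nonneg (φj * ψi)
  have y2 := abs_nonneg (φi * ψj)
  have y3 := abs_nonneg (g * φi * φj)
  rw [abs_le]
  constructor <;> linarith [w1.1, w1.2, w2.1, w2.2, w3.1, w3.2, w4.1, w4.2, w5.1, w5.2, w6.1,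
    w6.2, w7.1, w7.2, w8.1, w8.2, w9.1, w9.2, x1.1, x1.2, x2.1, x2.2, x3.1, x3.2]

lemma coef (a b c z : ℝ) (ha : |a| ≤ z) (hb : |b| ≤ z) (hc : |c| ≤ z) (hz : z ≤ 1 / 20) :
    |(1 - c) / ((1 - c) ^ 2 - a * b) - 1| ≤ 2 * z ∧ |a / ((1 - c) ^ 2 - a * b)| ≤ 2 * z ∧
      |b / ((1 - c) ^ 2 - a * b)| ≤ 2 * z := by
  have hz0 : 0 ≤ z := (abs_nonneg _).trans ha
  have hab : |a * b| ≤ z / 20 := by
    rw [abs_mul]
    have := mul_le_mul ha (hb.trans hz) (abs_nonneg _) hz0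
    linarith
  obtain ⟨c1, c2⟩ := abs_le.1 hc
  obtain ⟨ab1, ab2⟩ := abs_le.1 hab
  have hD : 1 / 2 ≤ (1 - c) ^ 2 - a * b := by nlinarith
  have hD' : 4 / 5 ≤ (1 - c) ^ 2 - a * b := by nlinarith
  set D := (1 - c) ^ 2 - a * b with hDdef
  have hD0 : 0 < D := by linarith
  refine ⟨?_, ?_, ?_⟩
  · have : (1 - c) / D - 1 = ((1 - c) * c + a * b) / D := by
      field_simp
      rw [hDdef]; ring
    rw [this, abs_div, abs_of_pos hD0, div_le_iff₀ hD0]
    have : |(1 - c) * c + a * b| ≤ 3 / 2 * z := by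
      rw [abs_le]; constructor <;> nlinarith
    nlinarith
  · rw [abs_div, abs_of_pos hD0, div_le_iff₀ hD0]; nlinarith
  · rw [abs_div, abs_of_pos hD0, div_le_iff₀ hD0]; nlinarith

variable {ι : Type} [Fintype ι] [DecidableEq ι]

omit [DecidableEq ι] in
lemma rr_nonneg (F : Mat ι) (x : ι) : 0 ≤ rr F x := Finset.sum_nonneg fun _ _ => sq_nonneg _

omit [DecidableEq ι] in
lemma sq_le_rr (F : Mat ι) (x y : ι) : F x y ^ 2 ≤ rr F x :=
  Finset.single_le_sum (f := fun y => F x y ^ 2) (fun _ _ => sq_nonneg _) (Finset.mem_univ y)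

lemma f2_eq {F : Mat ι} (hF : Sy F) (x y : ι) : (F ^ 2) x y = ∑ w, F x w * F y w := by
  rw [pow_two, Matrix.mul_apply]
  exact Finset.sum_congr rfl fun w _ => by rw [hF w y]

lemma f2_sq {F : Mat ι} (hF : Sy F) (x y : ι) : (F ^ 2) x y ^ 2 ≤ rr F x * rr F y := by
  rw [f2_eq hF]
  exact Finset.sum_mul_sq_le_sq_mul_sq _ _ _

lemma f2_row {F : Mat ι} (hF : Sy F) {u : ℝ} (hu : Op F u) (x : ι) :
    ∑ y, (F ^ 2) x y ^ 2 ≤ u ^ 2 * rr F x := by
  have := hu fun w => F x w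
  refine le_of_eq_of_le (Finset.sum_congr rfl fun y _ => ?_) this
  rw [f2_eq hF]
  simp only [Matrix.mulVec, dotProduct]
  congr 1
  exact Finset.sum_congr rfl fun w _ => mul_comm _ _

lemma bx_le {F : Mat ι} (hF : Sy F) (i j x : ι) (z : ℝ) (ha : |F i i| ≤ z) (hb : |F j j| ≤ z)
    (hc : |F i j| ≤ z) (hz : z ≤ 1 / 20) :
    |bx F i j x| ≤ 50 * (|F x j * (F ^ 2) x i| + |F x i * (F ^ 2) x j|
      + |(F ^ 2) i j * F x i * F x j| + z * rr F x * max (rr F i) 1
      + z * rr F x * max (rr F j) 1) := by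
  have hz0 : 0 ≤ z := (abs_nonneg _).trans ha
  obtain ⟨k1, k2, k3⟩ := coef _ _ _ z ha hb hc hz
  have hφ : ∀ y, |F x y| ≤ √(rr F x) := fun y => Real.abs_le_sqrt (sq_le_rr F x y)
  have hrb : ∀ y, rr F y ≤ max (rr F y) 1 ^ 2 := fun y => by
    have e1 := le_max_left (rr F y) 1
    have e2 := le_max_right (rr F y) 1
    nlinarith
  have hs2 : √(rr F x) ^ 2 = rr F x := Real.sq_sqrt (rr_nonneg F x)
  have hψ : ∀ y, |(F ^ 2) x y| ≤ √(rr F x) * max (rr F y) 1 := fun y => by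
    refine abs_le_of_sq_le_sq ?_ (by positivity)
    rw [mul_pow, hs2]
    exact (f2_sq hF x y).trans (mul_le_mul_of_nonneg_left (hrb y) (rr_nonneg F x))
  have hg : |(F ^ 2) i j| ≤ max (rr F i) 1 + max (rr F j) 1 := by
    refine abs_le_of_sq_le_sq ?_ (by positivity)
    have e1 := le_max_left (rr F i) 1
    have e2 := le_max_left (rr F j) 1
    have e3 := rr_nonneg F i
    have e4 := rr_nonneg F j
    have := f2_sq hF i j
    nlinarith [mul_le_mul e1 e2 e4 (e3.trans e1)]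
  have hρ : ∀ y, |rr F y - 1| ≤ max (rr F y) 1 := fun y => by
    have e1 := le_max_left (rr F y) 1
    have e2 := le_max_right (rr F y) 1
    have e3 := rr_nonneg F y
    rw [abs_le]; constructor <;> linarith
  have hδ : ∀ (k l : ℝ) (y w : ι), |k| ≤ 2 * z → |l| ≤ 2 * z →
      |k * F x y + l * F x w| ≤ 4 * z * √(rr F x) := by
    intro k l y w hk hl
    refine (abs_add_le _ _).trans ?_
    rw [abs_mul, abs_mul]
    have e1 := mul_le_mul hk (hφ y) (abs_nonneg _) (by positivity)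
    have e2 := mul_le_mul hl (hφ w) (abs_nonneg _) (by positivity)
    linarith
  have key := ptw (F x i) (F x j) ((F ^ 2) x i) ((F ^ 2) x j) ((F ^ 2) i j) (rr F i - 1)
    (rr F j - 1) _ _ (√(rr F x)) (max (rr F i) 1) (max (rr F j) 1) z (Real.sqrt_nonneg _)
    (by positivity) (by positivity) hz0 hz (hφ i) (hφ j) (hψ i) (hψ j) hg (hρ i) (hρ j)
    (hδ _ _ j i k1 k3) (hδ _ _ i j k1 k2)
  rw [hs2] at key
  refine le_of_eq_of_le ?_ key
  congr 1
  unfold bx rnew ch1 ch2 al Dl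
  ring

lemma bx_pow {F : Mat ι} (hF : Sy F) (i j x : ι) (z : ℝ) (ha : |F i i| ≤ z) (hb : |F j j| ≤ z)
    (hc : |F i j| ≤ z) (hz : z ≤ 1 / 20) (m : ℕ) :
    |bx F i j x| ^ (2 * m + 2) ≤ 250 ^ (2 * m + 2) *
      (F x j ^ 2 * (rr F x ^ (2 * m) * (F ^ 2) x i ^ 2 * rr F i ^ m)
        + F x i ^ 2 * (rr F x ^ (2 * m) * (F ^ 2) x j ^ 2 * rr F j ^ m)
        + (F x j ^ 2 * (rr F x ^ (2 * m) * F x i ^ 2 * rr F i ^ (2 * m + 2))
          + F x i ^ 2 * (rr F x ^ (2 * m) * F x j ^ 2 * rr F j ^ (2 * m + 2)))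
        + z ^ (2 * m + 2) * rr F x ^ (2 * m + 2) * max (rr F i) 1 ^ (2 * m + 2)
        + z ^ (2 * m + 2) * rr F x ^ (2 * m + 2) * max (rr F j) 1 ^ (2 * m + 2)) := by
  have hz0 : 0 ≤ z := (abs_nonneg _).trans ha
  have r0 := rr_nonneg F
  refine (pow_le_pow_left₀ (abs_nonneg _) (bx_le hF i j x z ha hb hc hz) _).trans ?_
  have rx := r0 x
  rw [mul_pow]
  refine (mul_le_mul_of_nonneg_left (five _ _ _ _ _ (abs_nonneg _) (abs_nonneg _) (abs_nonneg _)
    (by positivity) (by positivity) _) (by positivity)).trans ?_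
  rw [← mul_assoc, ← mul_pow, show (50 : ℝ) * 5 = 250 by norm_num]
  refine mul_le_mul_of_nonneg_left ?_ (by positivity)
  have ev : ∀ t : ℝ, |t| ^ (2 * m + 2) = (t ^ 2) ^ m * t ^ 2 := fun t => by
    rw [pow_add, pow_mul, sq_abs]
  have hφ : ∀ y, (F x y ^ 2) ^ m ≤ rr F x ^ m := fun y =>
    pow_le_pow_left₀ (sq_nonneg _) (sq_le_rr F x y) m
  have hψ : ∀ w y, ((F ^ 2) w y ^ 2) ^ m ≤ rr F w ^ m * rr F y ^ m := fun w y => by
    rw [← mul_pow]
    exact pow_le_pow_left₀ (sq_nonneg _) (f2_sq hF w y) m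
  have t12 : ∀ y w, |F x y * (F ^ 2) x w| ^ (2 * m + 2) ≤
      F x y ^ 2 * (rr F x ^ (2 * m) * (F ^ 2) x w ^ 2 * rr F w ^ m) := by
    intro y w
    have rw' := r0 w
    rw [ev, mul_pow, mul_pow]
    have := mul_le_mul (hφ y) (hψ x w) (by positivity) (by positivity)
    refine (mul_le_mul_of_nonneg_right this (by positivity)).trans (le_of_eq (by ring))
  have t3 : |(F ^ 2) i j * F x i * F x j| ^ (2 * m + 2) ≤
      F x j ^ 2 * (rr F x ^ (2 * m) * F x i ^ 2 * rr F i ^ (2 * m + 2))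
        + F x i ^ 2 * (rr F x ^ (2 * m) * F x j ^ 2 * rr F j ^ (2 * m + 2)) := by
    have ri := r0 i
    have rj := r0 j
    have g1 : ((F ^ 2) i j ^ 2) ^ m * (F ^ 2) i j ^ 2 ≤
        rr F i ^ (2 * m + 2) + rr F j ^ (2 * m + 2) := by
      have := mul_le_mul (hψ i j) (f2_sq hF i j) (by positivity) (by positivity)
      refine this.trans ?_
      have e1 : rr F i ^ (2 * m + 2) = (rr F i ^ (m + 1)) ^ 2 := by ring
      have e2 : rr F j ^ (2 * m + 2) = (rr F j ^ (m + 1)) ^ 2 := by ring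
      have e3 : rr F i ^ m * rr F j ^ m * (rr F i * rr F j) =
          rr F i ^ (m + 1) * rr F j ^ (m + 1) := by ring
      rw [e1, e2, e3]
      nlinarith [sq_nonneg (rr F i ^ (m + 1) - rr F j ^ (m + 1)),
        mul_nonneg (pow_nonneg ri (m + 1)) (pow_nonneg rj (m + 1))]
    have g2 := mul_le_mul (hφ i) (hφ j) (by positivity) (by positivity)
    have g3 := mul_le_mul g1 g2 (by positivity) (by positivity)
    have g4 := mul_le_mul_of_nonneg_right g3 (show 0 ≤ F x i ^ 2 * F x j ^ 2 by positivity)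
    rw [ev]
    refine le_of_eq_of_le (by ring) (g4.trans (le_of_eq (by ring)))
  have t1 := t12 j i
  have t2 := t12 i j
  rw [mul_pow (z * rr F x), mul_pow (z * rr F x), mul_pow z]
  linarith

end BP

open BP in
theorem BP_proof (hAvg : AvgStmt) : BPStmt := by
  refine ⟨1, fun p hp hev => ?_⟩
  obtain ⟨m, rfl⟩ : ∃ m, p = 2 * m + 2 := by
    obtain ⟨k, hk⟩ := hev
    exact ⟨k - 1, by omega⟩
  set p := 2 * m + 2 with hpdef
  set k : ℝ := 2 ^ p with hk
  have hk1 : 1 ≤ k := one_le_pow₀ one_le_two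
  refine ⟨2 * 250 ^ p * (20 * k ^ 2), fun ι _ _ E F ε hE hS hzN hPN => ?_⟩
  obtain ⟨-, -, -, -, -, -, -, -, -, -, a11, a12, -, -, -⟩ := hAvg ι E hE
  have hF : Sy F := hS.sy
  have hL := hE.L2
  have hz0 : 0 ≤ E.z := hE.z0.trans hE.zz
  have hz : E.z ≤ 1 / 20 := by nlinarith [hE.zL]
  have r0 := rr_nonneg F
  set P := Pq F p with hP
  have hP0 : 0 ≤ P := Finset.sum_nonneg fun _ _ => by positivity
  have hu1 : 1 ≤ E.u ^ 2 := one_le_pow₀ hE.u1
  have hN1 : 1 ≤ E.N := hu1.trans hE.uN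
  -- moments of `r`
  have hR : ∑ x, rr F x ^ p ≤ k * (E.N + P) := by
    have : ∀ x, rr F x ^ p ≤ k * (E.one x + max (rr F x - 1) 0 ^ p) := by
      intro x
      unfold Env.one
      split_ifs with hx
      · exact pw _ (r0 x) p p le_rfl
      · have : rr F x = 0 := Finset.sum_eq_zero fun y _ => by simp [hS.su x y hx]
        rw [this, zero_pow (by omega)]
        positivity
    refine (Finset.sum_le_sum fun x _ => this x).trans (le_of_eq ?_)
    rw [← Finset.mul_sum, Finset.sum_add_distrib]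
    simp [Env.one, Env.N, hP, Pq]
  have hRb : ∑ x ∈ E.U, max (rr F x) 1 ^ p ≤ k * (E.N + P) := by
    have : ∀ x, max (rr F x) 1 ^ p ≤ k * (1 + max (rr F x - 1) 0 ^ p) := by
      intro x
      have := pw (max (rr F x) 1) (by positivity) p p le_rfl
      have e : max (max (rr F x) 1 - 1) 0 = max (rr F x - 1) 0 := by
        rcases le_total (rr F x) 1 with h | h
        · rw [max_eq_right h, max_eq_right (by linarith), max_eq_right (by linarith)]
        · rw [max_eq_left h]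
      rwa [e] at this
    refine (Finset.sum_le_sum fun x _ => this x).trans ?_
    rw [← Finset.mul_sum, Finset.sum_add_distrib]
    refine mul_le_mul_of_nonneg_left (add_le_add (by simp [Env.N]) ?_) (by positivity)
    exact Finset.sum_le_sum_of_subset_of_nonneg (Finset.subset_univ _) fun _ _ _ => by positivity
  -- the two GEN bounds
  have G1 := gen (fun x i => (F ^ 2) x i ^ 2) (rr F) (E.u ^ 2) E.L (k * (E.N + P)) P (2 * m + 1) m
    (by omega) r0 (fun _ _ => sq_nonneg _) (by positivity) (by linarith) (f2_row hF hS.op)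
    (fun i => by
      have : ∑ x, (F ^ 2) x i ^ 2 = ∑ x, (F ^ 2) i x ^ 2 :=
        Finset.sum_congr rfl fun x _ => by
          rw [f2_eq hF, f2_eq hF]
          congr 1
          exact Finset.sum_congr rfl fun w _ => mul_comm _ _
      rw [this]
      exact (f2_row hF hS.op i).trans (mul_le_mul_of_nonneg_left (hS.ro i) (by positivity)))
    (fun x i => (f2_sq hF x i).trans (by
      rw [mul_comm]; exact mul_le_mul_of_nonneg_right (hS.ro i) (r0 x))) hR rfl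
  have G2 := gen (fun x i => F x i ^ 2) (rr F) 1 E.L (k * (E.N + P)) P (2 * m + 1) p
    (by omega) r0 (fun _ _ => sq_nonneg _) zero_le_one (by linarith)
    (fun x => by rw [one_mul]; exact le_rfl)
    (fun i => by
      have : ∑ x, F x i ^ 2 = rr F i := Finset.sum_congr rfl fun x _ => by rw [hF x i]
      rw [this, one_mul]
      exact hS.ro i)
    (fun x i => (sq_le_rr F x i).trans (by nlinarith [r0 x])) hR rfl
  change _ ≤ k * (_ + k * _) at G1 G2
  -- pointwise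
  set A : ι → ι → ℝ := fun x i => rr F x ^ (2 * m) * (F ^ 2) x i ^ 2 * rr F i ^ m
    + rr F x ^ (2 * m) * F x i ^ 2 * rr F i ^ p with hA
  have hA0 : ∀ x i, 0 ≤ A x i := fun x i => by
    have := r0 x
    have := r0 i
    positivity
  set B : ι → ι → ℝ := fun x i => E.z ^ p * rr F x ^ p * max (rr F i) 1 ^ p with hB
  have hB0 : ∀ x i, 0 ≤ B x i := fun x i => by
    have := r0 x
    positivity
  have step1 : ∀ x, E.av (fun i j => |bx F i j x| ^ p) ≤
      2 * 250 ^ p * (2 * (rr F x * ∑ i, A x i) + 2 * (E.N * ∑ i ∈ E.U, B x i)) := by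
    intro x
    have h1 := a12 (fun i j => |bx F i j x| ^ p)
      (fun i j => 250 ^ p * (F x j ^ 2 * A x i + F x i ^ 2 * A x j + (B x i + B x j)))
      (fun i j hij => by
        refine (bx_pow hF i j x E.z (hS.dg i) (hS.dg j) (hS.ad i j hij).1 hz m).trans
          (le_of_eq ?_)
        simp only [hA, hB]
        ring)
    refine h1.trans ((a11 _ fun i j => ?_).trans ?_)
    · have := hA0 x i
      have := hA0 x j
      have := hB0 x i
      have := hB0 x j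
      positivity
    simp only [← Finset.mul_sum]
    rw [mul_assoc]
    refine mul_le_mul_of_nonneg_left (mul_le_mul_of_nonneg_left ?_ (by positivity))
      (by positivity)
    simp only [Finset.sum_add_distrib]
    have s1 : ∑ i ∈ E.U, ∑ j ∈ E.U, F x j ^ 2 * A x i ≤ rr F x * ∑ i, A x i := by
      rw [← Finset.sum_comm, ← Finset.sum_mul_sum]
      exact mul_le_mul
        (Finset.sum_le_sum_of_subset_of_nonneg (Finset.subset_univ _) fun _ _ _ => sq_nonneg _)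
        (Finset.sum_le_sum_of_subset_of_nonneg (Finset.subset_univ _) fun _ _ _ => hA0 _ _)
        (Finset.sum_nonneg fun _ _ => hA0 _ _) (r0 x)
    have s2 : ∑ i ∈ E.U, ∑ j ∈ E.U, F x i ^ 2 * A x j ≤ rr F x * ∑ i, A x i := by
      rw [Finset.sum_comm]; exact s1
    have s3 : ∑ i ∈ E.U, ∑ _j ∈ E.U, B x i = E.N * ∑ i ∈ E.U, B x i := by
      simp [Env.N, Finset.mul_sum]
    have s4 : ∑ _i ∈ E.U, ∑ j ∈ E.U, B x j = E.N * ∑ i ∈ E.U, B x i := by
      simp [Env.N]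
    linarith
  refine (Finset.sum_le_sum fun x _ => step1 x).trans ?_
  rw [← Finset.mul_sum, mul_assoc (2 * 250 ^ p), mul_assoc (2 * 250 ^ p)]
  refine mul_le_mul_of_nonneg_left ?_ (by positivity)
  rw [Finset.sum_add_distrib, ← Finset.mul_sum, ← Finset.mul_sum, ← Finset.mul_sum]
  have e1 : ∑ x, rr F x * ∑ i, A x i =
      ∑ x, ∑ i, rr F x ^ (2 * m + 1) * (F ^ 2) x i ^ 2 * rr F i ^ m
        + ∑ x, ∑ i, rr F x ^ (2 * m + 1) * F x i ^ 2 * rr F i ^ p := by
    simp only [← Finset.sum_add_distrib, Finset.mul_sum, hA]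
    exact Finset.sum_congr rfl fun x _ => Finset.sum_congr rfl fun i _ => by ring
  have e2 : E.N * ∑ x, ∑ i ∈ E.U, B x i ≤ 4 * k ^ 2 := by
    have : ∑ x, ∑ i ∈ E.U, B x i =
        E.z ^ p * ((∑ x, rr F x ^ p) * ∑ i ∈ E.U, max (rr F i) 1 ^ p) := by
      rw [Finset.sum_mul_sum, Finset.mul_sum]
      refine Finset.sum_congr rfl fun x _ => ?_
      rw [Finset.mul_sum]
      exact Finset.sum_congr rfl fun i _ => by simp only [hB]; ring
    rw [this]
    have h2 : k * (E.N + P) ≤ k * (2 * E.N) := mul_le_mul_of_nonneg_left (by linarith) (by linarith)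
    have h3 := mul_le_mul (hR.trans h2) (hRb.trans h2)
      (Finset.sum_nonneg fun _ _ => by positivity) (by positivity)
    have h4 := mul_le_mul_of_nonneg_left h3 (show 0 ≤ E.N * E.z ^ p by positivity)
    have h5 := mul_le_mul_of_nonneg_left hzN (show 0 ≤ 4 * k ^ 2 by positivity)
    nlinarith
  rw [e1, pow_one]
  set Q := E.u ^ 2 * E.N with hQ
  have hQ1 : 1 ≤ Q := one_le_mul_of_one_le_of_one_le hu1 hN1
  have hNQ : E.N ≤ Q := le_mul_of_one_le_left (by linarith) hu1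
  have hPQ : E.u ^ 2 * P ≤ Q := mul_le_mul_of_nonneg_left hPN (by positivity)
  have b1 : E.u ^ 2 * (E.N + P) + (E.u ^ 2 * E.L * P + E.L * P ^ 2) ≤ 2 * E.L * (Q + P ^ 2) := by
    have := mul_le_mul_of_nonneg_left hPQ (show 0 ≤ E.L by linarith)
    nlinarith [sq_nonneg P]
  have b2 : (E.N + P) + (E.L * P + E.L * P ^ 2) ≤ 2 * E.L * (Q + P ^ 2) := by
    have := mul_le_mul_of_nonneg_left (hPN.trans hNQ) (show 0 ≤ E.L by linarith)
    nlinarith [sq_nonneg P]
  have b3 : 1 ≤ E.L * (Q + P ^ 2) := by nlinarith [sq_nonneg P]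
  have c1 := mul_le_mul_of_nonneg_left b1 (sq_nonneg k)
  have c2 := mul_le_mul_of_nonneg_left b2 (sq_nonneg k)
  have c3 := mul_le_mul_of_nonneg_left b3 (sq_nonneg k)
  nlinarith

end Crest.Agent.R62
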