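import Crest.Agent.R62.Aux26
import Crest.Agent.R62.BP

/-! Task B2: second moment of `bx`. -/

set_option autoImplicit false

namespace Crest.Agent.R62

open Matrix Finset

namespace B2

theorem chi {α w b p q : ℝ} (hα : |α| ≤ 2) (hw : |w| ≤ 2) :
    |α * q + b * p * w| ≤ 2 * |q| + 2 * (|b| * |p|) := by
  refine (abs_add_le _ _).trans (add_le_add ?_ ?_)
  · rw [abs_mul]; exact mul_le_mul_of_nonneg_right hα (abs_nonneg _)
  · rw [abs_mul, abs_mul, mul_comm]; exact mul_le_mul_of_nonneg_right hw (by positivity)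

theorem chisq {α w a b c p q : ℝ} (hα : |α| ≤ 2) (hw : |w| ≤ 2) (hb : |b| ≤ 1 / 20)
    (h1 : |α - 1| ≤ 2 * (|c| + |a| * |b|)) :
    |(α * q + b * p * w) ^ 2 - q ^ 2| ≤
      6 * (|c| * q ^ 2) + |a| * q ^ 2 + |p| * |q| + |b| * p ^ 2 := by
  have e : (α * q + b * p * w) ^ 2 - q ^ 2 =
      (α - 1) * (α + 1) * q ^ 2 + 2 * (α * w * b * (p * q)) + (w * w * b) * (b * p ^ 2) := by ring
  have ha0 := abs_nonneg a
  have hb0 := abs_nonneg b
  have hc0 := abs_nonneg c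
  have k1 : |(α - 1) * (α + 1) * q ^ 2| ≤ 2 * (|c| + |a| * |b|) * 3 * q ^ 2 :=
    A26.abs_mul_le (A26.abs_mul_le h1 ((abs_add_le _ _).trans (by rw [abs_one]; linarith)))
      (abs_of_nonneg (sq_nonneg q)).le
  have k2 : |α * w * b * (p * q)| ≤ 2 * 2 * (1 / 20) * (|p| * |q|) :=
    A26.abs_mul_le (A26.abs_mul_le (A26.abs_mul_le hα hw) hb) (abs_mul p q).le
  have k3 : |(w * w * b) * (b * p ^ 2)| ≤ 2 * 2 * (1 / 20) * (|b| * p ^ 2) :=
    A26.abs_mul_le (A26.abs_mul_le (A26.abs_mul_le hw hw) hb)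
      (by rw [abs_mul, abs_of_nonneg (sq_nonneg p)])
  have k4 : |a| * |b| * q ^ 2 ≤ |a| * (1 / 20) * q ^ 2 := by gcongr
  have k5 : 0 ≤ |p| * |q| := by positivity
  have k6 : 0 ≤ |b| * p ^ 2 := by positivity
  have k7 : 0 ≤ |a| * q ^ 2 := by positivity
  rw [e]
  refine (abs_add_three _ _ _).trans ?_
  rw [abs_mul 2, abs_two]
  nlinarith

theorem sq9 (a b c d e f g h k : ℝ) : (a + b + c + d + e + f + g + h + k) ^ 2 ≤
    9 * (a ^ 2 + b ^ 2 + c ^ 2 + d ^ 2 + e ^ 2 + f ^ 2 + g ^ 2 + h ^ 2 + k ^ 2) := by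
  have := sq_sum_le_card_mul_sum_sq (s := (univ : Finset (Fin 9))) (f := ![a, b, c, d, e, f, g, h, k])
  simpa [Fin.sum_univ_succ, add_assoc] using this

theorem ptw {α w a b c p q s t g ρ ρ' L : ℝ} (hα : |α| ≤ 2) (hw : |w| ≤ 2) (ha : |a| ≤ 1 / 20)
    (hb : |b| ≤ 1 / 20) (h1 : |α - 1| ≤ 2 * (|c| + |a| * |b|)) (hg : |g| ≤ L) (hρ : |ρ| ≤ L)
    (hρ' : |ρ'| ≤ L) (hL : 1 ≤ L) :
    (2 * ((α * q + b * p * w) * s + (α * p + a * q * w) * t) + ((α * q + b * p * w) ^ 2 - q ^ 2) * ρ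
      + ((α * p + a * q * w) ^ 2 - p ^ 2) * ρ'
      + 2 * g * ((α * q + b * p * w) * (α * p + a * q * w))) ^ 2 ≤
    9 * 12 ^ 2 * L ^ 2 * (s ^ 2 * q ^ 2 + p ^ 2 * s ^ 2 * b ^ 2 + p ^ 2 * t ^ 2
      + a ^ 2 * (q ^ 2 * t ^ 2) + p ^ 2 * q ^ 2 + c ^ 2 * q ^ 4 + c ^ 2 * p ^ 4 + a ^ 2 * q ^ 4
      + p ^ 4 * b ^ 2) := by
  have c1 := chi (b := b) (p := p) (q := q) hα hw
  have c2 := chi (b := a) (p := q) (q := p) hα hw
  have d1 := chisq (p := p) (q := q) hα hw hb h1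
  have d2 := chisq (a := b) (p := q) (q := p) hα hw ha (by rwa [mul_comm |b|])
  have e1 := A26.abs_mul_le c1 (le_refl |s|)
  have e2 := A26.abs_mul_le c2 (le_refl |t|)
  have e3 := A26.abs_mul_le d1 hρ
  have e4 := A26.abs_mul_le d2 hρ'
  have e5 := A26.abs_mul_le (A26.abs_mul_le (le_refl |(2 : ℝ)|) hg) (A26.abs_mul_le c1 c2)
  have e6 := A26.abs_mul_le (le_refl |(2 : ℝ)|) (A26.abs_add_le' e1 e2)
  have e7 := A26.abs_add_le' (A26.abs_add_le' (A26.abs_add_le' e6 e3) e4) e5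
  rw [abs_two] at e7
  have ha0 := abs_nonneg a
  have hb0 := abs_nonneg b
  have hc0 := abs_nonneg c
  have hp0 := abs_nonneg p
  have hq0 := abs_nonneg q
  have hs0 := abs_nonneg s
  have ht0 := abs_nonneg t
  have key := e7.trans (show _ ≤ 12 * L * (|s| * |q| + |p| * |s| * |b| + |p| * |t|
      + |a| * (|q| * |t|) + |p| * |q| + |c| * q ^ 2 + |c| * p ^ 2 + |a| * q ^ 2 + p ^ 2 * |b|) by
    rw [← sq_abs p, ← sq_abs q]
    generalize |a| = A at *
    generalize |b| = B at *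
    generalize |c| = C at *
    generalize |p| = P at *
    generalize |q| = Q at *
    generalize |s| = S at *
    generalize |t| = T at *
    have m1 : 1 * (S * Q + P * S * B + P * T + A * (Q * T)) ≤
        L * (S * Q + P * S * B + P * T + A * (Q * T)) :=
      mul_le_mul_of_nonneg_right hL (by positivity)
    have m0 : A * B ≤ 1 / 20 * (1 / 20) := mul_le_mul ha hb hb0 (by norm_num)
    have m2 : A * B * (L * (P * Q)) ≤ 1 / 20 * (1 / 20) * (L * (P * Q)) :=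
      mul_le_mul_of_nonneg_right m0 (by positivity)
    have m3 : 0 ≤ L * (S * Q + P * S * B + P * T + A * (Q * T)) := by positivity
    have m4 : 0 ≤ L * (P * Q) := by positivity
    have m5 : 0 ≤ L * (C * Q ^ 2) := by positivity
    have m6 : 0 ≤ L * (C * P ^ 2) := by positivity
    have m7 : 0 ≤ L * (A * Q ^ 2) := by positivity
    have m8 : 0 ≤ L * (P ^ 2 * B) := by positivity
    linarith)
  have k2 := pow_le_pow_left₀ (abs_nonneg _) key 2
  rw [sq_abs, mul_pow] at k2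
  refine k2.trans ?_
  have k3 := sq9 (|s| * |q|) (|p| * |s| * |b|) (|p| * |t|) (|a| * (|q| * |t|)) (|p| * |q|)
    (|c| * q ^ 2) (|c| * p ^ 2) (|a| * q ^ 2) (p ^ 2 * |b|)
  simp only [mul_pow, sq_abs, ← pow_mul] at k3
  have k4 := mul_le_mul_of_nonneg_left k3 (sq_nonneg (12 * L))
  refine k4.trans (le_of_eq ?_)
  ring

theorem part2 {x₁ x₂ s t g ρ ρ' τ R : ℝ} (h1 : |x₁| ≤ 3 * τ) (h2 : |x₂| ≤ 3 * τ) (hτ : τ ≤ 1 / 10)
    (hs : |s| ≤ R) (ht : |t| ≤ R) (hg : |g| ≤ R) (hρ : |ρ| ≤ R) (hρ' : |ρ'| ≤ R) :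
    |2 * (x₁ * s + x₂ * t) + x₁ * x₁ * ρ + x₂ * x₂ * ρ' + 2 * g * x₁ * x₂| ≤ 100 * τ * R := by
  have e1 := A26.abs_mul_le (le_refl |(2 : ℝ)|)
    (A26.abs_add_le' (A26.abs_mul_le h1 hs) (A26.abs_mul_le h2 ht))
  have e2 := A26.abs_mul_le (A26.abs_mul_le h1 h1) hρ
  have e3 := A26.abs_mul_le (A26.abs_mul_le h2 h2) hρ'
  have e4 := A26.abs_mul_le (A26.abs_mul_le (A26.abs_mul_le (le_refl |(2 : ℝ)|) hg) h1) h2
  have e := A26.abs_add_le' (A26.abs_add_le' (A26.abs_add_le' e1 e2) e3) e4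
  rw [abs_two] at e
  have hτ0 : 0 ≤ τ := by linarith [abs_nonneg x₁]
  have hR : 0 ≤ R := (abs_nonneg _).trans hs
  have m : τ * (τ * R) ≤ 1 / 10 * (τ * R) := mul_le_mul_of_nonneg_right hτ (by positivity)
  have m' : 0 ≤ τ * R := by positivity
  linarith

variable {ι : Type} [Fintype ι] [DecidableEq ι] {E : Env ι} {F : Mat ι} {ε : ℝ}

theorem sum4 (F : Mat ι) (x : ι) : ∑ i, F x i ^ 4 ≤ rr F x ^ 2 := by
  calc ∑ i, F x i ^ 4 ≤ ∑ i, rr F x * F x i ^ 2 := sum_le_sum fun i _ => by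
        have := mul_le_mul_of_nonneg_right (BP.sq_le_rr F x i) (sq_nonneg (F x i))
        linarith
    _ = rr F x ^ 2 := by rw [← mul_sum, sq]; rfl

theorem total (hE : E.Ok) (hF : Side E F ε) (x : ι) :
    ∑ i, ∑ j, ((F ^ 2) x i ^ 2 * F x j ^ 2 + F x i ^ 2 * (F ^ 2) x i ^ 2 * F j j ^ 2
      + F x i ^ 2 * (F ^ 2) x j ^ 2 + F i i ^ 2 * (F x j ^ 2 * (F ^ 2) x j ^ 2)
      + F x i ^ 2 * F x j ^ 2 + F i j ^ 2 * F x j ^ 4 + F i j ^ 2 * F x i ^ 4
      + F i i ^ 2 * F x j ^ 4 + F x i ^ 4 * F j j ^ 2) ≤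
      5 * E.L * (E.u ^ 2 + E.Tf) * rr F x ^ 2 := by
  have hr := BP.rr_nonneg F x
  have hL := hE.L2
  have hu := hE.u1
  have hT := hE.Tf1
  have s1 := BP.f2_row hF.sy hF.op x
  have s2 : ∑ i, F i i ^ 2 ≤ E.Tf := hF.f2
  have s3 : ∑ i, F x i ^ 2 * (F ^ 2) x i ^ 2 ≤ E.L * rr F x ^ 2 := by
    calc ∑ i, F x i ^ 2 * (F ^ 2) x i ^ 2 ≤ ∑ i, E.L * rr F x * F x i ^ 2 :=
          sum_le_sum fun i _ => by
            have := (BP.f2_sq hF.sy x i).trans (mul_le_mul_of_nonneg_left (hF.ro i) hr)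
            have := mul_le_mul_of_nonneg_left this (sq_nonneg (F x i))
            linarith
      _ = _ := by rw [← mul_sum, sq, mul_assoc]; rfl
  have s4 := sum4 F x
  have s5 : ∑ i, ∑ j, F i j ^ 2 * F x i ^ 4 ≤ E.L * rr F x ^ 2 := by
    calc ∑ i, ∑ j, F i j ^ 2 * F x i ^ 4 ≤ ∑ i, E.L * F x i ^ 4 := sum_le_sum fun i _ => by
          rw [← sum_mul]; exact mul_le_mul_of_nonneg_right (hF.ro i) (by positivity)
      _ ≤ _ := by rw [← mul_sum]; exact mul_le_mul_of_nonneg_left s4 (by linarith)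
  have s6 : ∑ i, ∑ j, F i j ^ 2 * F x j ^ 4 ≤ E.L * rr F x ^ 2 := by
    rw [sum_comm]
    refine le_trans (le_of_eq ?_) s5
    exact sum_congr rfl fun i _ => sum_congr rfl fun j _ => by rw [hF.sy j i]
  have n2 : 0 ≤ ∑ i, F i i ^ 2 := sum_nonneg fun _ _ => sq_nonneg _
  have p1 := mul_le_mul_of_nonneg_right s1 hr
  have p2 := mul_le_mul s3 s2 n2 (by positivity)
  have p3 := mul_le_mul s4 s2 n2 (by positivity)
  simp only [sum_add_distrib, ← sum_mul_sum]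
  change _ * rr F x + _ + rr F x * _ + _ + rr F x * rr F x + _ + _ + _ + _ ≤ _
  have q0 : 0 ≤ rr F x ^ 2 := by positivity
  have q1 : 1 * rr F x ^ 2 ≤ E.u ^ 2 * rr F x ^ 2 :=
    mul_le_mul_of_nonneg_right (one_le_pow₀ hu) q0
  have q2 : 2 * (E.u ^ 2 * rr F x ^ 2) ≤ E.L * (E.u ^ 2 * rr F x ^ 2) :=
    mul_le_mul_of_nonneg_right hL (by positivity)
  have q3 : 2 * (E.Tf * rr F x ^ 2) ≤ E.L * (E.Tf * rr F x ^ 2) :=
    mul_le_mul_of_nonneg_right hL (by positivity)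
  have q4 : 1 * (E.L * rr F x ^ 2) ≤ E.Tf * (E.L * rr F x ^ 2) :=
    mul_le_mul_of_nonneg_right hT (by positivity)
  have q5 : 0 ≤ E.u ^ 2 * rr F x ^ 2 := by positivity
  linarith

end B2

theorem B2_proof (hAvg : AvgStmt) : B2Stmt := by
  refine ⟨17, fun ι _ _ E F ε hE hF => ⟨fun x => ?_, fun i j hp => ?_⟩⟩
  · obtain ⟨-, -, -, -, -, -, -, -, -, -, a11, a12, -⟩ := hAvg ι E hE
    have hL := hE.L2
    have hT := hE.Tf1
    set Y : ι → ι → ℝ := fun i j => (F ^ 2) x i ^ 2 * F x j ^ 2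
      + F x i ^ 2 * (F ^ 2) x i ^ 2 * F j j ^ 2
      + F x i ^ 2 * (F ^ 2) x j ^ 2 + F i i ^ 2 * (F x j ^ 2 * (F ^ 2) x j ^ 2)
      + F x i ^ 2 * F x j ^ 2 + F i j ^ 2 * F x j ^ 4 + F i j ^ 2 * F x i ^ 4
      + F i i ^ 2 * F x j ^ 4 + F x i ^ 4 * F j j ^ 2 with hY
    have hY0 : ∀ i j, 0 ≤ Y i j := fun i j => by simp only [hY]; positivity
    have h1 : E.av (fun i j => bx F i j x ^ 2) ≤ E.av (fun i j => 9 * 12 ^ 2 * E.L ^ 2 * Y i j) := by
      refine a12 _ _ fun i j hp => ?_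
      obtain ⟨ha, hb, -, -, h1, -, -, hα, hw⟩ := A26.pt hE hF hp
      refine le_trans (le_of_eq ?_) (B2.ptw (p := F x i) (q := F x j) (s := (F ^ 2) x i)
        (t := (F ^ 2) x j) hα hw ha hb h1 (A26.g_le hE hF i j) (A26.rho_le hE hF i)
        (A26.rho_le hE hF j) (A26.L1 hE))
      unfold bx rnew ch1 ch2
      ring
    have h2 : ∑ i ∈ E.U, ∑ j ∈ E.U, Y i j ≤ ∑ i, ∑ j, Y i j :=
      (sum_le_sum fun i _ => A26.sum_U_le (hY0 i)).trans
        (A26.sum_U_le fun i => sum_nonneg fun j _ => hY0 i j)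
    have h3 := (a11 Y hY0).trans
      (mul_le_mul_of_nonneg_left (h2.trans (B2.total hE hF x)) (by norm_num))
    rw [A26.av_mul] at h1
    refine h1.trans ((mul_le_mul_of_nonneg_left h3 (by positivity)).trans ?_)
    have h4 : rr F x ^ 2 ≤ max (rr F x) 1 ^ 2 :=
      pow_le_pow_left₀ (BP.rr_nonneg F x) (le_max_left _ _) 2
    have h5 := A26.pow_ge hL 14 3
    calc 9 * 12 ^ 2 * E.L ^ 2 * (2 * (5 * E.L * (E.u ^ 2 + E.Tf) * rr F x ^ 2))
        = 12960 * E.L ^ 3 * (E.u ^ 2 + E.Tf) * rr F x ^ 2 := by ring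
      _ ≤ _ := by
        refine mul_le_mul (mul_le_mul_of_nonneg_right (le_trans ?_ h5) (by positivity)) h4
          (by positivity) (by positivity)
        exact mul_le_mul_of_nonneg_right (by norm_num) (by positivity)
  · obtain ⟨ha, hb, hc, -, -, -, -, hα, hw⟩ := A26.pt hE hF hp
    have r1 := BP.rr_nonneg F i
    have r2 := BP.rr_nonneg F j
    have m1 := le_max_left (rr F i) 1
    have m2 := le_max_left (rr F j) 1
    have m3 := le_max_right (rr F i) 1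
    have m4 := le_max_right (rr F j) 1
    have hψ : ∀ x y, |(F ^ 2) x y| ≤ (rr F x + rr F y) / 2 := fun x y =>
      abs_le_of_sq_le_sq ((BP.f2_sq hF.sy x y).trans (by nlinarith [sq_nonneg (rr F x - rr F y)]))
        (by linarith [BP.rr_nonneg F x, BP.rr_nonneg F y])
    have hρ : |rr F i - 1| ≤ max (rr F i) 1 + max (rr F j) 1 := abs_le.mpr ⟨by linarith, by linarith⟩
    have hρ' : |rr F j - 1| ≤ max (rr F i) 1 + max (rr F j) 1 :=
      abs_le.mpr ⟨by linarith, by linarith⟩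
    have a0 := abs_nonneg (F i i)
    have b0 := abs_nonneg (F j j)
    have c0 := abs_nonneg (F i j)
    have key : ∀ x τ, (x = i ∨ x = j) → |F x i| ≤ τ → |F x j| ≤ τ → τ ≤ 1 / 10 →
        |rnew F i j x - rr F x| ≤ 100 * τ * (max (rr F i) 1 + max (rr F j) 1) := by
      intro x τ hx h1 h2 hτ
      have c1 := B2.chi (b := F j j) (p := F x i) (q := F x j) hα hw
      have c2 := B2.chi (b := F i i) (p := F x j) (q := F x i) hα hw
      have d1 : |F j j| * |F x i| ≤ 1 / 20 * τ := mul_le_mul hb h1 (abs_nonneg _) (by norm_num)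
      have d2 : |F i i| * |F x j| ≤ 1 / 20 * τ := mul_le_mul ha h2 (abs_nonneg _) (by norm_num)
      have hτ0 : 0 ≤ τ := (abs_nonneg _).trans h1
      have hx' : rr F x ≤ max (rr F i) 1 + max (rr F j) 1 - 1 := by
        rcases hx with rfl | rfl <;> linarith
      have hx1 : (rr F x + rr F i) / 2 ≤ max (rr F i) 1 + max (rr F j) 1 := by linarith
      have hx2 : (rr F x + rr F j) / 2 ≤ max (rr F i) 1 + max (rr F j) 1 := by linarith
      refine le_trans (le_of_eq ?_) (B2.part2 (c1.trans (by linarith)) (c2.trans (by linarith)) hτ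
        ((hψ x i).trans hx1) ((hψ x j).trans hx2) ((hψ i j).trans (by linarith)) hρ hρ')
      congr 1
      unfold rnew ch1 ch2
      ring
    exact ⟨key i _ (Or.inl rfl) (by linarith) (by linarith) (by linarith),
      key j _ (Or.inr rfl) (by rw [hF.sy j i]; linarith) (by linarith) (by linarith)⟩

end Crest.Agent.R62
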