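import Crest.Agent.R62.DefsC

/-! Row 62, BR: casts from the rational algorithm to the real matrices. -/

set_option autoImplicit false

namespace Crest.Agent.R62

open Matrix Finset Crest.Agent.PT Crest.Agent.QC Crest.Agent.R317 Crest.Agent.R300U

namespace BR

theorem gq_mkM {N : ℕ} (f : ℕ → ℕ → ℚ) {x y : ℕ} (hx : x < N) (hy : y < N) :
    gq (mkM N f) x y = f x y := by
  unfold gq mkM
  rw [getD_mkL _ _ hx, getD_mkL _ _ hy]

theorem toM_mkM {N : ℕ} (f : ℕ → ℕ → ℚ) (x y : Fin N) : toM N (mkM N f) x y = (f x y : ℝ) := by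
  show ((gq (mkM N f) x y : ℚ) : ℝ) = _
  rw [gq_mkM f x.2 y.2]

theorem toM_apply {N : ℕ} (F : QM) (x y : Fin N) : toM N F x y = (gq F x y : ℝ) := rfl

theorem toM_mmul (N : ℕ) (A B : QM) : toM N (mmul N A B) = toM N A * toM N B := by
  ext x y
  rw [mmul, toM_mkM, Matrix.mul_apply, sum_range]
  push_cast
  rfl

theorem toM_mpow (N : ℕ) (A : QM) (k : ℕ) : toM N (mpow N A k) = toM N A ^ k := by
  unfold mpow
  induction k with
  | zero =>
    ext x y
    rw [Function.iterate_zero, id, toM_mkM, pow_zero, Matrix.one_apply]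
    by_cases h : x = y
    · simp [h]
    · simp [h, Fin.val_inj]
  | succ k ih => rw [Function.iterate_succ_apply', toM_mmul, ih, pow_succ]

theorem trq_cast (N : ℕ) (A : QM) : (trq N A : ℝ) = trace (toM N A) := by
  rw [trq, sum_range]
  push_cast
  rfl

theorem tk_cast (N : ℕ) (A : QM) (k : ℕ) : (tkQ N A k : ℝ) = tk (toM N A) k := by
  rw [tkQ, trq_cast, toM_mpow]; rfl

theorem Pq_cast (N : ℕ) (A : QM) (q : ℕ) : (PqQ N A q : ℝ) = Pq (toM N A) q := by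
  unfold PqQ Pq rr
  simp only [sum_range]
  push_cast
  rfl

theorem fq_cast (N : ℕ) (A : QM) (q : ℕ) : (fqQ N A q : ℝ) = fq (toM N A) q := by
  unfold fqQ fq
  rw [sum_range]
  push_cast
  rfl

def oc (o : Obs ℚ) : Obs ℝ := ⟨o.t1, o.t2, o.t3, o.t4, o.tK, o.P2, o.Pp, o.f2, o.f8⟩

theorem obs_cast (N p : ℕ) (A : QM) : oc (obsQ N p A) = obsR p (toM N A) := by
  simp only [oc, obsQ, obsR, tk_cast, Pq_cast, fq_cast]

theorem c1_cast (Λ N₀ τ N ε : ℚ) (o : Obs ℚ) (k : ℕ) :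
    ((c1 Λ N₀ τ N ε o k : ℚ) : ℝ) = c1 (Λ : ℝ) N₀ τ N ε (oc o) k := by
  unfold c1
  split <;>
    simp only [oc, T41, TK1, G1, sQ1, SQ1, K11, S11, TP1, Tp1, Tf1, Rat.cast_div, Rat.cast_mul,
      Rat.cast_pow, Rat.cast_add, Rat.cast_sub, Rat.cast_max, Rat.cast_zero, Rat.cast_one,
      Rat.cast_ofNat]

theorem c2_cast (Λ N ε : ℚ) (o : Obs ℚ) (k : ℕ) :
    ((c2 Λ N ε o k : ℚ) : ℝ) = c2 (Λ : ℝ) N ε (oc o) k := by
  unfold c2
  split <;>
    simp only [oc, T42, TK2, TQ2, sQ2, K12, TP2, Tp2, Tf2, ww, xx, sg, be, mu, Rat.cast_div,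
      Rat.cast_mul, Rat.cast_pow, Rat.cast_add, Rat.cast_sub, Rat.cast_max, Rat.cast_zero,
      Rat.cast_one, Rat.cast_ofNat]

theorem pot1_cast (Λ N₀ τ N : ℚ) (a b : Obs ℚ) (om xc : ℚ) :
    ((pot1 Λ N₀ τ N a b om xc : ℚ) : ℝ) = pot1 (Λ : ℝ) N₀ τ N (oc a) (oc b) om xc := by
  simp only [pot1, com, cxc, Rat.cast_add, Rat.cast_sum, c1_cast, Rat.cast_div, Rat.cast_pow,
    Rat.cast_max, Rat.cast_zero, Rat.cast_one, Rat.cast_neg]

theorem pot2_cast (Λ N : ℚ) (a b : Obs ℚ) :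
    ((pot2 Λ N a b : ℚ) : ℝ) = pot2 (Λ : ℝ) N (oc a) (oc b) := by
  simp only [pot2, Rat.cast_add, Rat.cast_sum, c2_cast, Rat.cast_one, Rat.cast_neg]

theorem Dl_cast (N : ℕ) (F : QM) (i j : Fin N) : (DlQ F i j : ℝ) = Dl (toM N F) i j := by
  unfold DlQ Dl
  push_cast
  rfl

end BR

open BR in
theorem BR_proof : BrStmt := by
  intro d p n
  refine ⟨fun N F i j => ⟨?_, Dl_cast N F i j⟩, fun c A B => ?_, fun ε => ?_⟩
  · ext x y
    rw [stepQ, toM_mkM]
    simp only [step, Matrix.of_apply, Fin.val_inj, wf]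
    split_ifs
    · simp
    · push_cast
      rw [Dl_cast]
      rfl
  · unfold valM valR
    split_ifs
    · rw [pot1_cast, obs_cast, obs_cast, trq_cast, trq_cast, toM_mmul, toM_mmul, toM_mmul,
        toM_mmul]
      push_cast
      rfl
    · rw [pot2_cast, obs_cast, obs_cast]
      push_cast
      rfl
    · rw [Rat.cast_add, tk_cast, tk_cast]
  · ext x y
    rw [F0Q, toM_mkM]
    have e : (x : ℕ) / d = (y : ℕ) / d ↔ x.divNat = y.divNat := by
      rw [← Fin.val_inj]; rfl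
    simp only [F0, Matrix.of_apply, Fin.val_inj, e, Fintype.card_fin]
    split_ifs <;> push_cast <;> rfl

end Crest.Agent.R62
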