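import Crest.Agent.R62.DefsC

/-! Row 62: combinatorics of partial matchings of half-edges. -/

set_option autoImplicit false

namespace Crest.Agent.R62

open Matrix Finset Crest.Agent.PT Crest.Agent.QC Crest.Agent.R317 Crest.Agent.R300U
open Classical

namespace COMB

theorem adjv_of {d N : ℕ} {m : List ℕ} (hd : 1 ≤ d) {x : ℕ} (hx : m.getD x N < N) :
    adjv d N m (x / d) (m.getD x N / d) := by
  refine ⟨x % d, Nat.mod_lt _ hd, ?_⟩
  show m.getD (x / d * d + x % d) N < N ∧ m.getD (x / d * d + x % d) N / d = _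
  rw [Nat.div_add_mod' x d]
  exact ⟨hx, rfl⟩

theorem adjv_iff {d n : ℕ} {m : List ℕ} (hd : 1 ≤ d) {v w : ℕ} (hv : v < n) :
    adjv d (n * d) m v w ↔
      ∃ x < n * d, x / d = v ∧ m.getD x (n * d) < n * d ∧ m.getD x (n * d) / d = w := by
  constructor
  · rintro ⟨a, ha, h1, h2⟩
    refine ⟨v * d + a, ?_, ?_, h1, h2⟩
    · calc v * d + a < v * d + d := by omega
        _ = (v + 1) * d := by ring
        _ ≤ n * d := Nat.mul_le_mul_right d hv
    · rw [Nat.add_comm, Nat.add_mul_div_right _ _ hd, Nat.div_eq_of_lt ha, Nat.zero_add]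
  · rintro ⟨x, -, rfl, h1, rfl⟩
    exact adjv_of hd h1

theorem div_lt {d n x : ℕ} (hx : x < n * d) : x / d < n :=
  Nat.div_lt_of_lt_mul (by rwa [Nat.mul_comm])

theorem adjv_symm {d n : ℕ} {m : List ℕ} (hd : 1 ≤ d) (hm : Val d (n * d) m) {v w : ℕ}
    (hv : v < n) (h : adjv d (n * d) m v w) : adjv d (n * d) m w v := by
  obtain ⟨x, hx, rfl, h1, rfl⟩ := (adjv_iff hd hv).mp h
  obtain ⟨h2, -⟩ := hm.1 x hx h1
  have := adjv_of (m := m) (N := n * d) hd (x := m.getD x (n * d)) (by rw [h2]; exact hx)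
  rwa [h2] at this

theorem getD_upd {N : ℕ} (m : List ℕ) (x y : ℕ) {z : ℕ} (hz : z < N) :
    (upd N m x y).getD z N = if z = x then y else if z = y then x else m.getD z N :=
  getD_mkL _ _ hz

theorem cnt_eq (N : ℕ) (m : List ℕ) : cnt N m = (Uof N m).card := by
  rw [cnt, Uof, card_filter, Finset.sum_range]

theorem mem_Uof {N : ℕ} {m : List ℕ} {x : Fin N} : x ∈ Uof N m ↔ N ≤ m.getD x N := by
  simp [Uof, fr]

theorem fib_le (N d w : ℕ) (hd : 1 ≤ d) :
    (univ.filter fun j : Fin N => j.val / d = w).card ≤ d := by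
  calc _ ≤ (range d).card := by
        refine card_le_card_of_injOn (fun j : Fin N => j.val % d) ?_ ?_
        · intro j _
          exact mem_coe.mpr (mem_range.mpr (Nat.mod_lt _ hd))
        · intro a ha b hb hab
          have ha' : a.val / d = w := (mem_filter.mp (mem_coe.mp ha)).2
          have hb' : b.val / d = w := (mem_filter.mp (mem_coe.mp hb)).2
          have hab' : a.val % d = b.val % d := hab
          apply Fin.ext
          rw [← Nat.div_add_mod a.val d, ← Nat.div_add_mod b.val d, ha', hb', hab']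
    _ = d := card_range d

theorem fib_eq (n d : ℕ) (v : Fin n) :
    (univ.filter fun x : Fin (n * d) => x.divNat = v).card = d := by
  have h : (univ.filter fun x : Fin (n * d) => x.divNat = v).card =
      (({v} : Finset (Fin n)) ×ˢ (univ : Finset (Fin d))).card := by
    refine card_equiv finProdFinEquiv.symm fun x => ?_
    simp [finProdFinEquiv, eq_comm]
  rw [h]; simp

theorem bad_card {d n : ℕ} (hd : 1 ≤ d) (m : List ℕ) (i : Fin (n * d)) :
    (univ.filter fun j => (i, j) ∈ badS d (n * d) m).card ≤ 2 * d ^ 2 := by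
  have hsub : (univ.filter fun j => (i, j) ∈ badS d (n * d) m) ⊆
      (insert (i.val / d) ((range d).image fun a => m.getD (i.val / d * d + a) (n * d) / d)).biUnion
        fun w => univ.filter fun j : Fin (n * d) => j.val / d = w := by
    intro j hj
    have hb : bad d (n * d) m i j := (mem_filter.mp (mem_filter.mp hj).2).2
    refine mem_biUnion.mpr ⟨j.val / d, ?_, mem_filter.mpr ⟨mem_univ _, rfl⟩⟩
    rcases hb with h | ⟨a, ha, -, h⟩
    · rw [h]; exact mem_insert_self _ _
    · exact mem_insert_of_mem (mem_image.mpr ⟨a, mem_range.mpr ha, h⟩)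
  refine (card_le_card hsub).trans ((card_biUnion_le_card_mul _ _ d fun w _ =>
    fib_le _ d w hd).trans ?_)
  have h1 : (insert (i.val / d)
      ((range d).image fun a => m.getD (i.val / d * d + a) (n * d) / d)).card ≤ d + 1 :=
    (card_insert_le _ _).trans (Nat.add_le_add_right (card_image_le.trans (card_range d).le) 1)
  calc _ ≤ (d + 1) * d := Nat.mul_le_mul_right d h1
    _ ≤ (d + d) * d := Nat.mul_le_mul_right d (by omega)
    _ = 2 * d ^ 2 := by ring

section
variable {d n : ℕ} {m : List ℕ} {i j : ℕ}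

theorem ok_ne (h : okc d (n * d) m i j) : i ≠ j := fun e => h.2.2.2.2 (Or.inl (by rw [e]))

theorem upd_i (h : okc d (n * d) m i j) : (upd (n * d) m i j).getD i (n * d) = j := by
  rw [getD_upd _ _ _ h.1, if_pos rfl]

theorem upd_j (h : okc d (n * d) m i j) : (upd (n * d) m i j).getD j (n * d) = i := by
  rw [getD_upd _ _ _ h.2.1, if_neg (ok_ne h).symm, if_pos rfl]

theorem upd_o {x : ℕ} (hx : x < n * d) (hi : x ≠ i) (hj : x ≠ j) :
    (upd (n * d) m i j).getD x (n * d) = m.getD x (n * d) := by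
  rw [getD_upd _ _ _ hx, if_neg hi, if_neg hj]

theorem ne_of (h : okc d (n * d) m i j) {x : ℕ} (hx : m.getD x (n * d) < n * d) :
    x ≠ i ∧ x ≠ j := by
  have h1 : n * d ≤ m.getD i (n * d) := h.2.2.1
  have h2 : n * d ≤ m.getD j (n * d) := h.2.2.2.1
  constructor <;> rintro rfl <;> omega

theorem upd_ext (h : okc d (n * d) m i j) : Ext (n * d) m (upd (n * d) m i j) :=
  fun _ hx h1 => upd_o hx (ne_of h h1).1 (ne_of h h1).2

theorem not_adj (h : okc d (n * d) m i j) : ¬ adjv d (n * d) m (i / d) (j / d) :=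
  fun e => h.2.2.2.2 (Or.inr e)

theorem not_adj' (hd : 1 ≤ d) (hm : Val d (n * d) m) (h : okc d (n * d) m i j) :
    ¬ adjv d (n * d) m (j / d) (i / d) :=
  fun e => not_adj h (adjv_symm hd hm (div_lt h.2.1) e)

theorem ne_v (h : okc d (n * d) m i j) : i / d ≠ j / d := fun e => h.2.2.2.2 (Or.inl e)

theorem upd_val (hd : 1 ≤ d) (hm : Val d (n * d) m) (h : okc d (n * d) m i j) :
    Val d (n * d) (upd (n * d) m i j) := by
  have hv := ne_v h
  have key : ∀ y < n * d, y ≠ i → y ≠ j → (upd (n * d) m i j).getD y (n * d) < n * d →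
      adjv d (n * d) m (y / d) ((upd (n * d) m i j).getD y (n * d) / d) := by
    intro y hy h1 h2 h3
    rw [upd_o hy h1 h2] at h3 ⊢
    exact adjv_of hd h3
  constructor
  · intro x hx h1
    by_cases hi : x = i
    · subst hi; rw [upd_i h, upd_j h]; exact ⟨rfl, hv.symm⟩
    by_cases hj : x = j
    · subst hj; rw [upd_j h, upd_i h]; exact ⟨rfl, hv⟩
    rw [upd_o hx hi hj] at h1 ⊢
    obtain ⟨h2, h3⟩ := hm.1 x hx h1
    refine ⟨?_, h3⟩
    rw [upd_ext h _ h1 (by rw [h2]; exact hx), h2]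
  · intro x hx y hy h1 h2 h3 h4
    by_cases hxi : x = i
    · by_cases hyi : y = i
      · rw [hxi, hyi]
      by_cases hyj : y = j
      · rw [hxi, hyj] at h3; exact absurd h3 hv
      have := key y hy hyi hyj h2
      rw [← h3, ← h4, hxi, upd_i h] at this
      exact absurd this (not_adj h)
    by_cases hxj : x = j
    · by_cases hyi : y = i
      · rw [hxj, hyi] at h3; exact absurd h3.symm hv
      by_cases hyj : y = j
      · rw [hxj, hyj]
      have := key y hy hyi hyj h2
      rw [← h3, ← h4, hxj, upd_j h] at this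
      exact absurd this (not_adj' hd hm h)
    have hk := key x hx hxi hxj h1
    by_cases hyi : y = i
    · rw [h3, h4, hyi, upd_i h] at hk
      exact absurd hk (not_adj h)
    by_cases hyj : y = j
    · rw [h3, h4, hyj, upd_j h] at hk
      exact absurd hk (not_adj' hd hm h)
    rw [upd_o hx hxi hxj] at h1 h4
    rw [upd_o hy hyi hyj] at h2 h4
    exact hm.2 x hx y hy h1 h2 h3 h4

theorem upd_adjv (hd : 1 ≤ d) (h : okc d (n * d) m i j) {v w : ℕ} (hv : v < n) :
    adjv d (n * d) (upd (n * d) m i j) v w ↔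
      adjv d (n * d) m v w ∨ (v = i / d ∧ w = j / d) ∨ (v = j / d ∧ w = i / d) := by
  rw [adjv_iff hd hv, adjv_iff hd hv]
  constructor
  · rintro ⟨x, hx, rfl, h1, rfl⟩
    by_cases hi : x = i
    · subst hi; rw [upd_i h]; exact Or.inr (Or.inl ⟨rfl, rfl⟩)
    by_cases hj : x = j
    · subst hj; rw [upd_j h]; exact Or.inr (Or.inr ⟨rfl, rfl⟩)
    rw [upd_o hx hi hj] at h1 ⊢
    exact Or.inl ⟨x, hx, rfl, h1, rfl⟩
  · rintro (⟨x, hx, rfl, h1, rfl⟩ | ⟨rfl, rfl⟩ | ⟨rfl, rfl⟩)
    · exact ⟨x, hx, rfl, by rw [upd_ext h x hx h1]; exact ⟨h1, rfl⟩⟩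
    · exact ⟨i, h.1, rfl, by rw [upd_i h]; exact ⟨h.2.1, rfl⟩⟩
    · exact ⟨j, h.2.1, rfl, by rw [upd_j h]; exact ⟨h.1, rfl⟩⟩

end

theorem upd_U {d n : ℕ} {m : List ℕ} {i j : Fin (n * d)} (h : okc d (n * d) m i j) :
    Uof (n * d) (upd (n * d) m i j) = ((Uof (n * d) m).erase i).erase j := by
  ext x
  rw [mem_erase, mem_erase, mem_Uof, mem_Uof]
  by_cases hi : x = i
  · subst hi; rw [upd_i h]
    exact ⟨fun e => absurd j.2 (by omega), fun e => absurd rfl e.2.1⟩
  by_cases hj : x = j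
  · subst hj; rw [upd_j h]
    exact ⟨fun e => absurd i.2 (by omega), fun e => absurd rfl e.1⟩
  rw [upd_o x.2 (fun e => hi (Fin.ext e)) (fun e => hj (Fin.ext e))]
  exact ⟨fun e => ⟨hj, hi, e⟩, fun e => e.2.2⟩

theorem upd_A {d n : ℕ} {m : List ℕ} {i j : Fin (n * d)} (hd : 1 ≤ d) (hm : Val d (n * d) m)
    (h : okc d (n * d) m i j) :
    AjR d n (upd (n * d) m i j) = AjR d n m + edge Fin.divNat i j := by
  ext v w
  have e1 : (v = i.divNat ∧ w = j.divNat) ↔ (v.val = i.val / d ∧ w.val = j.val / d) := by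
    rw [Fin.ext_iff, Fin.ext_iff]; rfl
  have e2 : (v = j.divNat ∧ w = i.divNat) ↔ (v.val = j.val / d ∧ w.val = i.val / d) := by
    rw [Fin.ext_iff, Fin.ext_iff]; rfl
  simp only [AjR, edge, Matrix.add_apply, Matrix.of_apply, upd_adjv hd h v.2, e1, e2]
  have hv := ne_v h
  have n1 := not_adj h
  have n2 := not_adj' hd hm h
  by_cases h1 : v.val = i.val / d ∧ w.val = j.val / d
  · have h2 : ¬ (v.val = j.val / d ∧ w.val = i.val / d) := fun e => hv (h1.1.symm.trans e.1)
    have h3 : ¬ adjv d (n * d) m v w := by rw [h1.1, h1.2]; exact n1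
    rw [if_pos (Or.inr (Or.inl h1)), if_neg h3, if_pos h1, if_neg h2]; simp
  by_cases h2 : v.val = j.val / d ∧ w.val = i.val / d
  · have h3 : ¬ adjv d (n * d) m v w := by rw [h2.1, h2.2]; exact n2
    rw [if_pos (Or.inr (Or.inr h2)), if_neg h3, if_neg h1, if_pos h2]; simp
  by_cases h3 : adjv d (n * d) m v w
  · rw [if_pos (Or.inl h3), if_pos h3, if_neg h1, if_neg h2]; simp
  · rw [if_neg (by tauto), if_neg h3, if_neg h1, if_neg h2]; simp

theorem upd_cnt {d n : ℕ} {m : List ℕ} {i j : Fin (n * d)} (h : okc d (n * d) m i j) :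
    cnt (n * d) (upd (n * d) m i j) + 2 = cnt (n * d) m := by
  rw [cnt_eq, cnt_eq, upd_U h]
  have hi : i ∈ Uof (n * d) m := mem_Uof.mpr h.2.2.1
  have hj : j ∈ (Uof (n * d) m).erase i :=
    mem_erase.mpr ⟨fun e => ok_ne h (by rw [e]), mem_Uof.mpr h.2.2.2.1⟩
  rw [← card_erase_add_one hi, ← card_erase_add_one hj]

end COMB

open COMB

theorem COMB_proof : CombStmt := by
  intro d n hd
  refine ⟨⟨⟨?_, ?_⟩, ?_, ?_⟩, fib_eq n d, fun m hm => ⟨cnt_eq _ _, ?_, bad_card hd m, ?_⟩⟩
  · intro x _ h; simp at h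
  · intro x _ y _ h; simp at h
  · ext x; simp [mem_Uof]
  · ext v w
    have : ¬ adjv d (n * d) [] v w := by rintro ⟨a, -, h, -⟩; simp at h
    simp [AjR, this]
  · intro i j h
    have hb : bad d (n * d) m i j := (mem_filter.mp h).2
    refine mem_filter.mpr ⟨mem_univ _, ?_⟩
    rcases hb with h | h
    · exact Or.inl h.symm
    · exact Or.inr (adjv_symm hd hm (div_lt i.2) h)
  · intro i j h
    exact ⟨fun e => ok_ne h (by rw [e]), upd_val hd hm h, upd_U h, upd_A hd hm h, upd_cnt h,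
      upd_ext h⟩

end Crest.Agent.R62
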