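import Crest.Agent.R62.DefsB

set_option autoImplicit false

namespace Crest.Agent.R62

theorem CONST_proof (h1 : T1Stmt) (h2 : T2Stmt) (h3 : T2BStmt) (h4 : T3Stmt) (h5 : MomStmt)
    (h6 : OmStmt) (h7 : XStmt) (h8 : F2Stmt) (h9 : F8Stmt) (h10 : P2Stmt) (h11 : PPStmt)
    (h12 : T2CStmt) : ConstStmt := by
  obtain ⟨c1, h1⟩ := h1
  obtain ⟨c2, h2⟩ := h2
  obtain ⟨c3, h3⟩ := h3
  obtain ⟨c4, h4⟩ := h4
  obtain ⟨c5, h5a⟩ := h5 4 le_rfl (by decide)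
  obtain ⟨c5', h5b⟩ := h5 KK (by unfold KK; omega) ⟨15955, by unfold KK; omega⟩
  obtain ⟨c6, h6⟩ := h6
  obtain ⟨c7, h7⟩ := h7
  obtain ⟨c8, h8⟩ := h8
  obtain ⟨c9, h9⟩ := h9
  obtain ⟨c10, h10⟩ := h10
  obtain ⟨c11, h11⟩ := h11
  obtain ⟨C', h12⟩ := h12
  obtain ⟨c, hc⟩ : ∃ c, c = 11 + c1 + c2 + c3 + c4 + c5 + c5' + c6 + c7 + c8 + c9 + c10 + c11 :=
    ⟨_, rfl⟩
  obtain ⟨C, h11⟩ := h11 (2 * (c * 31910)) (by omega) (even_two_mul _)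
  obtain ⟨M, hM1, hM2, hM3⟩ : ∃ M : ℝ, 1000 ≤ M ∧ C ≤ M ∧ C' ≤ M :=
    ⟨max 1000 (max C C'), le_max_left _ _, (le_max_left _ _).trans (le_max_right _ _),
      (le_max_right _ _).trans (le_max_right _ _)⟩
  refine ⟨2 * (c * 31910), M ^ c, by omega, fun Λ hΛ => ?_⟩
  have c0 : c ≠ 0 := by omega
  have Λ0 : 0 ≤ Λ := le_trans (by positivity) hΛ
  obtain ⟨L, L0, hL⟩ : ∃ L : ℝ, 0 ≤ L ∧ L ^ c = Λ :=
    ⟨Λ ^ ((c : ℝ)⁻¹), Real.rpow_nonneg Λ0 _, Real.rpow_inv_natCast_pow Λ0 c0⟩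
  have hML : M ≤ L := by
    rw [← hL] at hΛ
    exact (pow_le_pow_iff_left₀ (by linarith) L0 c0).1 hΛ
  have L1 : 1 ≤ L := by linarith
  have hk : ∀ k, k ≤ c → L ^ k ≤ Λ := fun k hk => hL ▸ pow_le_pow_right₀ L1 hk
  have hk' : ∀ (k : ℕ) (a : ℝ), k + 1 ≤ c → a ≤ M → a * L ^ k ≤ Λ := by
    intro k a h ha
    refine le_trans ?_ (hk _ h)
    rw [pow_succ']
    exact mul_le_mul_of_nonneg_right (ha.trans hML) (by positivity)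
  refine ⟨L, by linarith, hk' 10 _ (by omega) hM1, ?_, h1 _ _ (hk _ (by omega)),
    h2 _ _ (hk _ (by omega)), h3 _ _ (hk _ (by omega)), h4 _ _ (hk _ (by omega)),
    h5a _ _ (hk _ (by omega)), h5b _ _ (hk _ (by omega)), h6 _ _ (hk _ (by omega)),
    h7 _ _ (hk _ (by omega)), h8 _ _ (hk _ (by omega)), h9 _ _ (hk _ (by omega)),
    h10 _ _ (hk _ (by omega)), h11 _ _ (hk' _ _ (by omega) hM2), h12 _ ?_⟩
  · have h2 : L ≤ (L - 1) ^ 2 := by nlinarith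
    have Λ1 : 1 ≤ Λ := hL ▸ one_le_pow₀ L1
    calc Λ ^ 31908 ≤ Λ ^ 31910 := pow_le_pow_right₀ Λ1 (by omega)
      _ = L ^ (c * 31910) := by rw [pow_mul, hL]
      _ ≤ ((L - 1) ^ 2) ^ (c * 31910) := pow_le_pow_left₀ L0 h2 _
      _ = _ := (pow_mul _ _ _).symm
  · simpa using hk' 0 C' (by omega) hM3

end Crest.Agent.R62
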