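import Crest.Agent.R62.DefsA

set_option autoImplicit false

namespace Crest.Agent.R62

open Matrix Finset

namespace ENV
variable {ι : Type} [Fintype ι] [DecidableEq ι]

def adm (U : Finset ι) (A B : Mat ι) (bad : Finset (ι × ι)) (th z z' : ℝ) (i j : ι) : Prop :=
  i ∈ U ∧ j ∈ U ∧ i ≠ j ∧ (i, j) ∉ bad ∧ |A i j| ≤ z ∧ |B i j| ≤ z ∧ 4 * th * |A i j| ≤ 1 ∧
    4 * th * |B i j| ≤ 1 ∧ (∀ x, |A x i * A x j| ≤ z') ∧ ∀ x, |B x i * B x j| ≤ z'

theorem one_le_sq_div {a z' : ℝ} (hz : 0 < z') (h : z' < |a|) : 1 ≤ a ^ 2 / z' ^ 2 := by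
  rw [le_div_iff₀ (by positivity), one_mul, ← sq_abs a]
  exact pow_le_pow_left₀ hz.le h.le 2

theorem one_le_th {a th : ℝ} (h : 1 < 4 * th * |a|) : 1 ≤ 16 * th ^ 2 * a ^ 2 := by
  have : 16 * th ^ 2 * a ^ 2 = (4 * th * |a|) ^ 2 := by rw [mul_pow, mul_pow, sq_abs]; ring
  rw [this]; nlinarith

/-- The Markov weight. -/
noncomputable def wt (A : Mat ι) (th z' : ℝ) (i j : ι) : ℝ :=
  A i j ^ 2 / z' ^ 2 + 16 * th ^ 2 * A i j ^ 2 + (∑ x, (A x i * A x j) ^ 2) / z' ^ 2

omit [DecidableEq ι] in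
theorem wt_nonneg (A : Mat ι) (th z' : ℝ) (i j : ι) : 0 ≤ wt A th z' i j := by
  unfold wt; positivity

omit [DecidableEq ι] in
theorem wt_ge (A : Mat ι) (th z z' : ℝ) (hz : 0 < z') (hzz : z' ≤ z) (i j : ι)
    (h : ¬ (|A i j| ≤ z ∧ 4 * th * |A i j| ≤ 1 ∧ ∀ x, |A x i * A x j| ≤ z')) :
    1 ≤ wt A th z' i j := by
  have h1 : 0 ≤ A i j ^ 2 / z' ^ 2 := by positivity
  have h2 : 0 ≤ 16 * th ^ 2 * A i j ^ 2 := by positivity
  have h3 : 0 ≤ (∑ x, (A x i * A x j) ^ 2) / z' ^ 2 := by positivity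
  unfold wt
  by_cases ha : |A i j| ≤ z
  · by_cases hb : 4 * th * |A i j| ≤ 1
    · have : ∃ x, z' < |A x i * A x j| := by
        by_contra hc
        push Not at hc
        exact h ⟨ha, hb, hc⟩
      obtain ⟨x, hx⟩ := this
      have h4 := one_le_sq_div hz hx
      have h5 : (A x i * A x j) ^ 2 / z' ^ 2 ≤ (∑ x, (A x i * A x j) ^ 2) / z' ^ 2 := by
        apply div_le_div_of_nonneg_right _ (by positivity)
        exact Finset.single_le_sum (f := fun x => (A x i * A x j) ^ 2)
          (fun _ _ => sq_nonneg _) (Finset.mem_univ x)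
      linarith
    · have := one_le_th (not_le.mp hb)
      linarith
  · have := one_le_sq_div hz (lt_of_le_of_lt hzz (not_le.mp ha))
    linarith

omit [DecidableEq ι] in
theorem sum_wt (A : Mat ι) (hA : Sy A) (th z' L : ℝ) (hz : 0 < z') (hL : 2 ≤ L)
    (hr : ∀ x, rr A x ≤ L) (i : ι) :
    ∑ j, wt A th z' i j ≤ 2 * L ^ 2 / z' ^ 2 + 16 * th ^ 2 * L := by
  unfold wt
  rw [Finset.sum_add_distrib, Finset.sum_add_distrib, ← Finset.sum_div, ← Finset.sum_div,
    ← Finset.mul_sum]
  have h1 : ∑ j, A i j ^ 2 ≤ L := hr i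
  have h2 : ∑ j, ∑ x, (A x i * A x j) ^ 2 ≤ L ^ 2 := by
    rw [Finset.sum_comm]
    calc ∑ x, ∑ j, (A x i * A x j) ^ 2 = ∑ x, A i x ^ 2 * rr A x := by
          refine Finset.sum_congr rfl fun x _ => ?_
          unfold rr
          rw [Finset.mul_sum, hA x i]
          exact Finset.sum_congr rfl fun j _ => by ring
      _ ≤ ∑ x, A i x ^ 2 * L :=
          Finset.sum_le_sum fun x _ => mul_le_mul_of_nonneg_left (hr x) (sq_nonneg _)
      _ = (∑ x, A i x ^ 2) * L := by rw [Finset.sum_mul]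
      _ ≤ L * L := mul_le_mul_of_nonneg_right h1 (by linarith)
      _ = L ^ 2 := by ring
  have h3 : (∑ j, A i j ^ 2) / z' ^ 2 ≤ L ^ 2 / z' ^ 2 :=
    div_le_div_of_nonneg_right (by nlinarith) (by positivity)
  have h4 : (∑ j, ∑ x, (A x i * A x j) ^ 2) / z' ^ 2 ≤ L ^ 2 / z' ^ 2 :=
    div_le_div_of_nonneg_right h2 (by positivity)
  have h5 : 16 * th ^ 2 * ∑ j, A i j ^ 2 ≤ 16 * th ^ 2 * L :=
    mul_le_mul_of_nonneg_left h1 (by positivity)
  have e : 2 * L ^ 2 / z' ^ 2 = L ^ 2 / z' ^ 2 + L ^ 2 / z' ^ 2 := by ring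
  rw [e]; linarith

end ENV

open ENV in
theorem ENV_proof : EnvStmt := by
  classical
  intro ι _ _ U A B bad B₀ th D L u z z' Tf hA hB hsym hbad hr hoA hoB hdg hfA hfB hL hth hthu hu
    huN hz' hzz hzL hTf hTfN hB0 hD hDN
  have hAs := hA.sy
  have hBs := hB.sy
  have admS : ∀ i j, adm U A B bad th z z' i j → adm U A B bad th z z' j i := by
    rintro i j ⟨h1, h2, h3, h4, h5, h6, h7, h8, h9, h10⟩
    refine ⟨h2, h1, h3.symm, fun h => h4 (hsym _ _ h), ?_, ?_, ?_, ?_, ?_, ?_⟩
    · rwa [hAs j i]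
    · rwa [hBs j i]
    · rwa [hAs j i]
    · rwa [hBs j i]
    · intro x; rw [mul_comm]; exact h9 x
    · intro x; rw [mul_comm]; exact h10 x
  have hC : ∀ i j, adm U A B bad th z z' i j → |th * (A + B) i j| ≤ 1 / 2 := by
    rintro i j ⟨-, -, -, -, -, -, h7, h8, -, -⟩
    rw [abs_mul, abs_of_nonneg hth, Matrix.add_apply]
    have := abs_add_le (A i j) (B i j)
    nlinarith
  have hCr : ∀ i, rr (A + B) i ≤ 4 * L := by
    intro i
    have h1 := (hr i).1
    have h2 := (hr i).2
    unfold rr at h1 h2 ⊢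
    calc ∑ y, (A + B) i y ^ 2 ≤ ∑ y, (2 * A i y ^ 2 + 2 * B i y ^ 2) :=
          Finset.sum_le_sum fun y _ => by
            rw [Matrix.add_apply]; nlinarith [sq_nonneg (A i y - B i y)]
      _ = 2 * ∑ y, A i y ^ 2 + 2 * ∑ y, B i y ^ 2 := by
          rw [Finset.sum_add_distrib, Finset.mul_sum, Finset.mul_sum]
      _ ≤ 4 * L := by linarith
  have hC0 : ∀ i j, i ∉ U → (A + B) i j = 0 := by
    intro i j hi
    rw [Matrix.add_apply, hA.su i j hi, hB.su i j hi, add_zero]
  have hCs : Sy (A + B) := by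
    intro i j
    rw [Matrix.add_apply, Matrix.add_apply, hAs i j, hBs i j]
  let one : ι → ℝ := fun x => if x ∈ U then 1 else 0
  let p : Mat ι := Matrix.of fun i j =>
    if adm U A B bad th z z' i j then 1 - th * (A + B) i j else 0
  let e : Mat ι := Matrix.of fun i j => one i * one j - th * (A + B) i j - p i j
  have hp : ∀ i j, p i j ≠ 0 → adm U A B bad th z z' i j := by
    intro i j h
    by_contra hc
    exact h (by simp only [p, Matrix.of_apply, if_neg hc])
  have hz2 : 0 < 1 / z' ^ 2 := by positivity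
  refine ⟨⟨U, A + B, p, e, th, D, L, u, z, z', Tf⟩, rfl, rfl, rfl, rfl, rfl, rfl, rfl, rfl, rfl,
    ?_, ?_, ?_, fun i j h => (hp i j h).2.2.2.1⟩
  · refine
      { hp := ?_, p0 := ?_, p2 := ?_, pd := ?_, es := ?_, er := ?_, Cs := hCs, C0 := hC0,
        C1 := ?_, Cr := hCr, Co := ?_, L2 := hL, th0 := hth, thu := hthu, u1 := hu, uN := huN,
        D1' := ?_, DN := hDN, z0 := hz'.le, zz := hzz, zL := hzL, Tf1 := hTf, TfN := hTfN }
    · intro i j
      show p i j = one i * one j - th * (A + B) i j - e i j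
      simp only [e, Matrix.of_apply]
      ring
    · intro i j
      show 0 ≤ p i j
      simp only [p, Matrix.of_apply]
      split_ifs with h
      · have := (abs_le.mp (hC i j h)).2
        linarith
      · exact le_rfl
    · intro i j
      show p i j ≤ 2 * (one i * one j)
      simp only [p, one, Matrix.of_apply]
      by_cases h : adm U A B bad th z z' i j
      · rw [if_pos h, if_pos h.1, if_pos h.2.1]
        have := (abs_le.mp (hC i j h)).1
        linarith
      · rw [if_neg h]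
        split_ifs <;> norm_num
    · intro i
      show p i i = 0
      by_contra h
      exact (hp i i h).2.2.1 rfl
    · intro i j
      show e i j = e j i
      simp only [e, p, Matrix.of_apply]
      rw [hCs i j, mul_comm (one i)]
      by_cases h : adm U A B bad th z z' i j
      · rw [if_pos h, if_pos (admS _ _ h)]
      · rw [if_neg h, if_neg (fun h' => h (admS _ _ h'))]
    · intro i
      show ∑ j, |e i j| ≤ D
      have hLL : 0 ≤ L ^ 2 * (1 / z' ^ 2 + th ^ 2) := by positivity
      by_cases hi : i ∈ U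
      swap
      · have : ∀ j, e i j = 0 := by
          intro j
          have hn : ¬ adm U A B bad th z z' i j := fun h => hi h.1
          simp only [e, p, one, Matrix.of_apply, if_neg hn, if_neg hi, hC0 i j hi]
          ring
        simp only [this, abs_zero, Finset.sum_const_zero]
        linarith
      have key : ∀ j, |e i j| ≤ 2 * ((if j = i then 1 else 0)
          + (if j ∈ U.filter (fun j => (i, j) ∈ bad) then 1 else 0)
          + wt A th z' i j + wt B th z' i j) + th ^ 2 / 4 * (A + B) i j ^ 2 := by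
        intro j
        have w1 := wt_nonneg A th z' i j
        have w2 := wt_nonneg B th z' i j
        have w3 : (0 : ℝ) ≤ if j = i then 1 else 0 := by split_ifs <;> norm_num
        have w4 : (0 : ℝ) ≤ if j ∈ U.filter (fun j => (i, j) ∈ bad) then 1 else 0 := by
          split_ifs <;> norm_num
        have w5 : 0 ≤ th ^ 2 / 4 * (A + B) i j ^ 2 := by positivity
        by_cases hj : j ∈ U
        swap
        · have hn : ¬ adm U A B bad th z z' i j := fun h => hj h.2.1
          have : e i j = 0 := by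
            simp only [e, p, one, Matrix.of_apply, if_neg hn, if_neg hj, hCs i j, hC0 j i hj]
            ring
          rw [this, abs_zero]; linarith
        by_cases h : adm U A B bad th z z' i j
        · have : e i j = 0 := by
            simp only [e, p, one, Matrix.of_apply, if_pos h, if_pos hi, if_pos hj]
            ring
          rw [this, abs_zero]; linarith
        have he : e i j = 1 - th * (A + B) i j := by
          simp only [e, p, one, Matrix.of_apply, if_neg h, if_pos hi, if_pos hj]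
          ring
        have h1 : |e i j| ≤ 2 + th ^ 2 / 4 * (A + B) i j ^ 2 := by
          rw [he, abs_le]
          constructor <;> nlinarith [sq_nonneg (th * (A + B) i j / 2 - 1),
            sq_nonneg (th * (A + B) i j / 2 + 1)]
        have h2 : (1 : ℝ) ≤ (if j = i then 1 else 0)
            + (if j ∈ U.filter (fun j => (i, j) ∈ bad) then 1 else 0)
            + wt A th z' i j + wt B th z' i j := by
          by_cases c1 : j = i
          · rw [if_pos c1]; linarith
          by_cases c2 : (i, j) ∈ bad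
          · rw [if_pos (Finset.mem_filter.mpr ⟨hj, c2⟩)]; linarith
          by_cases c3 : |A i j| ≤ z ∧ 4 * th * |A i j| ≤ 1 ∧ ∀ x, |A x i * A x j| ≤ z'
          · by_cases c4 : |B i j| ≤ z ∧ 4 * th * |B i j| ≤ 1 ∧ ∀ x, |B x i * B x j| ≤ z'
            · exact absurd ⟨hi, hj, Ne.symm c1, c2, c3.1, c4.1, c3.2.1, c4.2.1, c3.2.2, c4.2.2⟩ h
            · have := wt_ge B th z z' hz' hzz i j c4
              linarith
          · have := wt_ge A th z z' hz' hzz i j c3
            linarith
        linarith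
      refine (Finset.sum_le_sum fun j _ => key j).trans ?_
      rw [Finset.sum_add_distrib, ← Finset.mul_sum, ← Finset.mul_sum, Finset.sum_add_distrib,
        Finset.sum_add_distrib, Finset.sum_add_distrib]
      have s1 : ∑ j, (if j = i then (1 : ℝ) else 0) = 1 := by simp
      have s2 : ∑ j, (if j ∈ U.filter (fun j => (i, j) ∈ bad) then (1 : ℝ) else 0) ≤ B₀ := by
        rw [Finset.sum_ite_mem, Finset.univ_inter, Finset.sum_const, nsmul_eq_mul, mul_one]
        exact hbad i hi
      have s3 := sum_wt A hAs th z' L hz' hL (fun x => (hr x).1) i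
      have s4 := sum_wt B hBs th z' L hz' hL (fun x => (hr x).2) i
      have s5 : th ^ 2 / 4 * ∑ j, (A + B) i j ^ 2 ≤ th ^ 2 / 4 * (4 * L) :=
        mul_le_mul_of_nonneg_left (hCr i) (by positivity)
      have s6 : th ^ 2 * L ≤ th ^ 2 * L ^ 2 :=
        mul_le_mul_of_nonneg_left (by nlinarith) (by positivity)
      have s7 : 2 * L ^ 2 / z' ^ 2 = 2 * (L ^ 2 * (1 / z' ^ 2)) := by ring
      have s8 : 0 ≤ L ^ 2 * (1 / z' ^ 2) := by positivity
      have s9 : 0 ≤ th ^ 2 * L ^ 2 := by positivity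
      rw [s1]; rw [s7] at s3 s4
      nlinarith
    · intro i
      show ∑ j, (A + B) i j = 2 * one i
      by_cases hi : i ∈ U
      · simp only [Matrix.add_apply, Finset.sum_add_distrib, hA.on i hi, hB.on i hi, one,
          if_pos hi]
        norm_num
      · simp only [hC0 i _ hi, one, if_neg hi]
        simp
    · intro v
      show ∑ x, ((A + B) *ᵥ v) x ^ 2 ≤ (2 * u) ^ 2 * ∑ x, v x ^ 2
      have h1 := hoA v
      have h2 := hoB v
      rw [Matrix.add_mulVec]
      calc ∑ x, (A *ᵥ v + B *ᵥ v) x ^ 2 ≤ ∑ x, (2 * (A *ᵥ v) x ^ 2 + 2 * (B *ᵥ v) x ^ 2) :=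
            Finset.sum_le_sum fun x _ => by
              rw [Pi.add_apply]; nlinarith [sq_nonneg ((A *ᵥ v) x - (B *ᵥ v) x)]
        _ = 2 * ∑ x, (A *ᵥ v) x ^ 2 + 2 * ∑ x, (B *ᵥ v) x ^ 2 := by
            rw [Finset.sum_add_distrib, Finset.mul_sum, Finset.mul_sum]
        _ ≤ _ := by nlinarith
    · show 1 ≤ D
      have : 0 ≤ L ^ 2 * (1 / z' ^ 2 + th ^ 2) := by positivity
      linarith
  · exact
      { toBas := hA, ro := fun x => (hr x).1, op := hoA, dg := fun x => (hdg x).1, f2 := hfA,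
        ad := fun i j h => ⟨(hp i j h).2.2.2.2.1, (hp i j h).2.2.2.2.2.2.2.2.1⟩ }
  · exact
      { toBas := hB, ro := fun x => (hr x).2, op := hoB, dg := fun x => (hdg x).2, f2 := hfB,
        ad := fun i j h => ⟨(hp i j h).2.2.2.2.2.1, (hp i j h).2.2.2.2.2.2.2.2.2⟩ }

end Crest.Agent.R62
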