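import Crest.Agent.R62.DefsA

/-! Common skeleton for the drift of `Pq F q` (tasks P2 and PP). -/

set_option autoImplicit false

namespace Crest.Agent.R62.PL

open Matrix Finset

variable {ι : Type} [Fintype ι] [DecidableEq ι]

/-! ### Linearity of `av` -/

theorem av_add (E : Env ι) (X Y : ι → ι → ℝ) :
    E.av (fun i j => X i j + Y i j) = E.av X + E.av Y := by
  simp only [Env.av, mul_add, sum_add_distrib]

theorem av_sub (E : Env ι) (X Y : ι → ι → ℝ) :
    E.av (fun i j => X i j - Y i j) = E.av X - E.av Y := by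
  simp only [Env.av, mul_sub, sum_sub_distrib]

theorem av_smul (E : Env ι) (c : ℝ) (X : ι → ι → ℝ) :
    E.av (fun i j => c * X i j) = c * E.av X := by
  simp only [Env.av, mul_sum]
  refine sum_congr rfl fun i _ => sum_congr rfl fun j _ => by ring

theorem av_sum (E : Env ι) (X : ι → ι → ι → ℝ) :
    E.av (fun i j => ∑ x, X x i j) = ∑ x, E.av (X x) := by
  simp only [Env.av, mul_sum]
  rw [show (∑ i, ∑ j, ∑ x, E.p i j * X x i j) = ∑ i, ∑ x, ∑ j, E.p i j * X x i j from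
    sum_congr rfl fun i _ => sum_comm]
  exact sum_comm

/-! ### The basic quantities -/

noncomputable def yy (F : Mat ι) (x : ι) : ℝ := max (rr F x - 1) 0
noncomputable def rb (F : Mat ι) (x : ι) : ℝ := max (rr F x) 1
noncomputable def mm (F : Mat ι) (x : ι) : ℝ := min (rr F x) 1
noncomputable def tt (F : Mat ι) (x i : ι) : ℝ := F x i ^ 2 / rb F x
noncomputable def gam (F : Mat ι) (a : ℕ) (i : ι) : ℝ := ∑ x, tt F x i * yy F x ^ a

theorem Pq_eq (F : Mat ι) (q : ℕ) : Pq F q = ∑ x, yy F x ^ q := rfl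

theorem rr_nonneg (F : Mat ι) (x : ι) : 0 ≤ rr F x := sum_nonneg fun _ _ => sq_nonneg _
theorem yy_nonneg (F : Mat ι) (x : ι) : 0 ≤ yy F x := le_max_right _ _
theorem one_le_rb (F : Mat ι) (x : ι) : 1 ≤ rb F x := le_max_right _ _
theorem rb_pos (F : Mat ι) (x : ι) : 0 < rb F x := lt_of_lt_of_le one_pos (one_le_rb F x)
theorem rr_le_rb (F : Mat ι) (x : ι) : rr F x ≤ rb F x := le_max_left _ _
theorem rb_eq (F : Mat ι) (x : ι) : rb F x = 1 + yy F x := by
  unfold rb yy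
  rcases le_total (rr F x) 1 with h | h
  · rw [max_eq_right h, max_eq_right (by linarith)]; ring
  · rw [max_eq_left h, max_eq_left (by linarith)]; ring
theorem mm_nonneg (F : Mat ι) (x : ι) : 0 ≤ mm F x := le_min (rr_nonneg F x) zero_le_one
theorem mm_le_one (F : Mat ι) (x : ι) : mm F x ≤ 1 := min_le_right _ _
theorem mm_le_rr (F : Mat ι) (x : ι) : mm F x ≤ rr F x := min_le_left _ _
theorem tt_nonneg (F : Mat ι) (x i : ι) : 0 ≤ tt F x i :=
  div_nonneg (sq_nonneg _) (rb_pos F x).le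
theorem tt_mul_rb (F : Mat ι) (x i : ι) : tt F x i * rb F x = F x i ^ 2 :=
  div_mul_cancel₀ _ (rb_pos F x).ne'
theorem tt_le (F : Mat ι) (x i : ι) : tt F x i ≤ F x i ^ 2 :=
  div_le_self (sq_nonneg _) (one_le_rb F x)
theorem Pq_nonneg (F : Mat ι) (q : ℕ) : 0 ≤ Pq F q :=
  sum_nonneg fun x _ => pow_nonneg (yy_nonneg F x) q
theorem gam_nonneg (F : Mat ι) (a : ℕ) (i : ι) : 0 ≤ gam F a i :=
  sum_nonneg fun x _ => mul_nonneg (tt_nonneg F x i) (pow_nonneg (yy_nonneg F x) a)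

theorem sum_tt (F : Mat ι) (x : ι) : ∑ i, tt F x i = mm F x := by
  unfold tt
  rw [← sum_div]
  change rr F x / rb F x = mm F x
  unfold rb mm
  rcases le_total (rr F x) 1 with h | h
  · rw [max_eq_right h, min_eq_left h, div_one]
  · rw [max_eq_left h, min_eq_right h, div_self (by linarith)]

theorem mm_mul_yy (F : Mat ι) (x : ι) : mm F x * yy F x = yy F x := by
  unfold mm yy
  rcases le_total (rr F x) 1 with h | h
  · rw [max_eq_right (by linarith), mul_zero]
  · rw [min_eq_right h, one_mul]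

theorem mm_mul_pow (F : Mat ι) (x : ι) {a : ℕ} (ha : 1 ≤ a) :
    mm F x * yy F x ^ a = yy F x ^ a := by
  obtain ⟨b, rfl⟩ := Nat.exists_eq_add_of_le ha
  rw [pow_add, pow_one, ← mul_assoc, mm_mul_yy]

theorem sum_gam (F : Mat ι) (a : ℕ) : ∑ i, gam F a i = ∑ x, mm F x * yy F x ^ a := by
  unfold gam
  rw [sum_comm]
  exact sum_congr rfl fun x _ => by rw [← sum_mul, sum_tt]

theorem sum_gam_pos (F : Mat ι) {a : ℕ} (ha : 1 ≤ a) : ∑ i, gam F a i = Pq F a := by
  rw [sum_gam, Pq_eq]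
  exact sum_congr rfl fun x _ => mm_mul_pow F x ha

theorem tt_add_le (F : Mat ι) (x : ι) {i j : ι} (hij : i ≠ j) : tt F x i + tt F x j ≤ 1 := by
  have h : tt F x i + tt F x j ≤ ∑ k, tt F x k := by
    rw [← sum_pair hij]
    exact sum_le_sum_of_subset_of_nonneg (subset_univ _) fun k _ _ => tt_nonneg F x k
  rw [sum_tt] at h
  exact h.trans (mm_le_one F x)

theorem gam_zero_le (F : Mat ι) (hF : Sy F) (i : ι) : gam F 0 i ≤ rr F i := by
  unfold gam rr
  refine sum_le_sum fun x _ => ?_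
  rw [pow_zero, mul_one, hF i x]
  exact tt_le F x i

theorem tk_two (F : Mat ι) (hF : Sy F) : tk F 2 = ∑ x, rr F x := by
  unfold tk rr
  simp only [trace, Matrix.diag, pow_two, mul_apply]
  exact sum_congr rfl fun x _ => sum_congr rfl fun y _ => by rw [hF y x]

section
variable {U : Finset ι} {F : Mat ι}

theorem rr_off (h : Bas0 U F) {x : ι} (hx : x ∉ U) : rr F x = 0 :=
  sum_eq_zero fun y _ => by rw [h.su x y hx]; ring

theorem yy_off (h : Bas0 U F) {x : ι} (hx : x ∉ U) : yy F x = 0 := by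
  unfold yy; rw [rr_off h hx]; norm_num

theorem mm_off (h : Bas0 U F) {x : ι} (hx : x ∉ U) : mm F x = 0 := by
  unfold mm; rw [rr_off h hx]; norm_num

theorem gam_off (h : Bas0 U F) (a : ℕ) {i : ι} (hi : i ∉ U) : gam F a i = 0 :=
  sum_eq_zero fun x _ => by
    unfold tt; rw [h.sy x i, h.su i x hi]; simp

theorem bx_off (h : Bas0 U F) (i j : ι) {x : ι} (hx : x ∉ U) : bx F i j x = 0 := by
  unfold bx rnew ch1 ch2
  rw [h.su x i hx, h.su x j hx]
  simp

theorem sumU {f : ι → ℝ} (h : ∀ x, x ∉ U → f x = 0) : ∑ x ∈ U, f x = ∑ x, f x :=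
  sum_subset (subset_univ _) fun x _ hx => h x hx

theorem sumU_yy (h : Bas0 U F) {a : ℕ} (ha : 1 ≤ a) : ∑ x ∈ U, yy F x ^ a = Pq F a :=
  sumU fun x hx => by rw [yy_off h hx, zero_pow (by omega)]

theorem sumU_gam (h : Bas0 U F) {a : ℕ} (ha : 1 ≤ a) : ∑ x ∈ U, gam F a x = Pq F a := by
  rw [sumU fun x hx => gam_off h a hx, sum_gam_pos F ha]

theorem sum_mm_le (h : Bas0 U F) : ∑ x, mm F x ≤ min (tk F 2) (U.card : ℝ) := by
  refine le_min ?_ ?_
  · rw [tk_two F h.sy]; exact sum_le_sum fun x _ => mm_le_rr F x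
  · rw [← sumU fun x hx => mm_off h hx]
    calc ∑ x ∈ U, mm F x ≤ ∑ _x ∈ U, (1 : ℝ) := sum_le_sum fun x _ => mm_le_one F x
      _ = U.card := by simp

theorem Pq_one_sq (F : Mat ι) : Pq F 1 ^ 2 ≤ (∑ x, mm F x) * Pq F 2 := by
  have h := sum_mul_sq_le_sq_mul_sq univ (fun x => mm F x) (fun x => yy F x)
  have e : ∑ x, mm F x * yy F x = Pq F 1 := by
    rw [Pq_eq]; exact sum_congr rfl fun x _ => by rw [mm_mul_yy, pow_one]
  rw [e] at h
  refine h.trans (mul_le_mul_of_nonneg_right (sum_le_sum fun x _ => ?_) (Pq_nonneg F 2))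
  have := mm_nonneg F x
  have := mm_le_one F x
  nlinarith

theorem Pq_one_le (h : Bas0 U F) : Pq F 1 ≤ √(U.card * Pq F 2) := by
  refine Real.le_sqrt_of_sq_le ((Pq_one_sq F).trans ?_)
  exact mul_le_mul_of_nonneg_right ((sum_mm_le h).trans (min_le_right _ _)) (Pq_nonneg F 2)

end

/-! ### Parameters -/

section
variable {E : Env ι}

theorem one_le_N (hE : E.Ok) : 1 ≤ E.N := by
  have := hE.u1; have := hE.uN; nlinarith

theorem z_le (hE : E.Ok) : E.z ≤ 1 / 20 := by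
  have h1 := hE.L2; have h2 := hE.zL; have h3 := hE.z0.trans hE.zz
  nlinarith

theorem eta3_mul (hE : E.Ok) : E.eta3 * E.N = E.u * √E.N + E.D := by
  have := one_le_N hE
  unfold Env.eta3; field_simp

theorem one_le_sqrtN (hE : E.Ok) : 1 ≤ √E.N := Real.one_le_sqrt.mpr (one_le_N hE)

theorem thD_le (hE : E.Ok) : 2 * E.th + E.D ≤ 2 * (E.eta3 * E.N) := by
  rw [eta3_mul hE]
  have := one_le_sqrtN hE; have := hE.thu; have := hE.u1; have := hE.D1'
  nlinarith

theorem D1_le (hE : E.Ok) : E.D1 ≤ 2 * E.L * (E.eta3 * E.N) := by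
  rw [eta3_mul hE]
  unfold Env.D1
  have hN := one_le_N hE
  have hL := hE.L2
  have h1 : √(4 * E.L * E.N) ≤ 2 * E.L * √E.N := by
    refine Real.sqrt_le_iff.mpr ⟨by positivity, ?_⟩
    rw [mul_pow, Real.sq_sqrt (by linarith)]
    exact mul_le_mul_of_nonneg_right (by nlinarith) (by linarith)
  have h2 : E.th * √(4 * E.L * E.N) ≤ E.u * (2 * E.L * √E.N) :=
    mul_le_mul hE.thu h1 (Real.sqrt_nonneg _) (by linarith [hE.u1])
  have := hE.D1'
  nlinarith

theorem D1_nonneg (hE : E.Ok) : 0 ≤ E.D1 := by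
  unfold Env.D1
  have := hE.th0; have := hE.D1'
  positivity

theorem eta3_nonneg (hE : E.Ok) : 0 ≤ E.eta3 := by
  unfold Env.eta3
  have := hE.u1; have := hE.D1'; have := one_le_N hE
  positivity

theorem sqrt_le_eta4 (hE : E.Ok) : √(E.N * E.Tf) ≤ E.eta4 * E.N := by
  have hN := one_le_N hE
  have e : E.eta4 * E.N = (E.D + E.Tf + √E.N + E.th * √E.Tf) * E.u + √(E.N * E.Tf) := by
    unfold Env.eta4; field_simp
  rw [e]
  have := hE.th0; have := hE.D1'; have := hE.u1; have := hE.Tf1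
  have : 0 ≤ (E.D + E.Tf + √E.N + E.th * √E.Tf) * E.u := by positivity
  linarith

theorem eta4_nonneg (hE : E.Ok) : 0 ≤ E.eta4 := by
  unfold Env.eta4
  have := hE.th0; have := hE.D1'; have := hE.u1; have := hE.Tf1; have := one_le_N hE
  positivity

variable {F : Mat ι} {ε : ℝ}

theorem rb_le (hE : E.Ok) (hF : Side E F ε) (x : ι) : rb F x ≤ E.L :=
  max_le (hF.ro x) (by linarith [hE.L2])

theorem yy_le (hE : E.Ok) (hF : Side E F ε) (x : ι) : yy F x ≤ E.L := by
  have := rb_le hE hF x; rw [rb_eq] at this; linarith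

theorem Dl_ne (hE : E.Ok) (hF : Side E F ε) {i j : ι} (h : E.p i j ≠ 0) : Dl F i j ≠ 0 := by
  have hz := z_le hE
  have h1 := abs_le.mp ((hF.ad i j h).1.trans hz)
  have h2 := abs_le.mp ((hF.dg i).trans hz)
  have h3 := abs_le.mp ((hF.dg j).trans hz)
  have : 0 < Dl F i j := by unfold Dl; nlinarith
  exact this.ne'

end

/-! ### First-order facts -/

theorem cs_abs {f g : ι → ℝ} {A B c : ℝ} (hf : ∑ x, f x ^ 2 ≤ A) (hg : ∑ x, g x ^ 2 ≤ B)
    (hc : 0 ≤ c) (h : A * B ≤ c ^ 2) : |∑ x, f x * g x| ≤ c := by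
  refine abs_le_of_sq_le_sq ((sum_mul_sq_le_sq_mul_sq univ f g).trans (le_trans ?_ h)) hc
  have h0 : 0 ≤ ∑ x, f x ^ 2 := sum_nonneg fun _ _ => sq_nonneg _
  exact mul_le_mul hf hg (sum_nonneg fun _ _ => sq_nonneg _) (h0.trans hf)

theorem col_sq (F : Mat ι) (hF : Sy F) (x : ι) : ∑ y, F y x ^ 2 = rr F x :=
  sum_congr rfl fun y _ => by rw [hF y x]

theorem cube_eq (F : Mat ι) (hF : Sy F) (x : ι) :
    (F ^ 3) x x = (fun y => F y x) ⬝ᵥ F *ᵥ fun y => F y x := by
  rw [pow_three, mul_apply]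
  simp only [dotProduct, mulVec, mul_apply]
  exact sum_congr rfl fun y _ => by rw [hF x y]

theorem quad_eq (F C : Mat ι) (hF : Sy F) (x : ι) :
    (F ^ 2 * C * F) x x = ∑ a, (F *ᵥ fun y => F y x) a * (C *ᵥ fun y => F y x) a := by
  rw [Matrix.mul_assoc, mul_apply]
  refine sum_congr rfl fun a _ => ?_
  simp only [pow_two, dotProduct, mulVec, mul_apply]
  congr 1
  exact sum_congr rfl fun y _ => by rw [hF x y, hF y a, mul_comm]

section
variable {E : Env ι} {F : Mat ι} {ε : ℝ}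

theorem tk_one_abs (hE : E.Ok) (hF : Side E F ε) : |tk F 1| ≤ √(E.N * E.Tf) := by
  have e : tk F 1 = ∑ x, E.one x * F x x := by
    unfold tk
    simp only [pow_one, trace, Matrix.diag]
    refine sum_congr rfl fun x _ => ?_
    unfold Env.one
    split_ifs with h
    · ring
    · rw [hF.su x x h]; ring
  rw [e]
  have hN := one_le_N hE
  have hT := hE.Tf1
  refine cs_abs (A := E.N) (B := E.Tf) ?_ hF.f2 (Real.sqrt_nonneg _) ?_
  · unfold Env.one Env.N
    simp
  · rw [Real.sq_sqrt (by positivity)]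

theorem cube_abs (hE : E.Ok) (hF : Side E F ε) (x : ι) : |(F ^ 3) x x| ≤ E.u * rr F x := by
  rw [cube_eq F hF.sy]
  have hu := hE.u1
  have hr := rr_nonneg F x
  refine cs_abs (A := rr F x) (B := E.u ^ 2 * rr F x) (col_sq F hF.sy x).le ?_ (by positivity)
    (le_of_eq (by ring))
  have := hF.op fun y => F y x
  rwa [col_sq F hF.sy] at this

theorem tk_cube (hE : E.Ok) (hF : Side E F ε) {K : ℝ} (hK : 0 ≤ K) (hK1 : ε * tk F 1 ≤ K) (x : ι) :
    tk F 1 * (F ^ 3) x x ≤ E.L * (K * E.u + E.eta4 * E.N) := by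
  have h1 := tk_one_abs hE hF
  have h2 := cube_abs hE hF x
  have h3 : -rr F x ≤ ε * (F ^ 3) x x := by
    have := hF.po fun y => F y x
    rwa [col_sq F hF.sy, ← cube_eq F hF.sy] at this
  have h4 := sqrt_le_eta4 hE
  have hr := rr_nonneg F x
  have hL := hF.ro x
  have hu := hE.u1
  have hs := Real.sqrt_nonneg (E.N * E.Tf)
  have he : ε * ε = 1 := by rcases hF.sg with h | h <;> rw [h] <;> norm_num
  have ha : |ε| = 1 := by rcases hF.sg with h | h <;> rw [h] <;> norm_num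
  have e : tk F 1 * (F ^ 3) x x = (ε * tk F 1) * (ε * (F ^ 3) x x) := by
    calc tk F 1 * (F ^ 3) x x = (ε * ε) * (tk F 1 * (F ^ 3) x x) := by rw [he, one_mul]
      _ = _ := by ring
  have h5 : ε * (F ^ 3) x x ≤ E.u * rr F x := by
    refine (le_abs_self _).trans ?_
    rw [abs_mul, ha, one_mul]; exact h2
  have h6 : -(ε * tk F 1) ≤ √(E.N * E.Tf) := by
    refine (neg_le_abs _).trans ?_
    rw [abs_mul, ha, one_mul]; exact h1
  rw [e]
  have hKu : 0 ≤ K * E.u := by positivity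
  have h7 : rr F x * (K * E.u + √(E.N * E.Tf)) ≤ E.L * (K * E.u + E.eta4 * E.N) :=
    mul_le_mul hL (by linarith) (by positivity) (hr.trans hL)
  refine le_trans ?_ h7
  rcases le_total 0 (ε * tk F 1) with h | h
  · have : (ε * tk F 1) * (ε * (F ^ 3) x x) ≤ K * (E.u * rr F x) :=
      (mul_le_mul_of_nonneg_left h5 h).trans
        (mul_le_mul_of_nonneg_right hK1 (by positivity))
    nlinarith [mul_nonneg hr hs]
  · have : (ε * tk F 1) * (ε * (F ^ 3) x x) ≤ √(E.N * E.Tf) * rr F x := by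
      have h8 : (-(ε * tk F 1)) * (-(ε * (F ^ 3) x x)) ≤ (-(ε * tk F 1)) * rr F x :=
        mul_le_mul_of_nonneg_left (by linarith) (by linarith)
      have h9 : (-(ε * tk F 1)) * rr F x ≤ √(E.N * E.Tf) * rr F x :=
        mul_le_mul_of_nonneg_right h6 hr
      nlinarith
    nlinarith [mul_nonneg hr hKu]

theorem quad_abs (hE : E.Ok) (hF : Side E F ε) (x : ι) :
    |(F ^ 2 * E.C * F) x x| ≤ 2 * E.u ^ 2 * E.L := by
  rw [quad_eq F E.C hF.sy]
  have hu := hE.u1
  have hr := rr_nonneg F x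
  have hL := hF.ro x
  have h1 := hF.op fun y => F y x
  have h2 := hE.Co fun y => F y x
  rw [col_sq F hF.sy] at h1 h2
  refine (cs_abs (c := 2 * E.u ^ 2 * rr F x) h1 h2 (by positivity) (le_of_eq (by ring))).trans ?_
  exact mul_le_mul_of_nonneg_left hL (by positivity)

end

/-! ### The skeleton -/

theorem conv3 (q : ℕ) {t₁ t₂ v A B C : ℝ} (h₁ : 0 ≤ t₁) (h₂ : 0 ≤ t₂) (h : t₁ + t₂ ≤ 1)
    (hv : v ≤ (1 - t₁ - t₂) * A + t₁ * B + t₂ * C) :
    max v 0 ^ q ≤ (1 - t₁ - t₂) * max A 0 ^ q + t₁ * max B 0 ^ q + t₂ * max C 0 ^ q := by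
  have h0 : 0 ≤ 1 - t₁ - t₂ := by linarith
  have hm : max v 0 ≤ (1 - t₁ - t₂) * max A 0 + t₁ * max B 0 + t₂ * max C 0 := by
    refine max_le (hv.trans ?_) (by positivity)
    gcongr <;> exact le_max_left _ _
  refine (pow_le_pow_left₀ (le_max_right _ _) hm q).trans ?_
  have := Real.pow_arith_mean_le_arith_mean_pow (univ : Finset (Fin 3)) ![1 - t₁ - t₂, t₁, t₂]
    ![max A 0, max B 0, max C 0]
    (fun i _ => by fin_cases i <;> simp <;> linarith)
    (by simp [Fin.sum_univ_three]; ring)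
    (fun i _ => by fin_cases i <;> simp) q
  simpa [Fin.sum_univ_three] using this

/-- Pointwise bound for one row. -/
theorem point (F : Mat ι) (q : ℕ) {i j : ι} (hij : i ≠ j) (x : ι) {e d R₁ R₂ R₃ H₁ H₂ : ℝ}
    (hR₁ : 0 ≤ R₁) (hR₂ : 0 ≤ R₂) (hR₃ : 0 ≤ R₃)
    (hA : max (yy F x + bx F i j x) 0 ^ q ≤ yy F x ^ q + d + R₁)
    (hB : -d ≤ e * yy F x ^ q + R₂)
    (hC₁ : max (rb F x * rr F j - 1 + bx F i j x) 0 ^ q ≤ H₁ + R₃)
    (hC₂ : max (rb F x * rr F i - 1 + bx F i j x) 0 ^ q ≤ H₂ + R₃) :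
    max (rnew F i j x - 1) 0 ^ q - yy F x ^ q ≤
      d + (R₁ + R₂ + R₃) - (1 - e) * (tt F x i * yy F x ^ q + tt F x j * yy F x ^ q)
        + (tt F x i * H₁ + tt F x j * H₂) := by
  have h₁ := tt_nonneg F x i
  have h₂ := tt_nonneg F x j
  have h := tt_add_le F x hij
  have hv : rnew F i j x - 1 ≤ (1 - tt F x i - tt F x j) * (yy F x + bx F i j x)
      + tt F x i * (rb F x * rr F j - 1 + bx F i j x)
      + tt F x j * (rb F x * rr F i - 1 + bx F i j x) := by
    have e1 : rnew F i j x = bx F i j x + rr F x + F x i ^ 2 * (rr F j - 1)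
        + F x j ^ 2 * (rr F i - 1) := by unfold bx; ring
    have e2 : yy F x = rb F x - 1 := by rw [rb_eq]; ring
    rw [e1, e2, ← tt_mul_rb, ← tt_mul_rb]
    nlinarith [rr_le_rb F x]
  have hc := conv3 q h₁ h₂ h hv
  have a1 := mul_le_mul_of_nonneg_left hA (show 0 ≤ 1 - tt F x i - tt F x j by linarith)
  have a2 := mul_le_mul_of_nonneg_left hC₁ h₁
  have a3 := mul_le_mul_of_nonneg_left hC₂ h₂
  have a4 := mul_le_mul_of_nonneg_left hB (add_nonneg h₁ h₂)
  have a5 := mul_le_mul_of_nonneg_right h hR₂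
  have a6 := mul_le_mul_of_nonneg_right h hR₃
  have a7 := mul_nonneg (add_nonneg h₁ h₂) hR₁
  nlinarith

theorem Pq_step (hAlg : AlgStmt) (F : Mat ι) (hF : Sy F) {i j : ι} (hij : i ≠ j)
    (hD : Dl F i j ≠ 0) {q : ℕ} (hq : 1 ≤ q) :
    Pq (step F i j) q = ∑ x, max (rnew F i j x - 1) 0 ^ q
      - max (rnew F i j i - 1) 0 ^ q - max (rnew F i j j - 1) 0 ^ q := by
  obtain ⟨-, -, -, -, h1, h2, h3⟩ := hAlg ι F i j hF hij hD
  have e : ∀ x, max (rr (step F i j) x - 1) 0 ^ q = max (rnew F i j x - 1) 0 ^ q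
      - (if x = i then max (rnew F i j i - 1) 0 ^ q else 0)
      - (if x = j then max (rnew F i j j - 1) 0 ^ q else 0) := by
    intro x
    by_cases hi : x = i
    · subst hi
      rw [h2, if_pos rfl, if_neg hij]
      norm_num
      omega
    · by_cases hj : x = j
      · subst hj
        rw [h3, if_pos rfl, if_neg hi]
        norm_num
        omega
      · rw [h1 x hi hj, if_neg hi, if_neg hj]; ring
  unfold Pq
  simp only [e, sum_sub_distrib, sum_ite_eq', mem_univ, if_true]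

section
variable {E : Env ι} {F : Mat ι} {ε : ℝ}

theorem av_cross (hAvg : AvgStmt) (hE : E.Ok) (hF : Side E F ε) {a b : ℕ} (ha : 1 ≤ a)
    (hb : 1 ≤ b) : E.av (fun i j => gam F a i * yy F j ^ b) ≤ 2 * (Pq F a * Pq F b) := by
  obtain ⟨-, -, -, -, -, -, -, -, -, -, h11, -⟩ := hAvg ι E hE
  refine (h11 _ fun i j => mul_nonneg (gam_nonneg F a i) (pow_nonneg (yy_nonneg F j) b)).trans
    (le_of_eq ?_)
  rw [← sum_mul_sum, sumU_gam hF.toBas0 ha, sumU_yy hF.toBas0 hb]

theorem skel (hAlg : AlgStmt) (hAvg : AvgStmt) (hE : E.Ok) (hF : Side E F ε) {q : ℕ} (hq : 1 ≤ q)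
    {e : ℝ} (he0 : 0 ≤ e) (he1 : e ≤ 1) (w : ι → ℝ) (R : ι → ι → ι → ℝ) (R' T : ι → ι → ℝ)
    (h1 : ∀ i j, E.p i j ≠ 0 → ∀ x, max (rnew F i j x - 1) 0 ^ q - yy F x ^ q ≤
      w x * bx F i j x + R x i j - (1 - e) * (tt F x i * yy F x ^ q + tt F x j * yy F x ^ q)
        + (tt F x i * ((1 + e) * (mm F j * yy F x ^ q + yy F j ^ q + T x j))
          + tt F x j * ((1 + e) * (mm F i * yy F x ^ q + yy F i ^ q + T x i))))
    (h2 : ∀ i j, E.p i j ≠ 0 → (1 - e) * (yy F i ^ q + yy F j ^ q) - R' i j ≤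
      max (rnew F i j i - 1) 0 ^ q + max (rnew F i j j - 1) 0 ^ q) :
    E.av (fun i j => Pq (step F i j) q - Pq F q) ≤
      ∑ x, w x * E.av (fun i j => bx F i j x) + ∑ x, E.av (R x) + E.av R'
        + 2 * (1 + e) * E.av (fun i j => ∑ x, tt F x i * T x j)
        + (4 * (∑ x, mm F x) - 4 * E.N + 8 * e * E.N + 16 * E.L ^ 2 * (E.eta3 * E.N)) * Pq F q := by
  obtain ⟨-, a2, a3, -, -, a6, -, -, -, -, -, a12, -, a14, -⟩ := hAvg ι E hE
  have hP := Pq_nonneg F q
  have hb := hF.toBas0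
  have hL := hE.L2
  set S : ι → ι → ℝ := fun i j => ∑ x, tt F x i * T x j with hS
  have key : E.av (fun i j => Pq (step F i j) q - Pq F q) ≤ E.av (fun i j =>
      (∑ x, w x * bx F i j x + ∑ x, R x i j + R' i j)
        - (1 - e) * ((gam F q i + gam F q j) + (yy F i ^ q + yy F j ^ q))
        + (1 + e) * ((gam F q i * mm F j + gam F q j * mm F i)
          + (yy F j ^ q * gam F 0 i + yy F i ^ q * gam F 0 j) + (S i j + S j i))) := by
    refine a12 _ _ fun i j hp => ?_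
    obtain ⟨-, -, hij⟩ := a14 i j hp
    rw [Pq_step hAlg F hb.sy hij (Dl_ne hE hF hp) hq, Pq_eq]
    have s1 := sum_le_sum fun x (_ : x ∈ univ) => h1 i j hp x
    have s2 := h2 i j hp
    have e1 : ∑ x, (w x * bx F i j x + R x i j
        - (1 - e) * (tt F x i * yy F x ^ q + tt F x j * yy F x ^ q)
        + (tt F x i * ((1 + e) * (mm F j * yy F x ^ q + yy F j ^ q + T x j))
          + tt F x j * ((1 + e) * (mm F i * yy F x ^ q + yy F i ^ q + T x i)))) =
        ∑ x, w x * bx F i j x + ∑ x, R x i j - (1 - e) * (gam F q i + gam F q j)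
        + (1 + e) * ((gam F q i * mm F j + gam F q j * mm F i)
          + (yy F j ^ q * gam F 0 i + yy F i ^ q * gam F 0 j) + (S i j + S j i)) := by
      simp only [hS, gam, mul_add, mul_sum, sum_mul, ← sum_add_distrib, ← sum_sub_distrib]
      exact sum_congr rfl fun x _ => by ring
    rw [e1, sum_sub_distrib] at s1
    linarith
  refine key.trans ?_
  simp only [av_add, av_sub, av_smul, av_sum]
  have b1 : E.av (fun i j => gam F q j) = E.av (fun i j => gam F q i) := by rw [a3]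
  have b2 : E.av (fun i j => yy F j ^ q) = E.av (fun i j => yy F i ^ q) := by rw [a3]
  have b3 : E.av (fun i j => gam F q j * mm F i) = E.av (fun i j => gam F q i * mm F j) := by
    rw [a3]
  have b4 : E.av (fun i j => yy F j ^ q * gam F 0 i) = E.av (fun i j => yy F i ^ q * gam F 0 j) := by
    rw [a3]
  have b5 : E.av (fun i j => S j i) = E.av S := by rw [a3]
  rw [b1, b2, b3, b4, b5]
  have c1 := (abs_le.mp (a2 (gam F q))).1
  rw [sumU_gam hb hq, sum_congr rfl fun x _ => abs_of_nonneg (gam_nonneg F q x),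
    sum_gam_pos F hq] at c1
  have c2 := (abs_le.mp (a2 fun x => yy F x ^ q)).1
  rw [sumU_yy hb hq, sum_congr rfl fun x _ => abs_of_nonneg (pow_nonneg (yy_nonneg F x) q),
    ← Pq_eq] at c2
  have c3 := (abs_le.mp (a6 (gam F q) (mm F) 1 fun x => by
    rw [abs_of_nonneg (mm_nonneg F x)]; exact mm_le_one F x)).2
  rw [sumU_gam hb hq, sum_congr rfl fun x _ => abs_of_nonneg (gam_nonneg F q x),
    sum_gam_pos F hq, sumU fun x hx => mm_off hb hx] at c3
  have c4 := (abs_le.mp (a6 (fun x => yy F x ^ q) (gam F 0) E.L fun x => by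
    rw [abs_of_nonneg (gam_nonneg F 0 x)]; exact (gam_zero_le F hb.sy x).trans (hF.ro x))).2
  rw [sumU_yy hb hq, sum_congr rfl fun x _ => abs_of_nonneg (pow_nonneg (yy_nonneg F x) q),
    ← Pq_eq, sumU fun x hx => gam_off hb 0 hx, sum_gam] at c4
  simp only [pow_zero, mul_one] at c3 c4
  have hM : ∑ x, mm F x ≤ E.N := (sum_mm_le hb).trans (min_le_right _ _)
  have hM0 : 0 ≤ ∑ x, mm F x := sum_nonneg fun x _ => mm_nonneg F x
  have d1 := thD_le hE
  have d2 := D1_le hE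
  have d3 := D1_nonneg hE
  have hη : 0 ≤ E.eta3 * E.N := mul_nonneg (eta3_nonneg hE) (by linarith [one_le_N hE])
  set η := E.eta3 * E.N
  set M := ∑ x, mm F x
  set P := Pq F q
  set A1 := E.av (fun i j => gam F q i)
  set A2 := E.av (fun i j => yy F i ^ q)
  set A3 := E.av (fun i j => gam F q i * mm F j)
  set A4 := E.av (fun i j => yy F i ^ q * gam F 0 j)
  have f1 : (1 - e) * (2 * (E.N * P) - 4 * η * P) ≤ (1 - e) * (A1 + A2) :=
    mul_le_mul_of_nonneg_left (by nlinarith) (by linarith)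
  have f2 : (1 + e) * (A3 + A4) ≤ (1 + e) * (2 * (M * P) + 3 * E.L ^ 2 * η * P) := by
    refine mul_le_mul_of_nonneg_left ?_ (by linarith)
    have g1 : E.D1 * (1 + E.L) ≤ 3 * E.L ^ 2 * η := by
      have : E.D1 * (1 + E.L) ≤ 2 * E.L * η * (1 + E.L) :=
        mul_le_mul_of_nonneg_right d2 (by linarith)
      have h' : 0 ≤ E.L * η := by positivity
      nlinarith
    nlinarith
  have f3 : e * (M * P) ≤ e * (E.N * P) :=
    mul_le_mul_of_nonneg_left (mul_le_mul_of_nonneg_right hM hP) he0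
  have f4 : e * (E.L ^ 2 * η * P) ≤ E.L ^ 2 * η * P :=
    mul_le_of_le_one_left (by positivity) he1
  have f5 : 0 ≤ e * (η * P) := by positivity
  have f6 : 4 * (η * P) ≤ E.L ^ 2 * (η * P) :=
    mul_le_mul_of_nonneg_right (by nlinarith) (by positivity)
  have e2 : ∑ x, E.av (fun i j => w x * bx F i j x) = ∑ x, w x * E.av (fun i j => bx F i j x) :=
    sum_congr rfl fun x _ => av_smul E _ _
  have e3 : ∑ x, E.av (fun i j => tt F x i * T x j) = E.av S := (av_sum E _).symm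
  nlinarith

end

end Crest.Agent.R62.PL
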