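import Crest.Agent.R62.Aux26
import Crest.Agent.R62.PLib

/-! Row 62, task F2: drift of the sum of squared diagonal entries. -/

set_option autoImplicit false
set_option linter.unusedSectionVars false

namespace Crest.Agent.R62

open Matrix Finset

namespace F2

open A26

theorem sq_split (s t e : ℝ) (he : 0 < e) : (s + t) ^ 2 ≤ (1 + e) * s ^ 2 + (1 + 1 / e) * t ^ 2 := by
  have h : 0 ≤ (e * s - t) ^ 2 / e := by positivity
  have e1 : (e * s - t) ^ 2 / e = e * s ^ 2 + 1 / e * t ^ 2 - 2 * s * t := by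
    field_simp
    ring
  rw [e1] at h
  nlinarith

theorem dsq {a b α k φ ψ z e : ℝ} (hz : z ≤ 1 / 20) (ha : |a| ≤ z) (hb : |b| ≤ z) (hα : |α| ≤ 2)
    (hk : |k - 1| ≤ 4 * z) (he : 0 < e) (he1 : e ≤ 1) :
    (2 * α * φ * ψ + k * (b * φ ^ 2 + a * ψ ^ 2)) ^ 2 ≤
      (1 + (e + 18 * z)) * (b ^ 2 * φ ^ 4 + a ^ 2 * ψ ^ 4) + 36 / e * (φ ^ 2 * ψ ^ 2) := by
  have hz0 : 0 ≤ z := (abs_nonneg _).trans ha
  have h1 := sq_split (k * (b * φ ^ 2 + a * ψ ^ 2)) (2 * α * φ * ψ) e he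
  rw [add_comm (2 * α * φ * ψ)]
  refine h1.trans ?_
  have hk2 : k ^ 2 ≤ 1 + 9 * z := by
    obtain ⟨k1, k2⟩ := abs_le.1 hk
    nlinarith
  have hα2 : α ^ 2 ≤ 4 := by
    obtain ⟨k1, k2⟩ := abs_le.1 hα
    nlinarith
  have hab : 2 * (a * b) ≤ 1 := by
    have := abs_mul_le ha hb
    have := le_abs_self (a * b)
    nlinarith
  set w := φ ^ 2 * ψ ^ 2 with hw
  have hw0 : 0 ≤ w := by positivity
  set m := b ^ 2 * φ ^ 4 + a ^ 2 * ψ ^ 4 with hm
  have hm0 : 0 ≤ m := by positivity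
  have e1 : (k * (b * φ ^ 2 + a * ψ ^ 2)) ^ 2 = k ^ 2 * (m + 2 * (a * b) * w) := by
    rw [hm, hw]; ring
  have e2 : (2 * α * φ * ψ) ^ 2 = 4 * α ^ 2 * w := by rw [hw]; ring
  rw [e1, e2]
  have h2 : m + 2 * (a * b) * w ≤ m + w := by nlinarith
  have h3 : k ^ 2 * (m + 2 * (a * b) * w) ≤ (1 + 9 * z) * (m + w) :=
    (mul_le_mul_of_nonneg_left h2 (sq_nonneg k)).trans
      (mul_le_mul_of_nonneg_right hk2 (by positivity))
  have hi : 1 ≤ 1 / e := by rw [le_div_iff₀ he]; linarith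
  have h4 : (1 + e) * (1 + 9 * z) ≤ 1 + (e + 18 * z) := by nlinarith
  have h5 : (1 + e) * (k ^ 2 * (m + 2 * (a * b) * w)) ≤ (1 + (e + 18 * z)) * (m + w) := by
    refine (mul_le_mul_of_nonneg_left h3 (by linarith)).trans ?_
    rw [← mul_assoc]
    exact mul_le_mul_of_nonneg_right h4 (by positivity)
  have h6 : (1 + 1 / e) * (4 * α ^ 2 * w) ≤ (2 * (1 / e)) * (16 * w) :=
    mul_le_mul (by linarith) (by nlinarith) (by positivity) (by positivity)
  have h7 : (1 + (e + 18 * z)) * w ≤ (4 * (1 / e)) * w :=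
    mul_le_mul_of_nonneg_right (by linarith) hw0
  have e3 : 36 / e * w = (2 * (1 / e)) * (16 * w) + (4 * (1 / e)) * w := by ring
  rw [e3]
  nlinarith

theorem rem {a b c α k z : ℝ} (hz : z ≤ 1 / 20) (ha : |a| ≤ z) (hb : |b| ≤ z) (hc : |c| ≤ z)
    (hα : |α| ≤ 2) (hk : |k| ≤ 2) :
    (1 - 10 * z) * a ^ 2 ≤ (a + (2 * α * a * c + k * (b * a ^ 2 + a * c ^ 2))) ^ 2 := by
  have hz0 : 0 ≤ z := (abs_nonneg _).trans ha
  have e1 : (a + (2 * α * a * c + k * (b * a ^ 2 + a * c ^ 2))) ^ 2 =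
      (1 + (2 * (α * c) + k * (b * a + c * c))) ^ 2 * a ^ 2 := by ring
  rw [e1]
  refine mul_le_mul_of_nonneg_right ?_ (sq_nonneg a)
  have h1 := abs_mul_le hα hc
  have h2 := abs_mul_le hk (abs_add_le' (abs_mul_le hb ha) (abs_mul_le hc hc))
  have h3 := (abs_le.1 h1).1
  have h4 := (abs_le.1 h2).1
  set t := 2 * (α * c) + k * (b * a + c * c)
  have h5 : -(5 * z) ≤ t := by nlinarith
  nlinarith [sq_nonneg t]

variable {ι : Type} [Fintype ι] [DecidableEq ι]

noncomputable def dl (F : Mat ι) (i j x : ι) : ℝ :=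
  2 * al F i j * F x i * F x j + 1 / Dl F i j * (F j j * F x i ^ 2 + F i i * F x j ^ 2)

def gg (F : Mat ι) (i : ι) : ℝ := ∑ x, F x x * F x i ^ 2

theorem anchor : True := by
  have := @dl.eq_1
  have := @gg.eq_1
  trivial

theorem fq_step (F : Mat ι) {i j : ι} (hij : i ≠ j) :
    fq (step F i j) 2 = ∑ x, (F x x + dl F i j x) ^ 2 - (F i i + dl F i j i) ^ 2
      - (F j j + dl F i j j) ^ 2 := by
  have e : ∀ x, step F i j x x ^ 2 = (F x x + dl F i j x) ^ 2
      - (if x = i then (F x x + dl F i j x) ^ 2 else 0)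
      - (if x = j then (F x x + dl F i j x) ^ 2 else 0) := by
    intro x
    simp only [step, Matrix.of_apply]
    by_cases h1 : x = i
    · have h2 : x ≠ j := fun h => hij (h1.symm.trans h)
      simp [h1, hij]
    · by_cases h2 : x = j
      · simp [h2, hij.symm]
      · rw [if_neg (by tauto), if_neg h1, if_neg h2]
        unfold wf dl al
        ring
  unfold fq
  simp only [e, sum_sub_distrib, sum_ite_eq', mem_univ, if_true]

variable {E : Env ι} {F : Mat ι} {ε : ℝ}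

theorem col (hF : Side E F ε) (x : ι) : ∑ y, F y x ^ 2 = rr F x := PL.col_sq F hF.sy x

theorem quart (hF : Side E F ε) (i : ι) : ∑ x, F x i ^ 4 ≤ rr F i ^ 2 := by
  rw [sq, ← col hF i, sum_mul]
  refine sum_le_sum fun x _ => ?_
  have h1 : F x i ^ 2 ≤ ∑ y, F y i ^ 2 :=
    single_le_sum (f := fun y => F y i ^ 2) (fun _ _ => sq_nonneg _) (mem_univ x)
  calc F x i ^ 4 = F x i ^ 2 * F x i ^ 2 := by ring
    _ ≤ _ := mul_le_mul_of_nonneg_left h1 (sq_nonneg _)

/-- the nonnegative error term -/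
noncomputable def Y (E : Env ι) (F : Mat ι) (e : ℝ) (i j : ι) : ℝ :=
  4 * E.z * gg F i ^ 2 + 4 * E.z * gg F j ^ 2
    + (14 * E.z + (e + 18 * E.z) * E.L ^ 2) * F i i ^ 2
    + (14 * E.z + (e + 18 * E.z) * E.L ^ 2) * F j j ^ 2
    + 36 / e * ∑ x, F x i ^ 2 * F x j ^ 2

theorem anchor2 : True := by
  have := @Y.eq_1
  trivial

theorem point (h : E.Ok) (hF : Side E F ε) {e : ℝ} (he : 0 < e) (he1 : e ≤ 1) {i j : ι}
    (hp : E.p i j ≠ 0) :
    fq (step F i j) 2 - fq F 2 ≤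
      (∑ x, 4 * F x x * (al F i j * (F x i * F x j)))
        + 2 * (gg F i * F j j) + 2 * (gg F j * F i i)
        + F i i ^ 2 * rr F j ^ 2 + F j j ^ 2 * rr F i ^ 2
        - F i i ^ 2 - F j j ^ 2 + Y E F e i j := by
  obtain ⟨-, -, hij⟩ := AVG.p_supp h hp
  obtain ⟨-, -, -, -, -, hk, -, hα, hk2⟩ := pt h hF hp
  have hz := z20 h
  have hz0 := z0 h
  have ha := hF.dg i
  have hb := hF.dg j
  have hc := (hF.ad i j hp).1
  have hk4 : |1 / Dl F i j - 1| ≤ 4 * E.z := by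
    have : |F i i| * |F j j| ≤ E.z * (1 / 20) :=
      mul_le_mul ha (hb.trans hz) (abs_nonneg _) hz0
    linarith
  rw [fq_step F hij]
  have r1 : (1 - 10 * E.z) * F i i ^ 2 ≤ (F i i + dl F i j i) ^ 2 := rem hz ha hb hc hα hk2
  have r2 : (1 - 10 * E.z) * F j j ^ 2 ≤ (F j j + dl F i j j) ^ 2 := by
    have := rem hz hb ha hc hα hk2
    refine this.trans (le_of_eq ?_)
    unfold dl
    rw [hF.sy j i]
    ring
  have s1 : ∑ x, (F x x + dl F i j x) ^ 2 = fq F 2
      + (∑ x, 4 * F x x * (al F i j * (F x i * F x j)))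
      + 2 * (1 / Dl F i j) * (gg F i * F j j + gg F j * F i i) + ∑ x, dl F i j x ^ 2 := by
    unfold fq gg
    simp only [sum_mul, mul_sum, ← sum_add_distrib]
    refine sum_congr rfl fun x _ => ?_
    unfold dl
    ring
  have s2 : ∑ x, dl F i j x ^ 2 ≤
      (1 + (e + 18 * E.z)) * (F j j ^ 2 * rr F i ^ 2 + F i i ^ 2 * rr F j ^ 2)
        + 36 / e * ∑ x, F x i ^ 2 * F x j ^ 2 := by
    refine (sum_le_sum fun x _ => dsq (φ := F x i) (ψ := F x j) hz ha hb hα hk4 he he1).trans ?_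
    rw [sum_add_distrib, ← mul_sum, ← mul_sum, sum_add_distrib, ← mul_sum, ← mul_sum]
    refine add_le_add (mul_le_mul_of_nonneg_left (add_le_add ?_ ?_) (by positivity)) le_rfl
    · exact mul_le_mul_of_nonneg_left (quart hF i) (sq_nonneg _)
    · exact mul_le_mul_of_nonneg_left (quart hF j) (sq_nonneg _)
  have rsq : ∀ x, rr F x ^ 2 ≤ E.L ^ 2 := fun x =>
    pow_le_pow_left₀ (rr_nonneg F x) (hF.ro x) 2
  have s3 : (e + 18 * E.z) * (F j j ^ 2 * rr F i ^ 2 + F i i ^ 2 * rr F j ^ 2) ≤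
      (e + 18 * E.z) * (F j j ^ 2 * E.L ^ 2 + F i i ^ 2 * E.L ^ 2) :=
    mul_le_mul_of_nonneg_left (add_le_add (mul_le_mul_of_nonneg_left (rsq i) (sq_nonneg _))
      (mul_le_mul_of_nonneg_left (rsq j) (sq_nonneg _))) (by positivity)
  have s4 : (1 / Dl F i j - 1) * (gg F i * F j j + gg F j * F i i) ≤
      4 * E.z * ((gg F i ^ 2 + F j j ^ 2) / 2 + (gg F j ^ 2 + F i i ^ 2) / 2) := by
    refine (le_abs_self _).trans (abs_mul_le hk4 (abs_add_le' ?_ ?_))
    · rw [abs_mul]; exact amgm1 _ _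
    · rw [abs_mul]; exact amgm1 _ _
  rw [s1]
  unfold Y
  nlinarith

theorem f_U (hF : Side E F ε) : ∑ x ∈ E.U, F x x ^ 2 = fq F 2 :=
  sum_subset (subset_univ _) fun x _ hx => by rw [hF.su x x hx]; simp

theorem f0 (F : Mat ι) : 0 ≤ fq F 2 := sum_nonneg fun _ _ => sq_nonneg _

theorem R_le (hF : Side E F ε) : ∑ x, rr F x ^ 2 ≤ E.L * tk F 2 := by
  rw [← sum_rr hF, mul_sum]
  refine sum_le_sum fun x _ => ?_
  rw [sq]
  exact mul_le_mul_of_nonneg_right (hF.ro x) (rr_nonneg F x)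

theorem gsq (h : E.Ok) (hF : Side E F ε) : ∑ i, gg F i ^ 2 ≤ E.L ^ 2 * fq F 2 := by
  have hL := L1 h
  have h1 : ∀ i, gg F i ^ 2 ≤ E.L * ∑ x, F x x ^ 2 * F x i ^ 2 := by
    intro i
    have := sum_mul_sq_le_sq_mul_sq univ (fun x => F x x * F x i) (fun x => F x i)
    have e1 : gg F i = ∑ x, F x x * F x i * F x i := sum_congr rfl fun x _ => by ring
    rw [e1]
    refine this.trans ?_
    rw [col hF i, mul_comm]
    simp only [mul_pow]
    exact mul_le_mul_of_nonneg_right (hF.ro i) (sum_nonneg fun _ _ => by positivity)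
  refine (sum_le_sum fun i _ => h1 i).trans ?_
  rw [← mul_sum, sum_comm, sq E.L, mul_assoc]
  refine mul_le_mul_of_nonneg_left ?_ (by linarith)
  unfold fq
  rw [mul_sum]
  refine sum_le_sum fun x _ => ?_
  rw [← mul_sum, mul_comm]
  exact mul_le_mul_of_nonneg_right (hF.ro x) (sq_nonneg _)

theorem S2_phi (_hF : Side E F ε) (x : ι) :
    S2 E (fun i j => F x i ^ 2 * F x j ^ 2) ≤ rr F x ^ 2 := by
  rw [S2_prod (fun i => F x i ^ 2) (fun i => F x i ^ 2), sq (rr F x)]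
  have h1 : ∑ y ∈ E.U, F x y ^ 2 ≤ rr F x := sum_U_le fun _ => sq_nonneg _
  exact mul_le_mul h1 h1 (sum_nonneg fun _ _ => sq_nonneg _) (rr_nonneg F x)

theorem avY (h : E.Ok) (hF : Side E F ε) {e : ℝ} (he : 0 < e) :
    E.av (Y E F e) ≤ 16 * E.z * (E.L ^ 2 * (E.N * E.Tf))
      + 4 * (14 * E.z + (e + 18 * E.z) * E.L ^ 2) * (E.N * E.Tf) + 72 * E.L * (tk F 2 / e) := by
  have hz0 := z0 h
  have hN := N1 h
  refine (av_le h (Y := Y E F e) (fun i j => ?_) fun _ _ _ => le_rfl).trans ?_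
  · unfold Y
    have : 0 ≤ ∑ x, F x i ^ 2 * F x j ^ 2 := sum_nonneg fun _ _ => by positivity
    positivity
  have g1 : S2 E (fun i _ => gg F i ^ 2) ≤ E.L ^ 2 * (E.N * E.Tf) := by
    rw [S2_left]
    have := (sum_U_le (U := E.U) fun i => sq_nonneg (gg F i)).trans ((gsq h hF).trans
      (mul_le_mul_of_nonneg_left hF.f2 (sq_nonneg _)))
    calc _ ≤ E.N * (E.L ^ 2 * E.Tf) := mul_le_mul_of_nonneg_left this (by linarith)
      _ = _ := by ring
  have g2 : S2 E (fun _ j => gg F j ^ 2) ≤ E.L ^ 2 * (E.N * E.Tf) := by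
    rw [← S2_swap]; exact g1
  have g3 : S2 E (fun i j => ∑ x, F x i ^ 2 * F x j ^ 2) ≤ E.L * tk F 2 := by
    refine le_trans ?_ (R_le hF)
    refine le_trans (le_of_eq ?_) (sum_le_sum fun x _ => S2_phi hF x)
    unfold S2
    rw [sum_comm (s := univ)]
    exact sum_congr rfl fun i _ => sum_comm
  have e1 : S2 E (Y E F e) = 4 * E.z * S2 E (fun i _ => gg F i ^ 2)
      + 4 * E.z * S2 E (fun _ j => gg F j ^ 2)
      + (14 * E.z + (e + 18 * E.z) * E.L ^ 2) * S2 E (fun i _ => F i i ^ 2)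
      + (14 * E.z + (e + 18 * E.z) * E.L ^ 2) * S2 E (fun _ j => F j j ^ 2)
      + 36 / e * S2 E (fun i j => ∑ x, F x i ^ 2 * F x j ^ 2) := by
    simp only [← S2_mul, ← S2_add]
    rfl
  rw [e1]
  have c1 : 0 ≤ 4 * E.z := by positivity
  have c2 : 0 ≤ 14 * E.z + (e + 18 * E.z) * E.L ^ 2 := by positivity
  have c3 : 0 ≤ 36 / e := by positivity
  have b1 := mul_le_mul_of_nonneg_left g1 c1
  have b2 := mul_le_mul_of_nonneg_left g2 c1
  have b3 := mul_le_mul_of_nonneg_left (S2_aa h hF) c2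
  have b4 := mul_le_mul_of_nonneg_left (S2_bb h hF) c2
  have b5 := mul_le_mul_of_nonneg_left g3 c3
  have e2 : 72 * E.L * (tk F 2 / e) = 2 * (36 / e * (E.L * tk F 2)) := by ring
  rw [e2]
  linarith

theorem av_phi (h : E.Ok) (hF : Side E F ε) (x : ι) :
    |E.av (fun i j => al F i j * (F x i * F x j))| ≤
      7 * E.L ^ 2 * (E.th * E.u + E.D + √E.N + E.Tf) := by
  have hL := L1 h
  have hN := N1 h
  have hs := sqrt1 h
  have hss := sqrt_sq h
  have hth := h.th0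
  have hu := h.u1
  have hD := h.D1'
  have hT := h.Tf1
  have hr := hF.ro x
  have hr0 := rr_nonneg F x
  have htu : 0 ≤ E.th * E.u := by positivity
  have e1 : E.av (fun i j => al F i j * (F x i * F x j)) =
      E.av (fun i j => F x i * F x j) + E.av (fun i j => (al F i j - 1) * (F x i * F x j)) := by
    rw [← av_add]
    congr 1
    funext i j
    ring
  have h4 := (AVG_proof ι E h).2.2.2.1 (fun i => F x i) (fun i => F x i)
  have hsum : |∑ y ∈ E.U, F x y| ≤ 1 := by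
    by_cases hx : x ∈ E.U
    · rw [sum_subset (subset_univ _) fun y _ hy => by rw [hF.sy x y, hF.su y x hy], hF.on x hx]
      simp
    · rw [sum_eq_zero fun y _ => hF.su x y hx]
      simp
  have b1 : |E.av (fun i j => F x i * F x j)| ≤ 1 + (2 * E.th * E.u + E.D) * E.L := by
    have e2 : (2 * E.th * E.u + E.D) * √(∑ y, F x y ^ 2) * √(∑ y, F x y ^ 2) =
        (2 * E.th * E.u + E.D) * rr F x := by
      rw [mul_assoc]
      exact congrArg _ (Real.mul_self_sqrt hr0)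
    rw [e2] at h4
    have h5 := abs_mul_le hsum hsum
    have h6 : (2 * E.th * E.u + E.D) * rr F x ≤ (2 * E.th * E.u + E.D) * E.L :=
      mul_le_mul_of_nonneg_left hr (by positivity)
    have := abs_add_le' h4 h5
    rw [sub_add_cancel] at this
    linarith
  have b2 : |E.av (fun i j => (al F i j - 1) * (F x i * F x j))| ≤
      2 * S2 E (fun i j => (1 / √E.N) * F i j ^ 2 + √E.N * (F x i ^ 2 * F x j ^ 2)
        + F i i ^ 2 * F x j ^ 2 + F x i ^ 2 * F j j ^ 2) := by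
    refine av_abs h (fun i j => by positivity) fun i j hp => ?_
    obtain ⟨-, -, -, -, hα, -⟩ := pt h hF hp
    refine (abs_mul_le hα le_rfl).trans ?_
    have a1 := amgm (F i j) (F x i * F x j) (1 / √E.N) (by positivity)
    have a2 := amgm1 (F i i * F x j) (F x i * F j j)
    have e3 : (F x i * F x j) ^ 2 / (1 / √E.N) = √E.N * (F x i ^ 2 * F x j ^ 2) := by
      field_simp
    rw [e3] at a1
    have e4 : |F i i * F x j| * |F x i * F j j| = |F i i| * |F j j| * |F x i * F x j| := by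
      simp only [abs_mul]; ring
    rw [e4, mul_pow, mul_pow] at a2
    linarith
  have hφ : ∑ y ∈ E.U, F x y ^ 2 ≤ E.L := (sum_U_le fun _ => sq_nonneg _).trans hr
  have c1 : S2 E (fun i j => F i i ^ 2 * F x j ^ 2) ≤ E.Tf * E.L := by
    rw [S2_prod (fun i => F i i ^ 2) (fun j => F x j ^ 2)]
    exact mul_le_mul (sum_ff hF) hφ (sum_nonneg fun _ _ => sq_nonneg _) (by linarith)
  have c2 : S2 E (fun i j => F x i ^ 2 * F j j ^ 2) ≤ E.L * E.Tf := by
    rw [S2_prod (fun j => F x j ^ 2) (fun i => F i i ^ 2)]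
    exact mul_le_mul hφ (sum_ff hF) (sum_nonneg fun _ _ => sq_nonneg _) (by linarith)
  have c3 : 1 / √E.N * S2 E (fun i j => F i j ^ 2) ≤ E.L * √E.N := by
    have := (S2_cc hF).trans (Q_le hF)
    rw [one_div, inv_mul_le_iff₀ (by linarith)]
    calc _ ≤ E.L * E.N := this
      _ = E.L * (√E.N * √E.N) := by rw [hss]
      _ = _ := by ring
  have c4 : √E.N * S2 E (fun i j => F x i ^ 2 * F x j ^ 2) ≤ √E.N * E.L ^ 2 :=
    mul_le_mul_of_nonneg_left ((S2_phi hF x).trans (pow_le_pow_left₀ hr0 hr 2)) (by linarith)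
  rw [S2_add, S2_add, S2_add, S2_mul, S2_mul] at b2
  rw [e1]
  refine (abs_add_le' b1 b2).trans ?_
  have hLL : E.L ≤ E.L ^ 2 := by nlinarith
  have d1 : (2 * E.th * E.u + E.D) * E.L ≤ (2 * E.th * E.u + E.D) * E.L ^ 2 :=
    mul_le_mul_of_nonneg_left hLL (by positivity)
  have d2 : E.L * √E.N ≤ E.L ^ 2 * √E.N := mul_le_mul_of_nonneg_right hLL (by linarith)
  have d3 : E.L * E.Tf ≤ E.L ^ 2 * E.Tf := mul_le_mul_of_nonneg_right hLL (by linarith)
  have d4 : 1 ≤ E.L ^ 2 * E.D := by nlinarith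
  have d5 : 0 ≤ E.L ^ 2 * (E.th * E.u) := by positivity
  have d6 : 0 ≤ E.L ^ 2 * √E.N := by positivity
  have d7 : 0 ≤ E.L ^ 2 * E.Tf := by positivity
  nlinarith

theorem main (h : E.Ok) (hF : Side E F ε) {e : ℝ} (he : 0 < e) (he1 : e ≤ 1) :
    E.av (fun i j => fq (step F i j) 2 - fq F 2) ≤
      (2 * ∑ x, rr F x ^ 2 - 2 * E.N) * fq F 2 + 4 * |tk F 1| * √(fq F 2) * √(∑ x, rr F x ^ 2)
        + 256 * E.L ^ 3 * ((e + E.z + E.eta) * E.N * E.Tf + tk F 2 / e
          + √(E.N * E.Tf) * (E.th * E.u + E.D + √E.N + E.Tf)) := by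
  have hL := L1 h
  have hN := N1 h
  have hs := sqrt1 h
  have hth := h.th0
  have hu := h.u1
  have hD := h.D1'
  have hT := h.Tf1
  have hz0 := z0 h
  have hf0 := f0 F
  have hf := hF.f2
  have hQ := Q0 hF
  obtain ⟨-, a2, -, -, -, a6, a7, -⟩ := AVG_proof ι E h
  set κ := E.th * E.u + E.D + √E.N + E.Tf with hκ
  have htu : 0 ≤ E.th * E.u := by positivity
  have hκ0 : 0 ≤ κ := by positivity
  have hη : E.eta * E.N = κ * E.u := by
    unfold Env.eta
    field_simp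
    rfl
  have hη0 : 0 ≤ E.eta * E.N := by rw [hη]; positivity
  have hD1 : E.D1 ≤ 2 * E.L * (E.eta * E.N) := by
    refine (PL.D1_le h).trans (mul_le_mul_of_nonneg_left ?_ (by linarith))
    rw [PL.eta3_mul h, hη, hκ]
    nlinarith
  have hD10 := PL.D1_nonneg h
  have hthD : 2 * E.th + E.D ≤ 2 * (E.eta * E.N) := by
    rw [hη, hκ]
    have : E.th ≤ E.th * E.u := by nlinarith
    have : κ ≤ κ * E.u := by nlinarith
    rw [← hκ]
    linarith
  refine (AVG.av_mono h _ _ fun i j hp => point h hF he he1 hp).trans ?_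
  rw [av_add, av_sub, av_sub, av_add, av_add, av_add, av_add, av_mul, av_mul,
    PL.av_sum E (fun x i j => 4 * F x x * (al F i j * (F x i * F x j))),
    av_swap h (fun i j => gg F i * F j j), av_swap h (fun i j => F i i ^ 2 * rr F j ^ 2),
    av_swap h (fun i _ => F i i ^ 2)]
  -- term A
  have tA : ∑ x, E.av (fun i j => 4 * F x x * (al F i j * (F x i * F x j))) ≤
      28 * E.L ^ 2 * (√(E.N * E.Tf) * κ) := by
    have h1 : ∀ x, E.av (fun i j => 4 * F x x * (al F i j * (F x i * F x j))) ≤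
        |F x x| * (28 * E.L ^ 2 * κ) := by
      intro x
      rw [av_mul]
      have := abs_mul_le (le_refl |F x x|) (av_phi h hF x)
      have h2 := le_abs_self (F x x * E.av fun i j => al F i j * (F x i * F x j))
      rw [← hκ] at this
      nlinarith
    refine (sum_le_sum fun x _ => h1 x).trans ?_
    rw [← sum_mul, ← sum_subset (subset_univ E.U) fun x _ hx => by rw [hF.su x x hx]; simp]
    calc _ ≤ √(E.N * E.Tf) * (28 * E.L ^ 2 * κ) :=
          mul_le_mul_of_nonneg_right (sum_abs_f hF) (by positivity)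
      _ = _ := by ring
  -- term B
  have tB : E.av (fun i j => gg F i * F j j) ≤
      |tk F 1| * √(fq F 2) * √(∑ x, rr F x ^ 2) + 2 * E.L ^ 2 * (E.eta * E.N * E.Tf) := by
    have h1 := a7 (gg F) (fun x => F x x)
    rw [tk1_U hF] at h1
    have h2 : |∑ x ∈ E.U, gg F x| ≤ √(fq F 2) * √(∑ x, rr F x ^ 2) := by
      have e1 : ∑ i ∈ E.U, gg F i = ∑ x, F x x * rr F x := by
        rw [sum_subset (f := gg F) (subset_univ E.U) fun i _ hi => sum_eq_zero fun x _ => by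
          rw [hF.sy x i, hF.su i x hi]; simp]
        unfold gg rr
        rw [sum_comm]
        exact sum_congr rfl fun x _ => by rw [mul_sum]
      rw [e1]
      refine PL.cs_abs (A := fq F 2) (B := ∑ x, rr F x ^ 2) le_rfl le_rfl (by positivity) ?_
      rw [mul_pow, Real.sq_sqrt hf0, Real.sq_sqrt (sum_nonneg fun _ _ => sq_nonneg _)]
    have h3 : √(∑ x, gg F x ^ 2) * √(∑ x, F x x ^ 2) ≤ E.L * E.Tf := by
      rw [← Real.sqrt_mul (sum_nonneg fun _ _ => sq_nonneg _)]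
      refine Real.sqrt_le_iff.2 ⟨by positivity, ?_⟩
      have := (gsq h hF).trans (mul_le_mul_of_nonneg_left hf (sq_nonneg _))
      calc _ ≤ (E.L ^ 2 * E.Tf) * E.Tf := mul_le_mul this hf hf0 (by positivity)
        _ = _ := by ring
    have h4 : E.D1 * √(∑ x, gg F x ^ 2) * √(∑ x, F x x ^ 2) ≤
        (2 * E.L * (E.eta * E.N)) * (E.L * E.Tf) := by
      rw [mul_assoc]
      exact mul_le_mul hD1 h3 (by positivity) (by positivity)
    have h5 := abs_mul_le h2 (le_refl |tk F 1|)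
    have h6 := (abs_le.1 h1).2
    have h7 := le_abs_self ((∑ x ∈ E.U, gg F x) * tk F 1)
    nlinarith
  -- term C
  have tC : E.av (fun i j => F i i ^ 2 * rr F j ^ 2) ≤
      fq F 2 * ∑ x, rr F x ^ 2 + 2 * E.L ^ 3 * (E.eta * E.N * E.Tf) := by
    have h1 := a6 (fun x => F x x ^ 2) (fun x => rr F x ^ 2) (E.L ^ 2) fun j => by
      rw [abs_of_nonneg (sq_nonneg _)]
      exact pow_le_pow_left₀ (rr_nonneg F j) (hF.ro j) 2
    simp only [abs_of_nonneg (sq_nonneg (F _ _))] at h1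
    rw [f_U hF] at h1
    have h2 : fq F 2 * ∑ x ∈ E.U, rr F x ^ 2 ≤ fq F 2 * ∑ x, rr F x ^ 2 :=
      mul_le_mul_of_nonneg_left (sum_U_le fun _ => sq_nonneg _) hf0
    have h3 : (∑ x, F x x ^ 2) * (E.D1 * E.L ^ 2) ≤ E.Tf * (2 * E.L * (E.eta * E.N) * E.L ^ 2) :=
      mul_le_mul hf (mul_le_mul_of_nonneg_right hD1 (sq_nonneg _)) (by positivity) (by linarith)
    have h6 := (abs_le.1 h1).2
    nlinarith
  -- term E
  have tE : E.N * fq F 2 - 2 * (E.eta * E.N * E.Tf) ≤ E.av (fun i _ => F i i ^ 2) := by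
    have h1 := a2 (fun x => F x x ^ 2)
    simp only [abs_of_nonneg (sq_nonneg (F _ _))] at h1
    rw [f_U hF] at h1
    have h3 : (2 * E.th + E.D) * ∑ x, F x x ^ 2 ≤ 2 * (E.eta * E.N) * E.Tf :=
      mul_le_mul hthD hf hf0 (by positivity)
    have h6 := (abs_le.1 h1).1
    nlinarith
  have tY := avY h hF he
  set A1 := e * (E.N * E.Tf) with hA1
  set A2 := E.z * (E.N * E.Tf) with hA2
  set A3 := E.eta * E.N * E.Tf with hA3
  set A4 := tk F 2 / e with hA4
  set A5 := √(E.N * E.Tf) * κ with hA5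
  have p1 : 0 ≤ A1 := by positivity
  have p2 : 0 ≤ A2 := by positivity
  have p3 : 0 ≤ A3 := mul_nonneg hη0 (by linarith)
  have p4 : 0 ≤ A4 := by positivity
  have p5 : 0 ≤ A5 := by positivity
  have l1 : 1 ≤ E.L ^ 3 := one_le_pow₀ hL
  have l2 : E.L ≤ E.L ^ 3 := by nlinarith
  have l3 : E.L ^ 2 ≤ E.L ^ 3 := pow_le_pow_right₀ hL (by norm_num)
  have e1 : (e + E.z + E.eta) * E.N * E.Tf = A1 + A2 + A3 := by rw [hA1, hA2, hA3]; ring
  have e2 : 16 * E.z * (E.L ^ 2 * (E.N * E.Tf))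
      + 4 * (14 * E.z + (e + 18 * E.z) * E.L ^ 2) * (E.N * E.Tf) =
      88 * (E.L ^ 2 * A2) + 56 * A2 + 4 * (E.L ^ 2 * A1) := by rw [hA1, hA2]; ring
  rw [e1]
  rw [e2] at tY
  have q1 := mul_le_mul_of_nonneg_right l3 p1
  have q2 := mul_le_mul_of_nonneg_right l3 p2
  have q2' := mul_le_mul_of_nonneg_right l1 p2
  have q3 := mul_le_mul_of_nonneg_right l3 p3
  have q3' := mul_le_mul_of_nonneg_right l1 p3
  have q4 := mul_le_mul_of_nonneg_right l2 p4
  have q5 := mul_le_mul_of_nonneg_right l3 p5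
  have r1 : 0 ≤ E.L ^ 3 * A1 := by positivity
  have r2 : 0 ≤ E.L ^ 3 * A2 := by positivity
  have r3 : 0 ≤ E.L ^ 3 * A3 := by positivity
  have r4 : 0 ≤ E.L ^ 3 * A4 := by positivity
  have r5 : 0 ≤ E.L ^ 3 * A5 := by positivity
  linarith

end F2

theorem F2_proof (_hAvg : AvgStmt) : F2Stmt := by
  refine ⟨11, fun L Λ hΛ ι _ _ E F ε e hL h hF he he1 => ?_⟩
  refine (F2.main h hF he he1).trans ?_
  subst hL
  have h1 := A26.pow_ge h.L2 8 3
  have h2 : 256 * E.L ^ 3 ≤ Λ := by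
    refine le_trans ?_ hΛ
    norm_num at h1 ⊢
    exact h1
  have hz := A26.z0 h
  have hN := A26.N1 h
  have hT := h.Tf1
  have hth := h.th0
  have hu := h.u1
  have hD := h.D1'
  have hQ := A26.Q0 hF
  have hη : 0 ≤ E.eta := by
    unfold Env.eta
    positivity
  exact add_le_add le_rfl (mul_le_mul_of_nonneg_right h2 (by positivity))

end Crest.Agent.R62
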