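import Crest.Agent.R62.F8a

set_option autoImplicit false
set_option linter.unusedSectionVars false

namespace Crest.Agent.R62

open Matrix Finset

namespace F8

variable {ι : Type} [Fintype ι] [DecidableEq ι]

theorem av_add (E : Env ι) (X Y : ι → ι → ℝ) :
    E.av (fun i j => X i j + Y i j) = E.av X + E.av Y := by
  simp [Env.av, mul_add, Finset.sum_add_distrib]

theorem av_sub (E : Env ι) (X Y : ι → ι → ℝ) :
    E.av (fun i j => X i j - Y i j) = E.av X - E.av Y := by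
  simp [Env.av, mul_sub, Finset.sum_sub_distrib]

theorem av_mul (E : Env ι) (c : ℝ) (X : ι → ι → ℝ) :
    E.av (fun i j => c * X i j) = c * E.av X := by
  simp only [Env.av, Finset.mul_sum]
  exact Finset.sum_congr rfl fun i _ => Finset.sum_congr rfl fun j _ => by ring

theorem av_sum (E : Env ι) (X : ι → ι → ι → ℝ) :
    E.av (fun i j => ∑ x, X x i j) = ∑ x, E.av (X x) := by
  simp only [Env.av, Finset.mul_sum]
  rw [Finset.sum_comm' (t' := Finset.univ) (s' := fun _ => Finset.univ) (by simp)]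
  conv_rhs => rw [Finset.sum_comm]
  rw [Finset.sum_comm]
  refine Finset.sum_congr rfl fun i _ => ?_
  rw [Finset.sum_comm]

theorem sum_le_split (i j : ι) (hij : i ≠ j) (f g : ι → ℝ) (A B : ℝ) (hi : f i ≤ g i + A)
    (hj : f j ≤ g j + B) (h : ∀ x, x ≠ i → x ≠ j → f x ≤ g x) :
    ∑ x, f x ≤ ∑ x, g x + A + B := by
  have : ∀ x, f x ≤ g x + (if x = i then A else 0) + (if x = j then B else 0) := by
    intro x
    by_cases hxi : x = i
    · subst hxi; simpa [hij] using hi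
    by_cases hxj : x = j
    · subst hxj; simpa [hxi] using hj
    · simpa [hxi, hxj] using h x hxi hxj
  refine (Finset.sum_le_sum fun x _ => this x).trans ?_
  simp [Finset.sum_add_distrib]

theorem sq_le_rr (F : Mat ι) (x y : ι) : F x y ^ 2 ≤ rr F x :=
  Finset.single_le_sum (f := fun y => F x y ^ 2) (fun _ _ => sq_nonneg _) (Finset.mem_univ y)

theorem rr_nonneg (F : Mat ι) (x : ι) : 0 ≤ rr F x := Finset.sum_nonneg fun _ _ => sq_nonneg _

theorem pow_le_rr (F : Mat ι) (x : ι) (m : ℕ) :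
    ∑ y, F x y ^ (2 * (m + 1)) ≤ rr F x ^ (m + 1) := by
  rw [pow_succ (rr F x), rr, Finset.mul_sum]
  refine Finset.sum_le_sum fun y _ => ?_
  rw [pow_mul, pow_succ]
  have := sq_le_rr F x y
  unfold rr at this
  gcongr

theorem sumU_le (U : Finset ι) (f : ι → ℝ) (h : ∀ x, 0 ≤ f x) : ∑ x ∈ U, f x ≤ ∑ x, f x :=
  Finset.sum_le_sum_of_subset_of_nonneg (Finset.subset_univ _) fun x _ _ => h x

theorem sumU_eq (U : Finset ι) (f : ι → ℝ) (h : ∀ x, x ∉ U → f x = 0) :
    ∑ x ∈ U, f x = ∑ x, f x :=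
  Finset.sum_subset (Finset.subset_univ _) fun x _ hx => h x hx

theorem step_pt (F : Mat ι) (h : Sy F) (i j : ι) (hij : i ≠ j) (z z' e : ℝ)
    (hd : ∀ x, |F x x| ≤ z) (hc : |F i j| ≤ z) (hp : ∀ x, |F x i * F x j| ≤ z') (hz : z ≤ 1 / 20)
    (hz' : z' ≤ z) (he : 0 < e) (he1 : e ≤ 1) :
    fq (step F i j) 8 - fq F 8 ≤
      ∑ x, (8 * F x x ^ 7 * dl (F i i) (F j j) (F i j) (F x i) (F x j)
        + rem (F i i) (F j j) (F x x) (F x i) (F x j) z z' e)
      + (40 * z - 1) * F i i ^ 8 + (40 * z - 1) * F j j ^ 8 := by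
  have z0 : 0 ≤ z := (abs_nonneg _).trans hc
  have z0' : 0 ≤ z' := (abs_nonneg _).trans (hp i)
  unfold fq
  rw [← Finset.sum_sub_distrib]
  refine sum_le_split i j hij _ _ _ _ ?_ ?_ ?_
  · have h1 := corr (F i i) (F j j) (F i j) z (hd i) (hd j) hc hz
    have h2 := rem_nonneg (F i i) (F j j) (F i i) (F i i) (F i j) z z' e z0 z0' he
    have : step F i j i i = 0 := by simp [step]
    rw [this]
    linarith
  · have h1 := corr (F j j) (F i i) (F i j) z (hd j) (hd i) hc hz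
    have h2 := rem_nonneg (F i i) (F j j) (F j j) (F j i) (F j j) z z' e z0 z0' he
    have : step F i j j j = 0 := by simp [step]
    rw [this, dl_swap (F i i), h j i]
    rw [h j i] at h2
    linarith
  · intro x hxi hxj
    have : step F i j x x = F x x + dl (F i i) (F j j) (F i j) (F x i) (F x j) := by
      simp [step, hxi, hxj, wf, dl, Dl]
    rw [this]
    exact pt _ _ _ _ _ _ z z' e (hd i) (hd j) hc (hd x) hz (hp x) hz' he he1

end F8

set_option maxHeartbeats 4000000 in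
open F8 in
theorem F8_proof (hA : AvgStmt) : F8Stmt := by
  refine ⟨60, ?_⟩
  intro L Λ hΛ ι _ _ E F ε e hL hE hS he he1
  subst hL
  obtain ⟨-, a2, a3, a4, -, a6, -, -, -, -, a11, a12, a13, a14, -⟩ := hA ι E hE
  have L2 := hE.L2
  have u1 := hE.u1
  have th0 := hE.th0
  have thu := hE.thu
  have D1' := hE.D1'
  have Tf1 := hE.Tf1
  have TfN := hE.TfN
  have z0' := hE.z0
  have zz := hE.zz
  have z0 : 0 ≤ E.z := z0'.trans zz
  have hz : E.z ≤ 1 / 20 := by have := hE.zL; nlinarith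
  have N1 : 1 ≤ E.N := by have := hE.uN; nlinarith
  have N0 : 0 < E.N := by linarith
  have sN1 : 1 ≤ √E.N := Real.one_le_sqrt.2 N1
  have sNN : √E.N * √E.N = E.N := Real.mul_self_sqrt N0.le
  have hsy := hS.sy
  have hsu := hS.su
  have hprod : ∀ (α β : ι → ℝ) (A B : ℝ), (∀ x, 0 ≤ α x) → (∀ x, 0 ≤ β x) →
      ∑ x ∈ E.U, α x ≤ A → ∑ x ∈ E.U, β x ≤ B → E.av (fun i j => α i * β j) ≤ 2 * (A * B) := by
    intro α β A B h1 h2 h3 h4
    refine (a11 _ fun i j => mul_nonneg (h1 i) (h2 j)).trans ?_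
    rw [← Finset.sum_mul_sum]
    have : 0 ≤ ∑ x ∈ E.U, β x := Finset.sum_nonneg fun x _ => h2 x
    have : 0 ≤ ∑ x ∈ E.U, α x := Finset.sum_nonneg fun x _ => h1 x
    gcongr
    linarith
  have hpw : ∀ x m, ∑ y ∈ E.U, F x y ^ (2 * (m + 1)) ≤ E.L ^ (m + 1) := by
    intro x m
    refine (sumU_le _ _ fun y => by rw [pow_mul]; positivity).trans ((pow_le_rr F x m).trans ?_)
    exact pow_le_pow_left₀ (rr_nonneg F x) (hS.ro x) _
  have hp2 : ∀ x, ∑ y ∈ E.U, F x y ^ 2 ≤ E.L := fun x => by simpa using hpw x 0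
  have hp4 : ∀ x, ∑ y ∈ E.U, F x y ^ 4 ≤ E.L ^ 2 := fun x => hpw x 1
  have hp14 : ∀ x, ∑ y ∈ E.U, F x y ^ 14 ≤ E.L ^ 7 := fun x => hpw x 6
  have hf2 : ∑ y ∈ E.U, F y y ^ 2 ≤ E.Tf := (sumU_le _ _ fun y => sq_nonneg _).trans hS.f2
  set η := E.etaf with hη
  have hηN : η * E.N = E.th * E.u + E.D + √E.N + √(E.N * E.Tf) := by
    rw [hη, Env.etaf]; field_simp
  have η0 : 0 ≤ η := by rw [hη, Env.etaf]; positivity
  have thu0 : 0 ≤ E.th * E.u := by positivity
  have hS1 : ∑ y ∈ E.U, |F y y| ≤ √(E.N * E.Tf) := by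
    apply Real.le_sqrt_of_sq_le
    refine sq_sum_le_card_mul_sum_sq.trans ?_
    simp only [sq_abs]
    exact mul_le_mul_of_nonneg_left hf2 (Nat.cast_nonneg _)
  have hTf : E.Tf ≤ √(E.N * E.Tf) := by
    apply Real.le_sqrt_of_sq_le; nlinarith only [Tf1, TfN]
  have hS1' : ∑ y, |F y y| ≤ η * E.N := by
    rw [← sumU_eq E.U _ fun x hx => by simp [hsu x x hx]]
    linarith
  have hTη : E.Tf ≤ η ^ 2 * E.N := by
    have h1 : √(E.N * E.Tf) ≤ η * E.N := by linarith
    have h2 : E.N * E.Tf ≤ (η * E.N) ^ 2 := by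
      rw [← Real.sq_sqrt (by positivity : 0 ≤ E.N * E.Tf)]
      gcongr
    have h3 : E.N * E.Tf ≤ E.N * (η ^ 2 * E.N) := by linarith only [h2]
    exact le_of_mul_le_mul_left h3 N0
  have hQ : ∑ i ∈ E.U, ∑ j ∈ E.U, F i j ^ 2 ≤ E.L * E.N := by
    refine (Finset.sum_le_sum fun i _ => hp2 i).trans ?_
    simp [Env.N, mul_comm]
  -- (A1)
  have A1 : ∀ x, |E.av (fun i j => dl (F i i) (F j j) (F i j) (F x i) (F x j))| ≤
      16 * E.L ^ 2 * (η * E.N) := by
    intro x
    have e1 : E.av (fun i j => dl (F i i) (F j j) (F i j) (F x i) (F x j)) =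
        2 * E.av (fun i j => F x i * F x j) +
          E.av (fun i j => dl (F i i) (F j j) (F i j) (F x i) (F x j) - 2 * (F x i * F x j)) := by
      rw [av_sub, av_mul]; ring
    have b1 := a4 (F x) (F x)
    have s1 : |∑ y ∈ E.U, F x y| ≤ 1 := by
      by_cases hx : x ∈ E.U
      · rw [sumU_eq E.U _ fun y hy => by rw [hsy x y, hsu y x hy], hS.on x hx]; simp
      · simp [hsu x _ hx]
    have s2 : |(∑ y ∈ E.U, F x y) * ∑ y ∈ E.U, F x y| ≤ 1 := by
      rw [abs_mul]; have := abs_nonneg (∑ y ∈ E.U, F x y); nlinarith only [this, s1]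
    rw [mul_assoc, Real.mul_self_sqrt (Finset.sum_nonneg fun _ _ => sq_nonneg _)] at b1
    have b2 : |E.av (fun i j => F x i * F x j)| ≤ 1 + (2 * E.th * E.u + E.D) * E.L := by
      have := abs_add_le (E.av (fun i j => F x i * F x j) - (∑ y ∈ E.U, F x y) * ∑ y ∈ E.U, F x y)
        ((∑ y ∈ E.U, F x y) * ∑ y ∈ E.U, F x y)
      rw [sub_add_cancel] at this
      have h3 : (2 * E.th * E.u + E.D) * ∑ y, F x y ^ 2 ≤ (2 * E.th * E.u + E.D) * E.L :=
        mul_le_mul_of_nonneg_left (hS.ro x) (by positivity)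
      linarith only [this, h3, b1, s2]
    have b3 := a13 (fun i j => dl (F i i) (F j j) (F i j) (F x i) (F x j) - 2 * (F x i * F x j))
      (fun i j => 4 / √E.N * F i j ^ 2 + 4 * √E.N * (F x i ^ 2 * F x j ^ 2)
        + 2 * (F i i ^ 2 * F x j ^ 2) + 2 * (F x i ^ 2 * F j j ^ 2)
        + 2 * (F x i ^ 2 * |F j j|) + 2 * (|F i i| * F x j ^ 2)) (by
      intro i j hp
      refine (dl_first _ _ _ _ _ E.z (hS.dg i) (hS.dg j) (hS.ad i j hp).1 hz).trans ?_
      have c1 : |F i j| * |F x i * F x j| ≤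
          1 / √E.N * F i j ^ 2 + √E.N * (F x i ^ 2 * F x j ^ 2) := by
        rw [← mul_pow, ← sq_abs (F i j), ← sq_abs (F x i * F x j)]
        generalize |F i j| = A
        generalize |F x i * F x j| = B
        have t0 : 0 < √E.N := by linarith
        have : 1 / √E.N * A ^ 2 + √E.N * B ^ 2 - A * B =
          ((A - √E.N * B / 2) ^ 2 + 3 / 4 * (√E.N * B) ^ 2) / √E.N := by field_simp; ring
        have : 0 ≤ ((A - √E.N * B / 2) ^ 2 + 3 / 4 * (√E.N * B) ^ 2) / √E.N := by positivity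
        linarith
      have c2 : 2 * (|F i i * F j j| * |F x i * F x j|) ≤
          F i i ^ 2 * F x j ^ 2 + F x i ^ 2 * F j j ^ 2 := by
        rw [← abs_mul, show F i i * F j j * (F x i * F x j) = (F i i * F x j) * (F x i * F j j) by
          ring, abs_mul, ← mul_pow, ← mul_pow, ← sq_abs (F i i * F x j), ← sq_abs (F x i * F j j)]
        nlinarith only [sq_nonneg (|F i i * F x j| - |F x i * F j j|)]
      have : 4 / √E.N * F i j ^ 2 = 4 * (1 / √E.N * F i j ^ 2) := by ring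
      linarith only [this, c1, c2])
    simp only [av_add, av_mul] at b3
    have d1 : E.av (fun i j => F i j ^ 2) ≤ 2 * (E.L * E.N) :=
      (a11 _ fun i j => sq_nonneg _).trans (by linarith)
    have d2 := hprod (fun i => F x i ^ 2) (fun i => F x i ^ 2) _ _ (fun _ => sq_nonneg _)
      (fun _ => sq_nonneg _) (hp2 x) (hp2 x)
    have d3 := hprod (fun i => F i i ^ 2) (fun i => F x i ^ 2) _ _ (fun _ => sq_nonneg _)
      (fun _ => sq_nonneg _) hf2 (hp2 x)
    have d4 := hprod (fun i => F x i ^ 2) (fun i => F i i ^ 2) _ _ (fun _ => sq_nonneg _)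
      (fun _ => sq_nonneg _) (hp2 x) hf2
    have d5 := hprod (fun i => F x i ^ 2) (fun i => |F i i|) _ _ (fun _ => sq_nonneg _)
      (fun _ => abs_nonneg _) (hp2 x) hS1
    have d6 := hprod (fun i => |F i i|) (fun i => F x i ^ 2) _ _ (fun _ => abs_nonneg _)
      (fun _ => sq_nonneg _) hS1 (hp2 x)
    have d1' : 4 / √E.N * E.av (fun i j => F i j ^ 2) ≤ 8 * E.L * √E.N := by
      calc _ ≤ 4 / √E.N * (2 * (E.L * E.N)) := by gcongr
        _ = 4 / √E.N * (2 * (E.L * (√E.N * √E.N))) := by rw [sNN]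
        _ = _ := by field_simp; ring
    have d2' : 4 * √E.N * E.av (fun i j => F x i ^ 2 * F x j ^ 2) ≤
        4 * √E.N * (2 * (E.L * E.L)) := by gcongr
    rw [e1, hηN]
    refine (abs_add_le _ _).trans ?_
    rw [abs_mul, abs_two]
    have q0 : 0 ≤ √(E.N * E.Tf) := Real.sqrt_nonneg _
    have q1 : E.L ≤ E.L ^ 2 := by nlinarith only [L2]
    have q2 : E.L * √E.N ≤ E.L ^ 2 * √E.N := by gcongr
    have q3 : E.L * √(E.N * E.Tf) ≤ E.L ^ 2 * √(E.N * E.Tf) := by gcongr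
    have q4 : E.Tf * E.L ≤ √(E.N * E.Tf) * E.L := by gcongr
    have q5 : E.L * (E.th * E.u) ≤ E.L ^ 2 * (E.th * E.u) := by gcongr
    have q6 : E.L * E.D ≤ E.L ^ 2 * E.D := by gcongr
    have q7 : 1 ≤ E.L ^ 2 * E.D := by nlinarith only [L2, D1', q1]
    have q8 : 0 ≤ E.L ^ 2 * (E.th * E.u) := by positivity
    linarith only [q2, q3, q4, q5, q6, q7, q8, d1', d2', d3, d4, d5, d6, b2, b3]
  set f8 := fq F 8 with hf8
  have f80 : 0 ≤ f8 := Finset.sum_nonneg fun x _ => by positivity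
  have f8U : ∑ x ∈ E.U, F x x ^ 8 = f8 := sumU_eq _ _ fun x hx => by simp [hsu x x hx]
  set f7 := ∑ x, |F x x| ^ 7 with hf7
  have f70 : 0 ≤ f7 := Finset.sum_nonneg fun x _ => by positivity
  set R := η ^ 6 / e ^ 5 * E.Tf + e * f8 with hR
  have hR7 : η * f7 ≤ R := by
    rw [hf7, Finset.mul_sum]
    refine (Finset.sum_le_sum fun x _ => int7 (F x x) η e η0 he).trans ?_
    rw [Finset.sum_add_distrib, ← Finset.mul_sum, ← Finset.mul_sum]
    have := hS.f2
    unfold fq at this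
    exact add_le_add (by gcongr) le_rfl
  have hR6 : η ^ 2 * ∑ x, F x x ^ 6 ≤ R := by
    rw [Finset.mul_sum]
    refine (Finset.sum_le_sum fun x _ => int6 (F x x) η e η0 he he1).trans ?_
    rw [Finset.sum_add_distrib, ← Finset.mul_sum, ← Finset.mul_sum]
    have := hS.f2
    unfold fq at this
    exact add_le_add (by gcongr) le_rfl
  -- first order
  have B1 : ∑ x, 8 * F x x ^ 7 * E.av (fun i j => dl (F i i) (F j j) (F i j) (F x i) (F x j)) ≤
      128 * E.L ^ 2 * E.N * R := by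
    calc _ ≤ ∑ x, 128 * E.L ^ 2 * E.N * η * |F x x| ^ 7 := by
          refine Finset.sum_le_sum fun x _ => (le_abs_self _).trans ?_
          rw [abs_mul, abs_mul, abs_pow, abs_of_pos (by norm_num : (0 : ℝ) < 8)]
          calc _ ≤ 8 * |F x x| ^ 7 * (16 * E.L ^ 2 * (η * E.N)) := by gcongr; exact A1 x
            _ = _ := by ring
      _ = 128 * E.L ^ 2 * E.N * (η * f7) := by rw [← Finset.mul_sum]; ring
      _ ≤ _ := by gcongr
  have B2 : ∑ x, F x x ^ 6 * E.av (fun i j => F x i ^ 2 * F x j ^ 2 + F j j ^ 2 * F x i ^ 4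
      + F i i ^ 2 * F x j ^ 4) ≤ 6 * E.L ^ 2 * E.N * R := by
    calc _ ≤ ∑ x, F x x ^ 6 * (6 * E.L ^ 2 * (η ^ 2 * E.N)) := by
          refine Finset.sum_le_sum fun x _ => mul_le_mul_of_nonneg_left ?_ (by positivity)
          simp only [av_add]
          have d2 := hprod (fun i => F x i ^ 2) (fun i => F x i ^ 2) _ _ (fun _ => sq_nonneg _)
            (fun _ => sq_nonneg _) (hp2 x) (hp2 x)
          have d3 := hprod (fun i => F i i ^ 2) (fun i => F x i ^ 4) _ _ (fun _ => sq_nonneg _)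
            (fun _ => by positivity) hf2 (hp4 x)
          have d4 := hprod (fun i => F x i ^ 4) (fun i => F i i ^ 2) _ _ (fun _ => by positivity)
            (fun _ => sq_nonneg _) (hp4 x) hf2
          simp only [mul_comm (F x _ ^ 4)] at d4
          have q1 : E.L ^ 2 * E.Tf ≤ E.L ^ 2 * (η ^ 2 * E.N) := by gcongr
          have q2 : E.L ^ 2 * 1 ≤ E.L ^ 2 * E.Tf := by gcongr
          linarith only [q1, q2, d2, d3, d4]
      _ = 6 * E.L ^ 2 * E.N * (η ^ 2 * ∑ x, F x x ^ 6) := by rw [← Finset.sum_mul]; ring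
      _ ≤ _ := by gcongr
  have B3 : ∑ x, |F x x| * E.av (fun i j => |F j j| ^ 7 * F x i ^ 14 + |F i i| ^ 7 * F x j ^ 14)
      ≤ 4 * E.L ^ 7 * E.N * R := by
    have h7 : ∑ x ∈ E.U, |F x x| ^ 7 ≤ f7 := sumU_le _ _ fun x => by positivity
    calc _ ≤ ∑ x, |F x x| * (4 * E.L ^ 7 * f7) := by
          refine Finset.sum_le_sum fun x _ => mul_le_mul_of_nonneg_left ?_ (by positivity)
          simp only [av_add]
          have d3 := hprod (fun i => |F i i| ^ 7) (fun i => F x i ^ 14) _ _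
            (fun _ => by positivity) (fun _ => by positivity) h7 (hp14 x)
          have d4 := hprod (fun i => F x i ^ 14) (fun i => |F i i| ^ 7) _ _
            (fun _ => by positivity) (fun _ => by positivity) (hp14 x) h7
          simp only [mul_comm (F x _ ^ 14)] at d4
          linarith only [d3, d4]
      _ = (∑ x, |F x x|) * (4 * E.L ^ 7 * f7) := by rw [← Finset.sum_mul]
      _ ≤ (η * E.N) * (4 * E.L ^ 7 * f7) := by gcongr
      _ = 4 * E.L ^ 7 * E.N * (η * f7) := by ring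
      _ ≤ _ := by gcongr
  have B4 : ∑ x, E.av (fun i j => F x i ^ 2 * F x j ^ 2) ≤ 2 * E.L ^ 2 * E.N := by
    rw [← sumU_eq E.U _ fun x hx => by simp [hsu x _ hx, Env.av]]
    calc _ ≤ ∑ x ∈ E.U, 2 * (E.L * E.L) := Finset.sum_le_sum fun x _ =>
          hprod (fun i => F x i ^ 2) (fun i => F x i ^ 2) _ _ (fun _ => sq_nonneg _)
            (fun _ => sq_nonneg _) (hp2 x) (hp2 x)
      _ = _ := by simp [Env.N]; ring
  set η3 := E.eta3 with hη3
  have hη3N : η3 * E.N = E.u * √E.N + E.D := by rw [hη3, Env.eta3]; field_simp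
  have η30 : 0 ≤ η3 := by rw [hη3, Env.eta3]; positivity
  set π := √(Pq F 2 / E.N) with hπ
  have π0 : 0 ≤ π := Real.sqrt_nonneg _
  have hD1 : E.D1 ≤ 2 * E.L * (η3 * E.N) := by
    have h1 : √(4 * E.L * E.N) ≤ 2 * E.L * √E.N := by
      rw [Real.sqrt_le_left (by positivity)]
      have : (2 * E.L * √E.N) ^ 2 = 4 * E.L ^ 2 * (√E.N * √E.N) := by ring
      rw [this, sNN]
      have : E.L ≤ E.L ^ 2 := by nlinarith only [L2]
      gcongr
    have h2 : E.th * √(4 * E.L * E.N) ≤ E.u * (2 * E.L * √E.N) := by gcongr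
    rw [hη3N, Env.D1]
    have : 1 * E.D ≤ 2 * E.L * E.D := by gcongr; linarith only [L2]
    linarith only [this, h2]
  have B5 : E.av (fun i j => F i i ^ 8 * ∑ x, F x j ^ 16) ≤
      f8 * (E.N + 8 * E.L ^ 7 * (π * E.N) + 2 * E.L ^ 9 * (η3 * E.N)) := by
    have g1 : ∀ j, ∑ x, F x j ^ 16 ≤ rr F j ^ 8 := by
      intro j
      simp only [fun x => hsy x j]
      exact pow_le_rr F j 7
    have g0 : ∀ j, 0 ≤ ∑ x, F x j ^ 16 := fun j => Finset.sum_nonneg fun x _ => by positivity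
    have b := a6 (fun i => F i i ^ 8) (fun j => ∑ x, F x j ^ 16) (E.L ^ 8) (by
      intro j
      rw [abs_of_nonneg (g0 j)]
      exact (g1 j).trans (pow_le_pow_left₀ (rr_nonneg F j) (hS.ro j) _))
    have e1 : ∑ x, |F x x ^ 8| = f8 := Finset.sum_congr rfl fun x _ => abs_of_nonneg (by positivity)
    rw [e1, f8U] at b
    have g2 : ∑ j ∈ E.U, ∑ x, F x j ^ 16 ≤ E.N + 8 * E.L ^ 7 * (π * E.N) := by
      have g3 : ∀ j, rr F j ^ 8 ≤ 1 + 8 * E.L ^ 7 * max (rr F j - 1) 0 := by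
        intro j
        have r0 := rr_nonneg F j
        have rL := hS.ro j
        rcases le_total (rr F j) 1 with h | h
        · have : rr F j ^ 8 ≤ 1 := pow_le_one₀ r0 h
          have : 0 ≤ 8 * E.L ^ 7 * max (rr F j - 1) 0 := by
            have := le_max_right (rr F j - 1) 0
            positivity
          linarith
        · rw [max_eq_left (by linarith)]
          generalize rr F j = r at *
          have e : r ^ 8 = 1 + (1 + r + r ^ 2 + r ^ 3 + r ^ 4 + r ^ 5 + r ^ 6 + r ^ 7) * (r - 1) := by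
            ring
          have hk : ∀ k, k ≤ 7 → r ^ k ≤ E.L ^ 7 := fun k hk =>
            (pow_le_pow_left₀ r0 rL k).trans (pow_le_pow_right₀ (by linarith) hk)
          have k0 := hk 0 (by norm_num)
          have k1 := hk 1 (by norm_num)
          have k2 := hk 2 (by norm_num)
          have k3 := hk 3 (by norm_num)
          have k4 := hk 4 (by norm_num)
          have k5 := hk 5 (by norm_num)
          have k6 := hk 6 (by norm_num)
          have k7 := hk 7 (by norm_num)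
          rw [pow_zero] at k0
          rw [pow_one] at k1
          rw [e]
          have : 0 ≤ r - 1 := by linarith
          gcongr
          linarith
      have g4 : ∑ j ∈ E.U, max (rr F j - 1) 0 ≤ π * E.N := by
        have P0 : 0 ≤ Pq F 2 := Finset.sum_nonneg fun x _ => sq_nonneg _
        refine le_of_sq_le_sq ?_ (by positivity)
        refine sq_sum_le_card_mul_sum_sq.trans ?_
        rw [mul_pow, hπ, Real.sq_sqrt (by positivity)]
        have : ∑ j ∈ E.U, max (rr F j - 1) 0 ^ 2 ≤ Pq F 2 := sumU_le _ _ fun x => sq_nonneg _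
        calc ((E.U.card : ℕ) : ℝ) * ∑ j ∈ E.U, max (rr F j - 1) 0 ^ 2 ≤ E.N * Pq F 2 := by
              exact mul_le_mul_of_nonneg_left this (Nat.cast_nonneg _)
          _ = _ := by field_simp
      calc _ ≤ ∑ j ∈ E.U, (1 + 8 * E.L ^ 7 * max (rr F j - 1) 0) :=
            Finset.sum_le_sum fun j _ => (g1 j).trans (g3 j)
        _ = E.N + 8 * E.L ^ 7 * ∑ j ∈ E.U, max (rr F j - 1) 0 := by
            rw [Finset.sum_add_distrib, ← Finset.mul_sum]; simp [Env.N]
        _ ≤ _ := by gcongr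
    have b' := (abs_le.1 b).2
    have q1 : f8 * ∑ j ∈ E.U, ∑ x, F x j ^ 16 ≤ f8 * (E.N + 8 * E.L ^ 7 * (π * E.N)) := by gcongr
    have q2 : f8 * (E.D1 * E.L ^ 8) ≤ f8 * (2 * E.L * (η3 * E.N) * E.L ^ 8) := by gcongr
    linarith only [q1, q2, b']
  have B5' : E.av (fun i j => F j j ^ 8 * ∑ x, F x i ^ 16) ≤
      f8 * (E.N + 8 * E.L ^ 7 * (π * E.N) + 2 * E.L ^ 9 * (η3 * E.N)) := by
    rw [a3]; exact B5
  have B6 : (40 * E.z - 1) * E.av (fun i _ => F i i ^ 8) ≤
      -(E.N * f8) + 2 * (η3 * E.N) * f8 + 80 * E.z * E.N * f8 := by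
    have b := a2 (fun i => F i i ^ 8)
    have e1 : ∑ x, |F x x ^ 8| = f8 := Finset.sum_congr rfl fun x _ => abs_of_nonneg (by positivity)
    rw [e1, f8U] at b
    have b' := (abs_le.1 b).1
    have c := hprod (fun i => F i i ^ 8) (fun _ => 1) f8 E.N (fun _ => by positivity)
      (fun _ => zero_le_one) f8U.le (by simp [Env.N])
    simp only [mul_one] at c
    have q1 : 2 * E.th + E.D ≤ 2 * (η3 * E.N) := by
      have : E.u * 1 ≤ E.u * √E.N := by gcongr
      rw [hη3N]; linarith only [this, thu, D1']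
    have q2 : (2 * E.th + E.D) * f8 ≤ 2 * (η3 * E.N) * f8 := by gcongr
    have q3 : 40 * E.z * E.av (fun i _ => F i i ^ 8) ≤ 40 * E.z * (2 * (f8 * E.N)) := by gcongr
    linarith only [q2, q3, b']
  have B6' : (40 * E.z - 1) * E.av (fun _ j => F j j ^ 8) ≤
      -(E.N * f8) + 2 * (η3 * E.N) * f8 + 80 * E.z * E.N * f8 := by
    rw [a3]; exact B6
  have main := a12 _ _ fun i j hp => step_pt F hsy i j (a14 i j hp).2.2 E.z E.z' e hS.dg
    (hS.ad i j hp).1 (hS.ad i j hp).2 hz zz he he1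
  refine main.trans ?_
  have e1 : ∀ i j, ∑ x, (8 * F x x ^ 7 * dl (F i i) (F j j) (F i j) (F x i) (F x j)
        + rem (F i i) (F j j) (F x x) (F x i) (F x j) E.z E.z' e) =
      ∑ x, 8 * F x x ^ 7 * dl (F i i) (F j j) (F i j) (F x i) (F x j)
      + 246 * 81 * ∑ x, F x x ^ 6 * (F x i ^ 2 * F x j ^ 2 + F j j ^ 2 * F x i ^ 4
        + F i i ^ 2 * F x j ^ 4)
      + 246 * 9 ^ 7 * ∑ x, |F x x| * (|F j j| ^ 7 * F x i ^ 14 + |F i i| ^ 7 * F x j ^ 14)
      + (246 * 9 ^ 7 + 8 * 17 ^ 7 * 4 ^ 8) * (E.z' ^ 5 / e ^ 7) * ∑ x, F x i ^ 2 * F x j ^ 2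
      + (1 + e) * (1 + 100 * E.z) * (F j j ^ 8 * ∑ x, F x i ^ 16 + F i i ^ 8 * ∑ x, F x j ^ 16) := by
    intro i j
    simp only [rem, Finset.mul_sum, ← Finset.sum_add_distrib]
    exact Finset.sum_congr rfl fun x _ => by ring
  simp only [e1]
  rw [av_add, av_add, av_add, av_add, av_add, av_add, av_mul, av_mul, av_mul, av_mul, av_mul,
    av_mul, av_add, av_sum, av_sum, av_sum, av_sum]
  simp only [av_mul]
  set W1 := (e + E.z + η3 + π) * E.N * f8 with hW1
  set W2 := E.N * η ^ 6 * E.Tf / e ^ 5 with hW2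
  set W3 := E.N * E.z' ^ 5 / e ^ 7 with hW3
  have W20 : 0 ≤ W2 := by positivity
  have W30 : 0 ≤ W3 := by positivity
  set a := e * E.N * f8 with ha
  set b := E.z * E.N * f8 with hb
  set c := η3 * E.N * f8 with hc
  set d := π * E.N * f8 with hd
  have a0 : 0 ≤ a := by positivity
  have b0 : 0 ≤ b := by positivity
  have c0 : 0 ≤ c := by positivity
  have d0 : 0 ≤ d := by positivity
  have eW1 : W1 = a + b + c + d := by rw [hW1, ha, hb, hc, hd]; ring
  have eR : E.N * R = W2 + a := by rw [hR, hW2, ha]; ring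
  have L1 : 1 ≤ E.L := by linarith only [L2]
  have l2 : E.L ^ 2 ≤ E.L ^ 9 := pow_le_pow_right₀ L1 (by norm_num)
  have l7 : E.L ^ 7 ≤ E.L ^ 9 := pow_le_pow_right₀ L1 (by norm_num)
  have l0 : 1 ≤ E.L ^ 9 := one_le_pow₀ L1
  set M := E.L ^ 9 with hM
  have hΛ' : 2 ^ 51 * M ≤ Λ := by
    refine le_trans ?_ hΛ
    rw [show (60 : ℕ) = 51 + 9 by norm_num, pow_add]
    gcongr
  have C1 : 128 * E.L ^ 2 * E.N * R ≤ 128 * (M * (W2 + a)) := by
    rw [← eR]
    calc _ = 128 * (E.L ^ 2 * (E.N * R)) := by ring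
      _ ≤ _ := by rw [eR]; gcongr
  have C2 : 6 * E.L ^ 2 * E.N * R ≤ 6 * (M * (W2 + a)) := by
    rw [← eR]
    calc _ = 6 * (E.L ^ 2 * (E.N * R)) := by ring
      _ ≤ _ := by rw [eR]; gcongr
  have C3 : 4 * E.L ^ 7 * E.N * R ≤ 4 * (M * (W2 + a)) := by
    rw [← eR]
    calc _ = 4 * (E.L ^ 7 * (E.N * R)) := by ring
      _ ≤ _ := by rw [eR]; gcongr
  have C4 : (E.z' ^ 5 / e ^ 7) * ∑ x, E.av (fun i j => F x i ^ 2 * F x j ^ 2) ≤ 2 * (M * W3) := by
    calc _ ≤ (E.z' ^ 5 / e ^ 7) * (2 * E.L ^ 2 * E.N) := by gcongr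
      _ = 2 * (E.L ^ 2 * W3) := by rw [hW3]; ring
      _ ≤ _ := by gcongr
  have C5 : (1 + e) * (1 + 100 * E.z) * (E.av (fun i j => F j j ^ 8 * ∑ x, F x i ^ 16)
      + E.av (fun i j => F i i ^ 8 * ∑ x, F x j ^ 16)) ≤
      2 * (E.N * f8) + 2 * a + 400 * b + 192 * (M * d) + 48 * (M * c) := by
    have k1 : (1 + e) * (1 + 100 * E.z) ≤ 1 + e + 200 * E.z := by nlinarith only [he1, z0]
    have k2 : (1 + e) * (1 + 100 * E.z) ≤ 12 := by linarith only [k1, he1, hz]
    have k3 : E.L ^ 7 * d ≤ M * d := by gcongr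
    have k4 : 0 ≤ 16 * (E.L ^ 7 * d) + 4 * (M * c) := by positivity
    have k5 : 0 ≤ 2 * (E.N * f8) := by positivity
    calc _ ≤ (1 + e) * (1 + 100 * E.z) * (2 * (E.N * f8) + (16 * (E.L ^ 7 * d) + 4 * (M * c))) := by
          refine mul_le_mul_of_nonneg_left ?_ (by positivity)
          rw [hc, hd]
          linarith only [B5, B5']
      _ = (1 + e) * (1 + 100 * E.z) * (2 * (E.N * f8))
          + (1 + e) * (1 + 100 * E.z) * (16 * (E.L ^ 7 * d) + 4 * (M * c)) := by ring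
      _ ≤ (1 + e + 200 * E.z) * (2 * (E.N * f8)) + 12 * (16 * (E.L ^ 7 * d) + 4 * (M * c)) := by
          gcongr
      _ ≤ _ := by rw [ha, hb]; linarith only [k3]
  have m1 : a ≤ M * a := le_mul_of_one_le_left a0 l0
  have m2 : b ≤ M * b := le_mul_of_one_le_left b0 l0
  have m3 : c ≤ M * c := le_mul_of_one_le_left c0 l0
  have m4 : 0 ≤ M * d := by positivity
  have m5 : 0 ≤ M * W2 := by positivity
  have m6 : 0 ≤ M * W3 := by positivity
  have fin : 2 ^ 51 * M * (W1 + W2 + W3) ≤ Λ * (W1 + W2 + W3) := by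
    have : 0 ≤ W1 + W2 + W3 := by rw [eW1]; positivity
    gcongr
  refine le_trans ?_ fin
  rw [eW1]
  have eb : 80 * E.z * E.N * f8 = 80 * b := by rw [hb]; ring
  have ec : 2 * (η3 * E.N) * f8 = 2 * c := by rw [hc]; ring
  rw [eb, ec] at B6 B6'
  linarith only [B1, B2, B3, B6, B6', C1, C2, C3, C4, C5, m1, m2, m3, m4, m5, m6, a0, b0, c0]

end Crest.Agent.R62
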