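import Crest.Agent.R62.DefsC

/-! Row 62, FIN: the final statement from the run of the algorithm. -/

set_option autoImplicit false

namespace Crest.Agent.R62

open Finset Matrix
open Classical

theorem FIN_proof (hP : ParStmt) (hR : RunStmt) (hR4 : Run4Stmt) (hSw : SwStmt) (hL : LAFStmt)
    (hC : CombStmt) (hO : OutStmt) (hT : Pt3Stmt) (d : ℕ) (hd : 3 ≤ d) :
    ∃ n₀ : ℕ, ∃ F : List Bool → List Bool, Crest.Complexity.PolyTime F ∧
      ∀ n : ℕ, n₀ ≤ n → Even n →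
        (Crest.CombinatoricsR.GraphCode.adjGraph n
            (F (Crest.CombinatoricsR.GraphCode.unary n))).IsRegularOfDegree d ∧
        ∀ x : Fin n → ℝ, ∑ i, x i = 0 → x ≠ 0 →
          |x ⬝ᵥ ((Crest.CombinatoricsR.GraphCode.adjGraph n
              (F (Crest.CombinatoricsR.GraphCode.unary n))).adjMatrix ℝ *ᵥ x)| <
            2 * Real.sqrt ((d : ℝ) - 1) * (x ⬝ᵥ x) := by
  obtain ⟨hp1, p, n₀, hp2⟩ := hP d hd
  refine ⟨n₀, alg d p, hT d p, fun n hn hev => ?_⟩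
  obtain ⟨hn1, L, hbig, hinit⟩ := hp2 n hn
  obtain ⟨ht0, ht1, -, -, -, -, hlam⟩ := hp1 n hn1
  have hΛ : 10 ^ 20 * d ^ 10 ≤ La d n := by exact_mod_cast hbig.hΛ
  have hd1 : 1 ≤ d ^ 10 := Nat.one_le_pow _ _ (by omega)
  have hL1 : 0 < La d n := by omega
  have h1 : La d n ^ 1 ≤ La d n ^ 11218 := Nat.pow_le_pow_right hL1 (by norm_num)
  have h2 : La d n ^ (11218 + 1) ≤ La d n ^ 31907 :=
    Nat.pow_le_pow_right hL1 (by norm_num)
  have h3 : La d n ^ 31907 ≤ n * d := by exact_mod_cast hbig.lo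
  have h4 : La d n ^ 11218 ≤ La d n ^ 12621 := Nat.pow_le_pow_right hL1 (by norm_num)
  rw [pow_succ] at h2
  rw [pow_one] at h1
  have h5 : N3 d n ≤ n * d := by
    have : La d n ^ 11218 * 2 ≤ La d n ^ 11218 * La d n := Nat.mul_le_mul_left _ (by omega)
    unfold N3; omega
  obtain ⟨r, hr⟩ := hev.mul_right d
  have hk : N3 d n + 2 * (r - La d n ^ 11218) = n * d := by unfold N3 at h5 ⊢; omega
  obtain ⟨⟨hv, ⟨Γa, ha⟩, ⟨Γb, hb⟩, hpi⟩, hc⟩ :=
    hR d p n L hd hn1 hev hbig hinit (r - La d n ^ 11218) hk.le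
  have hlen : (Crest.CombinatoricsR.GraphCode.unary n).length = n := by
    simp [Crest.CombinatoricsR.GraphCode.unary]
  have hsplit : n * d / 2 = La d n ^ 11218 + (r - La d n ^ 11218) := by
    unfold N3 at hk; omega
  have halg : alg d p (Crest.CombinatoricsR.GraphCode.unary n) = outp d n
      ((nxt d p n)^[La d n ^ 11218] ((nxt d p n)^[r - La d n ^ 11218] (st0 d n))).1 := by
    rw [alg, hlen, hsplit, Function.iterate_add_apply]
  rw [halg]
  generalize (nxt d p n)^[r - La d n ^ 11218] (st0 d n) = s at hv ha hb hpi hc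
  have hc3 : cnt (n * d) s.1 = N3 d n := by omega
  obtain ⟨v1, v2, v3⟩ := hR4 d p n s (by omega) (by unfold N3; omega) hv hc3
  generalize ((nxt d p n)^[La d n ^ 11218] s).1 = m at v1 v2 v3
  obtain ⟨o1, o2, o3⟩ := hO d n m (by omega) v1 v2
  obtain ⟨μ, m1, m2⟩ := o3 s.1 hv v3
  have hne : (Uof (n * d) s.1).Nonempty := by
    rw [← card_pos, ← ((hC d n (by omega)).2.2 _ hv).1, hc3]; unfold N3; omega
  have h6 := hpi.2.2 (by rw [hc3]; unfold N3; omega)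
  rw [hc3] at h6
  obtain ⟨q1, q2⟩ := (hSw _ d p L _ _ _ _ _ _ hbig ha.b0 hb.b0).2.2 hne
    (by simpa [N3] using h6)
  refine ⟨o1, fun x hx hx0 => ?_⟩
  have e1 := hL _ _ _ _ _ _ _ _ _ _ _ _ μ ht0 ht1 (Or.inl rfl) ha hne q1 m1 m2 x hx0 hx
  have e2 := hL _ _ _ _ _ _ _ _ _ _ _ _ μ ht0 ht1 (Or.inr rfl) hb hne q2 m1 m2 x hx0 hx
  have e3 : 0 ≤ x ⬝ᵥ x := sum_nonneg fun i _ => mul_self_nonneg _
  have e4 := mul_le_mul_of_nonneg_right hlam e3
  rw [o2, abs_lt]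
  constructor <;> linarith

end Crest.Agent.R62
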