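import Crest.Agent.R62.DefsA

/-! Row 62: traces of products of Schur complements. -/

set_option autoImplicit false

namespace Crest.Agent.R62

open Matrix Finset

namespace FLAT

variable {ι : Type} [Fintype ι] [DecidableEq ι]

theorem abstract (P₁ P₂ P₃ : Mat ι) (hs : P₁ + P₂ + P₃ = 1) (h21 : P₂ * P₁ = 0) (h32 : P₃ * P₂ = 0)
    (h22 : P₂ * P₂ = P₂) (f g : Mat ι → Mat ι) :
    ∀ l : List (Mat ι), (∀ F ∈ l, f F * P₁ = -P₁ ∧ P₃ * f F = P₃ ∧ P₂ * f F * P₂ = g F) →
      (l.map f).prod * P₁ = (-1 : ℝ) ^ l.length • P₁ ∧ P₃ * (l.map f).prod = P₃ ∧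
        P₂ * (l.map f).prod * P₂ = P₂ * (l.map g).prod
  | [], _ => by simp [h22]
  | F :: l, h => by
    obtain ⟨a1, a3, a2⟩ := h F (by simp)
    obtain ⟨b1, b3, b2⟩ := abstract P₁ P₂ P₃ hs h21 h32 h22 f g l fun G hG => h G (by simp [hG])
    simp only [List.map_cons, List.prod_cons, List.length_cons]
    refine ⟨?_, ?_, ?_⟩
    · rw [mul_assoc, b1, mul_smul_comm, a1, pow_succ, smul_neg, mul_neg_one, neg_smul]
    · rw [← mul_assoc, a3, b3]
    · set G := (l.map f).prod
      have e1 : P₂ * (f F * G) * P₂ = P₂ * f F * (P₁ + P₂ * P₂ + P₃) * G * P₂ := by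
        rw [h22, hs]
        simp only [mul_one, mul_assoc]
      have e2 : P₂ * f F * (P₁ + P₂ * P₂ + P₃) * G * P₂ =
          P₂ * (f F * P₁) * G * P₂ + (P₂ * f F * P₂) * (P₂ * G * P₂) +
            P₂ * f F * (P₃ * G * P₂) := by
        simp only [mul_add, add_mul, mul_assoc]
      have e3 : g F * P₂ = g F := by rw [← a2, mul_assoc, h22]
      have e4 : P₂ * g F = g F := by rw [← a2, ← mul_assoc, ← mul_assoc, h22]
      rw [e1, e2, a1, b3, h32, a2, b2, mul_neg, h21, ← mul_assoc (g F), e3, ← mul_assoc P₂, e4]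
      simp

theorem col (F : Mat ι) {i j : ι} (hij : i ≠ j) (hs : Sy F) (hD : Dl F i j ≠ 0) (x : ι) :
    flat F i j x i + flat F i j x j = -((1 : Mat ι) x i + (1 : Mat ι) x j) := by
  simp only [flat, wf, of_apply, Matrix.add_apply, Matrix.sub_apply, one_apply_eq,
    one_apply_ne hij, one_apply_ne hij.symm, hs j i]
  field_simp
  simp only [Dl]
  ring

theorem row (F : Mat ι) {i j : ι} (hij : i ≠ j) (hs : Sy F) (hD : Dl F i j ≠ 0) (y : ι) :
    flat F i j i y - flat F i j j y = (1 : Mat ι) i y - (1 : Mat ι) j y := by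
  simp only [flat, wf, of_apply, Matrix.add_apply, Matrix.sub_apply, one_apply_eq,
    one_apply_ne hij, one_apply_ne hij.symm, hs j i]
  field_simp
  simp only [Dl]
  ring

end FLAT

open FLAT in
theorem FLAT_proof : FlatStmt := by
  intro ι _ _ i j l hij hl h
  let u : ι → ℝ := Pi.single i 1 + Pi.single j 1
  let w : ι → ℝ := Pi.single i 1 - Pi.single j 1
  let P₁ : Mat ι := (1 / 2 : ℝ) • vecMulVec u u
  let P₃ : Mat ι := (1 / 2 : ℝ) • vecMulVec w w
  let P₂ : Mat ι := diagonal fun x => if x = i ∨ x = j then 0 else 1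
  have hji := hij.symm
  have hs : P₁ + P₂ + P₃ = 1 := by
    ext x y
    simp only [P₁, P₂, P₃, u, w, Matrix.add_apply, Matrix.smul_apply, vecMulVec_apply,
      diagonal_apply, Pi.add_apply, Pi.sub_apply, Pi.single_apply, one_apply, smul_eq_mul]
    by_cases h1 : x = i <;> by_cases h2 : x = j <;> by_cases h3 : y = i <;> by_cases h4 : y = j <;>
      by_cases h5 : x = y <;> simp_all <;> norm_num
  have h21 : P₂ * P₁ = 0 := by
    ext x y
    simp only [P₁, P₂, u, diagonal_mul, Matrix.smul_apply, vecMulVec_apply, Pi.add_apply,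
      Pi.single_apply, smul_eq_mul, Matrix.zero_apply]
    by_cases h1 : x = i <;> by_cases h2 : x = j <;> simp_all
  have h32 : P₃ * P₂ = 0 := by
    ext x y
    simp only [P₃, P₂, w, mul_diagonal, Matrix.smul_apply, vecMulVec_apply, Pi.sub_apply,
      Pi.single_apply, smul_eq_mul, Matrix.zero_apply]
    by_cases h1 : y = i <;> by_cases h2 : y = j <;> simp_all
  have h22 : P₂ * P₂ = P₂ := by
    simp only [P₂, diagonal_mul_diagonal]
    congr 1
    funext x
    split_ifs <;> simp
  have key := abstract P₁ P₂ P₃ hs h21 h32 h22 (fun F => flat F i j) (fun F => step F i j) l (by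
    intro F hF
    obtain ⟨hS, hD⟩ := h F hF
    refine ⟨?_, ?_, ?_⟩
    · have : flat F i j *ᵥ u = -u := by
        funext x
        simp only [u, mulVec_add, mulVec_single_one, Pi.add_apply, Pi.neg_apply, col_apply,
          col F hij hS hD x, one_apply, Pi.single_apply]
      simp only [P₁]
      rw [Matrix.mul_smul, mul_vecMulVec, this, neg_vecMulVec, smul_neg]
    · have : w ᵥ* flat F i j = w := by
        funext y
        simp only [w, sub_vecMul, single_one_vecMul, Pi.sub_apply, row_apply,
          row F hij hS hD y, one_apply, Pi.single_apply, eq_comm]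
      simp only [P₃]
      rw [Matrix.smul_mul, vecMulVec_mul, this]
    · ext x y
      simp only [P₂, mul_diagonal, diagonal_mul, step, flat, of_apply]
      by_cases h1 : x = i ∨ x = j
      · rw [if_pos h1, if_pos (show x = i ∨ x = j ∨ y = i ∨ y = j by tauto)]
        simp
      · by_cases h2 : y = i ∨ y = j
        · rw [if_pos h2, if_pos (show x = i ∨ x = j ∨ y = i ∨ y = j by tauto)]
          simp
        · rw [if_neg h1, if_neg h2, if_neg (show ¬ (x = i ∨ x = j ∨ y = i ∨ y = j) by tauto)]
          rw [not_or] at h1 h2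
          simp only [Matrix.add_apply, Matrix.sub_apply, one_apply_ne h1.1, one_apply_ne h1.2,
            one_apply_ne (Ne.symm h2.1), one_apply_ne (Ne.symm h2.2), hS i y, hS j y]
          ring)
  obtain ⟨k1, k3, k2⟩ := key
  set G := (l.map fun F => flat F i j).prod
  have t1 : trace P₁ = 1 := by
    simp only [P₁, trace_smul, trace_vecMulVec, u, add_dotProduct, dotProduct_add,
      single_dotProduct, Pi.single_apply, smul_eq_mul]
    simp [hij, hji]
    norm_num
  have t3 : trace P₃ = 1 := by
    simp only [P₃, trace_smul, trace_vecMulVec, w, sub_dotProduct, dotProduct_sub,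
      single_dotProduct, Pi.single_apply, smul_eq_mul]
    simp [hij, hji]
    norm_num
  have e2 : P₂ * (l.map fun F => step F i j).prod = (l.map fun F => step F i j).prod := by
    obtain ⟨F, l', rfl⟩ := List.exists_cons_of_ne_nil hl
    have : P₂ * step F i j = step F i j := by
      ext x y
      simp only [P₂, diagonal_mul, step, of_apply]
      by_cases h1 : x = i ∨ x = j
      · rw [if_pos h1, if_pos (by tauto)]
        simp
      · rw [if_neg h1, one_mul]
    rw [List.map_cons, List.prod_cons, ← mul_assoc, this]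
  have e : trace G = trace (G * P₁) + trace (P₂ * G * P₂) + trace (P₃ * G) := by
    rw [trace_mul_comm G P₁, trace_mul_comm (P₂ * G) P₂, ← mul_assoc, h22, ← trace_add,
      ← trace_add, ← add_mul, ← add_mul, hs, one_mul]
  rw [k1, k2, k3, e2, trace_smul, t1, t3] at e
  rw [e]
  simp

end Crest.Agent.R62
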