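import Crest.Agent.R62.DefsC

/-! Row 62, HT: heights of the entries. -/

set_option autoImplicit false

namespace Crest.Agent.R62

open Matrix Finset Crest.Agent.PT Crest.Agent.QC Crest.Agent.R317 Crest.Agent.R300U

namespace HT

theorem ht_of {r : ℚ} {a b : ℤ} (hb : b ≠ 0) (h : (r : ℝ) = a / b) {B : ℕ} (ha : a.natAbs ≤ B)
    (hb' : b.natAbs ≤ B) : r.num.natAbs ≤ B ∧ r.den ≤ B := by
  have e : r = Rat.divInt a b := by
    rw [Rat.divInt_eq_div]
    exact_mod_cast h
  constructor
  · by_cases h0 : a = 0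
    · rw [e, h0]; simp
    · rw [e]
      exact (Int.natAbs_le_of_dvd_ne_zero (Rat.num_dvd a hb) h0).trans ha
  · rw [e]
    have := Int.natAbs_le_of_dvd_ne_zero (Rat.den_dvd a b) hb
    rw [Int.natAbs_natCast] at this
    exact this.trans hb'

theorem size {d n D : ℕ} (hd : 3 ≤ d) (hn : 1 ≤ n) (hD : D ≤ n * (n * d) * (n * d)) :
    2 * D ^ 2 * (n.factorial * (6 * d * D) ^ n) ≤ 2 ^ Bt d n := by
  set k := n + d + 1 with hk
  have h1 : n ≤ k := by omega
  have h2 : d ≤ k := by omega
  have h5 : 5 ≤ k := by omega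
  have a1 : D ≤ k ^ 5 := by
    calc D ≤ n * (n * d) * (n * d) := hD
      _ ≤ k * (k * k) * (k * k) := by gcongr
      _ = k ^ 5 := by ring
  have a2 : 6 * d * D ≤ k ^ 8 := by
    calc 6 * d * D ≤ (k * k) * k * k ^ 5 := by gcongr; nlinarith
      _ = k ^ 8 := by ring
  have a3 : n.factorial ≤ k ^ n := (Nat.factorial_le_pow n).trans (Nat.pow_le_pow_left h1 n)
  have a4 : k ≤ 2 ^ k := Nat.lt_two_pow_self.le
  calc 2 * D ^ 2 * (n.factorial * (6 * d * D) ^ n)
      ≤ k * (k ^ 5) ^ 2 * (k ^ n * (k ^ 8) ^ n) := by gcongr; omega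
    _ = k ^ (11 + 9 * n) := by ring
    _ ≤ k ^ (10 * k) := Nat.pow_le_pow_right (by omega) (by omega)
    _ ≤ (2 ^ k) ^ (10 * k) := Nat.pow_le_pow_left a4 _
    _ = 2 ^ Bt d n := by rw [← pow_mul, Bt, ← hk]; congr 1; ring

end HT

open HT in
theorem HT_proof (hL : LAPStmt) (hC : CombStmt) (hP : ParStmt) : HtStmt := by
  intro d n ε m F hd hε ⟨Γ, hLA⟩ hU
  have hn : 1 ≤ n := by
    obtain ⟨x, -⟩ := hU
    rcases Nat.eq_zero_or_pos n with h | h
    · have := x.2
      simp [h] at this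
    · exact h
  obtain ⟨t0, t1, h0, -, -, -, hs⟩ := (hP d hd).1 n hn
  have fib := (hC d n (by omega)).2.1
  obtain ⟨q, rfl⟩ : ∃ q, d = q + 1 := ⟨d - 1, by omega⟩
  set s := sqq (q + 1) n with hsd
  have n0 : (0 : ℝ) < n := by exact_mod_cast hn
  have n1 : (1 : ℝ) ≤ n := by exact_mod_cast hn
  have q2 : (2 : ℝ) ≤ q := by exact_mod_cast (show 2 ≤ q by omega)
  have q0 : (0 : ℝ) < q := by linarith
  have s0 : (0 : ℝ) ≤ s := Nat.cast_nonneg s
  have et : (tq (q + 1) n : ℝ) = s / (n * q) := by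
    unfold tq; push_cast; rw [add_sub_cancel_right]
  have eh : (hq (q + 1) n : ℝ) = (s + 1) / (n * q) := by
    unfold hq; push_cast; rw [add_sub_cancel_right]
  have hsq : s + 1 ≤ n * (q + 1) := by
    have : (s : ℝ) < n * q := by rwa [et, div_lt_one (by positivity)] at t1
    have : s < n * q := by exact_mod_cast this
    nlinarith
  set D : ℕ := n * (n * q) * (s + 1) with hD
  have D1 : 1 ≤ D := Nat.one_le_iff_ne_zero.2 (by
    have : q ≠ 0 := by omega
    positivity)
  have hDle : D ≤ n * (n * (q + 1)) * (n * (q + 1)) := by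
    rw [hD]; gcongr; omega
  have eD : (D : ℝ) = n * (n * q) * (s + 1) := by rw [hD]; push_cast; ring
  obtain ⟨e, he⟩ : ∃ e : ℤ, ε = e := by
    rcases hε with h | h
    · exact ⟨1, by simp [h]⟩
    · exact ⟨-1, by simp [h]⟩
  have ea : |ε| = 1 := by rcases hε with h | h <;> simp [h]
  set t : ℝ := (tq (q + 1) n : ℝ) with ht
  set h : ℝ := (hq (q + 1) n : ℝ) with hh
  have key := (hL (Fin (n * (q + 1))) (Fin n) Fin.divNat t ε t0 t1 hε).2.2 _ _ _ Γ D
    (6 * (q + 1) * D) hLA hU D1 (Nat.one_le_iff_ne_zero.2 (by positivity))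
    ⟨n * s * (s + 1), by rw [eD, et]; push_cast; field_simp⟩ (by
      intro v w
      set k : ℕ := ((Uof (n * (q + 1)) m).filter fun x => x.divNat = v).card with hk
      have kd : k ≤ q + 1 := by
        rw [← fib v]
        exact card_le_card (filter_subset_filter _ (subset_univ _))
      have kd' : (k : ℝ) ≤ q + 1 := by exact_mod_cast kd
      have k0 : (0 : ℝ) ≤ k := Nat.cast_nonneg k
      obtain ⟨a, ha, ha'⟩ : ∃ a : ℤ, AjR (q + 1) n m v w = a ∧ |(a : ℝ)| ≤ 1 := by
        unfold AjR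
        rw [Matrix.of_apply]
        split_ifs
        · exact ⟨1, by simp, by simp⟩
        · exact ⟨0, by simp, by simp⟩
      have eM : Mm Fin.divNat (q + 1) t h ε (Uof (n * (q + 1)) m) (AjR (q + 1) n m) v w =
          (if v = w then t * (q + 1) + (1 - t ^ 2) / h - t * k else 0) - ε * a +
            ((ε - t) * (q + 1) - (1 - t ^ 2) / h) / n := by
        simp only [Mm, Matrix.of_apply, dfree, Fintype.card_fin, ha, Nat.cast_add, Nat.cast_one, hk]
      have bM : |Mm Fin.divNat (q + 1) t h ε (Uof (n * (q + 1)) m) (AjR (q + 1) n m) v w| ≤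
          6 * ((q : ℝ) + 1) := by
        rw [eM]
        have r1 : √(((q + 1 : ℕ) : ℝ) - 1) ≤ q + 1 := by
          refine Real.sqrt_le_iff.2 ⟨by positivity, ?_⟩
          push_cast; nlinarith
        have r2 : t * (q + 1) + (1 - t ^ 2) / h ≤ 2 * (q + 1) := by
          have := hs; push_cast at this r1; linarith
        have r3 : 0 ≤ (1 - t ^ 2) / h := div_nonneg (by nlinarith) h0.le
        have r4 : 0 ≤ t * (q + 1) := by positivity
        have r5 : t * k ≤ q + 1 := by nlinarith
        have r6 : 0 ≤ t * k := by positivity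
        have b1 : |(if v = w then t * (q + 1) + (1 - t ^ 2) / h - t * k else 0)| ≤
            2 * ((q : ℝ) + 1) := by
          split_ifs
          · rw [abs_le]; constructor <;> linarith
          · rw [abs_zero]; positivity
        have b2 : |ε * a| ≤ (q : ℝ) + 1 := by rw [abs_mul, ea, one_mul]; linarith
        have b3 : |((ε - t) * (q + 1) - (1 - t ^ 2) / h) / n| ≤ 3 * ((q : ℝ) + 1) := by
          rw [abs_div, abs_of_pos n0]
          refine (div_le_self (abs_nonneg _) n1).trans ?_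
          rcases hε with h | h <;> rw [h, abs_le] <;> constructor <;> linarith
        have := abs_add_le ((if v = w then t * (q + 1) + (1 - t ^ 2) / h - t * k else 0) - ε * a)
          (((ε - t) * (q + 1) - (1 - t ^ 2) / h) / n)
        have := abs_sub (if v = w then t * (q + 1) + (1 - t ^ 2) / h - t * k else 0) (ε * a)
        linarith
      have hz : ∃ z : ℤ, (D : ℝ) *
          Mm Fin.divNat (q + 1) t h ε (Uof (n * (q + 1)) m) (AjR (q + 1) n m) v w = z := by
        refine ⟨(if v = w then (n * s * (s + 1) * (q + 1) + n * ((n * q) ^ 2 - s ^ 2)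
          - n * s * (s + 1) * k : ℤ) else 0) - e * a * (n * (n * q) * (s + 1)) +
          (e * (q + 1) * (n * q) * (s + 1) - s * (s + 1) * (q + 1) - ((n * q) ^ 2 - s ^ 2)), ?_⟩
        rw [eM, eD, et, eh, he]
        split_ifs <;> push_cast <;> field_simp <;> ring
      obtain ⟨z, hz⟩ := hz
      refine ⟨z, hz, ?_⟩
      have : ((z.natAbs : ℕ) : ℝ) ≤ ((6 * (q + 1) * D : ℕ) : ℝ) := by
        rw [Nat.cast_natAbs, Int.cast_abs, ← hz, abs_mul, abs_of_nonneg (Nat.cast_nonneg D)]
        push_cast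
        rw [mul_comm]
        exact mul_le_mul_of_nonneg_right bM (Nat.cast_nonneg D)
      exact_mod_cast this)
  intro x hx y hy
  obtain ⟨a, b, hb, hab, ha, hb'⟩ := key ⟨x, hx⟩ ⟨y, hy⟩
  rw [Fintype.card_fin] at ha hb'
  have sz := size hd hn hDle
  exact ht_of hb hab (ha.trans sz) (hb'.trans sz)

end Crest.Agent.R62
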