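import Crest.Agent.R62.DefsB

/-! Row 62, task INIT: the initial potential is small. -/

set_option autoImplicit false

namespace Crest.Agent.R62

open Matrix Finset

namespace INIT

section
variable {ι V : Type} [Fintype ι] [DecidableEq ι] [Fintype V] [DecidableEq V]

/-- The commutative algebra spanned by the three idempotents. -/
noncomputable def K (vt : ι → V) (d : ℕ) (a b c : ℝ) : Mat ι := Matrix.of fun x y =>
  (a - b) / Fintype.card ι + (if vt x = vt y then (b - c) / d else 0) + if x = y then c else 0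

variable {vt : ι → V} {d : ℕ}

omit [DecidableEq ι] in
lemma card_eq (hv : ∀ v, (univ.filter fun x => vt x = v).card = d) :
    (Fintype.card ι : ℝ) = Fintype.card V * d := by
  have hN : Fintype.card ι = Fintype.card V * d := by
    rw [← Finset.card_univ, Finset.card_eq_sum_card_fiberwise (f := vt) (t := univ) (by simp)]
    rw [Finset.sum_congr rfl fun v _ => hv v, Finset.sum_const, card_univ, smul_eq_mul]
  exact_mod_cast hN

omit [Fintype V] in
lemma K_mul (hv : ∀ v, (univ.filter fun x => vt x = v).card = d) (hd : (d : ℝ) ≠ 0)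
    (hN : (Fintype.card ι : ℝ) ≠ 0) (a b c a' b' c' : ℝ) :
    K vt d a b c * K vt d a' b' c' = K vt d (a * a') (b * b') (c * c') := by
  have hs : ∀ v (c : ℝ), ∑ y, (if vt y = v then c else 0) = c * d := by
    intro v c
    rw [← Finset.sum_filter, Finset.sum_const, hv, nsmul_eq_mul, mul_comm]
  ext x y
  have e : ∀ z, K vt d a b c x z * K vt d a' b' c' z y =
      (a - b) / Fintype.card ι * ((a' - b') / Fintype.card ι)
      + (if vt z = vt y then (a - b) / Fintype.card ι * ((b' - c') / d) else 0)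
      + (if z = y then (a - b) / Fintype.card ι * c' else 0)
      + (if vt z = vt x then (b - c) / d * ((a' - b') / Fintype.card ι) else 0)
      + (if vt z = vt x then (if vt x = vt y then (b - c) / d * ((b' - c') / d) else 0) else 0)
      + (if z = y then (if vt x = vt y then (b - c) / d * c' else 0) else 0)
      + (if z = x then c * ((a' - b') / Fintype.card ι) else 0)
      + (if z = x then (if vt x = vt y then c * ((b' - c') / d) else 0) else 0)
      + (if z = x then (if x = y then c * c' else 0) else 0) := by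
    intro z
    simp only [K, of_apply]
    by_cases h1 : z = x
    · subst h1
      by_cases h2 : z = y
      · subst h2; simp; ring
      · by_cases h3 : vt z = vt y <;> simp [h2, h3] <;> ring
    · by_cases h2 : z = y
      · subst h2
        by_cases h3 : vt x = vt z
        · simp [h1, Ne.symm h1, h3]; ring
        · simp [h1, Ne.symm h1, h3, Ne.symm h3]; ring
      · by_cases h3 : vt x = vt z
        · by_cases h4 : vt z = vt y <;> simp [h1, Ne.symm h1, h2, h3, h4] <;> ring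
        · by_cases h4 : vt z = vt y
          · rw [h4] at h3
            simp [h1, Ne.symm h1, h2, h3, Ne.symm h3, h4]; ring
          · simp [h1, Ne.symm h1, h2, h3, Ne.symm h3, h4]
  rw [Matrix.mul_apply, Finset.sum_congr rfl fun z _ => e z]
  simp only [Finset.sum_add_distrib, hs, Finset.sum_ite_eq', mem_univ, if_true,
    Finset.sum_const, card_univ, nsmul_eq_mul, K, of_apply]
  split_ifs <;> field_simp <;> ring

omit [Fintype V] in
lemma K_pow (hv : ∀ v, (univ.filter fun x => vt x = v).card = d) (hd : (d : ℝ) ≠ 0)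
    (hN : (Fintype.card ι : ℝ) ≠ 0) (a b c : ℝ) (k : ℕ) :
    K vt d a b c ^ k = K vt d (a ^ k) (b ^ k) (c ^ k) := by
  induction k with
  | zero => ext x y; simp [K, one_apply]
  | succ k ih => rw [pow_succ, ih, K_mul hv hd hN, pow_succ, pow_succ, pow_succ]

lemma K_diag (hv : ∀ v, (univ.filter fun x => vt x = v).card = d) (hd : (d : ℝ) ≠ 0)
    (hN : (Fintype.card ι : ℝ) ≠ 0) (a b c : ℝ) (x : ι) :
    K vt d a b c x x = (a + b * (Fintype.card V - 1) + c * (Fintype.card V * (d - 1)))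
      / Fintype.card ι := by
  have h := card_eq hv
  have hn : (Fintype.card V : ℝ) ≠ 0 := by
    intro e; rw [e, zero_mul] at h; exact hN h
  simp only [K, of_apply, if_true]
  rw [h]; field_simp; ring

lemma K_tr (hv : ∀ v, (univ.filter fun x => vt x = v).card = d) (hd : (d : ℝ) ≠ 0)
    (hN : (Fintype.card ι : ℝ) ≠ 0) (a b c : ℝ) :
    trace (K vt d a b c) = a + b * (Fintype.card V - 1) + c * (Fintype.card V * (d - 1)) := by
  simp only [trace, Matrix.diag, K_diag hv hd hN, Finset.sum_const, card_univ, nsmul_eq_mul]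
  field_simp

omit [Fintype V] in
lemma K_rr (hv : ∀ v, (univ.filter fun x => vt x = v).card = d) (hd : (d : ℝ) ≠ 0)
    (hN : (Fintype.card ι : ℝ) ≠ 0) (a b c : ℝ) (x : ι) :
    rr (K vt d a b c) x = K vt d (a * a) (b * b) (c * c) x x := by
  rw [← K_mul hv hd hN, Matrix.mul_apply, rr]
  refine Finset.sum_congr rfl fun y _ => ?_
  rw [pow_two]
  congr 1
  simp only [K, of_apply, eq_comm (a := x), eq_comm (a := vt x)]

omit [Fintype V] in
lemma F0_eq (hd : (d : ℝ) ≠ 0) (t h ε : ℝ) :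
    F0 vt d t h ε = K vt d 1 (ε * (h * d - t)) (-(ε * t)) := by
  ext x y
  simp only [F0, K, of_apply]
  split_ifs <;> field_simp <;> ring

end

lemma sq_small {Λ D a b : ℝ} (hD : 1 ≤ D) (hΛ : 100 * D ^ 2 ≤ Λ) (ha : |a| ≤ 2 * D)
    (hb : Λ ≤ b) : (a / b) ^ 2 ≤ 1 / 100 := by
  have hb0 : 0 < b := by nlinarith
  rw [div_pow, div_le_iff₀ (by positivity), ← sq_abs a]
  have h1 : |a| ^ 2 ≤ (2 * D) ^ 2 := pow_le_pow_left₀ (abs_nonneg _) ha 2
  have h2 : (20 * D) ^ 2 ≤ b ^ 2 := pow_le_pow_left₀ (by positivity) (by nlinarith) 2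
  nlinarith

lemma lin_small {Λ a b : ℝ} (hΛ : 100 ≤ Λ) (ha : a ≤ 1) (hb : Λ ≤ b) : a / b ≤ 1 / 100 := by
  rw [div_le_iff₀ (by linarith)]; linarith

lemma ratio_small {Λ a b c : ℝ} (hΛ : 100 ≤ Λ) (hc : 0 < c) (ha : a ≤ c) (hb : c * Λ ≤ b) :
    a / b ≤ 1 / 100 := by
  rw [div_le_iff₀ (by nlinarith)]; nlinarith

lemma obs_small {Λ D N τ ε : ℝ} (o : Obs ℝ) (hD : 1 ≤ D) (hΛ : 100 * D ^ 2 ≤ Λ)
    (hN : Λ ^ 31907 ≤ N) (hε : |ε| = 1) (h1 : |o.t1| ≤ D) (h2 : |o.t2 - N| ≤ D)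
    (h3 : |o.t3 - ε * τ| ≤ D) (h4 : o.t4 ≤ N * Λ ^ 4) (hK : o.tK ≤ N * Λ ^ KK) (hP : o.P2 ≤ 1)
    (hp : o.Pp ≤ 1) (hf : o.f2 ≤ 1) (hf8 : o.f8 ≤ 1 / Λ ^ 2642) :
    ∑ k ∈ range 11, c1 Λ N τ N ε o k ≤ 11 / 100 := by
  have hΛ1 : 100 ≤ Λ := by nlinarith
  have h1Λ : 1 ≤ Λ := by linarith
  have hΛ0 : 0 < Λ := by linarith
  have hp1 : ∀ k, k ≠ 0 → Λ ≤ Λ ^ k := fun k hk => le_self_pow₀ h1Λ hk
  have hN0 : 0 < N := lt_of_lt_of_le (by positivity) hN
  have hy : N / N = 1 := div_self hN0.ne'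
  have hm : ∀ a : ℝ, |a| ≤ 2 * D → |max a 0| ≤ 2 * D := fun a ha => by
    rw [abs_of_nonneg (le_max_right _ _)]
    exact max_le ((le_abs_self a).trans ha) (by linarith)
  have key : ∀ k ∈ range 11, c1 Λ N τ N ε o k ≤ 1 / 100 := by
    intro k hk
    have hk' := Finset.mem_range.1 hk
    interval_cases k <;>
      simp only [c1, T41, TK1, G1, sQ1, SQ1, K11, S11, TP1, Tp1, Tf1, hy, one_pow, mul_one, one_mul]
    · refine ratio_small hΛ1 (by positivity) h4 ?_
      rw [mul_assoc, ← pow_succ]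
      exact mul_le_mul_of_nonneg_left (pow_le_pow_right₀ h1Λ (by norm_num)) hN0.le
    · refine ratio_small hΛ1 (by positivity) hK ?_
      rw [mul_assoc, ← pow_succ, ← pow_mul]
      exact mul_le_mul_of_nonneg_left (pow_le_pow_right₀ h1Λ (by unfold KK; norm_num)) hN0.le
    · refine sq_small hD hΛ (by linarith) ?_
      have : Λ ^ 2 ≤ N := (pow_le_pow_right₀ h1Λ (by norm_num)).trans hN
      nlinarith
    · refine sq_small hD hΛ (hm _ ?_) (hp1 _ (by norm_num))
      have e1 : 1 / (10 * Λ ^ 160) ≤ 1 := by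
        rw [div_le_one (by positivity)]; linarith [hp1 160 (by norm_num)]
      have e0 : 0 ≤ 1 / (10 * Λ ^ 160) := by positivity
      rw [abs_le] at h2 ⊢
      constructor <;> linarith [h2.1, h2.2]
    · exact sq_small hD hΛ (by linarith) (hp1 _ (by norm_num))
    · refine sq_small hD hΛ (hm _ ?_) (hp1 _ (by norm_num))
      rw [abs_mul, hε]; linarith
    · exact sq_small hD hΛ (by linarith) (hp1 _ (by norm_num))
    · exact lin_small hΛ1 hP (hp1 _ (by norm_num))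
    · exact lin_small hΛ1 hp (hp1 _ (by norm_num))
    · refine lin_small hΛ1 hf ?_
      have e0 : 0 ≤ 1 / Λ ^ 16191 := by positivity
      linarith [hp1 8 (by norm_num)]
    · refine ratio_small hΛ1 (by positivity) hf8 (le_of_eq ?_)
      rw [show (2642 : ℕ) = 2641 + 1 from rfl, pow_succ]
      field_simp
  have := Finset.sum_le_card_nsmul _ _ _ key
  simp only [card_range, nsmul_eq_mul] at this
  norm_num at this ⊢
  exact this

lemma numA (s t h d : ℝ) (hs2 : s ^ 2 = d - 1) (hs1 : 141 / 100 ≤ s) (ht : 0 < t) (hh0 : 0 < h)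
    (hts : t * s ≤ 1) (hhs : 1 ≤ h * s) (r : ℝ) (r1 : s ≤ r) (h1 : t ^ 2 * (d - 1) ≤ 1) :
    7 / 10 * d ≤ r ^ 3 - (d - 1) * t ^ 3 ∧ t * d + (1 - t ^ 2) / h ≤ 2 * s := by
  have t1 : t ≤ 1 := by nlinarith
  have hd : d = s ^ 2 + 1 := by linarith
  constructor
  · have a1 : s ^ 3 ≤ r ^ 3 := pow_le_pow_left₀ (by linarith) r1 3
    have a2 : (d - 1) * t ^ 3 ≤ t := by nlinarith
    have a3 : 7 / 10 * s ≤ s ^ 2 - 1 := by nlinarith
    have a4 : 7 / 10 * s * (s ^ 2 + 1) ≤ (s ^ 2 - 1) * (s ^ 2 + 1) :=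
      mul_le_mul_of_nonneg_right a3 (by positivity)
    have a5 : s * (7 / 10 * d) ≤ s * (s ^ 3 - t) := by
      rw [hd]; nlinarith
    have := le_of_mul_le_mul_left a5 (by linarith)
    linarith
  · have a1 : (1 - t ^ 2) / h ≤ (1 - t ^ 2) * s := by
      rw [div_le_iff₀ hh0]; nlinarith [show 0 ≤ 1 - t ^ 2 by nlinarith]
    have a2 : 0 ≤ (s - t) * (1 - t * s) := mul_nonneg (by linarith) (by linarith)
    rw [hd]; nlinarith

lemma numB (s t d n δ r : ℝ) (hs2 : s ^ 2 = d - 1) (hs0 : 0 ≤ s) (hd : 3 ≤ d) (hn : 1 ≤ n)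
    (t1 : t ≤ 1) (hδ0 : 0 < δ) (hδn : δ * n * (d - 1) = 1) (r1 : s ≤ r) (r2 : r ≤ s + δ * d)
    (r3 : r ≤ d) (h1 : t ^ 2 * (d - 1) ≤ 1) (h2 : 1 ≤ (t + δ) ^ 2 * (d - 1)) :
    |1 + r ^ 2 * (n - 1) + t ^ 2 * (n * (d - 1)) - n * d| ≤ 10 * d ^ 3 := by
  have a0 : 0 < δ * n := by positivity
  have a1 : δ * n * d ≤ 3 / 2 := by nlinarith
  have a2 : δ ≤ 1 := by nlinarith
  have b1 : 0 ≤ n * (r ^ 2 - s ^ 2) := mul_nonneg (by linarith) (by nlinarith)
  have b2 : n * (r ^ 2 - s ^ 2) ≤ 3 * d := by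
    have c1 : r ^ 2 - s ^ 2 ≤ δ * d * (2 * d) := by
      have : r ^ 2 - s ^ 2 = (r - s) * (r + s) := by ring
      rw [this]
      exact mul_le_mul (by linarith) (by linarith) (by linarith) (by positivity)
    have c2 := mul_le_mul_of_nonneg_left c1 (show 0 ≤ n by linarith)
    have c3 := mul_le_mul_of_nonneg_right a1 (show 0 ≤ 2 * d by linarith)
    linarith
  have b3 : 0 ≤ n * (1 - t ^ 2 * (d - 1)) := mul_nonneg (by linarith) (by linarith)
  have b4 : n * (1 - t ^ 2 * (d - 1)) ≤ 3 := by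
    have c1 : 1 - t ^ 2 * (d - 1) ≤ δ * (d - 1) * (2 * t + δ) := by linarith
    have c2 := mul_le_mul_of_nonneg_left c1 (show 0 ≤ n by linarith)
    have c3 : n * (δ * (d - 1) * (2 * t + δ)) = 2 * t + δ := by
      linear_combination (2 * t + δ) * hδn
    linarith
  have b5 : r ^ 2 ≤ d ^ 2 := pow_le_pow_left₀ (by linarith) r3 2
  have e : 1 + r ^ 2 * (n - 1) + t ^ 2 * (n * (d - 1)) - n * d =
      1 - r ^ 2 + n * (r ^ 2 - s ^ 2) - n * (1 - t ^ 2 * (d - 1)) := by rw [hs2]; ring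
  have b6 : 3 * d ^ 2 ≤ d ^ 3 := by nlinarith
  have b7 : 3 * d ≤ d ^ 2 := by nlinarith
  rw [e, abs_le]
  constructor <;> linarith [sq_nonneg r]

lemma num (d n t h : ℝ) (hd : 3 ≤ d) (hn : 1 ≤ n) (ht : 0 < t) (h1 : t ^ 2 * (d - 1) ≤ 1)
    (h2 : 1 ≤ h ^ 2 * (d - 1)) (hh : h = t + 1 / (n * (d - 1))) :
    0 ≤ h * d - t ∧ h * d - t ≤ d ∧ t ≤ 1 ∧ 7 / 10 * d ≤ (h * d - t) ^ 3 - (d - 1) * t ^ 3 ∧
      t * d + (1 - t ^ 2) / h ≤ 2 * √(d - 1) ∧
      |(h * d - t) * (n - 1) - t * (n * (d - 1))| ≤ 2 * d ∧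
      |1 + (h * d - t) ^ 2 * (n - 1) + t ^ 2 * (n * (d - 1)) - n * d| ≤ 10 * d ^ 3 := by
  have hs2 : √(d - 1) ^ 2 = d - 1 := Real.sq_sqrt (by linarith)
  have hs0 : 0 ≤ √(d - 1) := Real.sqrt_nonneg _
  generalize √(d - 1) = s at *
  have hs1 : 141 / 100 ≤ s := by nlinarith
  have hq : 0 < n * (d - 1) := mul_pos (by linarith) (by linarith)
  have hδ0 : 0 < 1 / (n * (d - 1)) := div_pos one_pos hq
  have hδn : 1 / (n * (d - 1)) * n * (d - 1) = 1 := by
    rw [mul_assoc]; exact one_div_mul_cancel hq.ne'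
  generalize 1 / (n * (d - 1)) = δ at *
  have hδ1 : δ * (d - 1) ≤ 1 := by nlinarith [mul_pos hδ0 (show 0 < d - 1 by linarith)]
  have hδd : δ * d ≤ 3 / 2 := by nlinarith
  have hh0 : 0 < h := by linarith
  have hts : t * s ≤ 1 := by
    refine abs_le_of_sq_le_sq' ?_ zero_le_one |>.2
    rw [mul_pow, hs2]; linarith
  have hhs : 1 ≤ h * s := by
    refine abs_le_of_sq_le_sq' ?_ (by positivity) |>.2
    rw [mul_pow, hs2]; linarith
  have hr : h * d - t = t * s ^ 2 + δ * d := by rw [hs2, hh]; ring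
  have hr' : h * d - t = h * s ^ 2 + δ := by rw [hs2, hh]; ring
  have r1 : s ≤ h * d - t := by rw [hr']; nlinarith
  have r2 : h * d - t ≤ s + δ * d := by rw [hr]; nlinarith
  have r3 : h * d - t ≤ d := by nlinarith
  have t1 : t ≤ 1 := by nlinarith
  obtain ⟨A1, A2⟩ := numA s t h d hs2 hs1 ht hh0 hts hhs _ r1 h1
  refine ⟨by linarith, r3, t1, A1, A2, ?_,
    numB s t d n δ _ hs2 hs0 hd hn t1 hδ0 hδn r1 r2 r3 h1 (hh ▸ h2)⟩
  have e : (h * d - t) * (n - 1) - t * (n * (d - 1)) = δ * n * d - (h * d - t) := by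
    rw [hh]; ring
  have a0 : 0 < δ * n := by positivity
  have a1 : δ * n * d ≤ 3 / 2 := by nlinarith
  have a2 : 0 < δ * n * d := by positivity
  rw [e, abs_le]
  constructor <;> linarith

lemma small' {D N : ℝ} (hD1 : 1 ≤ D) (hN : D ^ 2 ≤ N) (a : ℝ) (k : ℕ) (ha : |a| ≤ D)
    (hk : 2 ≤ k) : N * (a / N) ^ k ≤ 1 := by
  have hNp : 0 < N := by nlinarith
  have e0 : |a / N| ≤ D / N := by
    rw [abs_div, abs_of_pos hNp]; exact div_le_div_of_nonneg_right ha hNp.le
  have e1 : D / N ≤ 1 := by rw [div_le_one hNp]; nlinarith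
  have e2 : (a / N) ^ k ≤ (D / N) ^ 2 := (le_abs_self _).trans ((abs_pow _ k).le.trans
    ((pow_le_pow_left₀ (abs_nonneg _) e0 k).trans (pow_le_pow_of_le_one (by positivity) e1 hk)))
  have e3 : N * (D / N) ^ 2 = D ^ 2 / N := by field_simp
  have e4 : D ^ 2 / N ≤ 1 := by rw [div_le_one hNp]; exact hN
  have := mul_le_mul_of_nonneg_left e2 hNp.le
  linarith

end INIT

set_option maxHeartbeats 1000000 in
open INIT in
theorem INIT_proof : InitStmt := by
  intro ι V _ _ _ _ vt d p t h hd hV hv ht h1 h2 hh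
  have hd' : (3 : ℝ) ≤ d := by exact_mod_cast hd
  have hn : (1 : ℝ) ≤ Fintype.card V := by exact_mod_cast Fintype.card_pos
  have hN := card_eq hv
  obtain ⟨r0, r1, t1, n1, n2, n3, n4⟩ := num d (Fintype.card V) t h hd' hn ht h1 h2 hh
  set n : ℝ := (Fintype.card V : ℝ) with hn'
  set N : ℝ := (Fintype.card ι : ℝ) with hN'
  set r := h * d - t with hr
  have hd0 : (d : ℝ) ≠ 0 := by positivity
  have hNp : 0 < N := by rw [hN]; positivity
  have r3 : r ^ 3 ≤ (d : ℝ) ^ 3 := pow_le_pow_left₀ r0 r1 3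
  refine ⟨⟨?_, ?_, n2⟩, fun L Λ hB => ?_⟩
  · rw [hN]; nlinarith
  · rw [hN]
    have : 0 ≤ ((d : ℝ) - 1) * t ^ 3 := mul_nonneg (by linarith) (by positivity)
    nlinarith
  set D : ℝ := 10 * (d : ℝ) ^ 3 with hD
  have d3 : (d : ℝ) ≤ (d : ℝ) ^ 3 := le_self_pow₀ (by linarith) (by norm_num)
  have hD1 : 1 ≤ D := by linarith
  have hΛ : 100 * D ^ 2 ≤ Λ := by
    refine le_trans ?_ hB.hΛ
    have : (d : ℝ) ^ 6 ≤ (d : ℝ) ^ 10 := pow_le_pow_right₀ (by linarith) (by norm_num)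
    have e : D ^ 2 = 100 * (d : ℝ) ^ 6 := by rw [hD]; ring
    have : (0 : ℝ) ≤ (d : ℝ) ^ 10 := by positivity
    rw [e]; linarith
  have hΛ1 : 100 ≤ Λ := by nlinarith
  have h1Λ : 1 ≤ Λ := by linarith
  have hDΛ : D ≤ Λ := by nlinarith
  have hdΛ : (d : ℝ) ≤ Λ := by linarith
  have hΛN : Λ ≤ N := (le_self_pow₀ h1Λ (by norm_num)).trans hB.lo
  have trb : ∀ (k : ℕ) (b c : ℝ), |b| ≤ d → |c| ≤ d →
      1 ^ k + b ^ k * (n - 1) + c ^ k * (n * (d - 1)) ≤ N * Λ ^ k := by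
    intro k b c hb hc
    have e1 : (1 : ℝ) ^ k ≤ Λ ^ k := pow_le_pow_left₀ zero_le_one h1Λ k
    have e2 : b ^ k ≤ Λ ^ k := (le_abs_self _).trans
      ((abs_pow b k).le.trans (pow_le_pow_left₀ (abs_nonneg _) (hb.trans hdΛ) k))
    have e3 : c ^ k ≤ Λ ^ k := (le_abs_self _).trans
      ((abs_pow c k).le.trans (pow_le_pow_left₀ (abs_nonneg _) (hc.trans hdΛ) k))
    have e4 := mul_le_mul_of_nonneg_right e2 (show 0 ≤ n - 1 by linarith)
    have e5 := mul_le_mul_of_nonneg_right e3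
      (show 0 ≤ n * ((d : ℝ) - 1) from mul_nonneg (by linarith) (by linarith))
    rw [hN]; linarith
  have small : ∀ (a : ℝ) (k : ℕ), |a| ≤ D → 2 ≤ k → N * (a / N) ^ k ≤ 1 :=
    fun a k ha hk => small' hD1 (by linarith [sq_nonneg D]) a k ha hk
  have side : ∀ ε : ℝ, (ε = 1 ∨ ε = -1) →
      ∑ k ∈ range 11, c1 Λ N (n * (r ^ 3 - (d - 1) * t ^ 3)) N ε (obsR p (F0 vt d t h ε)) k
        ≤ 11 / 100 := by
    intro ε hε
    have ha : |ε| = 1 := by rcases hε with rfl | rfl <;> simp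
    have hε2 : ε ^ 2 = 1 := by rcases hε with rfl | rfl <;> norm_num
    have b1 : |ε * r| ≤ d := by rw [abs_mul, ha, one_mul, abs_of_nonneg r0]; exact r1
    have b2 : |-(ε * t)| ≤ d := by
      rw [abs_neg, abs_mul, ha, one_mul, abs_of_pos ht]; linarith
    have tke : ∀ k, tk (F0 vt d t h ε) k =
        1 ^ k + (ε * r) ^ k * (n - 1) + (-(ε * t)) ^ k * (n * (d - 1)) := fun k => by
      rw [tk, F0_eq hd0, K_pow hv hd0 hNp.ne', K_tr hv hd0 hNp.ne']
    have a1 : |1 + ε * r * (n - 1) + -(ε * t) * (n * (d - 1))| ≤ D := by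
      have : 1 + ε * r * (n - 1) + -(ε * t) * (n * (d - 1)) =
          1 + ε * (r * (n - 1) - t * (n * (d - 1))) := by ring
      rw [this]
      refine (abs_add_le _ _).trans ?_
      rw [abs_mul, ha, abs_one]; linarith
    have rre : ∀ x, rr (F0 vt d t h ε) x - 1 =
        (1 + r ^ 2 * (n - 1) + t ^ 2 * (n * (d - 1)) - n * d) / N := fun x => by
      rw [F0_eq hd0, K_rr hv hd0 hNp.ne', K_diag hv hd0 hNp.ne', ← hn', ← hN', ← hr, ← hN]
      have e1 : ε * r * (ε * r) = r ^ 2 := by linear_combination r ^ 2 * hε2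
      have e2 : -(ε * t) * -(ε * t) = t ^ 2 := by linear_combination t ^ 2 * hε2
      rw [e1, e2]; field_simp
    have Pb : ∀ k, 2 ≤ k → Pq (F0 vt d t h ε) k ≤ 1 := fun k hk => by
      simp only [Pq, rre, Finset.sum_const, card_univ, nsmul_eq_mul]
      have := small (max (1 + r ^ 2 * (n - 1) + t ^ 2 * (n * (d - 1)) - n * d) 0) k
        (by rw [abs_of_nonneg (le_max_right _ _)]
            exact max_le ((le_abs_self _).trans n4) (by linarith)) hk
      rwa [← max_div_div_right hNp.le, zero_div] at this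
    have fe : ∀ k, fq (F0 vt d t h ε) k =
        N * ((1 + ε * r * (n - 1) + -(ε * t) * (n * (d - 1))) / N) ^ k := fun k => by
      simp only [fq, F0_eq hd0, K_diag hv hd0 hNp.ne', Finset.sum_const, card_univ, nsmul_eq_mul]
      rfl
    refine obs_small _ hD1 hΛ hB.lo ha ?_ ?_ ?_ ?_ ?_ ?_ ?_ ?_ ?_ <;> simp only [obsR]
    · rw [tke]; simpa using a1
    · rw [tke, one_pow, mul_pow, neg_sq, mul_pow, hε2, one_mul, one_mul, hN]; exact n4
    · rw [tke]
      have : 1 ^ 3 + (ε * r) ^ 3 * (n - 1) + (-(ε * t)) ^ 3 * (n * (d - 1))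
          - ε * (n * (r ^ 3 - (d - 1) * t ^ 3)) = 1 - ε * r ^ 3 := by
        linear_combination (ε * r ^ 3 * (n - 1) - ε * t ^ 3 * (n * (d - 1))) * hε2
      rw [this]
      refine (abs_sub _ _).trans ?_
      rw [abs_mul, ha, abs_one, abs_of_nonneg (by positivity)]; linarith
    · rw [tke]; exact trb 4 _ _ b1 b2
    · rw [tke]; exact trb KK _ _ b1 b2
    · exact Pb 2 le_rfl
    · exact Pb p (by have := hB.hp; omega)
    · rw [fe]; exact small _ 2 a1 le_rfl
    · rw [fe]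
      set a := 1 + ε * r * (n - 1) + -(ε * t) * (n * (d - 1))
      have e1 : a ^ 8 ≤ Λ ^ 8 := (le_abs_self _).trans
        ((abs_pow a 8).le.trans (pow_le_pow_left₀ (abs_nonneg _) (a1.trans hDΛ) 8))
      have e2 : N * (a / N) ^ 8 = a ^ 8 / N ^ 7 := by field_simp
      have e3 : N ≤ N ^ 7 := le_self_pow₀ (by linarith) (by norm_num)
      have e4 : Λ ^ 8 * Λ ^ 2642 ≤ N := by
        rw [← pow_add]; exact (pow_le_pow_right₀ h1Λ (by norm_num)).trans hB.lo
      rw [e2, div_le_div_iff₀ (by positivity) (by positivity), one_mul]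
      exact (mul_le_mul_of_nonneg_right e1 (by positivity)).trans (e4.trans e3)
  have s1 := side 1 (Or.inl rfl)
  have s2 := side (-1) (Or.inr rfl)
  have om : com Λ N (Om (F0 vt d t h 1) (F0 vt d t h (-1))) ≤ 1 / 100 := by
    unfold com
    refine sq_small hD1 hΛ ?_ ?_
    · rw [abs_of_nonneg (le_max_right _ _)]
      refine max_le ?_ (by linarith)
      rw [Om, F0_eq hd0, F0_eq hd0, K_mul hv hd0 hNp.ne', K_tr hv hd0 hNp.ne', ← hn', ← hr]
      have e1 : 0 ≤ r ^ 2 * (n - 1) := mul_nonneg (sq_nonneg _) (by linarith)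
      have e2 : 0 ≤ t ^ 2 * (n * ((d : ℝ) - 1)) :=
        mul_nonneg (sq_nonneg _) (mul_nonneg (by linarith) (by linarith))
      nlinarith
    · rw [le_div_iff₀ (by positivity), ← pow_succ']
      exact (pow_le_pow_right₀ h1Λ (by norm_num)).trans hB.lo
  have xc : cxc Λ (Xc (F0 vt d t h 1) (F0 vt d t h (-1))) ≤ 1 / 100 := by
    unfold cxc
    refine ratio_small hΛ1 (c := N * Λ ^ 4) (by positivity) ?_ ?_
    · rw [Xc, F0_eq hd0, F0_eq hd0, K_mul hv hd0 hNp.ne', K_mul hv hd0 hNp.ne',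
        K_mul hv hd0 hNp.ne', K_tr hv hd0 hNp.ne', ← hn', ← hr]
      have := trb 4 r t (by rw [abs_of_nonneg r0]; exact r1) (by rw [abs_of_pos ht]; linarith)
      refine le_trans (le_of_eq ?_) this
      ring
    · rw [mul_assoc, ← pow_succ]
      refine (mul_le_mul_of_nonneg_right hB.hi (by positivity)).trans ?_
      rw [← pow_add]
      exact pow_le_pow_right₀ h1Λ (by norm_num)
  unfold pot1R pot1
  linarith

end Crest.Agent.R62
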