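import Crest.Agent.R62.LAP

/-! Row 62, task LAF: the final perfect matching keeps the spectral bound. -/

set_option autoImplicit false

namespace Crest.Agent.R62

open Matrix Finset

namespace LAF
open LAP

section
variable {ι V : Type} [Fintype ι] [DecidableEq ι] [Fintype V] [DecidableEq V]

lemma tk2_eq {U : Finset ι} {F : Mat ι} (h : Bas0 U F) :
    tk F 2 = ∑ a ∈ U, ∑ b ∈ U, F a b ^ 2 := by
  simp only [tk, trace, Matrix.diag, pow_two, Matrix.mul_apply]
  symm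
  rw [Finset.sum_subset (subset_univ U)]
  · refine Finset.sum_congr rfl fun a _ => ?_
    rw [Finset.sum_subset (subset_univ U) fun b _ hb => by rw [h.sy, h.su _ _ hb]; simp]
    exact Finset.sum_congr rfl fun b _ => by rw [h.sy b a]
  · intro a _ ha
    refine Finset.sum_eq_zero fun b _ => ?_
    rw [h.su _ _ ha]; simp

lemma q_sq {U : Finset ι} {F : Mat ι} (h : Bas0 U F) (hU : U.Nonempty) (y : ι → ℝ)
    (hy : ∑ b ∈ U, y b = 0) : q F U y ^ 2 ≤ (tk F 2 - 1) * n2 U y ^ 2 := by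
  have hN : (U.card : ℝ) ≠ 0 := by exact_mod_cast hU.card_pos.ne'
  have e1 : q F U y = ∑ p ∈ U ×ˢ U, (F p.1 p.2 - 1 / U.card) * (y p.1 * y p.2) := by
    rw [Finset.sum_product]
    have : ∀ a ∈ U, ∑ b ∈ U, (F a b - 1 / U.card) * (y a * y b) =
        ∑ b ∈ U, y a * (F a b * y b) := by
      intro a _
      have e : ∀ b ∈ U, (F a b - 1 / U.card) * (y a * y b) =
          y a * (F a b * y b) - y a / U.card * y b := fun b _ => by ring
      rw [Finset.sum_congr rfl e, Finset.sum_sub_distrib, ← Finset.mul_sum _ _ (y a / U.card), hy]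
      simp
    rw [Finset.sum_congr rfl this]; rfl
  have e2 : ∑ p ∈ U ×ˢ U, (F p.1 p.2 - 1 / U.card) ^ 2 = tk F 2 - 1 := by
    rw [Finset.sum_product, tk2_eq h]
    have : ∀ a ∈ U, ∑ b ∈ U, (F a b - 1 / U.card) ^ 2 = ∑ b ∈ U, F a b ^ 2 - 1 / U.card := by
      intro a ha
      have e : ∀ b ∈ U, (F a b - 1 / U.card) ^ 2 =
          F a b ^ 2 - 2 / U.card * F a b + (1 / U.card) ^ 2 := fun b _ => by ring
      rw [Finset.sum_congr rfl e, Finset.sum_add_distrib, Finset.sum_sub_distrib,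
        ← Finset.mul_sum, rowU h ha, Finset.sum_const, nsmul_eq_mul]
      field_simp; ring
    rw [Finset.sum_congr rfl this, Finset.sum_sub_distrib, Finset.sum_const, nsmul_eq_mul]
    field_simp
  have e3 : ∑ p ∈ U ×ˢ U, (y p.1 * y p.2) ^ 2 = n2 U y ^ 2 := by
    rw [Finset.sum_product, n2, pow_two (∑ a ∈ U, y a ^ 2), Finset.sum_mul_sum]
    exact Finset.sum_congr rfl fun a _ => Finset.sum_congr rfl fun b _ => by ring
  rw [e1, ← e2, ← e3]
  exact Finset.sum_mul_sq_le_sq_mul_sq _ _ _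

lemma q_lt {U : Finset ι} {F : Mat ι} (h : Bas0 U F) (hU : U.Nonempty) (h2 : tk F 2 < 2)
    (y : ι → ℝ) (hy : ∑ b ∈ U, y b = 0) :
    |q F U y| ≤ n2 U y ∧ (0 < n2 U y → |q F U y| < n2 U y) := by
  have h1 := q_sq h hU y hy
  have h0 := n2_nonneg U y
  constructor
  · exact abs_le_of_sq_le_sq (by nlinarith [sq_nonneg (n2 U y)]) h0
  · intro hp
    exact abs_lt_of_sq_lt_sq (by nlinarith [pow_pos hp 2]) h0

variable {vt : ι → V} {t ε : ℝ} {U : Finset ι} {F : Mat ι} {M : Mat V} {Γ : Matrix V ι ℝ}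

lemma expand (h : LA vt t ε U F M Γ) (hk : 1 - t ^ 2 ≠ 0) (x : V → ℝ) (y : ι → ℝ) :
    (x - (1 - t ^ 2)⁻¹ • G Γ U y) ⬝ᵥ M *ᵥ (x - (1 - t ^ 2)⁻¹ • G Γ U y) =
      x ⬝ᵥ M *ᵥ x - 2 * ∑ b ∈ U, x (vt b) * y b + (ε * q F U y + t * n2 U y) / (1 - t ^ 2) := by
  rw [mulVec_sub, mulVec_smul, sub_dotProduct, dotProduct_sub, dotProduct_sub, smul_dotProduct,
    smul_dotProduct, dotProduct_smul, dotProduct_smul, symm_dot h.sM (G Γ U y) x, xMG h x, GMG h]
  simp only [smul_eq_mul]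
  field_simp
  ring

lemma pd1 (h : LA vt t 1 U F M Γ) (ht1 : t < 1) (hU : U.Nonempty) (z : V → ℝ) (hz : z ≠ 0) :
    0 < z ⬝ᵥ M *ᵥ z := by
  have hN : (0 : ℝ) < U.card := by exact_mod_cast hU.card_pos
  set a := (∑ b ∈ U, z (vt b)) / U.card with ha
  have h0 : ∑ v, (z - a • fun _ => (1 : ℝ) : V → ℝ) v * dfree vt U v = 0 := by
    rw [dotD]
    simpa using centre U fun b => z (vt b)
  have hM1 : ∀ w : V → ℝ, w ⬝ᵥ M *ᵥ (fun _ => (1 : ℝ)) = (1 - t) * ∑ v, w v * dfree vt U v := by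
    intro w
    simp only [dotProduct, mulVec, mul_one, h.m1, Finset.mul_sum]
    exact Finset.sum_congr rfl fun v _ => by ring
  set z0 : V → ℝ := z - a • fun _ => (1 : ℝ) with hz0
  have ez : z = z0 + a • fun _ => (1 : ℝ) := by simp [hz0]
  have e : z ⬝ᵥ M *ᵥ z = z0 ⬝ᵥ M *ᵥ z0 + a ^ 2 * ((1 - t) * U.card) := by
    conv_lhs => rw [ez]
    rw [mulVec_add, mulVec_smul, add_dotProduct, dotProduct_add, dotProduct_add, smul_dotProduct,
      smul_dotProduct, dotProduct_smul, dotProduct_smul, symm_dot h.sM (fun _ => (1 : ℝ)) z0,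
      hM1 z0, hM1, h0, dotD]
    simp
    ring
  rw [e]
  by_cases ha0 : a = 0
  · have : z0 = z := by simp [hz0, ha0]
    rw [ha0]
    have := h.pd z0 (this ▸ hz) h0
    simpa using this
  · have h1 := psd h z0 h0
    have h2 : 0 < a ^ 2 * ((1 - t) * U.card) :=
      mul_pos (pow_pos (abs_pos.2 ha0) 2 |>.trans_eq (sq_abs _)) (mul_pos (by linarith) hN)
    linarith

lemma z_ne (h : LA vt t ε U F M Γ) (x : V → ℝ) (hx : x ≠ 0) (hs : ∑ v, x v = 0) (y : ι → ℝ)
    (c k : ℝ) (hy : n2 U (fun a => y a - c) = 0) : x - k • G Γ U y ≠ 0 := by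
  intro e
  have h1 : ∀ b ∈ U, y b = c := by
    intro b hb
    have := (Finset.sum_eq_zero_iff_of_nonneg fun _ _ => sq_nonneg _).1 hy b hb
    have := pow_eq_zero_iff (two_ne_zero) |>.1 this
    linarith
  have h2 : ∀ v, x v = k * ((ε + t) * c) := by
    intro v
    have := congrFun e v
    simp only [Pi.sub_apply, Pi.smul_apply, smul_eq_mul, Pi.zero_apply, G] at this
    rw [Finset.sum_congr rfl fun b hb => by rw [h1 b hb], ← Finset.sum_mul, h.g1] at this
    linarith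
  obtain ⟨v, hv⟩ := Function.ne_iff.1 hx
  simp only [h2, Finset.sum_const, card_univ, nsmul_eq_mul] at hs
  have hc : (Fintype.card V : ℝ) ≠ 0 := by
    have : Nonempty V := ⟨v⟩
    exact_mod_cast Fintype.card_pos.ne'
  exact hv (by rw [h2, (mul_eq_zero.1 hs).resolve_left hc]; rfl)

omit [Fintype ι] [DecidableEq ι] in
lemma Mq (d : ℕ) (h : ℝ) (Aj : Mat V) (x : V → ℝ) (hs : ∑ v, x v = 0) :
    x ⬝ᵥ Mm vt d t h ε U Aj *ᵥ x = (t * d + (1 - t ^ 2) / h) * (x ⬝ᵥ x)
      - t * n2 U (fun a => x (vt a)) - ε * (x ⬝ᵥ Aj *ᵥ x) := by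
  have e := dotD vt U fun v => x v ^ 2
  simp only [dotProduct, mulVec, Mm, of_apply, add_mul, sub_mul, Finset.sum_add_distrib,
    Finset.sum_sub_distrib, ite_mul, zero_mul, Finset.sum_ite_eq, mem_univ, if_true,
    ← Finset.mul_sum, hs, mul_zero, add_zero, mul_assoc, n2]
  rw [← e, Finset.mul_sum, Finset.mul_sum, Finset.mul_sum, Finset.mul_sum, Finset.mul_sum,
    ← Finset.sum_add_distrib, ← Finset.sum_sub_distrib, ← Finset.sum_sub_distrib]
  exact Finset.sum_congr rfl fun v _ => by ring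

omit [Fintype ι] [DecidableEq ι] in
lemma Aq (Aj Aj' : Mat V) (μ : ι → ι)
    (hA : ∀ v w, Aj' v w = Aj v w + ∑ x ∈ U, if v = vt x ∧ w = vt (μ x) then 1 else 0)
    (x : V → ℝ) :
    x ⬝ᵥ Aj' *ᵥ x = x ⬝ᵥ Aj *ᵥ x + ∑ a ∈ U, x (vt a) * x (vt (μ a)) := by
  simp only [dotProduct, mulVec, hA, add_mul, mul_add, Finset.sum_add_distrib, Finset.sum_mul,
    Finset.mul_sum]
  congr 1
  rw [Finset.sum_congr rfl fun v _ => Finset.sum_comm, Finset.sum_comm]
  refine Finset.sum_congr rfl fun a _ => ?_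
  simp [ite_and]

end

end LAF

open LAP LAF in
theorem LAF_proof : LAFStmt := by
  intro ι V _ _ _ _ vt d t h ε U F Aj Aj' Γ μ ht0 ht1 hε hL hU h2 hμ hA x hx hs
  have hN : (0 : ℝ) < U.card := by exact_mod_cast hU.card_pos
  have hk : 0 < 1 - t ^ 2 := by nlinarith
  have hM := Mq (vt := vt) (t := t) (ε := ε) (U := U) d h Aj x hs
  rw [Aq Aj Aj' μ hA x]
  have hbij : ∀ f : ι → ℝ, ∑ a ∈ U, f (μ a) = ∑ a ∈ U, f a := fun f =>
    Finset.sum_nbij' μ μ (fun a ha => (hμ a ha).1) (fun a ha => (hμ a ha).1)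
      (fun a ha => (hμ a ha).2.2) (fun a ha => (hμ a ha).2.2) fun _ _ => rfl
  set X : ι → ℝ := fun a => x (vt a) with hX
  set C := ∑ a ∈ U, x (vt a) * x (vt (μ a)) with hC
  have hS2 : ∑ a ∈ U, X (μ a) ^ 2 = n2 U X := hbij fun a => X a ^ 2
  have hn : ∀ (s k : ℝ), s ^ 2 = 1 →
      n2 U (fun a => k * (X a + s * X (μ a))) = k ^ 2 * (2 * n2 U X + 2 * s * C) := by
    intro s k hs1
    have e : ∀ a ∈ U, (k * (X a + s * X (μ a))) ^ 2 =
        k ^ 2 * (X a ^ 2 + X (μ a) ^ 2 + 2 * s * (x (vt a) * x (vt (μ a)))) := by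
      intro a _
      simp only [hX]
      linear_combination (k ^ 2 * x (vt (μ a)) ^ 2) * hs1
    unfold n2 at hS2 ⊢
    rw [Finset.sum_congr rfl e, ← Finset.mul_sum, Finset.sum_add_distrib, Finset.sum_add_distrib,
      hS2, ← Finset.mul_sum]
    ring
  have hxy : ∀ (s k c : ℝ), ∑ b ∈ U, x (vt b) * (k * (X b + s * X (μ b)) + c) =
      k * (n2 U X + s * C) + c * ∑ b ∈ U, X b := by
    intro s k c
    unfold n2
    rw [hC, Finset.mul_sum, ← Finset.sum_add_distrib, Finset.mul_sum, Finset.mul_sum,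
      ← Finset.sum_add_distrib]
    exact Finset.sum_congr rfl fun a _ => by simp only [hX]; ring
  have hsum : ∀ (s k : ℝ), ∑ b ∈ U, k * (X b + s * X (μ b)) = k * (1 + s) * ∑ b ∈ U, X b := by
    intro s k
    rw [← Finset.mul_sum, Finset.sum_add_distrib, ← Finset.mul_sum, hbij X]
    ring
  rcases hε with rfl | rfl
  · set y : ι → ℝ := fun a => (1 - t) / 2 * (X a + 1 * X (μ a)) with hy
    set c := (∑ a ∈ U, y a) / U.card with hc
    have h0 : ∑ b ∈ U, (y b - c) = 0 := centre U y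
    have ev : y = fun a => (y a - c) + c := by funext a; ring
    have e1 := q_shift hL.b0 (fun a => y a - c) c h0
    have e2 := n2_shift U (fun a => y a - c) c h0
    rw [← ev] at e1 e2
    have e3 := expand hL hk.ne' x y
    have e4 : ∑ b ∈ U, x (vt b) * y b = (1 - t) / 2 * (n2 U X + 1 * C) := by
      have := hxy 1 ((1 - t) / 2) 0
      simpa [hy] using this
    have e5 : n2 U y = ((1 - t) / 2) ^ 2 * (2 * n2 U X + 2 * 1 * C) := hn 1 _ (by norm_num)
    have e6 := n2_nonneg U fun a => 1 / 2 * (X a + (-1) * X (μ a))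
    rw [hn (-1) _ (by norm_num)] at e6
    obtain ⟨q1, q2⟩ := q_lt hL.b0 hU h2 (fun a => y a - c) h0
    have key : (t * d + (1 - t ^ 2) / h) * (x ⬝ᵥ x) - 1 * (x ⬝ᵥ Aj *ᵥ x + C) =
        (x - (1 - t ^ 2)⁻¹ • G Γ U y) ⬝ᵥ Mm vt d t h 1 U Aj *ᵥ (x - (1 - t ^ 2)⁻¹ • G Γ U y)
          + (n2 U (fun a => y a - c) - q F U fun a => y a - c) / (1 - t ^ 2)
          + (1 + t) * ((n2 U X - C) / 2) := by
      have e7 : n2 U (fun a => y a - c) - (q F U fun a => y a - c) = n2 U y - q F U y := by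
        rw [e1, e2]; ring
      rw [e7, e3, e4, hM, e5]
      field_simp
      ring
    have p3 : 0 ≤ (1 + t) * ((n2 U X - C) / 2) := mul_nonneg (by linarith) (by linarith)
    rcases (n2_nonneg U fun a => y a - c).eq_or_lt with z | z
    · have p1 := pd1 hL ht1 hU _ (z_ne hL x hx hs y c (1 - t ^ 2)⁻¹ z.symm)
      have p2 : 0 ≤ (n2 U (fun a => y a - c) - q F U fun a => y a - c) / (1 - t ^ 2) :=
        div_nonneg (by linarith [le_abs_self (q F U fun a => y a - c)]) hk.le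
      linarith
    · have p1 : 0 ≤ (x - (1 - t ^ 2)⁻¹ • G Γ U y) ⬝ᵥ Mm vt d t h 1 U Aj *ᵥ
          (x - (1 - t ^ 2)⁻¹ • G Γ U y) := by
        by_cases z0 : x - (1 - t ^ 2)⁻¹ • G Γ U y = 0
        · simp [z0]
        · exact (pd1 hL ht1 hU _ z0).le
      have p2 : 0 < (n2 U (fun a => y a - c) - q F U fun a => y a - c) / (1 - t ^ 2) :=
        div_pos (by linarith [le_abs_self (q F U fun a => y a - c), q2 z]) hk
      linarith
  · set S := ∑ b ∈ U, X b with hS
    set c := -(1 + t) * S / U.card with hc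
    set y0 : ι → ℝ := fun a => (1 - t) / 2 * (X a + (-1) * X (μ a)) with hy0
    have h0 : ∑ b ∈ U, y0 b = 0 := by rw [hsum]; ring
    set y : ι → ℝ := fun a => y0 a + c with hy
    have e1 : q F U y = _ := q_shift hL.b0 y0 c h0
    have e2 : n2 U y = _ := n2_shift U y0 c h0
    have e3 := expand hL hk.ne' x y
    have e4 : ∑ b ∈ U, x (vt b) * y b = (1 - t) / 2 * (n2 U X + (-1) * C) + c * S :=
      hxy (-1) ((1 - t) / 2) c
    have e5 : n2 U y0 = ((1 - t) / 2) ^ 2 * (2 * n2 U X + 2 * (-1) * C) := hn (-1) _ (by norm_num)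
    have e6 : S ^ 2 ≤ U.card * ((n2 U X + C) / 2) := by
      have := sq_sum_le_card_mul_sum_sq (s := U) (f := fun a => 1 / 2 * (X a + 1 * X (μ a)))
      have e := hn 1 (1 / 2) (by norm_num)
      unfold n2 at e
      rw [hsum, e] at this
      unfold n2
      linarith
    obtain ⟨q1, q2⟩ := q_lt hL.b0 hU h2 y0 h0
    have hD : ∑ v, (x - (1 - t ^ 2)⁻¹ • G Γ U y) v * dfree vt U v = 0 := by
      have g := GD hL y
      have g2 : ∑ b ∈ U, y b = c * U.card := by
        simp only [hy]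
        rw [Finset.sum_add_distrib, h0]; simp [mul_comm]
      have g3 := dotD vt U x
      simp only [Pi.sub_apply, Pi.smul_apply, smul_eq_mul, sub_mul, Finset.sum_sub_distrib,
        mul_assoc, ← Finset.mul_sum, g, g2, g3]
      change S - _ = 0
      rw [hc]
      field_simp
      ring
    have key : (t * d + (1 - t ^ 2) / h) * (x ⬝ᵥ x) - (-1) * (x ⬝ᵥ Aj *ᵥ x + C) =
        (x - (1 - t ^ 2)⁻¹ • G Γ U y) ⬝ᵥ Mm vt d t h (-1) U Aj *ᵥ (x - (1 - t ^ 2)⁻¹ • G Γ U y)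
          + (n2 U y0 + q F U y0) / (1 - t ^ 2)
          + (1 + t) * ((U.card * ((n2 U X + C) / 2) - S ^ 2) / U.card) := by
      rw [e3, e4, hM, e1, e2, e5, hc]
      field_simp
      ring
    have p3 : 0 ≤ (1 + t) * ((U.card * ((n2 U X + C) / 2) - S ^ 2) / U.card) :=
      mul_nonneg (by linarith) (div_nonneg (by linarith) hN.le)
    rcases (n2_nonneg U y0).eq_or_lt with z | z
    · have z' : n2 U (fun a => y a - c) = 0 := by simpa [hy] using z.symm
      have p1 := hL.pd _ (z_ne hL x hx hs y c (1 - t ^ 2)⁻¹ z') hD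
      have p2 : 0 ≤ (n2 U y0 + q F U y0) / (1 - t ^ 2) :=
        div_nonneg (by linarith [neg_abs_le (q F U y0)]) hk.le
      linarith
    · have p1 := psd hL _ hD
      have p2 : 0 < (n2 U y0 + q F U y0) / (1 - t ^ 2) :=
        div_pos (by linarith [neg_abs_le (q F U y0), q2 z]) hk
      linarith

end Crest.Agent.R62
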