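import Crest.Agent.R62.DefsB

/-! Row 62, task LAP: positivity, initial state and Cramer heights of the vertex-level data. -/

set_option autoImplicit false

namespace Crest.Agent.R62

open Matrix Finset

namespace LAP

section
variable {ι V : Type} [Fintype ι] [DecidableEq ι] [Fintype V] [DecidableEq V]

/-- `Γ y` for `y` restricted to `U`. -/
def G (Γ : Matrix V ι ℝ) (U : Finset ι) (y : ι → ℝ) : V → ℝ := fun w => ∑ b ∈ U, Γ w b * y b
/-- The quadratic form of `F` on `U`. -/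
def q (F : Mat ι) (U : Finset ι) (y : ι → ℝ) : ℝ := ∑ a ∈ U, ∑ b ∈ U, y a * (F a b * y b)
/-- The squared norm on `U`. -/
def n2 (U : Finset ι) (y : ι → ℝ) : ℝ := ∑ a ∈ U, y a ^ 2

omit [DecidableEq ι] in
lemma rowU {U : Finset ι} {F : Mat ι} (h : Bas0 U F) {a : ι} (ha : a ∈ U) :
    ∑ b ∈ U, F a b = 1 := by
  rw [← h.on a ha]
  refine Finset.sum_subset (subset_univ _) fun b _ hb => ?_
  rw [h.sy, h.su _ _ hb]

omit [DecidableEq ι] in
lemma colU {U : Finset ι} {F : Mat ι} (h : Bas0 U F) (y : ι → ℝ) :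
    ∑ a ∈ U, ∑ b ∈ U, F a b * y b = ∑ b ∈ U, y b := by
  rw [Finset.sum_comm]
  refine Finset.sum_congr rfl fun b hb => ?_
  rw [← Finset.sum_mul]
  have : ∑ a ∈ U, F a b = 1 := by
    rw [← rowU h hb]; exact Finset.sum_congr rfl fun a _ => h.sy _ _
  rw [this, one_mul]

omit [DecidableEq ι] in
lemma q_shift {U : Finset ι} {F : Mat ι} (h : Bas0 U F) (y : ι → ℝ) (c : ℝ)
    (hy : ∑ b ∈ U, y b = 0) : q F U (fun a => y a + c) = q F U y + c ^ 2 * U.card := by
  have h1 : ∀ a ∈ U, ∑ b ∈ U, (y a + c) * (F a b * (y b + c)) =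
      ∑ b ∈ U, y a * (F a b * y b) + c * ∑ b ∈ U, F a b * y b + (c * y a + c ^ 2) := by
    intro a ha
    have := rowU h ha
    have e : c * y a + c ^ 2 = ∑ b ∈ U, (c * y a + c ^ 2) * F a b := by
      rw [← Finset.mul_sum, this, mul_one]
    rw [e, Finset.mul_sum, ← Finset.sum_add_distrib, ← Finset.sum_add_distrib]
    exact Finset.sum_congr rfl fun b _ => by ring
  unfold q
  rw [Finset.sum_congr rfl h1, Finset.sum_add_distrib, Finset.sum_add_distrib, ← Finset.mul_sum,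
    colU h, hy, Finset.sum_add_distrib, ← Finset.mul_sum, hy]
  simp [mul_comm]

omit [Fintype ι] [DecidableEq ι] in
lemma n2_shift (U : Finset ι) (y : ι → ℝ) (c : ℝ) (hy : ∑ b ∈ U, y b = 0) :
    n2 U (fun a => y a + c) = n2 U y + c ^ 2 * U.card := by
  unfold n2
  have : ∀ a ∈ U, (y a + c) ^ 2 = y a ^ 2 + 2 * c * y a + c ^ 2 := fun a _ => by ring
  rw [Finset.sum_congr rfl this, Finset.sum_add_distrib, Finset.sum_add_distrib, ← Finset.mul_sum,
    hy]
  simp [mul_comm]

omit [Fintype ι] [DecidableEq ι] in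
lemma n2_nonneg (U : Finset ι) (y : ι → ℝ) : 0 ≤ n2 U y :=
  Finset.sum_nonneg fun _ _ => sq_nonneg _

omit [Fintype ι] [DecidableEq ι] in
lemma dotD (vt : ι → V) (U : Finset ι) (x : V → ℝ) :
    ∑ w, x w * dfree vt U w = ∑ a ∈ U, x (vt a) := by
  have : ∀ w, x w * dfree vt U w = ∑ a ∈ U, if vt a = w then x (vt a) else 0 := by
    intro w
    rw [← Finset.sum_filter, dfree, Finset.sum_congr rfl (g := fun _ => x w)]
    · simp [mul_comm]
    · intro a ha; rw [(Finset.mem_filter.1 ha).2]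
  simp only [this]
  rw [Finset.sum_comm]
  simp

variable {vt : ι → V} {t ε : ℝ} {U : Finset ι} {F : Mat ι} {M : Mat V} {Γ : Matrix V ι ℝ}

lemma MG (h : LA vt t ε U F M Γ) (y : ι → ℝ) (v : V) :
    (M *ᵥ G Γ U y) v = (1 - t ^ 2) * ∑ b ∈ U, if vt b = v then y b else 0 := by
  simp only [mulVec, dotProduct, G, Finset.mul_sum]
  rw [Finset.sum_comm]
  refine Finset.sum_congr rfl fun b hb => ?_
  have := h.mg v b hb
  simp only [← mul_assoc]
  rw [← Finset.sum_mul, this]
  split_ifs <;> simp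

lemma xMG (h : LA vt t ε U F M Γ) (x : V → ℝ) (y : ι → ℝ) :
    x ⬝ᵥ M *ᵥ G Γ U y = (1 - t ^ 2) * ∑ b ∈ U, x (vt b) * y b := by
  simp only [dotProduct, MG h, Finset.mul_sum]
  rw [Finset.sum_comm]
  refine Finset.sum_congr rfl fun b _ => ?_
  simp only [mul_ite, mul_zero]
  rw [Finset.sum_ite_eq]
  simp; ring

lemma G_vt (h : LA vt t ε U F M Γ) (y : ι → ℝ) {a : ι} (ha : a ∈ U) :
    G Γ U y (vt a) = ε * ∑ b ∈ U, F a b * y b + t * y a := by
  unfold G
  rw [Finset.sum_congr rfl fun b hb => by rw [h.gh a ha b hb]]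
  simp only [add_mul, Finset.sum_add_distrib, Finset.mul_sum, ite_mul, zero_mul, mul_assoc]
  rw [Finset.sum_ite_eq]
  simp [ha]

lemma GMG (h : LA vt t ε U F M Γ) (y : ι → ℝ) :
    G Γ U y ⬝ᵥ M *ᵥ G Γ U y = (1 - t ^ 2) * (ε * q F U y + t * n2 U y) := by
  rw [xMG h]
  congr 1
  unfold q n2
  rw [Finset.mul_sum, Finset.mul_sum, ← Finset.sum_add_distrib]
  refine Finset.sum_congr rfl fun a ha => ?_
  rw [G_vt h y ha, ← Finset.mul_sum]
  ring

lemma GD (h : LA vt t ε U F M Γ) (y : ι → ℝ) :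
    ∑ w, G Γ U y w * dfree vt U w = (ε + t) * ∑ b ∈ U, y b := by
  rw [dotD, Finset.sum_congr rfl fun a ha => G_vt h y ha, Finset.sum_add_distrib,
    ← Finset.mul_sum, ← Finset.mul_sum, colU h.b0]
  ring

omit [DecidableEq V] in
lemma symm_dot (hM : Sy M) (x z : V → ℝ) : x ⬝ᵥ M *ᵥ z = z ⬝ᵥ M *ᵥ x := by
  simp only [dotProduct, mulVec, Finset.mul_sum]
  rw [Finset.sum_comm]
  refine Finset.sum_congr rfl fun a _ => Finset.sum_congr rfl fun b _ => ?_
  rw [hM a b]; ring

lemma psd (h : LA vt t ε U F M Γ) (x : V → ℝ) (hx : ∑ v, x v * dfree vt U v = 0) :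
    0 ≤ x ⬝ᵥ M *ᵥ x := by
  by_cases h0 : x = 0
  · simp [h0]
  · exact (h.pd x h0 hx).le

omit [DecidableEq ι] in
lemma dot_q (h : Bas0 U F) (v : ι → ℝ) : v ⬝ᵥ F *ᵥ v = q F U v := by
  simp only [dotProduct, mulVec, q, Finset.mul_sum]
  symm
  rw [Finset.sum_subset (subset_univ U)]
  · refine Finset.sum_congr rfl fun a _ => ?_
    refine Finset.sum_subset (subset_univ U) fun b _ hb => ?_
    rw [h.sy, h.su _ _ hb]; simp
  · intro a _ ha
    refine Finset.sum_eq_zero fun b _ => ?_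
    rw [h.su _ _ ha]; simp

omit [Fintype ι] [DecidableEq ι] in
lemma centre (U : Finset ι) (v : ι → ℝ) :
    ∑ b ∈ U, (v b - (∑ a ∈ U, v a) / U.card) = 0 := by
  rcases U.eq_empty_or_nonempty with rfl | hU
  · simp
  · have : (U.card : ℝ) ≠ 0 := by exact_mod_cast hU.card_pos.ne'
    rw [Finset.sum_sub_distrib, Finset.sum_const, nsmul_eq_mul]
    field_simp
    ring

lemma part1 (ht0 : 0 < t) (ht1 : t < 1) (hε : ε = 1 ∨ ε = -1) (h : LA vt t ε U F M Γ) :
    Bas U F ε := by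
  refine ⟨h.b0, fun v => ?_, hε⟩
  set c := (∑ a ∈ U, v a) / U.card with hc
  have h0 : ∑ b ∈ U, (v b - c) = 0 := centre U v
  have ev : v = fun a => (v a - c) + c := by funext a; ring
  have h1 := q_shift h.b0 (fun a => v a - c) c h0
  have h2 := n2_shift U (fun a => v a - c) c h0
  rw [← ev] at h1 h2
  have h3 := psd h (G Γ U fun a => v a - c) (by rw [GD h, h0, mul_zero])
  rw [GMG h] at h3
  have hk : 0 < 1 - t ^ 2 := by nlinarith
  have h4 := (mul_nonneg_iff_of_pos_left hk).1 h3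
  have h5 : n2 U v ≤ ∑ x, v x ^ 2 :=
    Finset.sum_le_sum_of_subset_of_nonneg (subset_univ _) fun _ _ _ => sq_nonneg _
  have h6 := n2_nonneg U fun a => v a - c
  have h7 : 0 ≤ c ^ 2 * (U.card : ℝ) := mul_nonneg (sq_nonneg _) (Nat.cast_nonneg _)
  rw [dot_q h.b0, h1]
  rcases hε with rfl | rfl <;> nlinarith

lemma part2 (hε : ε = 1 ∨ ε = -1) (ht0 : 0 < t) (ht1 : t < 1) (d : ℕ) (h : ℝ) (hh : 0 < h)
    (hd : 1 ≤ d) (hV : Nonempty V) (hv : ∀ v, (univ.filter fun x => vt x = v).card = d) :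
    ∃ Γ, LA vt t ε univ (F0 vt d t h ε) (Mm vt d t h ε univ 0) Γ := by
  have hN : Fintype.card ι = Fintype.card V * d := by
    rw [← Finset.card_univ, Finset.card_eq_sum_card_fiberwise (f := vt) (t := univ) (by simp)]
    rw [Finset.sum_congr rfl fun v _ => hv v, Finset.sum_const, card_univ, smul_eq_mul]
  have hn : (0 : ℝ) < Fintype.card V := by exact_mod_cast Fintype.card_pos
  have hd' : (0 : ℝ) < d := by exact_mod_cast hd
  have hN' : (Fintype.card ι : ℝ) = Fintype.card V * d := by exact_mod_cast hN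
  have hD : ∀ v, dfree vt univ v = d := fun v => by unfold dfree; rw [hv]
  have hε2 : ε ^ 2 = 1 := by rcases hε with rfl | rfl <;> norm_num
  have hs : ∀ v (c : ℝ), ∑ y, (if vt y = v then c else 0) = c * d := by
    intro v c
    rw [← Finset.sum_filter, Finset.sum_const, hv, nsmul_eq_mul, mul_comm]
  have hM : ∀ v w, Mm vt d t h ε univ 0 v w = (if v = w then (1 - t ^ 2) / h else 0)
      + ((ε - t) * d - (1 - t ^ 2) / h) / Fintype.card V := by
    intro v w
    simp only [Mm, of_apply, hD, Matrix.zero_apply, mul_zero, sub_zero]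
    split_ifs <;> ring
  refine ⟨Matrix.of fun v y => (if vt y = v then h else 0) + (ε + t - h * d) / Fintype.card ι,
    ⟨fun x y => ?_, fun x y hx => absurd (mem_univ x) hx, fun x _ => ?_⟩, fun v w => ?_,
    fun v y _ => ?_, fun x _ y _ => ?_, fun v => ?_, fun v => ?_, fun x hx hs0 => ?_⟩
  · simp only [F0, of_apply, eq_comm (a := x), eq_comm (a := vt x)]
  · simp only [F0, of_apply, Finset.sum_add_distrib, ← Finset.mul_sum, Finset.sum_sub_distrib,
      eq_comm (a := vt x), hs, Finset.sum_ite_eq, mem_univ, if_true, Finset.sum_const,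
      card_univ, nsmul_eq_mul]
    rw [hN']; field_simp; ring
  · rw [hM, hM]; simp only [eq_comm (a := v)]
  · simp only [hM, of_apply, add_mul, mul_add, Finset.sum_add_distrib, ite_mul, zero_mul,
      mul_ite, mul_zero, Finset.sum_ite_eq, mem_univ, if_true, Finset.sum_const,
      card_univ, nsmul_eq_mul]
    rw [hN']
    rcases hε with rfl | rfl
    · by_cases h2 : v = vt y
      · subst h2; simp; field_simp; ring
      · simp [h2, Ne.symm h2]; field_simp; ring
    · by_cases h2 : v = vt y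
      · subst h2; simp; field_simp; ring
      · simp [h2, Ne.symm h2]; field_simp; ring
  · have hN0 : (Fintype.card ι : ℝ) ≠ 0 := by rw [hN']; positivity
    simp only [F0, of_apply, eq_comm (a := vt x)]
    rcases hε with rfl | rfl <;> split_ifs <;> field_simp <;> ring
  · have hN0 : (Fintype.card ι : ℝ) ≠ 0 := by rw [hN']; positivity
    simp only [of_apply, Finset.sum_add_distrib, hs, Finset.sum_const, card_univ, nsmul_eq_mul]
    field_simp; ring
  · simp only [hM, Finset.sum_add_distrib, Finset.sum_ite_eq, mem_univ, if_true, Finset.sum_const,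
      card_univ, nsmul_eq_mul, hD]
    field_simp; ring
  · have hx0 : ∑ v, x v = 0 := by
      simp only [hD, ← Finset.sum_mul] at hs0
      exact (mul_eq_zero.1 hs0).resolve_right hd'.ne'
    have e : x ⬝ᵥ Mm vt d t h ε univ 0 *ᵥ x = (1 - t ^ 2) / h * ∑ v, x v ^ 2 := by
      simp only [dotProduct, mulVec, hM, add_mul, Finset.sum_add_distrib, ite_mul, zero_mul,
        Finset.sum_ite_eq, mem_univ, if_true, ← Finset.mul_sum, hx0, mul_zero, add_zero]
      rw [Finset.mul_sum]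
      exact Finset.sum_congr rfl fun v _ => by ring
    rw [e]
    have hk : 0 < 1 - t ^ 2 := by nlinarith
    obtain ⟨v, hv0⟩ := Function.ne_iff.1 hx
    have : 0 < ∑ v, x v ^ 2 :=
      Finset.sum_pos' (fun _ _ => sq_nonneg _) ⟨v, mem_univ _, pow_pos (abs_pos.2 hv0) 2 |>.trans_eq (sq_abs _)⟩
    positivity

lemma det_ne (ht0 : 0 < t) (ht1 : t < 1) (hε : ε = 1 ∨ ε = -1) (h : LA vt t ε U F M Γ) :
    M.det ≠ 0 := by
  intro h0
  obtain ⟨x, hx, hMx⟩ := Matrix.exists_mulVec_eq_zero_iff.2 h0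
  have h1 : (fun _ => (1 : ℝ)) ⬝ᵥ M *ᵥ x = 0 := by rw [hMx]; simp
  rw [symm_dot h.sM] at h1
  simp only [dotProduct, mulVec, mul_one, h.m1] at h1
  have h2 : (ε - t) * ∑ v, x v * dfree vt U v = 0 := by
    rw [← h1, Finset.mul_sum]; exact Finset.sum_congr rfl fun v _ => by ring
  have h3 : ε - t ≠ 0 := by rcases hε with rfl | rfl <;> intro e <;> linarith
  have := h.pd x hx ((mul_eq_zero.1 h2).resolve_left h3)
  rw [hMx] at this
  simp at this

lemma part3 (ht0 : 0 < t) (ht1 : t < 1) (hε : ε = 1 ∨ ε = -1) (D₀ H : ℕ)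
    (h : LA vt t ε U F M Γ) (hD : 1 ≤ D₀) (hH : 1 ≤ H) (ha : ∃ a : ℤ, D₀ * t = a)
    (hM : ∀ v w, ∃ m : ℤ, D₀ * M v w = m ∧ m.natAbs ≤ H) (x y : ι) :
    ∃ a b : ℤ, b ≠ 0 ∧ F x y = a / b ∧
      a.natAbs ≤ 2 * D₀ ^ 2 * ((Fintype.card V).factorial * H ^ Fintype.card V) ∧
      b.natAbs ≤ 2 * D₀ ^ 2 * ((Fintype.card V).factorial * H ^ Fintype.card V) := by
  set B := (Fintype.card V).factorial * H ^ Fintype.card V with hB
  have hB1 : 1 ≤ B := Nat.mul_pos (Nat.factorial_pos _) (pow_pos hH _)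
  by_cases hxy : x ∈ U ∧ y ∈ U
  swap
  · refine ⟨0, 1, one_ne_zero, ?_, by simp, ?_⟩
    · by_cases hx : x ∈ U
      · have hy : y ∉ U := fun hy => hxy ⟨hx, hy⟩
        rw [h.b0.sy, h.b0.su _ _ hy]; simp
      · rw [h.b0.su _ _ hx]; simp
    · have : 0 < 2 * D₀ ^ 2 * B := by positivity
      exact this
  obtain ⟨hx, hy⟩ := hxy
  obtain ⟨a, ha⟩ := ha
  choose m hm hmH using hM
  set Z : Matrix V V ℤ := Matrix.of m with hZ
  have hD' : (0 : ℝ) < D₀ := by exact_mod_cast hD
  have hmap : (Int.castRingHom ℝ).mapMatrix Z = (D₀ : ℝ) • M := by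
    ext v w; simp [hZ, hm]
  have hdetR : ((Z.det : ℤ) : ℝ) = (D₀ : ℝ) ^ Fintype.card V * M.det := by
    have := (Int.castRingHom ℝ).map_det Z
    rw [hmap, det_smul] at this
    simpa using this
  have hdet0 : Z.det ≠ 0 := by
    intro e
    rw [e] at hdetR
    have := det_ne ht0 ht1 hε h
    have h2 : (D₀ : ℝ) ^ Fintype.card V * M.det ≠ 0 := by positivity
    exact h2 (by rw [← hdetR]; simp)
  have hbound : ∀ A : Matrix V V ℤ, (∀ v w, |A v w| ≤ H) → |A.det| ≤ B := by
    intro A hA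
    have := Matrix.det_le (A := A) (abv := AbsoluteValue.abs) (x := (H : ℤ)) hA
    simpa [hB] using this
  have hZH : ∀ v w, |Z v w| ≤ H := fun v w => by
    have := hmH v w
    rw [hZ, of_apply, ← Int.natCast_natAbs]; exact_mod_cast this
  have hdB := hbound Z hZH
  have haB : |Z.adjugate (vt x) (vt y)| ≤ B := by
    rw [adjugate_apply]
    refine hbound _ fun v w => ?_
    rw [updateRow_apply]
    split_ifs
    · rw [Pi.single_apply]
      split_ifs
      · simpa using hH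
      · simp
    · exact hZH _ _
  -- Cramer
  have hcr : (Z.det : ℝ) * Γ (vt x) y = D₀ * (1 - t ^ 2) * (Z.adjugate (vt x) (vt y) : ℤ) := by
    have e1 : ∀ w, ∑ v, ((Z.adjugate (vt x) v : ℤ) : ℝ) * (D₀ * M v w) =
        if vt x = w then (Z.det : ℝ) else 0 := by
      intro w
      have := congrFun (congrFun (adjugate_mul Z) (vt x)) w
      rw [mul_apply, Matrix.smul_apply, one_apply] at this
      have h2 := congrArg (Int.cast : ℤ → ℝ) this
      push_cast at h2
      simp only [hm]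
      simpa [hZ] using h2
    have e2 : ∑ w, (∑ v, ((Z.adjugate (vt x) v : ℤ) : ℝ) * (D₀ * M v w)) * Γ w y =
        ∑ v, ((Z.adjugate (vt x) v : ℤ) : ℝ) * D₀ * ∑ w, M v w * Γ w y := by
      simp only [Finset.sum_mul, Finset.mul_sum]
      rw [Finset.sum_comm]
      exact Finset.sum_congr rfl fun v _ => Finset.sum_congr rfl fun w _ => by ring
    simp only [e1, h.mg _ y hy, ite_mul, zero_mul, mul_ite, mul_zero, Finset.sum_ite_eq,
      mem_univ, if_true] at e2
    rw [e2]; ring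
  have ha0 : 0 < a := by
    have : (0 : ℝ) < a := by rw [← ha]; positivity
    exact_mod_cast this
  have ha1 : a < D₀ := by
    have : (a : ℝ) < D₀ := by rw [← ha]; nlinarith
    exact_mod_cast this
  obtain ⟨e, he, he1⟩ : ∃ e : ℤ, (e : ℝ) = ε ∧ |e| = 1 := by
    rcases hε with rfl | rfl
    · exact ⟨1, by simp, by simp⟩
    · exact ⟨-1, by simp, by simp⟩
  have hε2 : ε * ε = 1 := by rcases hε with rfl | rfl <;> norm_num
  have hD1 : (1 : ℤ) ≤ D₀ := by exact_mod_cast hD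
  have hB0 : (0 : ℤ) ≤ B := by positivity
  refine ⟨e * ((D₀ ^ 2 - a ^ 2) * Z.adjugate (vt x) (vt y) - (if x = y then a else 0) * Z.det),
    D₀ * Z.det, mul_ne_zero (by omega) hdet0, ?_, ?_, ?_⟩
  · have hdR : ((Z.det : ℤ) : ℝ) ≠ 0 := by exact_mod_cast hdet0
    have hg := h.gh x hx y hy
    rw [hg] at hcr
    generalize Z.det = dz at *
    push_cast
    rw [he, ← ha, eq_div_iff (by positivity)]
    have : F x y = ε * (ε * F x y) := by rw [← mul_assoc, hε2, one_mul]
    rw [this]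
    split_ifs at hcr ⊢
    · linear_combination (ε * D₀) * hcr
    · linear_combination (ε * D₀) * hcr
  · zify
    rw [abs_mul, he1, one_mul]
    have h1 : |((D₀ : ℤ) ^ 2 - a ^ 2) * Z.adjugate (vt x) (vt y)| ≤ D₀ ^ 2 * B := by
      rw [abs_mul, abs_of_nonneg (by nlinarith)]
      exact mul_le_mul (by nlinarith) haB (abs_nonneg _) (by positivity)
    have h2 : |(if x = y then a else 0) * Z.det| ≤ D₀ ^ 2 * B := by
      rw [abs_mul]
      refine mul_le_mul ?_ hdB (abs_nonneg _) (by positivity)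
      split_ifs
      · rw [abs_of_pos ha0]; nlinarith
      · simp
    have h3 := abs_sub (((D₀ : ℤ) ^ 2 - a ^ 2) * Z.adjugate (vt x) (vt y))
      ((if x = y then a else 0) * Z.det)
    linarith
  · zify
    rw [abs_mul, abs_of_nonneg (by positivity : (0 : ℤ) ≤ D₀)]
    have := mul_le_mul (show (D₀ : ℤ) ≤ 2 * D₀ ^ 2 by nlinarith) hdB (abs_nonneg _) (by positivity)
    linarith

end

end LAP

theorem LAP_proof : LAPStmt := by
  intro ι V _ _ _ _ vt t ε ht0 ht1 hε
  refine ⟨fun U F M Γ h => LAP.part1 ht0 ht1 hε h,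
    fun d h hh hd hV hv => LAP.part2 hε ht0 ht1 d h hh hd hV hv,
    fun U F M Γ D₀ H h _ hD hH ha hM x y => LAP.part3 ht0 ht1 hε D₀ H h hD hH ha hM x y⟩

end Crest.Agent.R62
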