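import Crest.Agent.R62.DefsB

/-! Row 62, task LAS: one matching step of the vertex-level linear algebra. -/

set_option autoImplicit false

namespace Crest.Agent.R62

open Matrix Finset

namespace LAS

theorem two (α β γ w₁ w₂ y₁ y₂ : ℝ) (hd : α * β - γ ^ 2 < 0)
    (hw : α * w₁ ^ 2 + 2 * γ * w₁ * w₂ + β * w₂ ^ 2 < 0) :
    ∃ s, (y₁ + s * w₁ = 0 ∧ y₂ + s * w₂ = 0) ∨
      0 < α * (y₁ + s * w₁) ^ 2 + 2 * γ * (y₁ + s * w₁) * (y₂ + s * w₂) + β * (y₂ + s * w₂) ^ 2 := by
  set Tw := α * w₁ ^ 2 + 2 * γ * w₁ * w₂ + β * w₂ ^ 2 with hTw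
  refine ⟨-(α * y₁ * w₁ + γ * (y₁ * w₂ + y₂ * w₁) + β * y₂ * w₂) / Tw, ?_⟩
  set s := -(α * y₁ * w₁ + γ * (y₁ * w₂ + y₂ * w₁) + β * y₂ * w₂) / Tw with hs
  have h0 : s * Tw = -(α * y₁ * w₁ + γ * (y₁ * w₂ + y₂ * w₁) + β * y₂ * w₂) := by
    rw [hs]; field_simp [hw.ne]
  generalize hz₁ : y₁ + s * w₁ = z₁
  generalize hz₂ : y₂ + s * w₂ = z₂
  have h1 : α * z₁ * w₁ + γ * (z₁ * w₂ + z₂ * w₁) + β * z₂ * w₂ = 0 := by
    rw [← hz₁, ← hz₂]; rw [hTw] at h0; linear_combination h0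
  have h2 : (α * z₁ ^ 2 + 2 * γ * z₁ * z₂ + β * z₂ ^ 2) * Tw =
      (α * β - γ ^ 2) * (z₁ * w₂ - z₂ * w₁) ^ 2 := by
    rw [hTw]
    linear_combination (α * z₁ * w₁ + γ * (z₁ * w₂ + z₂ * w₁) + β * z₂ * w₂) * h1
  by_cases h3 : z₁ * w₂ - z₂ * w₁ = 0
  · left
    have e1 : z₁ * Tw = 0 := by
      rw [hTw]; linear_combination w₁ * h1 + (γ * w₁ + β * w₂) * h3
    have e2 : z₂ * Tw = 0 := by
      rw [hTw]; linear_combination w₂ * h1 - (α * w₁ + γ * w₂) * h3
    exact ⟨(mul_eq_zero.1 e1).resolve_right hw.ne, (mul_eq_zero.1 e2).resolve_right hw.ne⟩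
  · right
    have h4 : 0 < (z₁ * w₂ - z₂ * w₁) ^ 2 := by positivity
    have h5 : (α * β - γ ^ 2) * (z₁ * w₂ - z₂ * w₁) ^ 2 < 0 := mul_neg_of_neg_of_pos hd h4
    rw [← h2] at h5
    by_contra h6
    have := mul_nonneg_of_nonpos_of_nonpos (not_lt.1 h6) hw.le
    linarith

theorem core {V : Type} (B : (V → ℝ) →ₗ[ℝ] (V → ℝ) →ₗ[ℝ] ℝ) (δ : (V → ℝ) →ₗ[ℝ] ℝ)
    (g₁ g₂ : V → ℝ) (I J : V) (t ε a b c N : ℝ) (t0 : 0 < t) (t1 : t < 1) (hε : ε = 1 ∨ ε = -1)
    (hs : ∀ x y, B x y = B y x) (h1 : ∀ x, B x g₁ = (1 - t ^ 2) * x I)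
    (h2 : ∀ x, B x g₂ = (1 - t ^ 2) * x J) (h3 : ∀ x, B x 1 = (ε - t) * δ x)
    (g1I : g₁ I = ε * a + t) (g1J : g₁ J = ε * c) (g2I : g₂ I = ε * c) (g2J : g₂ J = ε * b + t)
    (hN : δ 1 = N) (N2 : 2 < N) (hΔ : 0 < (1 - c) ^ 2 - a * b)
    (pd : ∀ x, x ≠ 0 → δ x = 0 → 0 < B x x) (x : V → ℝ) (hx : x ≠ 0) (hδ : δ x = x I + x J) :
    0 < B x x + t * (x I ^ 2 + x J ^ 2) - 2 * ε * x I * x J := by
  have hκ : 0 < 1 - t ^ 2 := by nlinarith
  have psd : ∀ x, δ x = 0 → 0 ≤ B x x := by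
    intro x h
    by_cases h0 : x = 0
    · simp [h0]
    · exact (pd x h0 h).le
  have expand : ∀ (x : V → ℝ) (k r y₁ y₂ : ℝ),
      B (k • x + r • (1 : V → ℝ) + y₁ • g₁ + y₂ • g₂) (k • x + r • (1 : V → ℝ) + y₁ • g₁ + y₂ • g₂) =
        k ^ 2 * B x x + 2 * k * r * (ε - t) * δ x + r ^ 2 * (ε - t) * N
          + 2 * (1 - t ^ 2) * ((k * x I + r) * y₁ + (k * x J + r) * y₂)
          + (1 - t ^ 2) * ((ε * a + t) * y₁ ^ 2 + 2 * ε * c * y₁ * y₂ + (ε * b + t) * y₂ ^ 2) := by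
    intro x k r y₁ y₂
    simp only [map_add, map_smul, LinearMap.add_apply, LinearMap.smul_apply, smul_eq_mul]
    rw [hs 1 x, hs g₁ x, hs g₂ x, hs g₁ 1, hs g₂ 1]
    simp only [h1, h2, h3, g1I, g1J, g2I, g2J, hN, Pi.one_apply]
    ring
  have dexp : ∀ (x : V → ℝ) (k r y₁ y₂ : ℝ),
      (ε - t) * δ (k • x + r • (1 : V → ℝ) + y₁ • g₁ + y₂ • g₂) =
        (ε - t) * (k * δ x + r * N) + (1 - t ^ 2) * (y₁ + y₂) := by
    intro x k r y₁ y₂
    have e1 := h3 g₁
    have e2 := h3 g₂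
    rw [hs, h1] at e1
    rw [hs, h2] at e2
    simp only [map_add, map_smul, smul_eq_mul, hN, Pi.one_apply] at e1 e2 ⊢
    linear_combination (-y₁) * e1 - y₂ * e2
  have N0 : 0 < N := by linarith
  rcases hε with rfl | rfl
  · have pd' : ∀ x, x ≠ 0 → 0 < B x x := by
      intro x h0
      have e := expand x 1 (-δ x / N) 0 0
      have d0 := dexp x 1 (-δ x / N) 0 0
      have d1 : δ ((1 : ℝ) • x + (-δ x / N) • (1 : V → ℝ) + (0 : ℝ) • g₁ + (0 : ℝ) • g₂) = 0 := by
        refine (mul_eq_zero.1 (d0.trans ?_)).resolve_left (by linarith)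
        field_simp; ring
      by_cases hd : δ x = 0
      · exact pd x h0 hd
      · have h4 := psd _ d1
        rw [e] at h4
        have h5 : 0 < (1 - t) * (δ x ^ 2 / N) := mul_pos (by linarith) (by positivity)
        have h6 : 2 * 1 * (-δ x / N) * (1 - t) * δ x + (-δ x / N) ^ 2 * (1 - t) * N =
            -((1 - t) * (δ x ^ 2 / N)) := by field_simp; ring
        nlinarith
    have psd' : ∀ x, 0 ≤ B x x := by
      intro x
      by_cases h0 : x = 0
      · simp [h0]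
      · exact (pd' x h0).le
    have hT : (-a) * 1 ^ 2 + 2 * (1 - c) * 1 * (-1) + (-b) * (-1) ^ 2 < 0 := by
      have h4 := psd' ((0 : ℝ) • x + (0 : ℝ) • (1 : V → ℝ) + (1 : ℝ) • g₁ + (-1 : ℝ) • g₂)
      rw [expand] at h4
      have h5 : 0 ≤ (1 - t ^ 2) * (a + b - 2 * c + 2 * t) := by linarith
      have h6 := nonneg_of_mul_nonneg_right h5 hκ
      linarith
    obtain ⟨s, hs'⟩ := two (-a) (-b) (1 - c) 1 (-1) (x J - t * x I) (x I - t * x J)
      (by linarith) hT
    set y₁ := x J - t * x I + s * 1 with hy₁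
    set y₂ := x I - t * x J + s * -1 with hy₂
    have e := expand x (1 - t ^ 2) 0 (-y₁) (-y₂)
    have key : (1 - t ^ 2) ^ 2 * (B x x + t * (x I ^ 2 + x J ^ 2) - 2 * 1 * x I * x J) =
        B ((1 - t ^ 2) • x + (0 : ℝ) • (1 : V → ℝ) + (-y₁) • g₁ + (-y₂) • g₂)
          ((1 - t ^ 2) • x + (0 : ℝ) • (1 : V → ℝ) + (-y₁) • g₁ + (-y₂) • g₂)
        + (1 - t ^ 2) * (-a * y₁ ^ 2 + 2 * (1 - c) * y₁ * y₂ + -b * y₂ ^ 2)
        + (1 - t ^ 2) * (2 * (1 - t) * s ^ 2) := by
      rw [e, hy₁, hy₂]; ring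
    have h7 : 0 ≤ (1 - t ^ 2) * (2 * (1 - t) * s ^ 2) :=
      mul_nonneg hκ.le (mul_nonneg (by linarith) (sq_nonneg s))
    refine (mul_pos_iff_of_pos_left (pow_pos hκ 2)).1 ?_
    rw [key]
    rcases hs' with ⟨z1, z2⟩ | hpos
    · rw [e, z1, z2]
      have := mul_pos (pow_pos hκ 2) (pd' x hx)
      linarith
    · have := psd' ((1 - t ^ 2) • x + (0 : ℝ) • (1 : V → ℝ) + (-y₁) • g₁ + (-y₂) • g₂)
      have := mul_pos hκ hpos
      linarith
  · have hT : a * 1 ^ 2 + 2 * (-(1 - c)) * 1 * 1 + b * 1 ^ 2 < 0 := by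
      have d0 := dexp x 0 (2 * (1 - t) / N) 1 1
      have d1 : δ ((0 : ℝ) • x + (2 * (1 - t) / N) • (1 : V → ℝ) + (1 : ℝ) • g₁ + (1 : ℝ) • g₂) = 0 := by
        refine (mul_eq_zero.1 (d0.trans ?_)).resolve_left (by linarith)
        field_simp; ring
      have h4 := psd _ d1
      rw [expand] at h4
      have h5 : 0 ≤ (1 - t ^ 2) * (2 * t + 4 * (1 - t) / N - (a + b + 2 * c)) := by
        refine h4.trans (le_of_eq ?_)
        field_simp; ring
      have h6 := nonneg_of_mul_nonneg_right h5 hκ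
      have h7 : 4 * (1 - t) / N < 2 * (1 - t) := by
        rw [div_lt_iff₀ N0]; nlinarith
      linarith
    obtain ⟨s, hs'⟩ := two a b (-(1 - c)) 1 1 (-x J - t * x I) (-x I - t * x J)
      (by linarith) hT
    set y₁ := -x J - t * x I + s * 1 with hy₁
    set y₂ := -x I - t * x J + s * 1 with hy₂
    set r : ℝ := -(δ x + (y₁ + y₂) / (1 + t)) / N with hr
    have hrN : r * N = -(δ x + (y₁ + y₂) / (1 + t)) := by rw [hr]; field_simp
    have e := expand x (1 - t ^ 2) ((1 - t ^ 2) * r) (-y₁) (-y₂)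
    have d0 := dexp x (1 - t ^ 2) ((1 - t ^ 2) * r) (-y₁) (-y₂)
    set z := (1 - t ^ 2) • x + ((1 - t ^ 2) * r) • (1 : V → ℝ) + (-y₁) • g₁ + (-y₂) • g₂ with hz
    have d1 : δ z = 0 := by
      refine (mul_eq_zero.1 (d0.trans ?_)).resolve_left (by linarith)
      rw [mul_assoc _ r, hrN]
      have : (1 + t) ≠ 0 := by linarith
      field_simp; ring
    have key : (1 - t ^ 2) ^ 2 * (B x x + t * (x I ^ 2 + x J ^ 2) - 2 * -1 * x I * x J) =
        B z z + (1 - t ^ 2) * (a * y₁ ^ 2 + 2 * (-(1 - c)) * y₁ * y₂ + b * y₂ ^ 2)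
        + (1 - t ^ 2) * (2 * (1 - t) * (s + r * (1 + t)) ^ 2)
        + (1 - t ^ 2) ^ 2 * (r ^ 2 * (1 + t) * (N - 2)) := by
      rw [e, hδ, hy₁, hy₂]; ring
    have h7 : 0 ≤ (1 - t ^ 2) * (2 * (1 - t) * (s + r * (1 + t)) ^ 2) :=
      mul_nonneg hκ.le (mul_nonneg (by linarith) (sq_nonneg _))
    have h8 : 0 ≤ (1 - t ^ 2) ^ 2 * (r ^ 2 * (1 + t) * (N - 2)) :=
      mul_nonneg (sq_nonneg _) (mul_nonneg (by positivity) (by linarith))
    have h9 := psd z d1
    refine (mul_pos_iff_of_pos_left (pow_pos hκ 2)).1 ?_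
    rw [key]
    rcases hs' with ⟨z1, z2⟩ | hpos
    · by_cases r0 : r = 0
      · have hd : δ x = 0 := by
          rw [r0, z1, z2] at hrN
          simpa using hrN
        have e' : B z z = (1 - t ^ 2) ^ 2 * B x x := by rw [e, z1, z2, r0]; ring
        have := mul_pos (pow_pos hκ 2) (pd x hx hd)
        rw [z1, z2]
        linarith
      · have : 0 < (1 - t ^ 2) ^ 2 * (r ^ 2 * (1 + t) * (N - 2)) :=
          mul_pos (pow_pos hκ 2) (mul_pos (by positivity) (by linarith))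
        rw [z1, z2]
        linarith
    · have := mul_pos hκ hpos
      linarith

variable {ι V : Type} [Fintype ι] [DecidableEq ι] [Fintype V] [DecidableEq V]

omit [Fintype ι] [Fintype V] in
theorem dfree_erase (vt : ι → V) (U : Finset ι) (i : ι) (hi : i ∈ U) (v : V) :
    dfree vt (U.erase i) v = dfree vt U v - if vt i = v then 1 else 0 := by
  unfold dfree
  rw [Finset.card_filter, Finset.card_filter, ← Finset.add_sum_erase U _ hi]
  push_cast
  ring

omit [Fintype ι] [DecidableEq ι] in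
theorem sum_dfree (vt : ι → V) (U : Finset ι) : ∑ v, dfree vt U v = U.card := by
  unfold dfree
  rw [← Nat.cast_sum, ← Finset.card_eq_sum_card_fiberwise (fun _ _ => Finset.mem_univ _)]

omit [Fintype ι] in
theorem Mm_step (vt : ι → V) (d : ℕ) (t h ε : ℝ) (U : Finset ι) (Aj : Mat V) (i j : ι)
    (hi : i ∈ U) (hj : j ∈ U) (hij : i ≠ j) (v w : V) :
    Mm vt d t h ε ((U.erase i).erase j) (Aj + edge vt i j) v w =
      Mm vt d t h ε U Aj v w
        + (if v = vt i then t * (if w = vt i then 1 else 0) - ε * (if w = vt j then 1 else 0) else 0)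
        + (if v = vt j then t * (if w = vt j then 1 else 0) - ε * (if w = vt i then 1 else 0)
            else 0) := by
  simp only [Mm, edge, Matrix.of_apply, Matrix.add_apply]
  rw [dfree_erase vt _ j (Finset.mem_erase.2 ⟨hij.symm, hj⟩), dfree_erase vt _ i hi]
  generalize vt i = I
  generalize vt j = J
  have e1 : (if v = w then t * d + (1 - t ^ 2) / h - t * ((dfree vt U v - if I = v then 1 else 0) -
      if J = v then 1 else 0) else 0 : ℝ) =
      (if v = w then t * d + (1 - t ^ 2) / h - t * dfree vt U v else 0) +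
        t * (if v = I then (if w = I then 1 else 0) else 0) +
        t * (if v = J then (if w = J then 1 else 0) else 0) := by
    by_cases h1 : v = w
    · subst h1
      simp only [@eq_comm _ I, @eq_comm _ J, if_true]
      split_ifs <;> ring
    · rw [if_neg h1, if_neg h1]
      split_ifs <;> simp_all
  rw [e1]
  simp only [ite_and]
  split_ifs <;> ring

omit [Fintype ι] in
theorem mul_step (vt : ι → V) (d : ℕ) (t h ε : ℝ) (U : Finset ι) (Aj : Mat V) (i j : ι)
    (hi : i ∈ U) (hj : j ∈ U) (hij : i ≠ j) (z : V → ℝ) (v : V) :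
    ∑ w, Mm vt d t h ε ((U.erase i).erase j) (Aj + edge vt i j) v w * z w =
      ∑ w, Mm vt d t h ε U Aj v w * z w
        + (if v = vt i then t * z (vt i) - ε * z (vt j) else 0)
        + (if v = vt j then t * z (vt j) - ε * z (vt i) else 0) := by
  simp only [Mm_step vt d t h ε U Aj i j hi hj hij, add_mul, Finset.sum_add_distrib]
  congr 1
  · congr 1
    split_ifs <;> simp [sub_mul, Finset.sum_sub_distrib]
  · split_ifs <;> simp [sub_mul, Finset.sum_sub_distrib]

end LAS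

theorem LAS_proof (hAlg : AlgStmt) : LASStmt := by
  intro ι V _ _ _ _ vt d t h ε U F Aj Γ i j t0 t1 hε la hi hj hij hΔ hN
  have hε2 : ε ^ 2 = 1 := by rcases hε with rfl | rfl <;> norm_num
  have sy := la.b0.sy
  set M := Mm vt d t h ε U Aj with hM
  have hmem : ∀ y ∈ (U.erase i).erase j, y ∈ U ∧ y ≠ i ∧ y ≠ j := fun y hy => by
    simp only [Finset.mem_erase] at hy; tauto
  have gii : Γ (vt i) i = ε * F i i + t := by rw [la.gh i hi i hi, if_pos rfl]
  have gjj : Γ (vt j) j = ε * F j j + t := by rw [la.gh j hj j hj, if_pos rfl]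
  have gij : Γ (vt i) j = ε * F i j := by rw [la.gh i hi j hj, if_neg hij, add_zero]
  have gji : Γ (vt j) i = ε * F i j := by rw [la.gh j hj i hi, if_neg hij.symm, add_zero, sy j i]
  let p : ι → ℝ := fun y => (F j j * F y i + (1 - F i j) * F y j) / Dl F i j
  let q : ι → ℝ := fun y => (F i i * F y j + (1 - F i j) * F y i) / Dl F i j
  have hp : ∀ y, (1 - F i j) * q y - F i i * p y - 0 = F y i ∧
      (1 - F i j) * p y - F j j * q y = F y j := by
    intro y
    simp only [p, q]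
    constructor <;> (field_simp; unfold Dl; ring)
  have hsum : ∀ f : ι → ℝ, ∑ y ∈ (U.erase i).erase j, f y = ∑ y ∈ U, f y - f i - f j := by
    intro f
    rw [← Finset.add_sum_erase U _ hi,
      ← Finset.add_sum_erase (U.erase i) _ (Finset.mem_erase.2 ⟨hij.symm, hj⟩)]
    ring
  have hcol : ∀ k ∈ U, ∑ y ∈ U, F y k = 1 := by
    intro k hk
    rw [← la.b0.on k hk, Finset.sum_subset (Finset.subset_univ U)
      (fun y _ hy => la.b0.su y k hy)]
    exact Finset.sum_congr rfl fun y _ => sy y k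
  have hd : ∀ v, dfree vt ((U.erase i).erase j) v =
      dfree vt U v - (if vt i = v then 1 else 0) - if vt j = v then 1 else 0 := fun v => by
    rw [LAS.dfree_erase vt _ j (Finset.mem_erase.2 ⟨hij.symm, hj⟩), LAS.dfree_erase vt _ i hi]
  refine ⟨Matrix.of fun v y => Γ v y + Γ v i * p y + Γ v j * q y,
    (hAlg ι F i j sy hij hΔ.ne').2.1 U la.b0 hi hj, fun v w => ?_, fun v y hy => ?_,
    fun x hx y hy => ?_, fun v => ?_, fun v => ?_, fun x hx hxD => ?_⟩
  · rw [LAS.Mm_step vt d t h ε U Aj i j hi hj hij, LAS.Mm_step vt d t h ε U Aj i j hi hj hij,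
      ← hM, la.sM v w]
    generalize vt i = I
    generalize vt j = J
    by_cases h2 : v = I <;> by_cases h3 : v = J <;> by_cases h4 : w = I <;> by_cases h5 : w = J <;>
      simp_all
  · obtain ⟨hyU, hyi, hyj⟩ := hmem y hy
    rw [LAS.mul_step vt d t h ε U Aj i j hi hj hij]
    simp only [Matrix.of_apply, mul_add, Finset.sum_add_distrib, ← mul_assoc, ← Finset.sum_mul]
    rw [← hM, la.mg v y hyU, la.mg v i hi, la.mg v j hj, gii, gjj, gij, gji, la.gh i hi y hyU,
      la.gh j hj y hyU, if_neg hyi.symm, if_neg hyj.symm, sy i y, sy j y, ← (hp y).1, ← (hp y).2]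
    simp only [@eq_comm _ v]
    split_ifs <;> rcases hε with rfl | rfl <;> ring
  · obtain ⟨hxU, hxi, hxj⟩ := hmem x hx
    obtain ⟨hyU, hyi, hyj⟩ := hmem y hy
    simp only [Matrix.of_apply, step, hxi, hxj, hyi, hyj, or_self, if_false]
    rw [la.gh x hxU y hyU, la.gh x hxU i hi, la.gh x hxU j hj, if_neg hxi, if_neg hxj]
    simp only [p, q, wf]
    ring
  · have sp : ∑ y ∈ (U.erase i).erase j, p y = 1 := by
      simp only [p]
      rw [← Finset.sum_div, Finset.sum_add_distrib, ← Finset.mul_sum, ← Finset.mul_sum, hsum, hsum,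
        hcol i hi, hcol j hj, sy j i, div_eq_one_iff_eq hΔ.ne']
      unfold Dl; ring
    have sq : ∑ y ∈ (U.erase i).erase j, q y = 1 := by
      simp only [q]
      rw [← Finset.sum_div, Finset.sum_add_distrib, ← Finset.mul_sum, ← Finset.mul_sum, hsum, hsum,
        hcol i hi, hcol j hj, sy j i, div_eq_one_iff_eq hΔ.ne']
      unfold Dl; ring
    simp only [Matrix.of_apply, Finset.sum_add_distrib, ← Finset.mul_sum]
    rw [sp, sq, hsum, la.g1]
    ring
  · have := LAS.mul_step vt d t h ε U Aj i j hi hj hij (fun _ => 1) v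
    simp only [mul_one] at this
    rw [this, ← hM, la.m1, hd]
    simp only [@eq_comm _ v]
    split_ifs <;> ring
  · let δ : (V → ℝ) →ₗ[ℝ] ℝ :=
      { toFun := fun x => ∑ v, x v * dfree vt U v
        map_add' := fun x y => by simp [add_mul, Finset.sum_add_distrib]
        map_smul' := fun a x => by simp [Finset.mul_sum, mul_assoc] }
    have hB : ∀ x y, Matrix.toLinearMap₂' ℝ M x y = ∑ v, x v * ∑ w, M v w * y w := fun x y => by
      rw [Matrix.toLinearMap₂'_apply']; rfl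
    have hg : ∀ k ∈ U, ∀ x, Matrix.toLinearMap₂' ℝ M x (fun w => Γ w k) = (1 - t ^ 2) * x (vt k) := by
      intro k hk x
      rw [hB]
      simp only [la.mg _ k hk]
      simp [mul_comm]
    have core := LAS.core (Matrix.toLinearMap₂' ℝ M) δ (fun w => Γ w i) (fun w => Γ w j) (vt i)
      (vt j) t ε (F i i) (F j j) (F i j) U.card t0 t1 hε
      (fun x y => by
        rw [hB, hB]
        simp only [Finset.mul_sum]
        rw [Finset.sum_comm]
        exact Finset.sum_congr rfl fun v _ => Finset.sum_congr rfl fun w _ => by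
          rw [la.sM w v]; ring)
      (hg i hi) (hg j hj)
      (fun x => by
        rw [hB]
        simp only [Pi.one_apply, mul_one, la.m1]
        show _ = (ε - t) * ∑ v, x v * dfree vt U v
        rw [Finset.mul_sum]
        exact Finset.sum_congr rfl fun v _ => by ring)
      gii gji gij gjj
      (by show ∑ v, (1 : V → ℝ) v * dfree vt U v = _; simp [LAS.sum_dfree])
      (by exact_mod_cast hN) hΔ
      (fun x h0 h1 => by rw [Matrix.toLinearMap₂'_apply']; exact la.pd x h0 h1) x hx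
      (by
        show ∑ v, x v * dfree vt U v = _
        simp only [hd, mul_sub, Finset.sum_sub_distrib, mul_ite, mul_one, mul_zero,
          Finset.sum_ite_eq, Finset.mem_univ, if_true] at hxD
        linarith)
    rw [hB] at core
    show 0 < ∑ v, x v * ∑ w, Mm vt d t h ε ((U.erase i).erase j) (Aj + edge vt i j) v w * x w
    simp only [LAS.mul_step vt d t h ε U Aj i j hi hj hij, mul_add, Finset.sum_add_distrib, mul_ite,
      mul_zero, Finset.sum_ite_eq', Finset.mem_univ, if_true]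
    rw [← hM]
    linarith

end Crest.Agent.R62
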