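import Crest.Agent.R62.DefsA

set_option autoImplicit false
set_option linter.unusedSectionVars false

namespace Crest.Agent.R62

open Matrix Finset

namespace M1

abbrev M2 := Matrix (Fin 2) (Fin 2) ℝ

def Bd (M : M2) (t : ℝ) : Prop := ∀ a b, |M a b| ≤ t

theorem Bd.mono {M : M2} {t u : ℝ} (h : Bd M t) (htu : t ≤ u) : Bd M u :=
  fun a b => (h a b).trans htu

theorem Bd.nonneg {M : M2} {t : ℝ} (h : Bd M t) : 0 ≤ t := (abs_nonneg _).trans (h 0 0)

theorem Bd.mul {M N : M2} {t u : ℝ} (h : Bd M t) (h' : Bd N u) : Bd (M * N) (2 * t * u) := by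
  intro a b
  rw [Matrix.mul_apply, Fin.sum_univ_two]
  have h1 : |M a 0 * N 0 b| ≤ t * u := by
    rw [abs_mul]; exact mul_le_mul (h _ _) (h' _ _) (abs_nonneg _) h.nonneg
  have h2 : |M a 1 * N 1 b| ≤ t * u := by
    rw [abs_mul]; exact mul_le_mul (h _ _) (h' _ _) (abs_nonneg _) h.nonneg
  have := abs_add_le (M a 0 * N 0 b) (M a 1 * N 1 b)
  linarith

theorem Bd.add {M N : M2} {t u : ℝ} (h : Bd M t) (h' : Bd N u) : Bd (M + N) (t + u) := by
  intro a b
  rw [Matrix.add_apply]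
  exact (abs_add_le _ _).trans (add_le_add (h a b) (h' a b))

theorem Bd.sum (s : Finset ℕ) (M : ℕ → M2) (t : ℕ → ℝ) (h : ∀ a ∈ s, Bd (M a) (t a)) :
    Bd (∑ a ∈ s, M a) (∑ a ∈ s, t a) := by
  intro a b
  rw [Matrix.sum_apply]
  exact (Finset.abs_sum_le_sum_abs _ _).trans (Finset.sum_le_sum fun c hc => h c hc a b)

theorem Bd.trace {M : M2} {t : ℝ} (h : Bd M t) : |trace M| ≤ 2 * t := by
  rw [Matrix.trace_fin_two]
  have := abs_add_le (M 0 0) (M 1 1)
  have := h 0 0
  have := h 1 1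
  linarith

theorem geo (c : ℕ) : ∑ a ∈ range c, 16 * (2 * (17 : ℝ) ^ a) = 2 * 17 ^ c - 2 := by
  induction c with
  | zero => simp
  | succ n ih => rw [Finset.sum_range_succ, ih]; ring

/-- The abstract recursion. -/
theorem rec_bd (M N : ℕ → M2) (W : M2) (ν : ℕ → ℝ) (hW : Bd W 2) (hN : ∀ s, Bd (N s) (2 * ν s))
    (hν : ∀ a b, ν a * ν b ≤ ν 0 * ν (a + b)) (hm : ∀ a, ν a ≤ ν (a + 1)) (h1 : 1 ≤ ν 0)
    (hM : ∀ c, M c = N c + ∑ a ∈ range c, M a * W * N (c - 1 - a)) (c : ℕ) :
    Bd (M c) (2 * 17 ^ c * (ν 0 ^ c * ν c)) ∧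
      Bd (M c - N c) ((2 * 17 ^ c - 2) * (ν 0 ^ c * ν (c - 1))) := by
  have hmono : Monotone ν := monotone_nat_of_le_succ hm
  have hpos : ∀ a, 1 ≤ ν a := fun a => h1.trans (hmono (Nat.zero_le a))
  induction c using Nat.strong_induction_on with
  | _ c ih =>
    have key : Bd (M c - N c) ((2 * 17 ^ c - 2) * (ν 0 ^ c * ν (c - 1))) := by
      have e : M c - N c = ∑ a ∈ range c, M a * W * N (c - 1 - a) := by
        rw [hM c]; abel
      rw [e, ← geo, Finset.sum_mul]
      refine Bd.sum _ _ _ fun a ha => ?_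
      have ha' := Finset.mem_range.1 ha
      refine (((ih a ha').1.mul hW).mul (hN _)).mono ?_
      have e2 : ν a * ν (c - 1 - a) ≤ ν 0 * ν (c - 1) := by
        have := hν a (c - 1 - a)
        rwa [show a + (c - 1 - a) = c - 1 by omega] at this
      have e3 : ν 0 ^ (a + 1) ≤ ν 0 ^ c := pow_le_pow_right₀ h1 ha'
      have p0 : 0 ≤ ν 0 ^ a := by have := hpos 0; positivity
      have p1 : 0 ≤ ν (c - 1) := by have := hpos (c - 1); linarith
      calc 2 * (2 * (2 * 17 ^ a * (ν 0 ^ a * ν a)) * 2) * (2 * ν (c - 1 - a))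
          = 16 * (2 * 17 ^ a) * (ν 0 ^ a * (ν a * ν (c - 1 - a))) := by ring
        _ ≤ 16 * (2 * 17 ^ a) * (ν 0 ^ a * (ν 0 * ν (c - 1))) := by gcongr
        _ = 16 * (2 * 17 ^ a) * (ν 0 ^ (a + 1) * ν (c - 1)) := by ring
        _ ≤ 16 * (2 * 17 ^ a) * (ν 0 ^ c * ν (c - 1)) := by gcongr
    refine ⟨?_, key⟩
    have e : M c = N c + (M c - N c) := by abel
    rw [e]
    refine ((hN c).add key).mono ?_
    have p0 : 1 ≤ ν 0 ^ c := one_le_pow₀ h1
    have p1 : ν (c - 1) ≤ ν c := hmono (Nat.sub_le _ _)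
    have p2 : (1 : ℝ) ≤ 17 ^ c := one_le_pow₀ (by norm_num)
    have p3 := hpos c
    have p4 : ν c ≤ ν 0 ^ c * ν c := by nlinarith
    have p5 : ν 0 ^ c * ν (c - 1) ≤ ν 0 ^ c * ν c := by gcongr
    nlinarith

section
variable {R : Type*} [Ring R]

theorem pow_expand (F P : R) (b a : ℕ) :
    (F + P) ^ b * F ^ a =
      F ^ (a + b) + ∑ c ∈ range b, (F + P) ^ c * P * F ^ (a + b - 1 - c) := by
  induction b generalizing a with
  | zero => simp
  | succ b ih =>
    rw [pow_succ, mul_assoc, add_mul, mul_add, ← pow_succ', ih (a + 1), Finset.sum_range_succ,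
      show a + 1 + b = a + (b + 1) by ring, show a + (b + 1) - 1 - b = a by omega, mul_assoc,
      add_assoc]

end

theorem dbl (R : ℕ → ℝ) (n : ℕ) :
    ∑ b ∈ range (n + 1), ∑ c ∈ range b, R c = ∑ c ∈ range n, ((n : ℝ) - c) * R c := by
  induction n with
  | zero => simp
  | succ n ih =>
    rw [Finset.sum_range_succ, ih, Finset.sum_range_succ (fun c => (((n + 1 : ℕ) : ℝ) - c) * R c),
      Finset.sum_range_succ R]
    have : ∑ c ∈ range n, (((n + 1 : ℕ) : ℝ) - c) * R c
        = ∑ c ∈ range n, ((n : ℝ) - c) * R c + ∑ c ∈ range n, R c := by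
      rw [← Finset.sum_add_distrib]
      refine Finset.sum_congr rfl fun c _ => ?_
      push_cast; ring
    rw [this]; push_cast; ring

variable {ι : Type} [Fintype ι] [DecidableEq ι]

theorem tr_expand (F P : Mat ι) (b a : ℕ) :
    trace ((F + P) ^ b * F ^ a) =
      trace (F ^ (a + b)) + ∑ c ∈ range b, trace (P * ((F + P) ^ c * F ^ (a + b - 1 - c))) := by
  induction b generalizing a with
  | zero => simp
  | succ b ih =>
    rw [pow_succ', mul_assoc, add_mul, trace_add, trace_mul_comm F, mul_assoc, ← pow_succ,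
      ih (a + 1), Finset.sum_range_succ, show a + 1 + b = a + (b + 1) by ring,
      show a + (b + 1) - 1 - b = a by omega, add_assoc]

theorem tr_two (F P : Mat ι) (n : ℕ) :
    trace ((F + P) ^ (n + 2)) = trace (F ^ (n + 2)) + (n + 2 : ℝ) * trace (P * F ^ (n + 1))
      + ∑ s ∈ range (n + 1), (s + 1 : ℝ) * trace (P * (F + P) ^ (n - s) * P * F ^ s) := by
  have h := tr_expand F P (n + 2) 0
  rw [pow_zero, mul_one, zero_add] at h
  rw [h, add_assoc]
  congr 1
  have e : ∀ b ∈ range (n + 2), trace (P * ((F + P) ^ b * F ^ (n + 2 - 1 - b))) =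
      trace (P * F ^ (n + 1)) + ∑ c ∈ range b, trace (P * (F + P) ^ c * P * F ^ (n - c)) := by
    intro b hb
    have hb' := Finset.mem_range.1 hb
    rw [pow_expand, mul_add, trace_add, show n + 2 - 1 - b + b = n + 1 by omega, Finset.mul_sum,
      trace_sum]
    congr 1
    refine Finset.sum_congr rfl fun c _ => ?_
    rw [show n + 1 - 1 - c = n - c by omega]
    simp only [mul_assoc]
  rw [Finset.sum_congr rfl e, Finset.sum_add_distrib, dbl]
  congr 1
  · simp
  · rw [← Finset.sum_range_reflect]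
    refine Finset.sum_congr rfl fun s hs => ?_
    have hs' := Finset.mem_range.1 hs
    rw [show n + 1 - 1 - s = n - s by omega, show n - (n - s) = s by omega,
      Nat.cast_sub (by omega : s ≤ n)]
    push_cast; ring

noncomputable def Wm (F : Mat ι) (i j : ι) : M2 :=
  !![F j j / Dl F i j, (1 - F i j) / Dl F i j; (1 - F i j) / Dl F i j, F i i / Dl F i j]

def sg : M2 := !![0, 1; 1, 0]

def Um (F : Mat ι) (i j : ι) : Matrix ι (Fin 2) ℝ := Matrix.of fun x a => (F + 1) x (![i, j] a)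

def Vm (F : Mat ι) (i j : ι) : Matrix (Fin 2) ι ℝ := Matrix.of fun a y => (F - 1) (![i, j] a) y

def rs (X : Mat ι) (i j : ι) : M2 := Matrix.of fun a b => X (![i, j] a) (![i, j] b)

theorem flat_eq (F : Mat ι) (i j : ι) : flat F i j = F + Um F i j * Wm F i j * Vm F i j := by
  ext x y
  rw [Matrix.add_apply]
  simp only [flat, Matrix.of_apply, wf, Matrix.mul_apply, Fin.sum_univ_two,
    Um, Vm, Wm, Matrix.cons_val_zero, Matrix.cons_val_one, Matrix.cons_val', Matrix.cons_val_fin_one]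
  ring

theorem VXU (F X : Mat ι) (i j : ι) :
    Vm F i j * X * Um F i j = rs ((F - 1) * X * (F + 1)) i j := by
  ext a b
  simp only [rs, Vm, Um, Matrix.mul_apply, Matrix.of_apply]

theorem Nt_eq (F : Mat ι) (s : ℕ) : (F - 1) * F ^ s * (F + 1) = Nt F s := by
  unfold Nt
  rw [sub_mul, one_mul, ← pow_succ', mul_add, mul_one, sub_mul, ← pow_succ, ← pow_succ]
  abel

theorem tr_W (F X : Mat ι) (i j : ι) : trace (Wm F i j * rs X i j) = wtr F i j X := by
  simp only [Matrix.trace_fin_two, Matrix.mul_apply, Fin.sum_univ_two, Wm, rs, wtr,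
    Matrix.of_apply, Matrix.cons_val_zero, Matrix.cons_val_one, Matrix.cons_val',
    Matrix.cons_val_fin_one]
  ring

theorem tr_s (X Y : Mat ι) (i j : ι) : trace (sg * rs X i j * sg * rs Y i j) = s2 X Y i j := by
  simp only [Matrix.trace_fin_two, Matrix.mul_apply, Fin.sum_univ_two, sg, rs, s2,
    Matrix.of_apply, Matrix.cons_val_zero, Matrix.cons_val_one, Matrix.cons_val',
    Matrix.cons_val_fin_one]
  ring

theorem W_bd (F : Mat ι) (i j : ι) (z : ℝ) (ha : |F i i| ≤ z) (hb : |F j j| ≤ z)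
    (hc : |F i j| ≤ z) (hz : z ≤ 1 / 20) :
    9 / 10 ≤ Dl F i j ∧ Bd (Wm F i j - sg) (2 * z) ∧ Bd sg 1 ∧ Bd (Wm F i j) 2 := by
  have z0 : 0 ≤ z := (abs_nonneg _).trans ha
  have hab : |F i i * F j j| ≤ z * z := by
    rw [abs_mul]; exact mul_le_mul ha hb (abs_nonneg _) z0
  have hab' := abs_le.1 hab
  have hc' := abs_le.1 hc
  have hD : 9 / 10 ≤ Dl F i j := by unfold Dl; nlinarith
  have hD0 : 0 < Dl F i j := by linarith
  have t1 : ∀ x, |x| ≤ z → |x / Dl F i j| ≤ 2 * z := by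
    intro x hx
    rw [abs_div, abs_of_pos hD0, div_le_iff₀ hD0]; nlinarith
  have t2 : |(1 - F i j) / Dl F i j - 1| ≤ 2 * z := by
    have : (1 - F i j) / Dl F i j - 1 = (F i j * (1 - F i j) + F i i * F j j) / Dl F i j := by
      field_simp; unfold Dl; ring
    rw [this, abs_div, abs_of_pos hD0, div_le_iff₀ hD0, abs_le]
    constructor <;> nlinarith
  have h1 : Bd (Wm F i j - sg) (2 * z) := by
    intro a b
    fin_cases a <;> fin_cases b <;> simp [Wm, sg] <;>
      first | exact t1 _ hb | exact t1 _ ha | exact t2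
  have h2 : Bd sg 1 := by
    intro a b
    fin_cases a <;> fin_cases b <;> simp [sg]
  refine ⟨hD, h1, h2, ?_⟩
  have e : Wm F i j = (Wm F i j - sg) + sg := by abel
  rw [e]
  exact (h1.add h2).mono (by linarith)

end M1

open M1 in
theorem M1_proof (hF : FlatStmt) (hS : SpecStmt) : M1Stmt := by
  intro k hk
  obtain ⟨n, rfl⟩ : ∃ n, k = n + 2 := ⟨k - 2, by omega⟩
  refine ⟨∑ s ∈ range (n + 1), (s + 1 : ℝ) * (400 + 256 * 17 ^ (n + 2)), ?_⟩
  intro ι _ _ F lam O i j z hsy hsp hij ha hb hc hz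
  obtain ⟨hD, hW1, hsg, hW⟩ := W_bd F i j z ha hb hc hz
  have z0 : 0 ≤ z := (abs_nonneg _).trans ha
  obtain ⟨-, -, -, -, -, s6, s7, s8, s9, -⟩ := (hS ι F hsy).2.2 lam O hsp
  set ν : ℕ → ℝ := fun s => ns lam O s i + ns lam O s j with hν
  have n0 : ∀ s x, 0 ≤ ns lam O s x := fun s x =>
    Finset.sum_nonneg fun a _ => by positivity
  have hm : ∀ a, ν a ≤ ν (a + 1) := fun a => add_le_add (s8 a i) (s8 a j)
  have h1 : 1 ≤ ν 0 := by have := (s9 i).1; have := n0 0 j; simp only [hν]; linarith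
  have hmono : Monotone ν := monotone_nat_of_le_succ hm
  have hpos : ∀ a, 1 ≤ ν a := fun a => h1.trans (hmono (Nat.zero_le a))
  have hνν : ∀ a b, ν a * ν b ≤ ν 0 * ν (a + b) := fun a b => s7 a b i j
  set N : ℕ → M2 := fun s => rs (Nt F s) i j with hN
  have hNb : ∀ s, Bd (N s) (2 * ν s) := by
    intro s a b
    have := n0 s i
    have := n0 s j
    refine (s6 s _ _).trans ?_
    fin_cases a <;> fin_cases b <;> simp [hν] <;> linarith
  set U := Um F i j
  set V := Vm F i j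
  set W := Wm F i j
  set P := U * W * V with hP
  have hVU : ∀ s, V * F ^ s * U = N s := fun s => by rw [VXU, Nt_eq]
  set M : ℕ → M2 := fun c => V * (F + P) ^ c * U with hM
  have hrec : ∀ c, M c = N c + ∑ a ∈ range c, M a * W * N (c - 1 - a) := by
    intro c
    have := pow_expand F P c 0
    rw [pow_zero, mul_one, zero_add] at this
    simp only [hM]
    rw [this, Matrix.mul_add, Matrix.add_mul, hVU, Matrix.mul_sum, Matrix.sum_mul]
    congr 1
    refine Finset.sum_congr rfl fun a _ => ?_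
    rw [← hVU]
    simp only [hP, Matrix.mul_assoc]
  have hb := rec_bd M N W ν hW hNb hνν hm h1 hrec
  have hfl := hF ι i j (List.replicate (n + 2) F) hij (by simp) (by
    intro G hG
    rw [List.eq_of_mem_replicate hG]
    exact ⟨hsy, by linarith⟩)
  rw [List.map_replicate, List.map_replicate, List.prod_replicate, List.prod_replicate,
    List.length_replicate, flat_eq, tr_two] at hfl
  have t1 : trace (P * F ^ (n + 1)) = wtr F i j (Nt F (n + 1)) := by
    rw [← tr_W]
    change _ = trace (W * N (n + 1))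
    rw [← hVU, hP, Matrix.mul_assoc, Matrix.mul_assoc, trace_mul_comm]
    simp only [Matrix.mul_assoc]
  have t2 : ∀ s, trace (P * (F + P) ^ (n - s) * P * F ^ s) = trace (W * M (n - s) * W * N s) := by
    intro s
    rw [← hVU]
    simp only [hM]
    generalize (F + P) ^ (n - s) = G
    rw [hP]
    simp only [Matrix.mul_assoc]
    rw [trace_mul_comm]
    simp only [Matrix.mul_assoc]
  change trace (step F i j ^ (n + 2)) = trace (F ^ (n + 2)) + (n + 2 : ℝ) * trace (P * F ^ (n + 1))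
      + ∑ s ∈ range (n + 1), (s + 1 : ℝ) * trace (P * (F + P) ^ (n - s) * P * F ^ s) - 1
      - (-1) ^ (n + 2) at hfl
  simp only [t1, t2] at hfl
  have e : tk (step F i j) (n + 2) - tk F (n + 2) + 1 + (-1) ^ (n + 2)
      - ((n + 2 : ℕ) : ℝ) * wtr F i j (Nt F (n + 2 - 1))
      - ∑ s ∈ range (n + 2 - 1), (s + 1 : ℝ) * s2 (Nt F (n + 2 - 2 - s)) (Nt F s) i j
      = ∑ s ∈ range (n + 1), (s + 1 : ℝ) *
        (trace (W * M (n - s) * W * N s) - trace (sg * N (n - s) * sg * N s)) := by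
    simp only [mul_sub, Finset.sum_sub_distrib, hN, tr_s, tk]
    rw [hfl, show n + 2 - 1 = n + 1 by omega]
    simp only [show ∀ s, n + 2 - 2 - s = n - s from fun s => by omega]
    push_cast; ring
  rw [e, Finset.sum_mul]
  refine (Finset.abs_sum_le_sum_abs _ _).trans (Finset.sum_le_sum fun s hs => ?_)
  have hs' := Finset.mem_range.1 hs
  have hs0 : (0 : ℝ) ≤ s + 1 := by positivity
  rw [abs_mul, abs_of_nonneg hs0, mul_assoc ((s : ℝ) + 1)]
  refine mul_le_mul_of_nonneg_left ?_ hs0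
  change _ ≤ (400 + 256 * 17 ^ (n + 2)) * (z * ν 0 * ν (n + 2 - 2) + ν 0 ^ (n + 2) * ν (n + 2 - 3))
  rw [show n + 2 - 2 = n by omega, show n + 2 - 3 = n - 1 by omega]
  have e2 : trace (W * M (n - s) * W * N s) - trace (sg * N (n - s) * sg * N s)
      = trace (W * (M (n - s) - N (n - s)) * W * N s) + trace ((W - sg) * N (n - s) * W * N s)
        + trace (sg * N (n - s) * (W - sg) * N s) := by
    simp only [Matrix.mul_sub, Matrix.sub_mul, trace_sub]; ring
  have b1 := (((hW.mul (hb (n - s)).2).mul hW).mul (hNb s)).trace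
  have b2 := (((hW1.mul (hNb (n - s))).mul hW).mul (hNb s)).trace
  have b3 := (((hsg.mul (hNb (n - s))).mul hW1).mul (hNb s)).trace
  have q1 : ν (n - s) * ν s ≤ ν 0 * ν n := by
    have := hνν (n - s) s
    rwa [show n - s + s = n by omega] at this
  have q2 : (2 * 17 ^ (n - s) - 2) * (ν 0 ^ (n - s) * (ν (n - s - 1) * ν s)) ≤
      2 * 17 ^ (n + 2) * (ν 0 ^ (n + 2) * ν (n - 1)) := by
    have p0 := hpos 0
    have p1 := hpos (n - 1)
    rcases Nat.eq_zero_or_pos (n - s) with h0 | h0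
    · rw [h0]
      simp only [pow_zero, mul_one, sub_self, zero_mul]
      positivity
    · have := hνν (n - s - 1) s
      rw [show n - s - 1 + s = n - 1 by omega] at this
      have p2 := hpos (n - s - 1)
      have p3 := hpos s
      have p4 : (17 : ℝ) ^ (n - s) ≤ 17 ^ (n + 2) := pow_le_pow_right₀ (by norm_num) (by omega)
      have p5 : ν 0 ^ (n - s + 1) ≤ ν 0 ^ (n + 2) := pow_le_pow_right₀ h1 (by omega)
      calc (2 * 17 ^ (n - s) - 2) * (ν 0 ^ (n - s) * (ν (n - s - 1) * ν s))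
          ≤ (2 * 17 ^ (n + 2)) * (ν 0 ^ (n - s) * (ν 0 * ν (n - 1))) := by
            gcongr
            linarith
        _ = (2 * 17 ^ (n + 2)) * (ν 0 ^ (n - s + 1) * ν (n - 1)) := by ring
        _ ≤ _ := by gcongr
  have q3 : z * (ν (n - s) * ν s) ≤ z * (ν 0 * ν n) := by gcongr
  have q4 : 0 ≤ z * (ν 0 * ν n) := by have := hpos 0; have := hpos n; positivity
  have q5 : 0 ≤ ν 0 ^ (n + 2) * ν (n - 1) := by
    have := hpos 0; have := hpos (n - 1); positivity
  have q6 : 0 ≤ 17 ^ (n + 2) * (z * (ν 0 * ν n)) := by positivity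
  rw [e2]
  have a1 := abs_add_le (trace (W * (M (n - s) - N (n - s)) * W * N s)
    + trace ((W - sg) * N (n - s) * W * N s)) (trace (sg * N (n - s) * (W - sg) * N s))
  have a2 := abs_add_le (trace (W * (M (n - s) - N (n - s)) * W * N s))
    (trace ((W - sg) * N (n - s) * W * N s))
  nlinarith

end Crest.Agent.R62
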