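import Crest.Agent.R62.Aux26

/-! Row 62, task M3. -/

set_option autoImplicit false
set_option linter.unusedSectionVars false

namespace Crest.Agent.R62

open Matrix Finset

namespace M3

variable {ι : Type} [Fintype ι] [DecidableEq ι]

theorem am_nonneg (lam : ι → ℝ) (k : ℕ) : 0 ≤ am lam k := sum_nonneg fun _ _ => by positivity

theorem ns_nonneg (lam : ι → ℝ) (O : Mat ι) (s : ℕ) (x : ι) : 0 ≤ ns lam O s x :=
  sum_nonneg fun _ _ => by positivity

theorem am_mid (lam : ι → ℝ) {t e : ℕ} (h2 : 2 ≤ t) (he : t ≤ e) :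
    am lam t ≤ am lam 2 + am lam e := by
  unfold am
  rw [← sum_add_distrib]
  refine sum_le_sum fun a _ => ?_
  have h0 := abs_nonneg (lam a)
  rcases le_total |lam a| 1 with h | h
  · have := pow_le_pow_of_le_one h0 h h2
    have : 0 ≤ |lam a| ^ e := by positivity
    linarith
  · have := pow_le_pow_right₀ h he
    have : 0 ≤ |lam a| ^ 2 := by positivity
    linarith

theorem abs_le_of_sq_mul {y n : ℝ} (hn : 0 ≤ n) (h : y ^ 2 ≤ n * n) : |y| ≤ n :=
  abs_le.2 (abs_le_of_sq_le_sq' (by rw [sq n]; exact h) hn)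

end M3

set_option maxHeartbeats 1600000 in
open A26 M3 in
theorem M3_proof (hS : SpecStmt) (hA : AvgStmt) : M3Stmt := by
  intro k hk
  obtain ⟨m, rfl⟩ : ∃ m, k = m + 3 := ⟨k - 3, by omega⟩
  refine ⟨m + 4 + 6 + 1, fun ι _ _ E F ε lam O h hF hsp => ?_⟩
  obtain ⟨-, hev, -, -, s5, s6, -, -, -, s10, s11, -, -, -, s15⟩ := (hS ι F hF.sy).2.2 lam O hsp
  obtain ⟨-, -, -, -, a5, -, -, -, a9, -⟩ := hA ι E h
  have e1 : m + 3 - 1 = m + 2 := by omega
  rw [e1]
  set Y := Nt F (m + 2) with hY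
  set n : ι → ℝ := ns lam O (m + 2) with hn
  have n0 : ∀ x, 0 ≤ n x := ns_nonneg lam O (m + 2)
  have hL := h.L2
  have hN := N1 h
  have hu := h.u1
  have hth := h.th0
  have hD := h.D1'
  have hT := h.Tf1
  have hsN := sqrt1 h
  set S := E.N + am lam (m + 3) with hSd
  have am0 := am_nonneg lam (m + 3)
  have hS1 : 1 ≤ S := by linarith
  set κ := E.th * E.u + E.D + √E.N + E.Tf with hκ
  have thu0 : 0 ≤ E.th * E.u := by positivity
  have hetaN : E.eta * E.N = κ * E.u := by
    unfold Env.eta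
    rw [div_mul_cancel₀ _ (by linarith)]
  set W := 2 ^ (m + 4) * (E.u * S) with hW
  set μ := ∑ x ∈ E.U, n x with hμ
  have μ0 : 0 ≤ μ := sum_nonneg fun x _ => n0 x
  have amup : am lam (m + 4) ≤ E.u * am lam (m + 3) := s11 E.u (by linarith) hF.op (m + 3)
  have hμW : μ ≤ W := by
    refine (s10 (m + 2) E.U).trans (mul_le_mul_of_nonneg_left ?_ (by positivity))
    have : (E.U.card : ℝ) = E.N := rfl
    rw [this, hSd, mul_add]
    have : E.N ≤ E.u * E.N := le_mul_of_one_le_left (by linarith) hu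
    linarith
  have W0 : 0 ≤ W := μ0.trans hμW
  have hYsy : Sy Y := fun x y => by
    simp only [hY, Nt, Matrix.sub_apply, pow_sy hF.sy _ x y]
  have hYsu : ∀ x y, x ∉ E.U → Y x y = 0 := fun x y hx => by
    simp only [hY, Nt, Matrix.sub_apply]
    rw [pow_su hF.toBas0 (m + 3) x y hx, pow_su hF.toBas0 (m + 1) x y hx, sub_zero]
  have hYd : ∀ x, |Y x x| ≤ n x := fun x => abs_le_of_sq_mul (n0 x) (s5 _ x x)
  have sumd : ∑ x, |Y x x| ≤ μ := by
    rw [← sum_subset (subset_univ E.U) fun x _ hx => by rw [hYsu x x hx, abs_zero]]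
    exact sum_le_sum fun x _ => hYd x
  -- term 1
  have t1 : |E.av fun i j => Y i j| ≤ E.D * W + E.L * (E.th * E.u) * W := by
    set α : ι → ℝ := fun x => if x ∈ E.U then n x else 0 with hα
    have α0 : ∀ x, 0 ≤ α x := fun x => by
      simp only [hα]; split_ifs
      · exact n0 x
      · exact le_rfl
    have sα : ∑ x, α x = μ := by simp [hα, hμ]
    have b1 := a9 (fun i j => Y i j) α α α0 α0 fun i j => by
      by_cases hi : i ∈ E.U
      · by_cases hj : j ∈ E.U
        · simp only [hα, hi, hj, if_true]; exact s5 _ i j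
        · rw [hYsy i j, hYsu j i hj]; simp [hα, hj]
      · rw [hYsu i j hi]; simp [hα, hi]
    have z0 : ∑ i ∈ E.U, ∑ j ∈ E.U, Y i j = 0 := by
      simp only [hY, Nt, Matrix.sub_apply, sum_sub_distrib, pow_tot hF.toBas0, sub_self]
    rw [z0, sα, mul_assoc, Real.mul_self_sqrt μ0] at b1
    have b2 := s15 E.C (2 * E.u) (m + 2) (by linarith) h.Co
    have b3 : am lam (m + 2) ≤ E.L * E.N + am lam (m + 3) := by
      have := am_mid lam (t := m + 2) (e := m + 3) (by omega) (by omega)
      rw [hev 2 (by norm_num)] at this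
      linarith [Q_le hF]
    have b4 : am lam (m + 2 + 2) + am lam (m + 2) ≤ E.L * (E.u * S) := by
      have c1 : am lam (m + 3) ≤ E.u * am lam (m + 3) := le_mul_of_one_le_left am0 hu
      have c2 : E.L * E.N ≤ E.L * (E.u * E.N) :=
        mul_le_mul_of_nonneg_left (le_mul_of_one_le_left (by linarith) hu) (by linarith)
      have c3 : 2 * (E.u * am lam (m + 3)) ≤ E.L * (E.u * am lam (m + 3)) :=
        mul_le_mul_of_nonneg_right hL (by positivity)
      rw [hSd, mul_add, mul_add]
      linarith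
    have b5 : 2 * (E.u * S) ≤ W := by
      refine mul_le_mul_of_nonneg_right ?_ (by positivity)
      calc (2 : ℝ) = 2 ^ 1 := by norm_num
        _ ≤ 2 ^ (m + 4) := pow_le_pow_right₀ (by norm_num) (by omega)
    have b6 : |E.th * ∑ i, ∑ j, E.C i j * Y i j| ≤ E.L * (E.th * E.u) * W := by
      rw [abs_mul, abs_of_nonneg hth]
      calc E.th * |∑ i, ∑ j, E.C i j * Y i j| ≤ E.th * (2 * E.u * (E.L * (E.u * S))) :=
            mul_le_mul_of_nonneg_left (b2.trans (mul_le_mul_of_nonneg_left b4 (by linarith))) hth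
        _ = E.L * (E.th * E.u) * (2 * (E.u * S)) := by ring
        _ ≤ _ := mul_le_mul_of_nonneg_left b5 (by positivity)
    have b7 : E.D * μ ≤ E.D * W := mul_le_mul_of_nonneg_left hμW (by linarith)
    rw [abs_le] at b1 b6 ⊢
    constructor <;> linarith [b1.1, b1.2, b6.1, b6.2]
  have hff := sum_ff hF
  -- term 2
  have t2 : |E.av fun i j => (al F i j - 1) * Y i j| ≤ 8 * (E.L * √E.N) * W + 4 * E.Tf * W := by
    refine (av_abs h (Y := fun i j => 2 * (|F i j| * n i) + 2 * (|F i j| * n j) +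
      (F i i ^ 2 * n j + n i * F j j ^ 2)) (fun i j => by
        have := n0 i; have := n0 j; positivity) fun i j hp => ?_).trans ?_
    · have p1 := (pt h hF hp).2.2.2.2.1
      have p2 : |Y i j| ≤ n i + n j := s6 _ i j
      have p3 : |F i i * F j j * Y i j| ≤ (F i i ^ 2 * n j + n i * F j j ^ 2) / 2 := by
        have := n0 i; have := n0 j
        refine abs_le_of_sq_mul (by positivity) ?_
        have q : Y i j ^ 2 ≤ n i * n j := s5 _ i j
        have q2 := mul_le_mul_of_nonneg_left q (sq_nonneg (F i i * F j j))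
        nlinarith [sq_nonneg (F i i ^ 2 * n j - n i * F j j ^ 2)]
      rw [abs_mul, abs_mul] at p3
      rw [abs_mul]
      have p4 := mul_le_mul_of_nonneg_right p1 (abs_nonneg (Y i j))
      have p5 := mul_le_mul_of_nonneg_left p2 (abs_nonneg (F i j))
      nlinarith
    · rw [S2_add, S2_add, S2_add, S2_mul, S2_mul, S2_prod, S2_prod]
      have c1 := S2_cw h hF n n0
      have c2 := S2_cw' h hF n n0
      have c3 : (∑ x ∈ E.U, F x x ^ 2) * μ ≤ E.Tf * W :=
        mul_le_mul hff hμW μ0 (by linarith)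
      have c4 : E.L * √E.N * μ ≤ E.L * √E.N * W := mul_le_mul_of_nonneg_left hμW (by positivity)
      rw [← hμ] at c1 c2 ⊢
      linarith
  -- term 3
  have t3 : |E.av (fun i j => Y i i * F j j) - trace Y * tk F 1| ≤
      (E.L * (E.th * E.u + E.Tf) + E.D) * W := by
    have b1 := a5 (fun i => Y i i) (fun j => F j j) 1 fun j => by
      linarith [hF.dg j, z20 h]
    have e2 : ∑ x ∈ E.U, Y x x = trace Y := sum_subset (subset_univ _) fun x _ hx => hYsu x x hx
    rw [e2, tk1_U hF] at b1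
    refine b1.trans ?_
    rw [mul_comm]
    refine mul_le_mul ?_ (sumd.trans hμW) (sum_nonneg fun _ _ => abs_nonneg _) (by positivity)
    have c1 : √(4 * E.L) ≤ 2 * E.L := Real.sqrt_le_iff.2 ⟨by linarith, by nlinarith⟩
    have c2 : √(∑ x, F x x ^ 2) ≤ √E.Tf := Real.sqrt_le_sqrt hF.f2
    have c3 : 2 * (E.th * √E.Tf) ≤ E.th * E.u + E.Tf := by
      have := Real.mul_self_sqrt (show 0 ≤ E.Tf by linarith)
      have := mul_le_mul_of_nonneg_left h.thu hth
      nlinarith [sq_nonneg (E.th - √E.Tf)]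
    have c4 : E.th * √(4 * E.L) * √(∑ x, F x x ^ 2) ≤ E.th * (2 * E.L) * √E.Tf :=
      mul_le_mul (mul_le_mul_of_nonneg_left c1 hth) c2 (Real.sqrt_nonneg _) (by positivity)
    have c5 := mul_le_mul_of_nonneg_left c3 (show 0 ≤ E.L by linarith)
    linarith
  -- term 4
  have t4 : |E.av fun i j => (1 / Dl F i j - 1) * (Y i i * F j j)| ≤
      6 * E.L * W + 12 * E.Tf * W := by
    refine (av_abs h (Y := fun i j => 3 * (n i * F i j ^ 2) + 6 * (n i * F j j ^ 2))
      (fun i j => by have := n0 i; positivity) fun i j hp => ?_).trans ?_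
    · obtain ⟨pa, pb, pc, -, -, p1, -⟩ := pt h hF hp
      have p2 : (|F i j| + |F i i| * |F j j|) * |F j j| ≤ F i j ^ 2 + 2 * F j j ^ 2 := by
        have q1 := amgm1 (F i j) (F j j)
        have q2 : |F j j| * |F j j| = F j j ^ 2 := by rw [← sq, sq_abs]
        have q3 : |F i i| * (|F j j| * |F j j|) ≤ 1 * (|F j j| * |F j j|) :=
          mul_le_mul_of_nonneg_right (by linarith) (by positivity)
        nlinarith [sq_nonneg (F i j), sq_nonneg (F j j)]
      rw [abs_mul, abs_mul]
      calc |1 / Dl F i j - 1| * (|Y i i| * |F j j|)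
          ≤ 3 * (|F i j| + |F i i| * |F j j|) * (n i * |F j j|) :=
            mul_le_mul p1 (mul_le_mul_of_nonneg_right (hYd i) (abs_nonneg _)) (by positivity)
              (by positivity)
        _ = 3 * n i * ((|F i j| + |F i i| * |F j j|) * |F j j|) := by ring
        _ ≤ 3 * n i * (F i j ^ 2 + 2 * F j j ^ 2) :=
            mul_le_mul_of_nonneg_left p2 (by have := n0 i; positivity)
        _ = _ := by ring
    · rw [S2_add, S2_mul, S2_mul, S2_prod]
      have c1 : S2 E (fun i j => n i * F i j ^ 2) ≤ E.L * μ := by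
        rw [hμ, mul_sum]
        refine sum_le_sum fun i _ => ?_
        rw [← mul_sum, mul_comm]
        exact mul_le_mul_of_nonneg_right ((sum_U_le fun _ => sq_nonneg _).trans (hF.ro i)) (n0 i)
      have c3 : μ * (∑ x ∈ E.U, F x x ^ 2) ≤ W * E.Tf :=
        mul_le_mul hμW hff (sum_nonneg fun _ _ => sq_nonneg _) W0
      have c4 : E.L * μ ≤ E.L * W := mul_le_mul_of_nonneg_left hμW (by linarith)
      rw [← hμ]
      linarith
  have e : (E.av fun i j => wtr F i j Y) =
      2 * (E.av (fun i j => Y i j) + E.av (fun i j => (al F i j - 1) * Y i j)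
        + E.av (fun i j => Y i i * F j j)
        + E.av (fun i j => (1 / Dl F i j - 1) * (Y i i * F j j))) := by
    rw [← av_add, ← av_add, ← av_add, two_mul]
    nth_rewrite 2 [← av_swap h]
    rw [← av_add]
    congr 1
    funext i j
    have : Dl F j i = Dl F i j := by simp only [Dl, hF.sy j i]; ring
    simp only [wtr, al, this, hF.sy j i]
    ring
  have fin : 2 * (E.D * W + E.L * (E.th * E.u) * W + (8 * (E.L * √E.N) * W + 4 * E.Tf * W) +
      (E.L * (E.th * E.u + E.Tf) + E.D) * W + (6 * E.L * W + 12 * E.Tf * W)) ≤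
      E.L ^ (m + 4 + 6 + 1) * E.eta * E.N * S := by
    have c1 : 2 * (E.D + E.L * (E.th * E.u) + (8 * (E.L * √E.N) + 4 * E.Tf) +
        (E.L * (E.th * E.u + E.Tf) + E.D) + (6 * E.L + 12 * E.Tf)) ≤ 2 ^ 6 * E.L * κ := by
      have d1 : 2 * E.D ≤ E.L * E.D := mul_le_mul_of_nonneg_right hL (by linarith)
      have d2 : 2 * E.Tf ≤ E.L * E.Tf := mul_le_mul_of_nonneg_right hL (by linarith)
      have d3 : E.L * 1 ≤ E.L * E.Tf := mul_le_mul_of_nonneg_left hT (by linarith)
      have d4 : 0 ≤ E.L * (E.th * E.u) := by positivity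
      have d5 : 0 ≤ E.L * √E.N := by positivity
      rw [hκ]
      nlinarith
    have c2 := mul_le_mul_of_nonneg_right c1 W0
    have c3 := pow_ge hL (m + 4 + 6) 1
    have κ0 : 0 ≤ κ * E.u * S := by positivity
    have c4 := mul_le_mul_of_nonneg_right c3 κ0
    rw [mul_assoc (E.L ^ _), hetaN]
    have c5 : 2 ^ 6 * E.L * κ * W = 2 ^ (m + 4 + 6) * E.L ^ 1 * (κ * E.u * S) := by
      rw [hW, pow_add _ (m + 4) 6]; ring
    linarith
  rw [e]
  refine le_trans ?_ fin
  rw [abs_le] at t1 t2 t3 t4 ⊢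
  constructor <;> linarith [t1.1, t1.2, t2.1, t2.2, t3.1, t3.2, t4.1, t4.2]

end Crest.Agent.R62
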