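import Crest.Agent.R62.M3

/-! Row 62, task M4. -/

set_option autoImplicit false
set_option linter.unusedSectionVars false

namespace Crest.Agent.R62

open Matrix Finset

namespace M4

open A26 M3

variable {ι : Type} [Fintype ι] [DecidableEq ι]

theorem S2_pow_le {E : Env ι} {F : Mat ι} {ε : ℝ} (h : E.Ok) (hF : Side E F ε) {lam : ι → ℝ}
    (h2 : am lam 2 = tk F 2) (hf : ∀ k, fro (F ^ k) = am lam (2 * k)) (a t : ℕ) (ht : t ≤ a + 2) :
    S2 E (fun i j => (F ^ t) i j ^ 2) ≤ E.L * E.N + am lam (2 * a + 4) := by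
  have hL := L1 h
  have hN := N1 h
  have a0 := am_nonneg lam (2 * a + 4)
  rcases Nat.eq_zero_or_pos t with rfl | hp
  · have : S2 E (fun i j => (F ^ 0) i j ^ 2) = E.N := by
      simp only [S2, pow_zero, one_apply, ite_pow, one_pow, ne_eq, OfNat.ofNat_ne_zero,
        not_false_eq_true, zero_pow, sum_ite_eq]
      rw [sum_congr rfl fun x hx => if_pos hx]
      simp [Env.N]
    rw [this]
    nlinarith
  · have c1 : S2 E (fun i j => (F ^ t) i j ^ 2) ≤ fro (F ^ t) :=
      (sum_le_sum fun i _ => sum_U_le fun _ => sq_nonneg _).trans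
        (sum_U_le fun _ => sum_nonneg fun _ _ => sq_nonneg _)
    have c2 := am_mid lam (t := 2 * t) (e := 2 * a + 4) (by omega) (by omega)
    rw [hf] at c1
    rw [h2] at c2
    linarith [Q_le hF]

theorem S2_Nt {E : Env ι} {F : Mat ι} {ε : ℝ} (h : E.Ok) (hF : Side E F ε) {lam : ι → ℝ}
    (h2 : am lam 2 = tk F 2) (hf : ∀ k, fro (F ^ k) = am lam (2 * k)) (a : ℕ) :
    S2 E (fun i j => Nt F a i j ^ 2) ≤ 4 * (E.L * E.N + am lam (2 * a + 4)) := by
  have c1 := S2_pow_le h hF h2 hf a (a + 2) le_rfl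
  have c2 := S2_pow_le h hF h2 hf a a (by omega)
  have c3 : S2 E (fun i j => Nt F a i j ^ 2) ≤
      S2 E (fun i j => 2 * (F ^ (a + 2)) i j ^ 2 + 2 * (F ^ a) i j ^ 2) :=
    S2_mono fun i _ j _ => by
      simp only [Nt, Matrix.sub_apply]
      nlinarith [sq_nonneg ((F ^ (a + 2)) i j + (F ^ a) i j)]
  rw [S2_add, S2_mul, S2_mul] at c3
  linarith

theorem arith {L N u P R A : ℝ} (hL : 1 ≤ L) (hN : 1 ≤ N) (hu : 1 ≤ u) (hA : 0 ≤ A)
    (hP : P ≤ L * N + A ^ 2) (hR : R ≤ L * N + A ^ 2) (hPR : P * R ≤ u ^ 2 * (L * N) * A ^ 2) :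
    4 * (L * N + P) * (4 * (L * N + R)) ≤ (8 * L * u * (N + A)) ^ 2 * N := by
  have h1 : L * N + A ^ 2 ≤ L * (N + A) ^ 2 := by
    have : N ≤ N ^ 2 := by nlinarith
    have : A ^ 2 ≤ L * A ^ 2 := le_mul_of_one_le_left (sq_nonneg _) hL
    have : L * N ≤ L * N ^ 2 := mul_le_mul_of_nonneg_left ‹N ≤ N ^ 2› (by linarith)
    have : 0 ≤ L * (N * A) := by positivity
    nlinarith
  set T := L ^ 2 * N * (N + A) ^ 2 with hT
  have T0 : 0 ≤ T := by positivity
  have LN : 0 ≤ L * N := by positivity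
  have h2 : L * N * P ≤ T := by
    calc L * N * P ≤ L * N * (L * (N + A) ^ 2) := mul_le_mul_of_nonneg_left (hP.trans h1) LN
      _ = T := by ring
  have h3 : L * N * R ≤ T := by
    calc L * N * R ≤ L * N * (L * (N + A) ^ 2) := mul_le_mul_of_nonneg_left (hR.trans h1) LN
      _ = T := by ring
  have h4 : L * N * (L * N) ≤ T := by
    calc L * N * (L * N) ≤ L * N * (L * (N + A) ^ 2) :=
          mul_le_mul_of_nonneg_left (by nlinarith [sq_nonneg A]) LN
      _ = T := by ring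
  have h5 : L * N * A ^ 2 ≤ T := by
    calc L * N * A ^ 2 ≤ L * N * (L * (N + A) ^ 2) :=
          mul_le_mul_of_nonneg_left (by nlinarith [sq_nonneg A]) LN
      _ = T := by ring
  have hu2 : 1 ≤ u ^ 2 := by nlinarith
  have h6 : T ≤ u ^ 2 * T := le_mul_of_one_le_left T0 hu2
  have h7 : u ^ 2 * (L * N * A ^ 2) ≤ u ^ 2 * T := mul_le_mul_of_nonneg_left h5 (by positivity)
  have e : (8 * L * u * (N + A)) ^ 2 * N = 64 * (u ^ 2 * T) := by rw [hT]; ring
  rw [e]
  nlinarith

end M4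

set_option maxHeartbeats 1600000 in
open A26 M3 M4 in
theorem M4_proof (hS : SpecStmt) (hA : AvgStmt) : M4Stmt := by
  intro k hk
  refine ⟨k + 6 + 2, fun ι _ _ E F ε lam O h hF hsp a b hab => ?_⟩
  subst hab
  obtain ⟨-, hev, s3, s4, s5, -, s7, -, s9, s10, s11, s12, -⟩ := (hS ι F hF.sy).2.2 lam O hsp
  obtain ⟨-, -, -, -, -, -, -, a8, -⟩ := hA ι E h
  set X := Nt F a with hX
  set Y := Nt F b with hY
  have hL := h.L2
  have hN := N1 h
  have hu := h.u1
  have hth := h.th0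
  have hD := h.D1'
  have hT := h.Tf1
  have hsN := sqrt1 h
  set A := am lam (a + b + 2) with hAd
  have A0 : 0 ≤ A := am_nonneg lam _
  set κ := E.th * E.u + E.D + √E.N + E.Tf with hκ
  have thu0 : 0 ≤ E.th * E.u := by positivity
  have hetaN : E.eta * E.N = κ * E.u := by
    unfold Env.eta
    rw [div_mul_cancel₀ _ (by linarith)]
  have h2 : am lam 2 = tk F 2 := hev 2 (by norm_num)
  have hd : ∀ s x, |Nt F s x x| ≤ ns lam O s x := fun s x =>
    abs_le_of_sq_mul (ns_nonneg lam O s x) (s5 s x x)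
  -- diagonal products
  have m1 := a8 (fun i j => X i i * Y j j) (fun x => 6 * E.L * ns lam O (a + b) x)
    (fun x => by have := ns_nonneg lam O (a + b) x; positivity) fun i _ j _ => by
      have c1 : |X i i * Y j j| ≤ (ns lam O a i + ns lam O a j) * (ns lam O b i + ns lam O b j) :=
        abs_mul_le ((hd a i).trans (le_add_of_nonneg_right (ns_nonneg lam O a j)))
          ((hd b j).trans (le_add_of_nonneg_left (ns_nonneg lam O b i)))
      have c2 : ns lam O 0 i + ns lam O 0 j ≤ 6 * E.L := by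
        linarith [(s9 i).2, (s9 j).2, hF.ro i, hF.ro j]
      have c3 := mul_le_mul_of_nonneg_right c2
        (add_nonneg (ns_nonneg lam O (a + b) i) (ns_nonneg lam O (a + b) j))
      linarith [s7 a b i j]
  rw [← sum_mul_sum, ← mul_sum] at m1
  have hD1 : E.D1 ≤ 2 * E.L * (κ * E.u) := by
    have h1 : √(4 * E.L * E.N) ≤ 2 * E.L * √E.N := by
      rw [Real.sqrt_mul (by positivity)]
      refine mul_le_mul_of_nonneg_right ?_ (Real.sqrt_nonneg _)
      exact Real.sqrt_le_iff.2 ⟨by positivity, by nlinarith⟩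
    have h3 : E.th * √(4 * E.L * E.N) ≤ E.u * (2 * E.L * √E.N) :=
      mul_le_mul h.thu h1 (Real.sqrt_nonneg _) (by linarith)
    have h4 : E.D ≤ 2 * E.L * (E.D * E.u) := by
      have : E.D ≤ E.D * E.u := le_mul_of_one_le_right (by linarith) hu
      have : E.D * E.u ≤ 2 * E.L * (E.D * E.u) :=
        le_mul_of_one_le_left (by positivity) (by linarith)
      linarith
    have h5 : 0 ≤ 2 * E.L * ((E.th * E.u + E.Tf) * E.u) := by positivity
    unfold Env.D1
    rw [hκ]
    linarith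
  have D10 : 0 ≤ E.D1 := by unfold Env.D1; positivity
  have κ0 : 0 ≤ κ * E.u * (E.N + A) := by positivity
  have m1' : 2 * E.D1 * (6 * E.L * ∑ x ∈ E.U, ns lam O (a + b) x) ≤
      24 * (2 ^ (a + b + 2) * E.L ^ 2 * (κ * E.u * (E.N + A))) := by
    have c1 : ∑ x ∈ E.U, ns lam O (a + b) x ≤ 2 ^ (a + b + 2) * (E.N + A) := s10 (a + b) E.U
    calc 2 * E.D1 * (6 * E.L * ∑ x ∈ E.U, ns lam O (a + b) x)
        ≤ 2 * (2 * E.L * (κ * E.u)) * (6 * E.L * (2 ^ (a + b + 2) * (E.N + A))) :=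
          mul_le_mul (by linarith) (mul_le_mul_of_nonneg_left c1 (by positivity))
            (mul_nonneg (by positivity) (sum_nonneg fun x _ => ns_nonneg lam O _ x))
            (by positivity)
      _ = _ := by ring
  -- off-diagonal products
  have m2 : |E.av fun i j => X i j * Y i j| ≤ 2 * (8 * E.L * E.u * (E.N + A) * √E.N) := by
    refine (av_abs h (Y := fun i j => |X i j| * |Y i j|) (fun i j => by positivity)
      fun i j _ => (abs_mul _ _).le).trans (mul_le_mul_of_nonneg_left ?_ (by norm_num))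
    have c1 := sum_mul_sq_le_sq_mul_sq (E.U ×ˢ E.U) (fun q => |X q.1 q.2|) (fun q => |Y q.1 q.2|)
    simp only [sum_product, sq_abs] at c1
    have c2 := S2_Nt h hF h2 s3 a
    have c3 := S2_Nt h hF h2 s3 b
    have hA2 : am lam (2 * (a + b + 2)) ≤ A ^ 2 := s4 _
    have hP : am lam (2 * a + 4) ≤ E.L * E.N + A ^ 2 := by
      have := am_mid lam (t := 2 * a + 4) (e := 2 * (a + b + 2)) (by omega) (by omega)
      linarith [Q_le hF]
    have hR : am lam (2 * b + 4) ≤ E.L * E.N + A ^ 2 := by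
      have := am_mid lam (t := 2 * b + 4) (e := 2 * (a + b + 2)) (by omega) (by omega)
      linarith [Q_le hF]
    have h4 : am lam 4 ≤ E.u ^ 2 * (E.L * E.N) := by
      have d1 := s11 E.u (by linarith) hF.op 3
      have d2 := s11 E.u (by linarith) hF.op 2
      have d3 := mul_le_mul_of_nonneg_left d2 (show 0 ≤ E.u by linarith)
      have d4 := mul_le_mul_of_nonneg_left (Q_le hF) (sq_nonneg E.u)
      rw [h2] at d3
      norm_num at d1 d3
      linarith
    have hPR : am lam (2 * a + 4) * am lam (2 * b + 4) ≤ E.u ^ 2 * (E.L * E.N) * A ^ 2 :=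
      (s12 4 (2 * a + 4) (2 * b + 4) (2 * (a + b + 2)) (by omega) (by omega) (by omega)).trans
        (mul_le_mul h4 hA2 (am_nonneg lam _) (by positivity))
    have c4 := arith (L1 h) hN hu A0 hP hR hPR
    have c5 : S2 E (fun i j => X i j ^ 2) * S2 E (fun i j => Y i j ^ 2) ≤
        4 * (E.L * E.N + am lam (2 * a + 4)) * (4 * (E.L * E.N + am lam (2 * b + 4))) :=
      mul_le_mul c2 c3 (sum_nonneg fun _ _ => sum_nonneg fun _ _ => sq_nonneg _)
        (by have := am_nonneg lam (2 * a + 4); positivity)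
    refine (abs_le_of_sq_le_sq' ?_ (by positivity)).2
    rw [mul_pow, Real.sq_sqrt (by linarith)]
    exact c1.trans (c5.trans c4)
  have m2' : 8 * E.L * E.u * (E.N + A) * √E.N ≤
      2 ^ (a + b + 2) * E.L ^ 2 * (κ * E.u * (E.N + A)) := by
    have c1 : (4 : ℝ) ≤ 2 ^ (a + b + 2) := by
      calc (4 : ℝ) = 2 ^ 2 := by norm_num
        _ ≤ _ := pow_le_pow_right₀ (by norm_num) (by omega)
    have c2 : 8 * E.L ≤ 2 ^ (a + b + 2) * E.L ^ 2 := by
      have : 4 * E.L ^ 2 ≤ 2 ^ (a + b + 2) * E.L ^ 2 := mul_le_mul_of_nonneg_right c1 (sq_nonneg _)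
      nlinarith
    have c3 : √E.N * E.u * (E.N + A) ≤ κ * E.u * (E.N + A) :=
      mul_le_mul_of_nonneg_right (mul_le_mul_of_nonneg_right (by rw [hκ]; linarith) (by linarith))
        (by positivity)
    calc 8 * E.L * E.u * (E.N + A) * √E.N = 8 * E.L * (√E.N * E.u * (E.N + A)) := by ring
      _ ≤ _ := mul_le_mul c2 c3 (by positivity) (by positivity)
  have e : E.av (s2 X Y) =
      2 * (E.av (fun i j => X i i * Y j j) + E.av fun i j => X i j * Y i j) := by
    rw [← av_add, two_mul]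
    nth_rewrite 2 [← av_swap h]
    rw [← av_add]
    congr 1
    funext i j
    simp only [s2]
    ring
  have c3 := mul_le_mul_of_nonneg_right (pow_ge hL (a + b + 2 + 6) 2) κ0
  have c4 : 2 ^ (a + b + 2 + 6) * E.L ^ 2 * (κ * E.u * (E.N + A)) =
      64 * (2 ^ (a + b + 2) * E.L ^ 2 * (κ * E.u * (E.N + A))) := by
    rw [pow_add _ (a + b + 2) 6]; ring
  have c5 : 0 ≤ 2 ^ (a + b + 2) * E.L ^ 2 * (κ * E.u * (E.N + A)) := by positivity
  rw [e, mul_assoc (E.L ^ _), hetaN, mul_assoc (E.L ^ _)]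
  rw [abs_le] at m1 m2 ⊢
  constructor <;> linarith [m1.1, m1.2, m2.1, m2.2]

end Crest.Agent.R62
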