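import Crest.Agent.R62.Aux26
/-! Row 62, task MOM: drift of the even moments. -/
set_option autoImplicit false

namespace Crest.Agent.R62

open Matrix Finset

namespace MOM

lemma reflect (t : ℕ → ℝ) (n : ℕ) :
    ∑ s ∈ range (n + 1), (s + 1 : ℝ) * (2 * t (n - s) * t s) =
      (n + 2) * ∑ s ∈ range (n + 1), t (n - s) * t s := by
  have h := sum_range_reflect (fun s => (s + 1 : ℝ) * (t (n - s) * t s)) (n + 1)
  have h2 : ∑ s ∈ range (n + 1), ((n + 1 - 1 - s : ℕ) + 1 : ℝ) *
      (t (n - (n + 1 - 1 - s)) * t (n + 1 - 1 - s)) =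
      ∑ s ∈ range (n + 1), ((n : ℝ) - s + 1) * (t (n - s) * t s) := by
    refine sum_congr rfl fun s hs => ?_
    have hs' : s ≤ n := Nat.lt_succ_iff.1 (mem_range.1 hs)
    rw [show n + 1 - 1 - s = n - s by omega, show n - (n - s) = s by omega, Nat.cast_sub hs']
    ring
  rw [h2] at h
  rw [mul_sum]
  have h3 : ∑ s ∈ range (n + 1), (s + 1 : ℝ) * (2 * t (n - s) * t s) =
      ∑ s ∈ range (n + 1), (s + 1 : ℝ) * (t (n - s) * t s) +
        ∑ s ∈ range (n + 1), (s + 1 : ℝ) * (t (n - s) * t s) := by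
    rw [← sum_add_distrib]
    exact sum_congr rfl fun s _ => by ring
  rw [h3]
  nth_rewrite 1 [← h]
  rw [← sum_add_distrib]
  exact sum_congr rfl fun s _ => by ring

variable {ι : Type} [Fintype ι] [DecidableEq ι]

omit [DecidableEq ι] in
lemma am_mid (lam : ι → ℝ) {m n : ℕ} (h2 : 2 ≤ m) (hm : m ≤ n) :
    am lam m ≤ am lam 2 + am lam n := by
  unfold am
  rw [← sum_add_distrib]
  refine sum_le_sum fun a _ => ?_
  have h0 := abs_nonneg (lam a)
  rcases le_total |lam a| 1 with h | h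
  · have := pow_le_pow_of_le_one h0 h h2
    have : 0 ≤ |lam a| ^ n := by positivity
    linarith
  · have := pow_le_pow_right₀ h hm
    have : 0 ≤ |lam a| ^ 2 := by positivity
    linarith

omit [DecidableEq ι] in
lemma am_nonneg (lam : ι → ℝ) (m : ℕ) : 0 ≤ am lam m := sum_nonneg fun _ _ => by positivity

lemma odd_lower {U : Finset ι} {F : Mat ι} {ε : ℝ} (h : Bas U F ε) (m : ℕ) :
    -tk F (m + m) ≤ ε * tk F (m + m + 1) := by
  have hs := A26.pow_sy h.sy m
  have e1 : tk F (m + m) = ∑ x, ∑ y, (F ^ m) y x ^ 2 := by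
    unfold tk
    rw [pow_add]
    simp only [trace, Matrix.diag, Matrix.mul_apply]
    exact sum_congr rfl fun x _ => sum_congr rfl fun y _ => by rw [hs x y, sq]
  have e2 : tk F (m + m + 1) = ∑ x, (fun y => (F ^ m) y x) ⬝ᵥ F *ᵥ fun y => (F ^ m) y x := by
    unfold tk
    rw [show m + m + 1 = m + (m + 1) by ring, pow_add, pow_succ']
    simp only [trace, Matrix.diag, Matrix.mul_apply, dotProduct, mulVec]
    exact sum_congr rfl fun x _ => sum_congr rfl fun y _ => by rw [hs x y]
  rw [e1, e2, mul_sum, ← sum_neg_distrib]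
  exact sum_le_sum fun x _ => h.po _

lemma av_sum (E : Env ι) (s : Finset ℕ) (X : ℕ → ι → ι → ℝ) :
    E.av (fun i j => ∑ a ∈ s, X a i j) = ∑ a ∈ s, E.av (X a) := by
  classical
  induction s using Finset.induction_on with
  | empty => simp [Env.av]
  | insert a s ha ih => simp only [sum_insert ha]; rw [A26.av_add, ih]

end MOM

set_option maxHeartbeats 1000000 in
open MOM A26 in
theorem MOM_proof (h1 : M1Stmt) (h3 : M3Stmt) (h4 : M4Stmt) (hS : SpecStmt) (hA : AvgStmt) :
    MomStmt := by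
  intro k hk4 hke
  obtain ⟨C, hC⟩ := h1 k (by omega)
  obtain ⟨c3, hc3⟩ := h3 k (by omega)
  obtain ⟨c4, hc4⟩ := h4 k (by omega)
  obtain ⟨j, hj⟩ := pow_unbounded_of_one_lt
    (|C| * (32 * 2 ^ k + 8 ^ k * 8 * 2 ^ k) + 15 * k + 10 * (k : ℝ) ^ 2) (one_lt_two (α := ℝ))
  refine ⟨j + (c3 + c4 + k + 2), fun L Λ hΛ => ?_⟩
  intro ι _ _ E F ε K v hL hE hF hv hK0 hK
  subst hL
  obtain ⟨⟨lam, O, hsp⟩, -, hall⟩ := hS ι F hF.sy
  obtain ⟨s1, s2', -, -, -, -, -, -, s9, s10, s11, s12, s13, -, -⟩ := hall lam O hsp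
  obtain ⟨n, rfl⟩ : ∃ n, k = n + 4 := ⟨k - 4, by omega⟩
  have hL1 := L1 hE
  have hN1 := N1 hE
  have hz0 := z0 hE
  have hz20 := z20 hE
  have hu1 := hE.u1
  have hQ0 := Q0 hF
  have hQ := Q_le hF
  have hAk : am lam (n + 4) = tk F (n + 4) := s2' _ hke
  have hA2 : am lam 2 = tk F 2 := s2' _ (by decide)
  have hT0 : 0 ≤ tk F (n + 4) := hAk ▸ am_nonneg lam _
  have hη0 : 0 ≤ E.eta := by
    have := hE.th0; have := hE.D1'; have := hE.Tf1
    unfold Env.eta; positivity
  set P : ℝ := E.L ^ (c3 + c4 + (n + 4) + 2) with hP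
  have hPm : ∀ m, m ≤ c3 + c4 + (n + 4) + 2 → E.L ^ m ≤ P := fun m hm => pow_le_pow_right₀ hL1 hm
  have hP1 : 1 ≤ P := by simpa using hPm 0 (by omega)
  have hPL : E.L ≤ P := by simpa using hPm 1 (by omega)
  set R : ℝ := E.N + tk F (n + 4) with hR
  set W : ℝ := E.N * v ^ (n + 4 - 3) + tk F (n + 4) / v with hW
  have hR0 : 0 ≤ R := by linarith
  have hv3 : 1 ≤ v ^ (n + 4 - 3) := one_le_pow₀ hv
  have hTv : 0 ≤ tk F (n + 4) / v := by positivity
  have hNW : E.N ≤ W := by
    have := le_mul_of_one_le_right (show 0 ≤ E.N by linarith) hv3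
    linarith
  have hAW : am lam (n + 3) ≤ E.L * W := by
    have := s13 (n + 4) v (by omega) (by linarith)
    rw [hAk, show n + 4 - 1 = n + 3 by omega] at this
    have h5 : v ^ (n + 4 - 3) * tk F 2 ≤ v ^ (n + 4 - 3) * (E.L * E.N) :=
      mul_le_mul_of_nonneg_left hQ (by positivity)
    have h6 := le_mul_of_one_le_left hTv hL1
    rw [hW]
    linarith
  set S : ℝ := (E.eta + E.z + K * E.u / E.N) * E.N * R + E.N * W with hSdef
  have eS : S = E.eta * E.N * R + E.z * E.N * R + K * E.u * R + E.N * W := by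
    rw [hSdef]; field_simp
  have a1 : 0 ≤ E.eta * E.N * R := by positivity
  have a2 : 0 ≤ E.z * E.N * R := by positivity
  have a3 : 0 ≤ K * E.u * R := by positivity
  have a4 : 0 ≤ E.N * W := mul_nonneg (by linarith) (by linarith)
  have hS0 : 0 ≤ S := by linarith
  -- traces
  have hT1 : |tk F 1| ≤ E.z * E.N := by
    rw [← tk1_U hF]
    refine (abs_sum_le_sum_abs _ _).trans ((sum_le_sum fun x _ => hF.dg x).trans (le_of_eq ?_))
    simp [Env.N, mul_comm]
  have hT1' : |tk F 1| ≤ E.N := hT1.trans (mul_le_of_le_one_left (by linarith) (by linarith))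
  have hLN : E.N ≤ E.L * E.N := le_mul_of_one_le_left (by linarith) hL1
  have hLW : W ≤ E.L * W := le_mul_of_one_le_left (by linarith) hL1
  have hLNW : E.L * E.N ≤ E.L * W := mul_le_mul_of_nonneg_left hNW (by linarith)
  have hB : ∀ m, 1 ≤ m → m ≤ n + 3 → |tk F m| ≤ 2 * (E.L * W) := fun m hm1 hm2 => by
    rcases hm1.eq_or_lt with h | h
    · subst h; linarith
    · have := am_mid lam (m := m) (n := n + 3) h hm2
      have := s1 m
      linarith
  have hprod : ∀ a b, 1 ≤ a → 1 ≤ b → a + b ≤ n + 4 → |tk F a * tk F b| ≤ 2 * (P * S) := by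
    intro a b ha hb hab
    have h6 : E.L * E.N * (2 * (E.L * W)) ≤ 2 * (P * S) := by
      have := hPm 2 (by omega)
      have h7 : E.L ^ 2 * (E.N * W) ≤ P * S := mul_le_mul this (by linarith) a4 (by linarith)
      linarith
    refine le_trans ?_ h6
    rcases ha.eq_or_lt with h | h
    · subst h; exact abs_mul_le (hT1'.trans hLN) (hB b hb (by omega))
    rcases hb.eq_or_lt with h' | h'
    · subst h'; rw [mul_comm]; exact abs_mul_le (hT1'.trans hLN) (hB a ha (by omega))
    have h8 := s12 2 a b (a + b - 2) h h' (by omega)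
    have h9 := am_mid lam (m := a + b - 2) (n := n + 3) (by omega) (by omega)
    refine (abs_mul_le (s1 a) (s1 b)).trans (h8.trans ?_)
    exact mul_le_mul (by linarith) (by linarith) (am_nonneg _ _) (by linarith)
  -- the pointwise expansion
  set err : ι → ι → ℝ := fun i j => |C| * (E.z * (8 * E.L) *
    (ns lam O (n + 2) i + ns lam O (n + 2) j) + (8 * E.L) ^ (n + 4) *
    (ns lam O (n + 1) i + ns lam O (n + 1) j)) with herr
  have hns0 : ∀ s x, 0 ≤ ns lam O s x := fun s x => sum_nonneg fun _ _ => by positivity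
  have hpt : ∀ i j, E.p i j ≠ 0 → tk (step F i j) (n + 4) - tk F (n + 4) ≤
      ((n + 4 : ℕ) * wtr F i j (Nt F (n + 3)) +
        ∑ s ∈ range (n + 3), (s + 1 : ℝ) * s2 (Nt F (n + 2 - s)) (Nt F s) i j) + err i j := by
    intro i j hp
    have h5 := hC ι F lam O i j E.z hF.sy hsp ((hA ι E hE).2.2.2.2.2.2.2.2.2.2.2.2.2.1 i j hp).2.2
      (hF.dg i) (hF.dg j) (hF.ad i j hp).1 hz20
    rw [hke.neg_one_pow, show n + 4 - 1 = n + 3 by omega, show n + 4 - 2 = n + 2 by omega,
      show n + 4 - 3 = n + 1 by omega] at h5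
    have h6 : ns lam O 0 i + ns lam O 0 j ≤ 8 * E.L := by
      have := (s9 i).2; have := (s9 j).2; have := hF.ro i; have := hF.ro j
      linarith
    have h7 : 0 ≤ ns lam O 0 i + ns lam O 0 j := add_nonneg (hns0 _ _) (hns0 _ _)
    have h8 := add_nonneg (hns0 (n + 2) i) (hns0 (n + 2) j)
    have h9 := add_nonneg (hns0 (n + 1) i) (hns0 (n + 1) j)
    have h10 : C * (E.z * (ns lam O 0 i + ns lam O 0 j) * (ns lam O (n + 2) i + ns lam O (n + 2) j)
        + (ns lam O 0 i + ns lam O 0 j) ^ (n + 4) * (ns lam O (n + 1) i + ns lam O (n + 1) j))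
        ≤ err i j := by
      refine (mul_le_mul_of_nonneg_right (le_abs_self C) (by positivity)).trans ?_
      simp only [herr]
      gcongr
    have h11 := (le_abs_self _).trans (h5.trans h10)
    linarith
  have hav := (hA ι E hE).2.2.2.2.2.2.2.2.2.2.2.1 _ _ hpt
  rw [av_add, av_add, av_mul, av_sum] at hav
  simp only [av_mul] at hav
  -- the error term
  have herr0 : ∀ i j, 0 ≤ err i j := fun i j => by
    have h8 := add_nonneg (hns0 (n + 2) i) (hns0 (n + 2) j)
    have h9 := add_nonneg (hns0 (n + 1) i) (hns0 (n + 1) j)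
    simp only [herr]
    positivity
  have hS2 : ∀ s, S2 E (fun i j => ns lam O s i + ns lam O s j) ≤
      2 * E.N * (2 ^ (s + 2) * (E.N + am lam (s + 2))) := fun s => by
    rw [S2_add, S2_left, ← S2_swap, S2_left]
    have := s10 s E.U
    have h5 := mul_le_mul_of_nonneg_left this (show 0 ≤ E.N by linarith)
    unfold Env.N at h5 ⊢
    linarith
  have e1 : E.av err ≤ |C| * (32 * 2 ^ (n + 4) + 8 ^ (n + 4) * 8 * 2 ^ (n + 4)) * (P * S) := by
    refine (av_le hE herr0 fun i j _ => le_rfl).trans ?_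
    simp only [herr]
    rw [S2_mul, S2_add, S2_mul, S2_mul]
    have h5 := hS2 (n + 2)
    have h6 := hS2 (n + 1)
    rw [show n + 2 + 2 = n + 4 by ring, hAk] at h5
    rw [show n + 1 + 2 = n + 3 by ring] at h6
    have h7 : E.z * (8 * E.L) * S2 E (fun i j => ns lam O (n + 2) i + ns lam O (n + 2) j) ≤
        16 * 2 ^ (n + 4) * (P * S) := by
      refine (mul_le_mul_of_nonneg_left h5 (by positivity)).trans ?_
      have : E.L * (E.z * E.N * R) ≤ P * S := mul_le_mul hPL (by linarith) a2 (by linarith)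
      calc E.z * (8 * E.L) * (2 * E.N * (2 ^ (n + 4) * R))
          = 16 * 2 ^ (n + 4) * (E.L * (E.z * E.N * R)) := by ring
        _ ≤ _ := by gcongr
    have h8 : (8 * E.L) ^ (n + 4) * S2 E (fun i j => ns lam O (n + 1) i + ns lam O (n + 1) j) ≤
        8 ^ (n + 4) * 4 * 2 ^ (n + 4) * (P * S) := by
      refine (mul_le_mul_of_nonneg_left h6 (by positivity)).trans ?_
      have h9 : E.L ^ (n + 5) * (E.N * W) ≤ P * S :=
        mul_le_mul (hPm _ (by omega)) (by linarith) a4 (by linarith)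
      have h10 : E.N + am lam (n + 3) ≤ 2 * (E.L * W) := by linarith
      calc (8 * E.L) ^ (n + 4) * (2 * E.N * (2 ^ (n + 3) * (E.N + am lam (n + 3))))
          ≤ (8 * E.L) ^ (n + 4) * (2 * E.N * (2 ^ (n + 3) * (2 * (E.L * W)))) := by gcongr
        _ = 8 ^ (n + 4) * 2 * 2 ^ (n + 4) * (E.L ^ (n + 5) * (E.N * W)) := by ring
        _ ≤ _ := by gcongr; norm_num
    have h9 := mul_le_mul_of_nonneg_left (add_le_add h7 h8) (abs_nonneg C)
    linarith
  -- the first order term
  have e2 : E.av (fun i j => wtr F i j (Nt F (n + 3))) ≤ 7 * (P * S) := by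
    have h5 := (le_abs_self _).trans (hc3 ι E F ε lam O hE hF hsp)
    rw [show n + 4 - 1 = n + 3 by omega, hAk] at h5
    have h6 : trace (Nt F (n + 3)) = tk F (n + 5) - tk F (n + 3) := by
      unfold Nt tk; rw [trace_sub]
    have h7 : E.L ^ c3 * (E.eta * E.N * R) ≤ P * S :=
      mul_le_mul (hPm _ (by omega)) (by linarith) a1 (by linarith)
    have h8 := (neg_le_abs _).trans (hprod 1 (n + 3) le_rfl (by omega) (by omega))
    have hε : ε * ε = 1 := by rcases hF.sg with h | h <;> rw [h] <;> norm_num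
    have hεa : |ε| = 1 := by rcases hF.sg with h | h <;> rw [h] <;> norm_num
    obtain ⟨m, hm⟩ := hke
    have h9 := odd_lower hF.toBas m
    rw [← hm] at h9
    have h10 : ε * tk F (n + 5) ≤ E.u * tk F (n + 4) := by
      have := s11 E.u (by linarith) hF.op (n + 4)
      rw [hAk] at this
      have h11 := s1 (n + 5)
      have h12 := le_abs_self (ε * tk F (n + 5))
      rw [abs_mul, hεa, one_mul] at h12
      linarith
    have h11 : -(E.z * E.N) ≤ ε * tk F 1 := by
      have h12 := neg_abs_le (ε * tk F 1)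
      rw [abs_mul, hεa, one_mul] at h12
      linarith
    have h12 : tk F 1 * tk F (n + 5) ≤ P * S := by
      have h13 : tk F 1 * tk F (n + 5) = (ε * tk F 1) * (ε * tk F (n + 5)) := by
        linear_combination (-(tk F 1 * tk F (n + 5))) * hε
      have h14 : K * E.u * tk F (n + 4) ≤ K * E.u * R := by gcongr; linarith
      have h15 : E.z * E.N * tk F (n + 4) ≤ E.z * E.N * R := by gcongr; linarith
      have h16 : S ≤ P * S := le_mul_of_one_le_left hS0 hP1
      have h17 : 0 ≤ E.z * E.N := by positivity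
      have h18 : 0 ≤ E.z * E.N * tk F (n + 4) := by positivity
      have h19 : 0 ≤ K * E.u * tk F (n + 4) := by positivity
      rw [h13]
      change -tk F (n + 4) ≤ ε * tk F (n + 5) at h9
      rcases le_total 0 (ε * tk F (n + 5)) with h | h
      · have : ε * tk F 1 * (ε * tk F (n + 5)) ≤ K * (E.u * tk F (n + 4)) :=
          (mul_le_mul_of_nonneg_right hK h).trans (mul_le_mul_of_nonneg_left h10 hK0)
        linarith
      · have : ε * tk F 1 * (ε * tk F (n + 5)) ≤ E.z * E.N * tk F (n + 4) := by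
          have b1 := mul_le_mul_of_nonpos_right h11 h
          have b2 := mul_le_mul_of_nonneg_left h9 h17
          linarith
        linarith
    rw [h6] at h5
    linarith
  -- the second order term
  set t : ℕ → ℝ := fun s => ∑ x ∈ E.U, Nt F s x x with ht
  have ht0 : t 0 = tk F 2 - E.N := by
    simp only [ht, Nt, Matrix.sub_apply, sum_sub_distrib, zero_add, pow_zero, one_apply_eq]
    rw [tk_U hF.toBas0 1]
    simp [Env.N]
  have hts : ∀ s, t (s + 1) = tk F (s + 3) - tk F (s + 1) := fun s => by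
    simp only [ht, Nt, Matrix.sub_apply, sum_sub_distrib]
    rw [tk_U hF.toBas0 s, tk_U hF.toBas0 (s + 2)]
  have e3 : ∑ s ∈ range (n + 3), (s + 1 : ℝ) * E.av (s2 (Nt F (n + 2 - s)) (Nt F s)) ≤
      (n + 4) * ∑ s ∈ range (n + 3), t (n + 2 - s) * t s + (n + 4) ^ 2 * (P * S) := by
    have h5 := reflect t (n + 2)
    push_cast at h5
    rw [show (n : ℝ) + 2 + 2 = n + 4 by ring, show n + 2 + 1 = n + 3 by ring] at h5
    rw [← h5]
    have h7 : E.L ^ c4 * (E.eta * E.N * R) ≤ P * S :=
      mul_le_mul (hPm _ (by omega)) (by linarith) a1 (by linarith)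
    have hPS : 0 ≤ P * S := by positivity
    have h6 : ∀ s ∈ range (n + 3), (s + 1 : ℝ) * E.av (s2 (Nt F (n + 2 - s)) (Nt F s)) ≤
        (s + 1 : ℝ) * (2 * t (n + 2 - s) * t s) + (n + 4) * (P * S) := fun s hs => by
      have hs' := mem_range.1 hs
      have h8 := (le_abs_self _).trans (hc4 ι E F ε lam O hE hF hsp (n + 2 - s) s (by omega))
      rw [hAk] at h8
      have h9 : (s : ℝ) + 1 ≤ n + 4 := by
        have : (s : ℝ) ≤ n + 3 := by exact_mod_cast hs'.le
        linarith
      have h10 : E.av (s2 (Nt F (n + 2 - s)) (Nt F s)) ≤ 2 * t (n + 2 - s) * t s + P * S := by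
        simp only [ht]; linarith
      have h11 := mul_le_mul_of_nonneg_left h10 (show (0 : ℝ) ≤ s + 1 by positivity)
      have h12 := mul_le_mul_of_nonneg_right h9 hPS
      linarith
    refine (sum_le_sum h6).trans ?_
    rw [sum_add_distrib, sum_const, card_range, nsmul_eq_mul]
    push_cast
    have h12 : 0 ≤ ((n : ℝ) + 4) * (P * S) := by positivity
    linarith
  have e4 : ∑ s ∈ range (n + 3), t (n + 2 - s) * t s ≤
      2 * (tk F 2 - E.N) * tk F (n + 4) +
        ∑ a ∈ Icc 3 (n + 4 - 1), tk F a * tk F (n + 4 + 2 - a) + (8 + 6 * (n + 4)) * (P * S) := by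
    have hPS : 0 ≤ P * S := by positivity
    rw [sum_range_succ, sum_range_succ', Nat.sub_self, Nat.sub_zero, ht0,
      show n + 2 = (n + 1) + 1 by ring, hts (n + 1)]
    have h5 : ∑ a ∈ Icc 3 (n + 4 - 1), tk F a * tk F (n + 4 + 2 - a) =
        ∑ s ∈ range (n + 1), tk F (s + 3) * tk F (n - s + 3) := by
      rw [show n + 4 - 1 = n + 3 by omega, ← Finset.Ico_add_one_right_eq_Icc,
        sum_Ico_eq_sum_range, show n + 3 + 1 - 3 = n + 1 by omega]
      refine sum_congr rfl fun s hs => ?_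
      have := mem_range.1 hs
      rw [add_comm 3 s, show n + 4 + 2 - (s + 3) = n - s + 3 by omega]
    have h6 : ∀ s ∈ range (n + 1), t (n + 1 + 1 - (s + 1)) * t (s + 1) ≤
        tk F (s + 3) * tk F (n - s + 3) + 6 * (P * S) := fun s hs => by
      have := mem_range.1 hs
      rw [show n + 1 + 1 - (s + 1) = n - s + 1 by omega, hts, hts]
      have b1 := (neg_le_abs _).trans (hprod (n - s + 3) (s + 1) (by omega) (by omega) (by omega))
      have b2 := (neg_le_abs _).trans (hprod (n - s + 1) (s + 3) (by omega) (by omega) (by omega))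
      have b3 := (le_abs_self _).trans (hprod (n - s + 1) (s + 1) (by omega) (by omega) (by omega))
      linarith
    have h7 := sum_le_sum h6
    rw [sum_add_distrib, sum_const, card_range, nsmul_eq_mul, Nat.cast_add_one] at h7
    have h8 : |(tk F 2 - E.N) * tk F (n + 2)| ≤ 2 * (P * S) := by
      have h6 : E.L * E.N * (2 * (E.L * W)) ≤ 2 * (P * S) := by
        have := hPm 2 (by omega)
        have h7 : E.L ^ 2 * (E.N * W) ≤ P * S := mul_le_mul this (by linarith) a4 (by linarith)
        linarith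
      refine (abs_mul_le ?_ (hB _ (by omega) (by omega))).trans h6
      rw [abs_le]; constructor <;> linarith
    have h9 := (neg_le_abs _).trans h8
    rw [h5, show n + 1 + 3 = n + 4 by ring, show n + 1 + 1 = n + 2 by ring]
    rw [show n + 1 + 1 = n + 2 by ring] at h7
    linarith
  have hPS : 0 ≤ P * S := by positivity
  have hfin : (2 : ℝ) ^ j * P ≤ Λ := (pow_ge hE.L2 _ _).trans hΛ
  have hfin2 := mul_le_mul_of_nonneg_right ((mul_le_mul_of_nonneg_right hj.le
    (show 0 ≤ P by linarith)).trans hfin) hS0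
  have hn : (0 : ℝ) ≤ n + 4 := by positivity
  have e2' := mul_le_mul_of_nonneg_left e2 hn
  have e4' := mul_le_mul_of_nonneg_left e4 hn
  simp only [Nat.cast_add, Nat.cast_ofNat] at hav hfin2 ⊢
  have hn2 : 0 ≤ ((n : ℝ) + 4) ^ 2 * (P * S) := by positivity
  linarith

end Crest.Agent.R62
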