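import Crest.Agent.R62.DefsB

/-! Row 62: observables `0` and `1` of phase 1 (the moments `tk 4` and `tk KK`). -/

set_option autoImplicit false

namespace Crest.Agent.R62

open Matrix Finset

namespace O1A

theorem inv_pow_le {Λ : ℝ} (hΛ : 1 ≤ Λ) {a b : ℕ} (hab : a ≤ b) : 1 / Λ ^ b ≤ 1 / Λ ^ a :=
  one_div_le_one_div_of_le (by positivity) (pow_le_pow_right₀ hΛ hab)

/-- The numerical core of both drifts. -/
theorem core {Λ N T t q kk S η z κ A B : ℝ} (hΛ : 10 ^ 20 ≤ Λ) (hN : 0 < N) (hNT : N ≤ T)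
    (ht0 : 0 ≤ t) (ht : t ≤ T) (hk0 : 0 ≤ kk) (hk : kk ≤ 10 ^ 5) (hq : |q - N| ≤ N / Λ ^ 38)
    (hS : kk * S ≤ N * T / Λ) (hη : η ≤ 1 / Λ ^ 41) (hz : z = 1 / Λ ^ 330)
    (hκ : κ ≤ 1 / Λ ^ 202) (hA : A ≤ T / Λ ^ 4) (hB : B ≤ T / Λ ^ 4) :
    2 * kk * (q - N) * t + kk * S + Λ * ((η + z + κ) * N * (N + t) + N * (A + B)) ≤
      0 * N * t + 3 * N * T / Λ := by
  have h1 : (1 : ℝ) ≤ Λ := le_trans (by norm_num) hΛ
  have h0 : (0 : ℝ) < Λ := lt_of_lt_of_le one_pos h1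
  have hT : 0 < T := lt_of_lt_of_le hN hNT
  have hNT0 : 0 < N * T := mul_pos hN hT
  set w : ℝ := N * T / Λ ^ 2 with hw
  have hw0 : 0 < w := by positivity
  have hwΛ : N * T / Λ = Λ * w := by rw [hw]; field_simp
  -- first term
  have e1 : 2 * kk * (q - N) * t ≤ 2 * 10 ^ 5 * w := by
    have a1 : q - N ≤ N / Λ ^ 2 := by
      have : N / Λ ^ 38 ≤ N / Λ ^ 2 :=
        div_le_div_of_nonneg_left hN.le (by positivity) (pow_le_pow_right₀ h1 (by norm_num))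
      exact (le_abs_self _).trans (hq.trans this)
    have a2 : (q - N) * t ≤ w := by
      calc (q - N) * t ≤ N / Λ ^ 2 * t := mul_le_mul_of_nonneg_right a1 ht0
        _ ≤ N / Λ ^ 2 * T := mul_le_mul_of_nonneg_left ht (by positivity)
        _ = w := by rw [hw]; ring
    calc 2 * kk * (q - N) * t = 2 * (kk * ((q - N) * t)) := by ring
      _ ≤ 2 * (kk * w) := by
        have := mul_le_mul_of_nonneg_left a2 hk0
        linarith
      _ ≤ 2 * (10 ^ 5 * w) := by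
        have := mul_le_mul_of_nonneg_right hk hw0.le
        linarith
      _ = 2 * 10 ^ 5 * w := by ring
  have e2 : Λ * ((η + z + κ) * N * (N + t)) ≤ 6 * w := by
    have a1 : η + z + κ ≤ 3 * (1 / Λ ^ 3) := by
      have b1 : 1 / Λ ^ 41 ≤ 1 / Λ ^ 3 := inv_pow_le h1 (by norm_num)
      have b2 : 1 / Λ ^ 330 ≤ 1 / Λ ^ 3 := inv_pow_le h1 (by norm_num)
      have b3 : 1 / Λ ^ 202 ≤ 1 / Λ ^ 3 := inv_pow_le h1 (by norm_num)
      linarith
    have a2 : N * (N + t) ≤ 2 * (N * T) := by nlinarith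
    have a3 : 0 ≤ N * (N + t) := by positivity
    have a4 : (η + z + κ) * (N * (N + t)) ≤ 3 * (1 / Λ ^ 3) * (2 * (N * T)) :=
      (mul_le_mul_of_nonneg_right a1 a3).trans (mul_le_mul_of_nonneg_left a2 (by positivity))
    calc Λ * ((η + z + κ) * N * (N + t)) = Λ * ((η + z + κ) * (N * (N + t))) := by ring
      _ ≤ Λ * (3 * (1 / Λ ^ 3) * (2 * (N * T))) := mul_le_mul_of_nonneg_left a4 h0.le
      _ = 6 * w := by rw [hw]; field_simp; ring
  have e3 : Λ * (N * (A + B)) ≤ 2 * w := by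
    have b1 : T / Λ ^ 4 ≤ T / Λ ^ 3 :=
      div_le_div_of_nonneg_left hT.le (by positivity) (pow_le_pow_right₀ h1 (by norm_num))
    have a1 : A + B ≤ 2 * (T / Λ ^ 3) := by linarith
    calc Λ * (N * (A + B)) ≤ Λ * (N * (2 * (T / Λ ^ 3))) :=
          mul_le_mul_of_nonneg_left (mul_le_mul_of_nonneg_left a1 hN.le) h0.le
      _ = 2 * w := by rw [hw]; field_simp
  have e4 : (2 * 10 ^ 5 + 8) * w ≤ Λ * w :=
    mul_le_mul_of_nonneg_right (le_trans (by norm_num) hΛ) hw0.le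
  have e5 : 3 * N * T / Λ = 3 * (Λ * w) := by rw [← hwΛ]; ring
  have e6 : 0 ≤ Λ * w := by positivity
  rw [hwΛ] at hS
  rw [mul_add Λ, e5]
  linarith

theorem rate {Λ N T T' : ℝ} (hΛ : 0 < Λ) (hN : 0 < N) (hT : 0 < T) (h : T ≤ T') :
    T * (1 + 0 / N - 3 / (Λ * N)) ≤ T' := by
  have : 0 ≤ T * (3 / (Λ * N)) := by positivity
  have e : T * (1 + 0 / N - 3 / (Λ * N)) = T - T * (3 / (Λ * N)) := by ring
  rw [e]; linarith

theorem KK_facts : 4 ≤ KK ∧ Even KK ∧ (KK : ℝ) ≤ 10 ^ 5 := by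
  refine ⟨by unfold KK; norm_num, by unfold KK; decide, by unfold KK; norm_num⟩

end O1A

open O1A

theorem O1_0_proof (hS : SM1Stmt) (_hAvg : AvgStmt) (hPot : PotStmt) (_hCr : CrossStmt) :
    O1Stmt 0 := by
  intro ι _ _ d p L Λ N₀ τ E F F' ε ctx
  obtain ⟨hΛ, hy1, -, hNlo, hZ, heta, -, -, -, -, -, hKu, -, hSQ, -, -, -, -, h40, h4, -, -, -, -,
    h3, -, hq, -, -, hK, -⟩ := hS ι d p L Λ N₀ τ E F F' ε ctx
  have h1 : (1 : ℝ) ≤ Λ := le_trans (by norm_num) hΛ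
  have h0 : (0 : ℝ) < Λ := lt_of_lt_of_le one_pos h1
  have hΛN : Λ ^ 2 ≤ E.N := (pow_le_pow_right₀ h1 (by norm_num)).trans hNlo
  have hN2 : 0 < E.N - 2 := by
    have := ctx.lo
    have : 0 < Λ ^ 23906 := by positivity
    linarith
  have hN : 0 < E.N := by linarith
  set y : ℝ := N₀ / E.N with hy
  have hy0 : 0 < y := lt_of_lt_of_le one_pos hy1
  have hN₀ : N₀ = y * E.N := by rw [hy]; field_simp
  have hN₀0 : 0 < N₀ := by rw [hN₀]; positivity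
  have hT : T41 Λ N₀ E.N = E.N * Λ ^ 8 * y ^ 2 := rfl
  have hT0 : 0 < T41 Λ N₀ E.N := by rw [hT]; positivity
  have hTT : T41 Λ N₀ E.N ≤ T41 Λ N₀ (E.N - 2) := by
    have a1 : T41 Λ N₀ E.N = Λ ^ 8 * N₀ ^ 2 / E.N := by unfold T41; field_simp
    have a2 : T41 Λ N₀ (E.N - 2) = Λ ^ 8 * N₀ ^ 2 / (E.N - 2) := by unfold T41; field_simp
    rw [a1, a2]
    exact div_le_div_of_nonneg_left (by positivity) hN2 (by linarith)
  have hK0 : 0 ≤ K11 Λ N₀ E.N := by unfold K11; positivity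
  have hΛ4 : 1 ≤ Λ ^ 4 := one_le_pow₀ h1
  have hv : 1 ≤ Λ ^ 4 * y := by nlinarith
  have hM := ctx.big.all.2.2.2.2.1 ι E F ε (K11 Λ N₀ E.N) (Λ ^ 4 * y) ctx.hL ctx.ok ctx.sF hv hK0 hK
  have hNT : E.N ≤ T41 Λ N₀ E.N := by
    rw [hT]
    have a1 : 1 ≤ Λ ^ 8 * y ^ 2 := one_le_mul_of_one_le_of_one_le (one_le_pow₀ h1) (one_le_pow₀ hy1)
    nlinarith
  have hsum : ((4 : ℕ) : ℝ) * ∑ a ∈ Icc 3 (4 - 1), tk F a * tk F (4 + 2 - a) ≤
      E.N * T41 Λ N₀ E.N / Λ := by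
    have a0 : ∑ a ∈ Icc 3 (4 - 1), tk F a * tk F (4 + 2 - a) = tk F 3 ^ 2 := by
      simp [sq]
    rw [a0, hT]
    have a1 : tk F 3 ^ 2 ≤ (2 * (d : ℝ) ^ 2 * N₀) ^ 2 := by
      rw [← sq_abs]; exact pow_le_pow_left₀ (abs_nonneg _) h3 2
    have hd1 : (1 : ℝ) ≤ d := by
      have := ctx.big.hd
      exact_mod_cast (by omega : 1 ≤ d)
    have a2 : (d : ℝ) ^ 4 ≤ (d : ℝ) ^ 10 := pow_le_pow_right₀ hd1 (by norm_num)
    have a3 : 16 * (d : ℝ) ^ 4 ≤ Λ ^ 7 := by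
      have b1 := ctx.big.hΛ
      have b2 : Λ ≤ Λ ^ 7 := by
        calc Λ = Λ ^ 1 := (pow_one _).symm
          _ ≤ Λ ^ 7 := pow_le_pow_right₀ h1 (by norm_num)
      have b3 : 0 ≤ (d : ℝ) ^ 10 := by positivity
      nlinarith
    have a4 : E.N * (E.N * Λ ^ 8 * y ^ 2) / Λ = Λ ^ 7 * N₀ ^ 2 := by rw [hN₀]; field_simp
    rw [a4]
    have a5 : 16 * (d : ℝ) ^ 4 * N₀ ^ 2 ≤ Λ ^ 7 * N₀ ^ 2 :=
      mul_le_mul_of_nonneg_right a3 (by positivity)
    have a6 : (2 * (d : ℝ) ^ 2 * N₀) ^ 2 = 4 * (d : ℝ) ^ 4 * N₀ ^ 2 := by ring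
    push_cast
    nlinarith
  have hA : E.N * (Λ ^ 4 * y) ^ (4 - 3) ≤ T41 Λ N₀ E.N / Λ ^ 4 := by
    have a1 : T41 Λ N₀ E.N / Λ ^ 4 = E.N * (Λ ^ 4 * y) * y := by rw [hT]; field_simp
    rw [a1]
    have a2 : 0 < E.N * (Λ ^ 4 * y) := by positivity
    simp only [Nat.reduceSub, pow_one]
    nlinarith
  have hB : tk F 4 / (Λ ^ 4 * y) ≤ T41 Λ N₀ E.N / Λ ^ 4 := by
    have a1 : Λ ^ 4 ≤ Λ ^ 4 * y := by nlinarith
    exact div_le_div₀ hT0.le h4 (by positivity) a1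
  have hdr := core (kk := ((4 : ℕ) : ℝ)) hΛ hN hNT h40 h4 (by norm_num) (by norm_num)
    (hq.trans hSQ) hsum heta ctx.hz hKu hA hB
  have hP := (hPot ι E Λ ctx.ok (le_trans (by norm_num) hΛ) hΛN hZ).1 (tk F 4) (T41 Λ N₀ E.N)
    (T41 Λ N₀ (E.N - 2)) 0 (fun i j => tk (step F i j) 4) h40 h4 hT0
    (by rw [abs_zero]; positivity) (rate h0 hN hT0 hTT) (hM.trans hdr)
  exact hP

theorem O1_1_proof (hS : SM1Stmt) (_hAvg : AvgStmt) (hPot : PotStmt) (hCr : CrossStmt) :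
    O1Stmt 1 := by
  intro ι _ _ d p L Λ N₀ τ E F F' ε ctx
  obtain ⟨hΛ, hy1, -, hNlo, hZ, heta, -, -, -, -, -, hKu, -, hSQ, -, -, -, -, h40, h4, hk0, hk, -,
    -, -, -, hq, -, hQ, hK, -⟩ := hS ι d p L Λ N₀ τ E F F' ε ctx
  obtain ⟨k4, kev, k5⟩ := KK_facts
  have hMom : MomAt KK L Λ := ctx.big.all.2.2.2.2.2.1
  have hTdef : ∀ M : ℝ, TK1 Λ N₀ M = M * (Λ ^ 8 * (N₀ / M)) ^ (KK - 2) := fun _ => rfl
  have goal : ∀ T' : ℝ, T' = TK1 Λ N₀ (E.N - 2) →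
      E.av (fun i j => tk (step F i j) KK / T') ≤
        E.Z * (tk F KK / TK1 Λ N₀ E.N + 30 / (Λ * E.N)) := by
    intro T' hT'
    rw [hTdef] at hT'
    rw [hTdef] at hk ⊢
    generalize KK = k at *
    have h1 : (1 : ℝ) ≤ Λ := le_trans (by norm_num) hΛ
    have h0 : (0 : ℝ) < Λ := lt_of_lt_of_le one_pos h1
    have hΛN : Λ ^ 2 ≤ E.N := (pow_le_pow_right₀ h1 (by norm_num)).trans hNlo
    have hN2 : 0 < E.N - 2 := by
      have := ctx.lo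
      have : 0 < Λ ^ 23906 := by positivity
      linarith
    have hN : 0 < E.N := by linarith
    have hT4 : T41 Λ N₀ E.N = E.N * Λ ^ 8 * (N₀ / E.N) ^ 2 := rfl
    rw [hT4] at h4
    set y : ℝ := N₀ / E.N with hy
    have hy0 : 0 < y := lt_of_lt_of_le one_pos hy1
    have hN₀ : N₀ = y * E.N := by rw [hy]; field_simp
    have hN₀0 : 0 < N₀ := by rw [hN₀]; positivity
    set v : ℝ := Λ ^ 8 * y with hvdef
    have hΛ4 : 1 ≤ Λ ^ 4 := one_le_pow₀ h1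
    have hΛ8 : 1 ≤ Λ ^ 8 := one_le_pow₀ h1
    have hv : 1 ≤ v := by rw [hvdef]; nlinarith
    have hv0 : 0 < v := lt_of_lt_of_le one_pos hv
    have hv4 : Λ ^ 4 ≤ v := by
      have a1 : Λ ^ 4 ≤ Λ ^ 8 := pow_le_pow_right₀ h1 (by norm_num)
      rw [hvdef]; nlinarith
    have hk2 : k - 2 = (k - 3) + 1 := by omega
    set T : ℝ := E.N * v ^ (k - 2) with hT
    have hT0 : 0 < T := by rw [hT]; positivity
    have hTv : E.N * v ^ (k - 3) = T / v := by rw [hT, hk2, pow_succ]; field_simp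
    have hTT : T ≤ T' := by
      have a0 : y ≤ N₀ / (E.N - 2) := div_le_div_of_nonneg_left hN₀0.le hN2 (by linarith)
      have a1 : v ≤ Λ ^ 8 * (N₀ / (E.N - 2)) := mul_le_mul_of_nonneg_left a0 (by positivity)
      have a2 : v ^ (k - 3) ≤ (Λ ^ 8 * (N₀ / (E.N - 2))) ^ (k - 3) :=
        pow_le_pow_left₀ hv0.le a1 _
      have a3 : T = Λ ^ 8 * N₀ * v ^ (k - 3) := by
        have b1 : Λ ^ 8 * N₀ = E.N * v := by rw [hvdef, hN₀]; ring
        rw [hT, hk2, pow_succ, b1]; ring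
      have a4 : T' = Λ ^ 8 * N₀ * (Λ ^ 8 * (N₀ / (E.N - 2))) ^ (k - 3) := by
        rw [hT', hk2, pow_succ]; field_simp
      rw [a3, a4]
      exact mul_le_mul_of_nonneg_left a2 (by positivity)
    have hK0 : 0 ≤ K11 Λ N₀ E.N := by unfold K11; positivity
    have hM := hMom ι E F ε (K11 Λ N₀ E.N) v ctx.hL ctx.ok ctx.sF hv hK0 hK
    have hNT : E.N ≤ T := by
      rw [hT]
      have a1 : 1 ≤ v ^ (k - 2) := one_le_pow₀ hv
      nlinarith
    have hB0 : tk F k / v ≤ T / v := div_le_div_of_nonneg_right hk hv0.le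
    have hTv4 : T / v ≤ T / Λ ^ 4 := div_le_div_of_nonneg_left hT0.le (by positivity) hv4
    have hQ0 : 0 ≤ tk F 2 := by
      have a1 := hq.trans hSQ
      have a2 : E.N / Λ ^ 38 ≤ E.N := div_le_self hN.le (one_le_pow₀ h1)
      have a3 := neg_abs_le (tk F 2 - E.N)
      linarith
    have hsum : (k : ℝ) * ∑ a ∈ Icc 3 (k - 1), tk F a * tk F (k + 2 - a) ≤ E.N * T / Λ := by
      have a1 : √(tk F 2 * tk F 4) ≤ 2 * E.N * (Λ ^ 4 * y) := by
        apply Real.sqrt_le_iff.mpr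
        refine ⟨by positivity, ?_⟩
        have b1 : tk F 2 * tk F 4 ≤ (101 / 100 * E.N) * (E.N * Λ ^ 8 * y ^ 2) :=
          mul_le_mul hQ h4 h40 (by positivity)
        have b2 : 0 ≤ E.N * (E.N * Λ ^ 8 * y ^ 2) := by positivity
        have b3 : (2 * E.N * (Λ ^ 4 * y)) ^ 2 = 4 * (E.N * (E.N * Λ ^ 8 * y ^ 2)) := by ring
        rw [b3]; linarith
      have a2 : v ^ (k - 3) * tk F 2 + tk F k / v ≤ 3 * (T / v) := by
        have b1 : v ^ (k - 3) * tk F 2 ≤ v ^ (k - 3) * (2 * E.N) :=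
          mul_le_mul_of_nonneg_left (by linarith) (by positivity)
        have b2 : v ^ (k - 3) * (2 * E.N) = 2 * (T / v) := by rw [← hTv]; ring
        linarith
      have a2' : 0 ≤ v ^ (k - 3) * tk F 2 + tk F k / v := by positivity
      have a3 : ∀ a ∈ Icc 3 (k - 1), tk F a * tk F (k + 2 - a) ≤ 6 * (E.N * T / Λ ^ 4) := by
        intro a ha
        rw [Finset.mem_Icc] at ha
        have b1 := hCr ι F k a v ctx.sF.sy kev ha.1 (by omega) hv0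
        calc tk F a * tk F (k + 2 - a) ≤ |tk F a * tk F (k + 2 - a)| := le_abs_self _
          _ ≤ √(tk F 2 * tk F 4) * (v ^ (k - 3) * tk F 2 + tk F k / v) := b1
          _ ≤ (2 * E.N * (Λ ^ 4 * y)) * (3 * (T / v)) := mul_le_mul a1 a2 a2' (by positivity)
          _ = 6 * (E.N * T / Λ ^ 4) := by rw [hvdef]; field_simp; ring
      have a4 := Finset.sum_le_card_nsmul _ _ _ a3
      rw [nsmul_eq_mul, Nat.card_Icc] at a4
      have a5 : ((k - 1 + 1 - 3 : ℕ) : ℝ) ≤ 10 ^ 5 :=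
        le_trans (by exact_mod_cast (by omega : k - 1 + 1 - 3 ≤ k)) k5
      have a6 : 0 ≤ 6 * (E.N * T / Λ ^ 4) := by positivity
      have a7 : ∑ a ∈ Icc 3 (k - 1), tk F a * tk F (k + 2 - a) ≤
          10 ^ 5 * (6 * (E.N * T / Λ ^ 4)) := a4.trans (mul_le_mul_of_nonneg_right a5 a6)
      have a8 : E.N * T / Λ ^ 4 ≤ E.N * T / Λ ^ 2 :=
        div_le_div_of_nonneg_left (by positivity) (by positivity)
          (pow_le_pow_right₀ h1 (by norm_num))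
      have a9 : E.N * T / Λ = Λ * (E.N * T / Λ ^ 2) := by field_simp
      have a10 : 0 ≤ E.N * T / Λ ^ 2 := by positivity
      calc (k : ℝ) * ∑ a ∈ Icc 3 (k - 1), tk F a * tk F (k + 2 - a)
          ≤ k * (10 ^ 5 * (6 * (E.N * T / Λ ^ 4))) :=
            mul_le_mul_of_nonneg_left a7 (Nat.cast_nonneg _)
        _ ≤ 10 ^ 5 * (10 ^ 5 * (6 * (E.N * T / Λ ^ 4))) :=
            mul_le_mul_of_nonneg_right k5 (by positivity)
        _ ≤ 10 ^ 20 * (E.N * T / Λ ^ 2) := by nlinarith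
        _ ≤ Λ * (E.N * T / Λ ^ 2) := mul_le_mul_of_nonneg_right hΛ a10
        _ = E.N * T / Λ := a9.symm
    have hdr := core (kk := (k : ℝ)) hΛ hN hNT hk0 hk (Nat.cast_nonneg _) k5
      (hq.trans hSQ) hsum heta ctx.hz hKu (hTv.le.trans hTv4) (hB0.trans hTv4)
    exact (hPot ι E Λ ctx.ok (le_trans (by norm_num) hΛ) hΛN hZ).1 (tk F k) T
      T' 0 (fun i j => tk (step F i j) k) hk0 hk hT0
      (by rw [abs_zero]; positivity) (rate h0 hN hT0 hTT) (hM.trans hdr)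
  exact goal _ rfl

end Crest.Agent.R62
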