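import Crest.Agent.R62.DefsB

/-! Row 62: phase 1 observables `2` (third moment), `5` and `6` (trace). -/

set_option autoImplicit false
set_option linter.unusedSectionVars false

namespace Crest.Agent.R62

open Matrix Finset

namespace O1B

theorem one_le {Λ : ℝ} (h : 10 ^ 20 ≤ Λ) : 1 ≤ Λ := le_trans (by norm_num) h

theorem pw {Λ : ℝ} (h : 10 ^ 20 ≤ Λ) {a b : ℕ} (hab : a ≤ b) : Λ ^ a ≤ Λ ^ b :=
  pow_le_pow_right₀ (one_le h) hab

theorem pw1 {Λ : ℝ} (h : 10 ^ 20 ≤ Λ) (a : ℕ) : 1 ≤ Λ ^ a := one_le_pow₀ (one_le h)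

theorem pw0 {Λ : ℝ} (h : 10 ^ 20 ≤ Λ) (a : ℕ) : 0 < Λ ^ a := lt_of_lt_of_le one_pos (pw1 h a)

theorem pwk {Λ : ℝ} (h : 10 ^ 20 ≤ Λ) {a b : ℕ} (hab : a < b) : 1000 * Λ ^ a ≤ Λ ^ b := by
  have h1 : Λ ^ (a + 1) ≤ Λ ^ b := pw h hab
  have h2 : (1000 : ℝ) ≤ Λ := le_trans (by norm_num) h
  have h3 := pw0 h a
  rw [pow_succ] at h1
  nlinarith

/-- The error term of T1 in phase 1. -/
theorem err1 {Λ y th u D Tf s : ℝ} (hΛ : 10 ^ 20 ≤ Λ) (hy1 : 1 ≤ y) (hy2 : y ≤ Λ ^ 8002)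
    (hth : th = y / Λ ^ 160) (hu : u = Λ ^ 9 * y) (hD : D = Λ * (Λ ^ 1320 + th ^ 2))
    (hT : Tf = Λ ^ 8 + y ^ 3 / Λ ^ 16191) (_hs0 : 0 ≤ s) (hs1 : s ≤ 1)
    (hus : u * s ≤ 1 / Λ ^ 34) :
    (th * u + D) * s + Tf + D + u ≤ 8 * (y * Λ ^ 7683) := by
  have hy0 : 0 ≤ y := by linarith
  have hΛ1 := one_le hΛ
  have hA := pw1 hΛ 7683
  have hyA : y ≤ y * Λ ^ 7683 := le_mul_of_one_le_right hy0 hA
  have hAy : Λ ^ 7683 ≤ y * Λ ^ 7683 := le_mul_of_one_le_left (by linarith) hy1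
  have th0 : 0 ≤ th := by rw [hth]; have := pw0 hΛ 160; positivity
  have thy : th ≤ y := by rw [hth]; exact div_le_self hy0 (pw1 hΛ 160)
  have us1 : u * s ≤ 1 := hus.trans (div_le_self zero_le_one (pw1 hΛ 34))
  have h1 : th * u * s ≤ y * Λ ^ 7683 := by
    have : th * (u * s) ≤ th * 1 := mul_le_mul_of_nonneg_left us1 th0
    rw [mul_assoc]; linarith
  have h2a : Λ * Λ ^ 1320 ≤ Λ ^ 7683 := by
    rw [← pow_succ']; exact pw hΛ (by norm_num)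
  have h2b : Λ * th ^ 2 ≤ y * Λ ^ 7683 := by
    have e : Λ * th ^ 2 = y * (y * Λ / Λ ^ 320) := by
      rw [hth, div_pow, ← pow_mul]
      have := pw0 hΛ 320
      field_simp
    rw [e]
    refine mul_le_mul_of_nonneg_left ?_ hy0
    rw [div_le_iff₀ (pw0 hΛ 320), ← pow_add]
    calc y * Λ ≤ Λ ^ 8002 * Λ := mul_le_mul_of_nonneg_right hy2 (by linarith)
      _ = Λ ^ (7683 + 320) := by rw [← pow_succ]
  have h2 : D ≤ 2 * (y * Λ ^ 7683) := by rw [hD, mul_add]; linarith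
  have D0 : 0 ≤ D := by rw [hD]; have := pw0 hΛ 1320; positivity
  have h3 : D * s ≤ D := mul_le_of_le_one_right D0 hs1
  have h4a : Λ ^ 8 ≤ Λ ^ 7683 := pw hΛ (by norm_num)
  have h4b : y ^ 3 / Λ ^ 16191 ≤ y := by
    rw [div_le_iff₀ (pw0 hΛ 16191)]
    have : y ^ 2 ≤ Λ ^ 16191 := by
      calc y ^ 2 ≤ (Λ ^ 8002) ^ 2 := pow_le_pow_left₀ hy0 hy2 2
        _ = Λ ^ 16004 := by rw [← pow_mul]
        _ ≤ Λ ^ 16191 := pw hΛ (by norm_num)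
    calc y ^ 3 = y * y ^ 2 := by ring
      _ ≤ y * Λ ^ 16191 := mul_le_mul_of_nonneg_left this hy0
  have h4 : Tf ≤ 2 * (y * Λ ^ 7683) := by rw [hT]; linarith
  have h5 : u ≤ y * Λ ^ 7683 := by
    rw [hu, mul_comm]
    exact mul_le_mul_of_nonneg_left (pw hΛ (by norm_num)) hy0
  rw [add_mul]
  linarith

/-- The second moment bound of T1. -/
theorem sec1 {Λ y N u Tf : ℝ} {k : ℕ} (hΛ : 10 ^ 20 ≤ Λ) (hN : 0 ≤ N)
    (hu : u = Λ ^ 9 * y) (hT : Tf ≤ u ^ 2) (hk : 11 ≤ k) :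
    Λ * N * (Tf + u ^ 2) ≤ N * (y * Λ ^ k) ^ 2 / Λ := by
  have hΛ1 := one_le hΛ
  rw [le_div_iff₀ (by linarith)]
  have h1 : 1000 * Λ ^ 20 ≤ Λ ^ (k * 2) := pwk hΛ (by omega)
  have h20 := pw0 hΛ 20
  have h2 : Λ * (Tf + u ^ 2) * Λ ≤ (y * Λ ^ k) ^ 2 := by
    calc Λ * (Tf + u ^ 2) * Λ ≤ Λ * (2 * u ^ 2) * Λ := by gcongr; linarith
      _ = y ^ 2 * (2 * Λ ^ 20) := by rw [hu]; ring
      _ ≤ y ^ 2 * Λ ^ (k * 2) := mul_le_mul_of_nonneg_left (by linarith) (sq_nonneg y)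
      _ = (y * Λ ^ k) ^ 2 := by rw [mul_pow, pow_mul]
  calc Λ * N * (Tf + u ^ 2) * Λ = N * (Λ * (Tf + u ^ 2) * Λ) := by ring
    _ ≤ N * (y * Λ ^ k) ^ 2 := mul_le_mul_of_nonneg_left h2 hN

/-- `2 t (Q - N)` is small. -/
theorem main1 {Λ N s t q : ℝ} (hΛ : 10 ^ 20 ≤ Λ) (hN : 0 ≤ N) (ht : |t| ≤ s)
    (hq : |q| ≤ N / Λ ^ 38) : |2 * t * q| ≤ N * s / Λ / 4 := by
  have hΛ1 := one_le hΛ
  have s0 : 0 ≤ s := (abs_nonneg t).trans ht
  have h1 : 1000 * Λ ^ 1 ≤ Λ ^ 38 := pwk hΛ (by norm_num)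
  rw [pow_one] at h1
  have h2 : N / Λ ^ 38 ≤ N / (1000 * Λ) := div_le_div_of_nonneg_left hN (by linarith) h1
  have h3 : |2 * t * q| ≤ 2 * s * (N / (1000 * Λ)) := by
    rw [abs_mul, abs_mul, abs_two]
    exact mul_le_mul (by linarith) (hq.trans h2) (abs_nonneg q) (by linarith)
  have h4 : 2 * s * (N / (1000 * Λ)) = N * s / Λ / 500 := by field_simp; ring
  have h5 : 0 ≤ N * s / Λ := by positivity
  linarith

theorem tgt {Λ N y : ℝ} {a k : ℕ} (hΛ : 10 ^ 20 ≤ Λ) (hN : 0 ≤ N) (hy : 0 ≤ y) (hk : a + 1 < k) :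
    1000 * (N * (y * Λ ^ a)) ≤ N * (y * Λ ^ k) / Λ := by
  have hΛ1 := one_le hΛ
  rw [le_div_iff₀ (by linarith)]
  have h1 : 1000 * Λ ^ (a + 1) ≤ Λ ^ k := pwk hΛ hk
  calc 1000 * (N * (y * Λ ^ a)) * Λ = N * (y * (1000 * Λ ^ (a + 1))) := by ring
    _ ≤ N * (y * Λ ^ k) := by gcongr

theorem mono {Λ N N₀ : ℝ} (k : ℕ) (hΛ : 10 ^ 20 ≤ Λ) (hN : 2 < N) (h0 : N ≤ N₀) :
    N₀ / N * Λ ^ k ≤ N₀ / (N - 2) * Λ ^ k :=
  mul_le_mul_of_nonneg_right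
    (div_le_div_of_nonneg_left (by linarith) (by linarith) (by linarith)) (pw0 hΛ k).le

section
variable {ι : Type} [Fintype ι] [DecidableEq ι] (E : Env ι)

theorem av_mul (k : ℝ) (X : ι → ι → ℝ) : E.av (fun i j => k * X i j) = k * E.av X := by
  simp only [Env.av, mul_sum]
  exact sum_congr rfl fun i _ => sum_congr rfl fun j _ => by ring

theorem av_const (k : ℝ) : E.av (fun _ _ => k) = k * E.Z := by
  rw [Env.Z, ← av_mul]; simp

end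

end O1B

open O1B

theorem O1_2_proof (hS : SM1Stmt) (hAvg : AvgStmt) (hPot : PotStmt) : O1Stmt 2 := by
  intro ι _ _ d p L Λ N₀ τ E F F' ε ctx
  obtain ⟨hΛ, hy1, hy2, hN, hZ, he1, he2, -, -, -, -, -, -, hSQ, -, -, -, -, -, -, -, -,
    h3, -, h3', -, hQ, -⟩ := hS ι d p L Λ N₀ τ E F F' ε ctx
  have hΛ1 := one_le hΛ
  have hΛ0 : 0 < Λ := by linarith
  have hN1 : 1 ≤ E.N := (pw1 hΛ _).trans hN
  have hN0 : 0 < E.N := by linarith
  have hN₀ : 0 < N₀ := lt_of_lt_of_le hN0 ctx.hi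
  obtain ⟨-, -, -, hT3, -⟩ := ctx.big.all
  obtain ⟨hm, hpt⟩ := hT3 ι E F ε ctx.hL ctx.ok ctx.sF
  obtain ⟨-, -, -, -, -, -, -, -, -, -, -, hmono, -⟩ := hAvg ι E ctx.ok
  obtain ⟨-, -, hP3, -⟩ := hPot ι E Λ ctx.ok (le_trans (by norm_num) hΛ)
    ((pw hΛ (by norm_num)).trans hN) hZ
  set y := N₀ / E.N with hy
  have hyN : N₀ = y * E.N := by rw [hy]; field_simp
  have hu : E.u = Λ ^ 9 * y := ctx.hu
  have hy0 : 0 ≤ y := by linarith
  have e : (fun i j => (tk (step F i j) 3 - ε * τ) - (tk F 3 - ε * τ)) =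
      fun i j => tk (step F i j) 3 - tk F 3 := by
    funext i j; ring
  have e2 : (fun i j => ((tk (step F i j) 3 - ε * τ) - (tk F 3 - ε * τ)) ^ 2) =
      fun i j => (tk (step F i j) 3 - tk F 3) ^ 2 := by
    funext i j; ring
  refine hP3 (tk F 3 - ε * τ) (N₀ / 4) (N₀ / 4) (fun i j => tk (step F i j) 3 - ε * τ) h3
    (by linarith) le_rfl ?_ ?_
  · rw [e]
    -- main term
    have hd : (d : ℝ) ^ 2 ≤ Λ := by
      have h3d : (3 : ℝ) ≤ d := by exact_mod_cast ctx.big.hd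
      have : (d : ℝ) ^ 2 ≤ (d : ℝ) ^ 10 := pow_le_pow_right₀ (by linarith) (by norm_num)
      have h10 : (0 : ℝ) ≤ (d : ℝ) ^ 10 := by positivity
      have := ctx.big.hΛ
      nlinarith
    have hA : |6 * (tk F 2 - E.N) * tk F 3| ≤ E.N * N₀ / Λ / 10 := by
      have h1 : 1000 * Λ ^ 2 ≤ Λ ^ 38 := pwk hΛ (by norm_num)
      have h2 : E.N / Λ ^ 38 ≤ E.N / (1000 * Λ ^ 2) :=
        div_le_div_of_nonneg_left hN0.le (by positivity) h1
      have h4 : |tk F 3| ≤ 2 * Λ * N₀ := h3'.trans (by gcongr)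
      have h5 : |6 * (tk F 2 - E.N) * tk F 3| ≤ 6 * (E.N / (1000 * Λ ^ 2)) * (2 * Λ * N₀) := by
        rw [abs_mul, abs_mul, abs_of_pos (by norm_num : (0 : ℝ) < 6)]
        have := (hQ.trans hSQ).trans h2
        exact mul_le_mul (by linarith) h4 (abs_nonneg _) (by positivity)
      have h6 : 6 * (E.N / (1000 * Λ ^ 2)) * (2 * Λ * N₀) = E.N * N₀ / Λ * (12 / 1000) := by
        field_simp; ring
      have h7 : 0 ≤ E.N * N₀ / Λ := by positivity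
      linarith
    have hB : Λ * (E.eta + E.eta2 + E.z) * E.u * E.N ^ 2 ≤ E.N * N₀ / Λ / 10 := by
      have h1 : 1 / Λ ^ 41 ≤ 1 / Λ ^ 34 :=
        one_div_le_one_div_of_le (pw0 hΛ _) (pw hΛ (by norm_num))
      have h2 : E.z ≤ 1 / Λ ^ 34 := by
        rw [ctx.hz]; exact one_div_le_one_div_of_le (pw0 hΛ _) (pw hΛ (by norm_num))
      have h4 : 1000 * Λ ^ 11 ≤ Λ ^ 34 := pwk hΛ (by norm_num)
      have h5 : 1 / Λ ^ 34 ≤ 1 / (1000 * Λ ^ 11) := one_div_le_one_div_of_le (by positivity) h4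
      have h6 : E.eta + E.eta2 + E.z ≤ 3 * (1 / (1000 * Λ ^ 11)) := by linarith
      have h7 : Λ * (E.eta + E.eta2 + E.z) * E.u * E.N ^ 2 ≤
          Λ * (3 * (1 / (1000 * Λ ^ 11))) * E.u * E.N ^ 2 := by
        have : 0 ≤ E.u := by rw [hu]; positivity
        gcongr
      have h8 : Λ * (3 * (1 / (1000 * Λ ^ 11))) * E.u * E.N ^ 2 = E.N * N₀ / Λ * (3 / 1000) := by
        rw [hu, hyN]; field_simp
      have h9 : 0 ≤ E.N * N₀ / Λ := by positivity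
      linarith
    have hC : E.N * (N₀ / 4) / Λ = E.N * N₀ / Λ / 4 := by ring
    have h9 : 0 ≤ E.N * N₀ / Λ := by positivity
    rw [hC]
    have := abs_le.mp hm
    have := abs_le.mp hA
    rw [abs_le]
    constructor <;> linarith
  · rw [e2]
    have h1 : E.av (fun i j => (tk (step F i j) 3 - tk F 3) ^ 2) ≤
        E.av (fun _ _ => (Λ * E.u ^ 2) ^ 2) :=
      hmono _ _ fun i j hp => by
        have := hpt i j hp
        exact sq_le_sq' (abs_le.mp this).1 (abs_le.mp this).2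
    rw [av_const] at h1
    have hZ2 : E.Z ≤ 2 * E.N ^ 2 := by
      have : E.N ^ 2 / Λ ^ 2 ≤ E.N ^ 2 := div_le_self (sq_nonneg _) (pw1 hΛ 2)
      have := (abs_le.mp hZ).2
      linarith
    have h2 : 32 * (Λ ^ 39 * y ^ 2) ≤ E.N := by
      have h3 : y ^ 2 ≤ Λ ^ 16004 := by
        calc y ^ 2 ≤ (Λ ^ 8002) ^ 2 := pow_le_pow_left₀ hy0 hy2 2
          _ = Λ ^ 16004 := by rw [← pow_mul]
      have h4 : Λ ^ 39 * y ^ 2 ≤ Λ ^ (39 + 16004) := by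
        rw [pow_add]; exact mul_le_mul_of_nonneg_left h3 (pw0 hΛ 39).le
      have h5 : 1000 * Λ ^ (39 + 16004) ≤ Λ ^ 23906 := pwk hΛ (by norm_num)
      have h6 := pw0 hΛ (39 + 16004)
      linarith
    refine h1.trans ?_
    rw [le_div_iff₀ hΛ0]
    calc (Λ * E.u ^ 2) ^ 2 * E.Z * Λ ≤ (Λ * E.u ^ 2) ^ 2 * (2 * E.N ^ 2) * Λ := by gcongr
      _ = 32 * (Λ ^ 39 * y ^ 2) * (y * E.N / 4) ^ 2 := by rw [hu]; ring
      _ ≤ E.N * (y * E.N / 4) ^ 2 := mul_le_mul_of_nonneg_right h2 (sq_nonneg _)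
      _ = E.N * (N₀ / 4) ^ 2 := by rw [← hyN]

theorem O1_5_proof (hS : SM1Stmt) (_hAvg : AvgStmt) (hPot : PotStmt) : O1Stmt 5 := by
  intro ι _ _ d p L Λ N₀ τ E F F' ε ctx
  obtain ⟨hΛ, hy1, hy2, hN, hZ, -, he2, -, -, -, -, -, -, hSQ, -, hTu, -, -, -, -, -, -,
    -, h3, -, -, hQ, -, hQ1, hK, -, -, -, -, -, -, hX0, hX, -⟩ :=
    hS ι d p L Λ N₀ τ E F F' ε ctx
  have hΛ1 := one_le hΛ
  have hΛ0 : 0 < Λ := by linarith
  have hN1 : 1 ≤ E.N := (pw1 hΛ _).trans hN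
  have hN0 : 0 < E.N := by linarith
  have hN2 : 2 < E.N := by have := ctx.lo; have := pw1 hΛ 23906; linarith
  have hN₀ : 0 < N₀ := lt_of_lt_of_le hN0 ctx.hi
  obtain ⟨hT1, -⟩ := ctx.big.all
  obtain ⟨hm, hsec⟩ := hT1 ι E F ε ctx.hL ctx.ok ctx.sF
  obtain ⟨-, hP2, -⟩ := hPot ι E Λ ctx.ok (le_trans (by norm_num) hΛ)
    ((pw hΛ (by norm_num)).trans hN) hZ
  have hmn : K11 Λ N₀ E.N ≤ K11 Λ N₀ (E.N - 2) := mono 7691 hΛ hN2 ctx.hi
  set y := N₀ / E.N with hy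
  have hu : E.u = Λ ^ 9 * y := ctx.hu
  have hth : E.th = y / Λ ^ 160 := ctx.hth
  have hKy : K11 Λ N₀ E.N = y * Λ ^ 7691 := rfl
  have hy0 : 0 ≤ y := by linarith
  have hK0 : 0 < K11 Λ N₀ E.N := by rw [hKy]; have := pw0 hΛ 7691; positivity
  have hε : ε = 1 ∨ ε = -1 := ctx.sF.sg
  have e : (fun i j => ε * tk (step F i j) 1 - ε * tk F 1) =
      fun i j => ε * (tk (step F i j) 1 - tk F 1) := by
    funext i j; ring
  have e2 : (fun i j => (ε * tk (step F i j) 1 - ε * tk F 1) ^ 2) =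
      fun i j => (tk (step F i j) 1 - tk F 1) ^ 2 := by
    funext i j
    rcases hε with h | h <;> rw [h] <;> ring
  refine hP2 (ε * tk F 1) (K11 Λ N₀ E.N) (K11 Λ N₀ (E.N - 2)) 0
    (fun i j => ε * tk (step F i j) 1) hK hK0 (by rw [abs_zero]; positivity) ?_ ?_ ?_
  · have : 0 ≤ K11 Λ N₀ E.N * (1 / (Λ * E.N)) := by positivity
    rw [zero_div, add_zero, mul_sub, mul_one]
    linarith
  · intro hpos
    rw [e, av_mul, zero_mul, zero_mul, zero_add, hKy]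
    have hA : |2 * (ε * tk F 1) * (tk F 2 - E.N)| ≤ E.N * (y * Λ ^ 7691) / Λ / 4 :=
      main1 hΛ hN0.le (by rw [abs_of_pos hpos, ← hKy]; exact hK) (hQ.trans hSQ)
    have hB : 1000 * (E.N * (y * Λ ^ 0)) ≤ E.N * (y * Λ ^ 7691) / Λ :=
      tgt hΛ hN0.le hy0 (by norm_num)
    have hB' : E.N ≤ E.N * (y * Λ ^ 0) := by
      rw [pow_zero, mul_one]; exact le_mul_of_one_le_right hN0.le hy1
    have hE : (E.th * E.u + E.D) * √(E.Tf / E.N) + E.Tf + E.D + E.u ≤ 8 * (y * Λ ^ 7683) :=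
      err1 hΛ hy1 hy2 hth hu ctx.hD ctx.hT (Real.sqrt_nonneg _)
        (Real.sqrt_le_one.mpr ((div_le_one hN0).mpr ctx.ok.TfN)) he2
    have hE1 : 1000 * (E.N * (y * Λ ^ 7684)) ≤ E.N * (y * Λ ^ 7691) / Λ :=
      tgt hΛ hN0.le hy0 (by norm_num)
    have hE2 : Λ * E.N * ((E.th * E.u + E.D) * √(E.Tf / E.N) + E.Tf + E.D + E.u) ≤
        8 * (E.N * (y * Λ ^ 7684)) := by
      calc _ ≤ Λ * E.N * (8 * (y * Λ ^ 7683)) := mul_le_mul_of_nonneg_left hE (by positivity)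
        _ = 8 * (E.N * (y * (Λ ^ 7683 * Λ))) := by ring
        _ = _ := by rw [← pow_succ]
    have hCt : trace (E.C * F ^ 2) = tk F 3 + trace (F' * F ^ 2) := by
      rw [ctx.hC, add_mul, trace_add, ← pow_succ']; rfl
    have hX1 : √(tk F 2 * Xc F F') ≤ 2 * (E.N * Λ ^ 7848) := by
      have h0 := pw0 hΛ 7848
      refine Real.sqrt_le_iff.mpr ⟨by positivity, ?_⟩
      have h1 : Xc F F' ≤ E.N * (Λ ^ 7848) ^ 2 := by
        calc Xc F F' ≤ Λ ^ 39602 := ctx.xc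
          _ = Λ ^ 23906 * (Λ ^ 7848) ^ 2 := by rw [← pow_mul, ← pow_add]
          _ ≤ E.N * (Λ ^ 7848) ^ 2 := mul_le_mul_of_nonneg_right hN (sq_nonneg _)
      calc tk F 2 * Xc F F' ≤ 101 / 100 * E.N * Xc F F' := mul_le_mul_of_nonneg_right hQ1 hX0
        _ ≤ 4 * E.N * (E.N * (Λ ^ 7848) ^ 2) :=
          mul_le_mul (by linarith) h1 hX0 (by positivity)
        _ = (2 * (E.N * Λ ^ 7848)) ^ 2 := by ring
    have th0 : 0 ≤ E.th := ctx.ok.th0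
    have hC1 : E.th * (2 * (E.N * Λ ^ 7848)) = 2 * (E.N * (y * Λ ^ 7688)) := by
      have h0 := pw0 hΛ 160
      have : Λ ^ 7848 = Λ ^ 7688 * Λ ^ 160 := by rw [← pow_add]
      rw [hth, this]
      generalize Λ ^ 7688 = A
      generalize Λ ^ 160 = B at h0
      field_simp
    have hC2 : 1000 * (E.N * (y * Λ ^ 7688)) ≤ E.N * (y * Λ ^ 7691) / Λ :=
      tgt hΛ hN0.le hy0 (by norm_num)
    have hC3 : -(ε * trace (E.C * F ^ 2)) ≤ 2 * (E.N * Λ ^ 7848) := by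
      rw [hCt, mul_add]
      have h1 : |ε * trace (F' * F ^ 2)| ≤ 2 * (E.N * Λ ^ 7848) := by
        rw [abs_mul]
        have : |ε| = 1 := by rcases hε with h | h <;> rw [h] <;> simp
        rw [this, one_mul]; exact hX.trans hX1
      have := (abs_le.mp h1).1
      linarith
    have hC4 : E.th * -(ε * trace (E.C * F ^ 2)) ≤ 2 * (E.N * (y * Λ ^ 7688)) := by
      rw [← hC1]; exact mul_le_mul_of_nonneg_left hC3 th0
    have hA' := (abs_le.mp hA).2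
    have hm' := abs_le.mp hm
    have hpos1 : 0 ≤ E.N * (y * Λ ^ 7691) / Λ := by have := pw0 hΛ 7691; positivity
    generalize E.N * (y * Λ ^ 7691) / Λ = T at *
    generalize E.N * (y * Λ ^ 7688) = T1 at *
    generalize E.N * (y * Λ ^ 7684) = T2 at *
    generalize E.N * (y * Λ ^ 0) = T3 at *
    rcases hε with h | h <;> rw [h] at hA' hC4 ⊢ <;> linarith
  · rw [e2, hKy]
    exact hsec.trans (sec1 hΛ hN0.le hu hTu (by norm_num))

theorem O1_6_proof (hS : SM1Stmt) (_hAvg : AvgStmt) (hPot : PotStmt) : O1Stmt 6 := by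
  intro ι _ _ d p L Λ N₀ τ E F F' ε ctx
  obtain ⟨hΛ, hy1, hy2, hN, hZ, -, he2, -, -, -, -, -, -, hSQ, -, hTu, -, -, -, -, -, -,
    -, -, -, -, hQ, -, hQ1, -, hK, -, -, -, -, -, -, -, -, -, hC, -⟩ :=
    hS ι d p L Λ N₀ τ E F F' ε ctx
  have hΛ1 := one_le hΛ
  have hΛ0 : 0 < Λ := by linarith
  have hN1 : 1 ≤ E.N := (pw1 hΛ _).trans hN
  have hN0 : 0 < E.N := by linarith
  have hN2 : 2 < E.N := by have := ctx.lo; have := pw1 hΛ 23906; linarith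
  have hN₀ : 0 < N₀ := lt_of_lt_of_le hN0 ctx.hi
  obtain ⟨hT1, -⟩ := ctx.big.all
  obtain ⟨hm, hsec⟩ := hT1 ι E F ε ctx.hL ctx.ok ctx.sF
  obtain ⟨-, -, hP3, -⟩ := hPot ι E Λ ctx.ok (le_trans (by norm_num) hΛ)
    ((pw hΛ (by norm_num)).trans hN) hZ
  have hmn : S11 Λ N₀ E.N ≤ S11 Λ N₀ (E.N - 2) := mono 7855 hΛ hN2 ctx.hi
  set y := N₀ / E.N with hy
  have hu : E.u = Λ ^ 9 * y := ctx.hu
  have hth : E.th = y / Λ ^ 160 := ctx.hth
  have hKy : S11 Λ N₀ E.N = y * Λ ^ 7855 := rfl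
  have hy0 : 0 ≤ y := by linarith
  have hK0 : 0 < S11 Λ N₀ E.N := by rw [hKy]; have := pw0 hΛ 7855; positivity
  refine hP3 (tk F 1) (S11 Λ N₀ E.N) (S11 Λ N₀ (E.N - 2))
    (fun i j => tk (step F i j) 1) hK hK0 hmn ?_ ?_
  · rw [hKy]
    have hA : |2 * tk F 1 * (tk F 2 - E.N)| ≤ E.N * (y * Λ ^ 7855) / Λ / 4 :=
      main1 hΛ hN0.le (by rw [← hKy]; exact hK) (hQ.trans hSQ)
    have hB : 1000 * (E.N * (y * Λ ^ 0)) ≤ E.N * (y * Λ ^ 7855) / Λ :=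
      tgt hΛ hN0.le hy0 (by norm_num)
    have hB' : E.N ≤ E.N * (y * Λ ^ 0) := by
      rw [pow_zero, mul_one]; exact le_mul_of_one_le_right hN0.le hy1
    have hE : (E.th * E.u + E.D) * √(E.Tf / E.N) + E.Tf + E.D + E.u ≤ 8 * (y * Λ ^ 7683) :=
      err1 hΛ hy1 hy2 hth hu ctx.hD ctx.hT (Real.sqrt_nonneg _)
        (Real.sqrt_le_one.mpr ((div_le_one hN0).mpr ctx.ok.TfN)) he2
    have hE1 : 1000 * (E.N * (y * Λ ^ 7684)) ≤ E.N * (y * Λ ^ 7855) / Λ :=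
      tgt hΛ hN0.le hy0 (by norm_num)
    have hE2 : Λ * E.N * ((E.th * E.u + E.D) * √(E.Tf / E.N) + E.Tf + E.D + E.u) ≤
        8 * (E.N * (y * Λ ^ 7684)) := by
      calc _ ≤ Λ * E.N * (8 * (y * Λ ^ 7683)) := mul_le_mul_of_nonneg_left hE (by positivity)
        _ = 8 * (E.N * (y * (Λ ^ 7683 * Λ))) := by ring
        _ = _ := by rw [← pow_succ]
    have th0 : 0 ≤ E.th := ctx.ok.th0
    have u0 : 0 ≤ E.u := by have := ctx.ok.u1; linarith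
    have hC1 : E.th * E.u ≤ y * Λ ^ 7851 := by
      have h0 := pw0 hΛ 160
      have h1 : y * Λ ^ 9 / Λ ^ 160 ≤ Λ ^ 7851 := by
        rw [div_le_iff₀ h0, ← pow_add]
        calc y * Λ ^ 9 ≤ Λ ^ 8002 * Λ ^ 9 := mul_le_mul_of_nonneg_right hy2 (pw0 hΛ 9).le
          _ = _ := by rw [← pow_add]
      calc E.th * E.u = y * (y * Λ ^ 9 / Λ ^ 160) := by rw [hth, hu]; ring
        _ ≤ _ := mul_le_mul_of_nonneg_left h1 hy0
    have hC2 : 1000 * (E.N * (y * Λ ^ 7851)) ≤ E.N * (y * Λ ^ 7855) / Λ :=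
      tgt hΛ hN0.le hy0 (by norm_num)
    have hC3 : |2 * E.th * trace (E.C * F ^ 2)| ≤ 8 * (E.N * (y * Λ ^ 7851)) := by
      rw [abs_mul, abs_of_nonneg (by positivity : 0 ≤ 2 * E.th)]
      calc 2 * E.th * |trace (E.C * F ^ 2)| ≤ 2 * E.th * (2 * E.u * (2 * E.N)) := by
            refine mul_le_mul_of_nonneg_left (hC.trans ?_) (by positivity)
            exact mul_le_mul_of_nonneg_left (by linarith) (by positivity)
        _ = 8 * (E.N * (E.th * E.u)) := by ring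
        _ ≤ _ := by gcongr
    have hA' := abs_le.mp hA
    have hm' := abs_le.mp hm
    have hC' := abs_le.mp hC3
    have hpos1 : 0 ≤ E.N * (y * Λ ^ 7855) / Λ := by have := pw0 hΛ 7855; positivity
    generalize E.N * (y * Λ ^ 7855) / Λ = T at *
    generalize E.N * (y * Λ ^ 7851) = T1 at *
    generalize E.N * (y * Λ ^ 7684) = T2 at *
    generalize E.N * (y * Λ ^ 0) = T3 at *
    rw [abs_le]
    constructor <;> linarith
  · rw [hKy]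
    exact hsec.trans (sec1 hΛ hN0.le hu hTu (by norm_num))

end Crest.Agent.R62
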