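import Crest.Agent.R62.AVG
import Crest.Agent.R62.ALG

/-! Row 62: shared pointwise and summed bounds. -/

set_option autoImplicit false
set_option linter.unusedSectionVars false

namespace Crest.Agent.R62

open Matrix Finset

namespace A26

/-! ### real inequalities -/

theorem amgm (x y t : ℝ) (ht : 0 < t) : |x| * |y| ≤ (t * x ^ 2 + y ^ 2 / t) / 2 := by
  have h : 0 ≤ (t * |x| - |y|) ^ 2 / t := by positivity
  have e : (t * |x| - |y|) ^ 2 / t = t * |x| ^ 2 + |y| ^ 2 / t - 2 * (|x| * |y|) := by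
    field_simp
    ring
  rw [e, sq_abs, sq_abs] at h
  linarith

theorem amgm1 (x y : ℝ) : |x| * |y| ≤ (x ^ 2 + y ^ 2) / 2 := by
  simpa using amgm x y 1 one_pos

theorem abs_mul_le {x y s t : ℝ} (hx : |x| ≤ s) (hy : |y| ≤ t) : |x * y| ≤ s * t := by
  rw [abs_mul]
  exact mul_le_mul hx hy (abs_nonneg _) ((abs_nonneg _).trans hx)

theorem abs_add_le' {x y s t : ℝ} (hx : |x| ≤ s) (hy : |y| ≤ t) : |x + y| ≤ s + t :=
  (abs_add_le _ _).trans (add_le_add hx hy)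

theorem abs_sub_le' {x y s t : ℝ} (hx : |x| ≤ s) (hy : |y| ≤ t) : |x - y| ≤ s + t :=
  (abs_sub _ _).trans (add_le_add hx hy)

theorem delta {a b c : ℝ} (ha : |a| ≤ 1 / 20) (hb : |b| ≤ 1 / 20) (hc : |c| ≤ 1 / 20) :
    9 / 10 ≤ (1 - c) ^ 2 - a * b ∧
    |(1 - c) / ((1 - c) ^ 2 - a * b) - 1| ≤ 2 * (|c| + |a| * |b|) ∧
    |1 / ((1 - c) ^ 2 - a * b) - 1| ≤ 3 * (|c| + |a| * |b|) ∧
    |((1 - c) / ((1 - c) ^ 2 - a * b)) ^ 2 - 1 - 2 * c| ≤ 10 * (c ^ 2 + |a| * |b|) ∧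
    |(1 - c) / ((1 - c) ^ 2 - a * b)| ≤ 2 ∧ |1 / ((1 - c) ^ 2 - a * b)| ≤ 2 := by
  have hab : |a * b| ≤ 1 / 400 := (abs_mul_le ha hb).trans (by norm_num)
  rw [← abs_mul]
  set w := a * b
  obtain ⟨c1, c2⟩ := abs_le.1 hc
  obtain ⟨w1, w2⟩ := abs_le.1 hab
  have hD : 9 / 10 ≤ (1 - c) ^ 2 - w := by nlinarith
  set D := (1 - c) ^ 2 - w with hDdef
  have hD0 : 0 < D := by linarith
  have hi : |1 / D| ≤ 10 / 9 := by
    rw [abs_of_pos (by positivity), div_le_iff₀ hD0]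
    linarith
  have hc0 := abs_nonneg c
  have hw0 := abs_nonneg w
  have h1c : |1 - c| ≤ 21 / 20 := abs_le.2 ⟨by linarith, by linarith⟩
  have h2c : |2 - c| ≤ 41 / 20 := abs_le.2 ⟨by linarith, by linarith⟩
  have e1 : (1 - c) / D - 1 = (c * (1 - c) + w) * (1 / D) := by
    field_simp
    rw [hDdef]
    ring
  have e2 : 1 / D - 1 = (c * (2 - c) + w) * (1 / D) := by
    field_simp
    rw [hDdef]
    ring
  have e3 : (1 - c) / D - 1 - c = (c ^ 2 * (1 - c) + w * (1 + c)) * (1 / D) := by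
    field_simp
    rw [hDdef]
    ring
  have b1 := abs_mul_le (abs_add_le' (abs_mul_le (le_refl |c|) h1c) (le_refl |w|)) hi
  have b2 := abs_mul_le (abs_add_le' (abs_mul_le (le_refl |c|) h2c) (le_refl |w|)) hi
  have h1c' : |1 + c| ≤ 21 / 20 := abs_le.2 ⟨by linarith, by linarith⟩
  have b3 := abs_mul_le (abs_add_le' (abs_mul_le (le_refl |c ^ 2|) h1c)
    (abs_mul_le (le_refl |w|) h1c')) hi
  rw [← e1] at b1
  rw [← e2] at b2
  rw [← e3, abs_of_nonneg (sq_nonneg c)] at b3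
  have hα : |(1 - c) / D| ≤ 7 / 6 := by
    rw [div_eq_mul_one_div]
    exact (abs_mul_le h1c hi).trans (by norm_num)
  refine ⟨hD, by linarith, by linarith, ?_, by linarith, by linarith⟩
  have e4 : ((1 - c) / D) ^ 2 - 1 - 2 * c =
      ((1 - c) / D - 1 - c) * ((1 - c) / D + (1 + c)) + c ^ 2 := by ring
  have b4 := abs_add_le' (abs_mul_le b3 (abs_add_le' hα h1c')) (le_refl |c ^ 2|)
  rw [← e4, abs_of_nonneg (sq_nonneg c)] at b4
  have := sq_nonneg c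
  linarith

theorem pow_ge {L : ℝ} (hL : 2 ≤ L) (k m : ℕ) : 2 ^ k * L ^ m ≤ L ^ (k + m) := by
  rw [pow_add]
  exact mul_le_mul_of_nonneg_right (pow_le_pow_left₀ (by norm_num) hL k) (by positivity)

/-! ### matrix facts -/

variable {ι : Type} [Fintype ι] [DecidableEq ι]

theorem pow_sy {F : Mat ι} (h : Sy F) (k : ℕ) : Sy (F ^ k) := by
  have ht : Fᵀ = F := by
    ext x y
    exact h y x
  intro x y
  have : (F ^ k)ᵀ = F ^ k := by rw [transpose_pow, ht]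
  exact (congrFun (congrFun this y) x)

theorem rr_nonneg (F : Mat ι) (x : ι) : 0 ≤ rr F x := sum_nonneg fun _ _ => sq_nonneg _

theorem sq_le_rr (F : Mat ι) (x y : ι) : F x y ^ 2 ≤ rr F x :=
  single_le_sum (f := fun y => F x y ^ 2) (fun _ _ => sq_nonneg _) (mem_univ y)

theorem rr_pow_succ {F : Mat ι} (h : Sy F) {u : ℝ} (ho : Op F u) (k : ℕ) (x : ι) :
    rr (F ^ (k + 1)) x ≤ u ^ 2 * rr (F ^ k) x := by
  have := ho (fun y => (F ^ k) x y)
  refine le_trans (le_of_eq ?_) this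
  refine sum_congr rfl fun y _ => ?_
  rw [pow_succ F k, Matrix.mul_apply]
  simp only [mulVec, dotProduct]
  congr 1
  exact sum_congr rfl fun w _ => by rw [h w y, mul_comm]

theorem rr_pow {F : Mat ι} (h : Sy F) {u : ℝ} (ho : Op F u) (x : ι) :
    ∀ k : ℕ, rr (F ^ (k + 1)) x ≤ u ^ (2 * k) * rr F x
  | 0 => by simp
  | k + 1 => by
    refine (rr_pow_succ h ho (k + 1) x).trans ?_
    refine (mul_le_mul_of_nonneg_left (rr_pow h ho x k) (sq_nonneg u)).trans (le_of_eq ?_)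
    ring

theorem entry_sq {F : Mat ι} (h : Sy F) (a b : ℕ) (i j : ι) :
    (F ^ (a + b)) i j ^ 2 ≤ rr (F ^ a) i * rr (F ^ b) j := by
  rw [pow_add, Matrix.mul_apply]
  simp only [fun w => pow_sy h b w j]
  exact sum_mul_sq_le_sq_mul_sq _ _ _

/-- `|(F^(k+2)) i j|² ≤ u^(2k) r_i r_j` -/
theorem ent_sq {F : Mat ι} (h : Sy F) {u : ℝ} (ho : Op F u) (k : ℕ) (i j : ι) :
    (F ^ (k + 2)) i j ^ 2 ≤ u ^ (2 * k) * (rr F i * rr F j) := by
  have h1 := entry_sq h (k + 1) 1 i j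
  rw [pow_one] at h1
  refine h1.trans ((mul_le_mul_of_nonneg_right (rr_pow h ho i k) (rr_nonneg F j)).trans
    (le_of_eq (by ring)))

theorem pow_su {U : Finset ι} {F : Mat ι} (h : Bas0 U F) (k : ℕ) (x y : ι) (hx : x ∉ U) :
    (F ^ (k + 1)) x y = 0 := by
  rw [pow_succ', Matrix.mul_apply]
  exact sum_eq_zero fun w _ => by rw [h.su x w hx, zero_mul]

theorem pow_on {U : Finset ι} {F : Mat ι} (h : Bas0 U F) :
    ∀ (k : ℕ) (x : ι), x ∈ U → ∑ y ∈ U, (F ^ k) x y = 1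
  | 0, x, hx => by simp [one_apply, hx]
  | k + 1, x, hx => by
    rw [pow_succ']
    simp only [Matrix.mul_apply]
    rw [sum_comm, ← h.on x hx]
    refine sum_congr rfl fun w _ => ?_
    rw [← mul_sum]
    by_cases hw : w ∈ U
    · rw [pow_on h k w hw, mul_one]
    · rw [h.sy x w, h.su w x hw, zero_mul]

theorem pow_tot {U : Finset ι} {F : Mat ι} (h : Bas0 U F) (k : ℕ) :
    ∑ x ∈ U, ∑ y ∈ U, (F ^ k) x y = U.card := by
  rw [sum_congr rfl fun x hx => pow_on h k x hx]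
  simp

theorem tk_U {U : Finset ι} {F : Mat ι} (h : Bas0 U F) (k : ℕ) :
    ∑ x ∈ U, (F ^ (k + 1)) x x = tk F (k + 1) := by
  unfold tk trace
  exact sum_subset (subset_univ U) fun x _ hx => pow_su h k x x hx

theorem trace_mul_sy (C X : Mat ι) (h : Sy X) : trace (C * X) = ∑ i, ∑ j, C i j * X i j := by
  simp only [trace, Matrix.diag, Matrix.mul_apply]
  exact sum_congr rfl fun i _ => sum_congr rfl fun j _ => by rw [h j i]

theorem sum_U_le {U : Finset ι} {f : ι → ℝ} (h : ∀ x, 0 ≤ f x) : ∑ x ∈ U, f x ≤ ∑ x, f x :=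
  sum_le_sum_of_subset_of_nonneg (subset_univ U) fun x _ _ => h x

/-! ### consequences of `Ok` and `Side` -/

variable {E : Env ι} {F : Mat ι} {ε : ℝ}

theorem L1 (h : E.Ok) : 1 ≤ E.L := by have := h.L2; linarith
theorem N1 (h : E.Ok) : 1 ≤ E.N := by have := h.u1; have := h.uN; nlinarith
theorem z0 (h : E.Ok) : 0 ≤ E.z := h.z0.trans h.zz
theorem z20 (h : E.Ok) : E.z ≤ 1 / 20 := by
  have := h.zL; have := h.L2; have := z0 h; nlinarith
theorem u_le_sqrt (h : E.Ok) : E.u ≤ √E.N := Real.le_sqrt_of_sq_le h.uN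
theorem sqrt1 (h : E.Ok) : 1 ≤ √E.N := h.u1.trans (u_le_sqrt h)
theorem sqrt_sq (h : E.Ok) : √E.N * √E.N = E.N := Real.mul_self_sqrt (by have := N1 h; linarith)

theorem rr_out (hF : Side E F ε) {x : ι} (hx : x ∉ E.U) : rr F x = 0 :=
  sum_eq_zero fun y _ => by rw [hF.su x y hx]; simp

theorem sum_rr (hF : Side E F ε) : ∑ x, rr F x = tk F 2 := (ALG.tk_two F hF.sy).symm

theorem sum_rr_U (hF : Side E F ε) : ∑ x ∈ E.U, rr F x = tk F 2 := by
  rw [← sum_rr hF]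
  exact sum_subset (subset_univ _) fun x _ hx => rr_out hF hx

theorem Q0 (hF : Side E F ε) : 0 ≤ tk F 2 := by
  rw [← sum_rr hF]
  exact sum_nonneg fun x _ => rr_nonneg F x

theorem Q_le (hF : Side E F ε) : tk F 2 ≤ E.L * E.N := by
  rw [← sum_rr_U hF]
  refine (sum_le_sum fun x _ => hF.ro x).trans (le_of_eq ?_)
  simp [Env.N, mul_comm]

theorem rho_le (h : E.Ok) (hF : Side E F ε) (x : ι) : |rr F x - 1| ≤ E.L := by
  have := rr_nonneg F x; have := hF.ro x; have := L1 h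
  rw [abs_le]
  constructor <;> linarith

theorem ent_le (h : E.Ok) (hF : Side E F ε) (k : ℕ) (i j : ι) :
    |(F ^ (k + 2)) i j| ≤ E.u ^ k * E.L := by
  have hu := h.u1; have hL := L1 h
  refine abs_le_of_sq_le_sq' ?_ (by positivity) |> abs_le.2
  refine (ent_sq hF.sy hF.op k i j).trans ?_
  rw [mul_pow, ← pow_mul, mul_comm k 2, sq E.L]
  exact mul_le_mul_of_nonneg_left
    (mul_le_mul (hF.ro i) (hF.ro j) (rr_nonneg _ _) (by linarith)) (by positivity)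

theorem ent_diag (h : E.Ok) (hF : Side E F ε) (k : ℕ) (i : ι) :
    |(F ^ (k + 2)) i i| ≤ E.u ^ k * rr F i := by
  have hu := h.u1; have := rr_nonneg F i
  refine abs_le_of_sq_le_sq' ?_ (by positivity) |> abs_le.2
  refine (ent_sq hF.sy hF.op k i i).trans (le_of_eq ?_)
  ring

theorem g_le (h : E.Ok) (hF : Side E F ε) (i j : ι) : |(F ^ 2) i j| ≤ E.L := by
  simpa using ent_le h hF 0 i j

theorem tk1_U (hF : Side E F ε) : ∑ x ∈ E.U, F x x = tk F 1 := by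
  simpa using tk_U hF.toBas0 0

/-- pointwise facts on the support of `p` -/
theorem pt (h : E.Ok) (hF : Side E F ε) {i j : ι} (hp : E.p i j ≠ 0) :
    |F i i| ≤ 1 / 20 ∧ |F j j| ≤ 1 / 20 ∧ |F i j| ≤ 1 / 20 ∧ Dl F i j ≠ 0 ∧
    |al F i j - 1| ≤ 2 * (|F i j| + |F i i| * |F j j|) ∧
    |1 / Dl F i j - 1| ≤ 3 * (|F i j| + |F i i| * |F j j|) ∧
    |al F i j ^ 2 - 1 - 2 * F i j| ≤ 10 * (F i j ^ 2 + |F i i| * |F j j|) ∧
    |al F i j| ≤ 2 ∧ |1 / Dl F i j| ≤ 2 := by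
  have ha := (hF.dg i).trans (z20 h)
  have hb := (hF.dg j).trans (z20 h)
  have hc := (hF.ad i j hp).1.trans (z20 h)
  obtain ⟨d0, d1, d2, d3, d4, d5⟩ := delta ha hb hc
  refine ⟨ha, hb, hc, ?_, d1, d2, d3, d4, d5⟩
  unfold Dl
  linarith

/-- double sums over `U × U` -/
def S2 (E : Env ι) (Y : ι → ι → ℝ) : ℝ := ∑ i ∈ E.U, ∑ j ∈ E.U, Y i j

theorem S2_add (Y Y' : ι → ι → ℝ) : S2 E (fun i j => Y i j + Y' i j) = S2 E Y + S2 E Y' := by
  simp only [S2, sum_add_distrib]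

theorem S2_mul (k : ℝ) (Y : ι → ι → ℝ) : S2 E (fun i j => k * Y i j) = k * S2 E Y := by
  simp only [S2, mul_sum]

theorem S2_swap (Y : ι → ι → ℝ) : S2 E (fun i j => Y j i) = S2 E Y := sum_comm

theorem S2_prod (a b : ι → ℝ) :
    S2 E (fun i j => a i * b j) = (∑ x ∈ E.U, a x) * ∑ x ∈ E.U, b x := (sum_mul_sum _ _ _ _).symm

theorem S2_const (k : ℝ) : S2 E (fun _ _ => k) = k * E.N ^ 2 := by
  simp only [S2, sum_const, nsmul_eq_mul, Env.N]
  ring

theorem S2_left (a : ι → ℝ) : S2 E (fun i _ => a i) = E.N * ∑ x ∈ E.U, a x := by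
  simp only [S2, sum_const, nsmul_eq_mul, Env.N, mul_sum]

theorem S2_mono {Y Y' : ι → ι → ℝ} (h : ∀ i ∈ E.U, ∀ j ∈ E.U, Y i j ≤ Y' i j) :
    S2 E Y ≤ S2 E Y' := sum_le_sum fun i hi => sum_le_sum fun j hj => h i hi j hj

theorem av_add (X Y : ι → ι → ℝ) : E.av (fun i j => X i j + Y i j) = E.av X + E.av Y := by
  simp only [Env.av, mul_add, sum_add_distrib]

theorem av_sub (X Y : ι → ι → ℝ) : E.av (fun i j => X i j - Y i j) = E.av X - E.av Y := by
  simp only [Env.av, mul_sub, sum_sub_distrib]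

theorem av_mul (k : ℝ) (X : ι → ι → ℝ) : E.av (fun i j => k * X i j) = k * E.av X := by
  simp only [Env.av, mul_sum]
  exact sum_congr rfl fun i _ => sum_congr rfl fun j _ => by ring

theorem av_congr {X Y : ι → ι → ℝ} (hXY : ∀ i j, E.p i j ≠ 0 → X i j = Y i j) :
    E.av X = E.av Y := by
  refine sum_congr rfl fun i _ => sum_congr rfl fun j _ => ?_
  by_cases h0 : E.p i j = 0
  · simp [h0]
  · rw [hXY i j h0]

theorem av_swap (h : E.Ok) (X : ι → ι → ℝ) : E.av (fun i j => X j i) = E.av X :=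
  ((AVG_proof ι E h).2.2.1 X).symm

theorem av_le (h : E.Ok) {X Y : ι → ι → ℝ} (hY : ∀ i j, 0 ≤ Y i j)
    (hXY : ∀ i j, E.p i j ≠ 0 → X i j ≤ Y i j) : E.av X ≤ 2 * S2 E Y :=
  (AVG.av_mono h X Y hXY).trans (AVG.av_two h Y hY)

theorem av_abs (h : E.Ok) {X Y : ι → ι → ℝ} (hY : ∀ i j, 0 ≤ Y i j)
    (hXY : ∀ i j, E.p i j ≠ 0 → |X i j| ≤ Y i j) : |E.av X| ≤ 2 * S2 E Y := by
  rw [abs_le]
  constructor
  · have := av_le h (X := fun i j => (-1) * X i j) hY fun i j hp => by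
      have := (abs_le.1 (hXY i j hp)).1
      linarith
    rw [av_mul] at this
    linarith
  · exact av_le h hY fun i j hp => (abs_le.1 (hXY i j hp)).2

theorem S2_pow (hF : Side E F ε) (k : ℕ) :
    S2 E (fun i j => (F ^ (k + 1)) i j ^ 2) ≤ E.u ^ (2 * k) * tk F 2 := by
  rw [← sum_rr_U hF, mul_sum]
  exact sum_le_sum fun i _ => (sum_U_le fun _ => sq_nonneg _).trans (rr_pow hF.sy hF.op i k)

theorem S2_cc (hF : Side E F ε) : S2 E (fun i j => F i j ^ 2) ≤ tk F 2 := by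
  simpa using S2_pow hF 0

theorem S2_gg (hF : Side E F ε) : S2 E (fun i j => (F ^ 2) i j ^ 2) ≤ E.u ^ 2 * tk F 2 := by
  simpa using S2_pow hF 1

theorem S2_hh (hF : Side E F ε) : S2 E (fun i j => (F ^ 3) i j ^ 2) ≤ E.u ^ 4 * tk F 2 := by
  simpa using S2_pow hF 2

theorem S2_kk (hF : Side E F ε) : S2 E (fun i j => (F ^ 4) i j ^ 2) ≤ E.u ^ 6 * tk F 2 := by
  simpa using S2_pow hF 3

theorem sum_ff (hF : Side E F ε) : ∑ x ∈ E.U, F x x ^ 2 ≤ E.Tf :=
  (sum_U_le fun _ => sq_nonneg _).trans hF.f2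

theorem S2_aa (h : E.Ok) (hF : Side E F ε) : S2 E (fun i _ => F i i ^ 2) ≤ E.N * E.Tf := by
  rw [S2_left]
  exact mul_le_mul_of_nonneg_left (sum_ff hF) (by have := N1 h; linarith)

theorem S2_bb (h : E.Ok) (hF : Side E F ε) : S2 E (fun _ j => F j j ^ 2) ≤ E.N * E.Tf := by
  rw [← S2_swap]
  exact S2_aa h hF

theorem S2_ar (hF : Side E F ε) : S2 E (fun i j => F i i ^ 2 * rr F j) ≤ E.Tf * tk F 2 := by
  rw [S2_prod, sum_rr_U hF]
  exact mul_le_mul_of_nonneg_right (sum_ff hF) (Q0 hF)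

theorem S2_br (hF : Side E F ε) : S2 E (fun i j => F j j ^ 2 * rr F i) ≤ E.Tf * tk F 2 := by
  rw [← S2_swap]
  exact S2_ar hF

theorem sum_abs_f (hF : Side E F ε) : ∑ x ∈ E.U, |F x x| ≤ √(E.N * E.Tf) := by
  refine Real.le_sqrt_of_sq_le ?_
  have h1 := sum_mul_sq_le_sq_mul_sq E.U (fun _ => (1 : ℝ)) (fun x => |F x x|)
  simp only [one_mul, one_pow, sum_const, nsmul_eq_mul, mul_one, sq_abs] at h1
  exact h1.trans (mul_le_mul_of_nonneg_left (sum_ff hF) (Nat.cast_nonneg _))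

theorem S2_a (h : E.Ok) (hF : Side E F ε) :
    S2 E (fun i _ => |F i i|) ≤ E.N * √(E.N * E.Tf) := by
  rw [S2_left]
  exact mul_le_mul_of_nonneg_left (sum_abs_f hF) (by have := N1 h; linarith)

theorem S2_b (h : E.Ok) (hF : Side E F ε) :
    S2 E (fun _ j => |F j j|) ≤ E.N * √(E.N * E.Tf) := by
  rw [← S2_swap]
  exact S2_a h hF

theorem S2_cw (h : E.Ok) (hF : Side E F ε) (w : ι → ℝ) (hw : ∀ x, 0 ≤ w x) :
    S2 E (fun i j => |F i j| * w i) ≤ E.L * √E.N * ∑ x ∈ E.U, w x := by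
  rw [mul_sum]
  refine sum_le_sum fun i _ => ?_
  rw [← sum_mul]
  refine mul_le_mul_of_nonneg_right ?_ (hw i)
  have h1 := sum_mul_sq_le_sq_mul_sq E.U (fun _ => (1 : ℝ)) (fun x => |F i x|)
  simp only [one_mul, one_pow, sum_const, nsmul_eq_mul, mul_one, sq_abs] at h1
  have h2 : ∑ x ∈ E.U, F i x ^ 2 ≤ E.L := (sum_U_le fun _ => sq_nonneg _).trans (hF.ro i)
  have hL := L1 h
  have hN := N1 h
  refine abs_le_of_sq_le_sq' ?_ (by positivity) |>.2
  rw [mul_pow, Real.sq_sqrt (by linarith)]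
  refine h1.trans ?_
  change E.N * _ ≤ _
  have h3 : E.L ≤ E.L ^ 2 := by nlinarith
  rw [mul_comm]
  exact mul_le_mul_of_nonneg_right (h2.trans h3) (by linarith)

theorem S2_cw' (h : E.Ok) (hF : Side E F ε) (w : ι → ℝ) (hw : ∀ x, 0 ≤ w x) :
    S2 E (fun i j => |F i j| * w j) ≤ E.L * √E.N * ∑ x ∈ E.U, w x := by
  rw [← S2_swap]
  simp only [fun i j => hF.sy j i]
  exact S2_cw h hF w hw

/-- `ρ` cut off outside `U` -/
noncomputable def rho (E : Env ι) (F : Mat ι) (x : ι) : ℝ := if x ∈ E.U then rr F x - 1 else 0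

theorem rho_abs (h : E.Ok) (hF : Side E F ε) (x : ι) : |rho E F x| ≤ E.L := by
  unfold rho
  split_ifs
  · exact rho_le h hF x
  · have := L1 h
    simp only [abs_zero]
    linarith

theorem sum_rho (hF : Side E F ε) : ∑ x ∈ E.U, rho E F x = tk F 2 - E.N := by
  have e : ∑ x ∈ E.U, rho E F x = ∑ x ∈ E.U, (rr F x - 1) :=
    sum_congr rfl fun x hx => if_pos hx
  rw [← sum_rr_U hF, e]
  simp [Env.N]

theorem sum_rho_sq (h : E.Ok) (hF : Side E F ε) : ∑ x, rho E F x ^ 2 ≤ E.L ^ 2 * E.N := by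
  rw [← sum_subset (subset_univ E.U) fun x _ hx => by simp [rho, hx]]
  refine (sum_le_sum fun x _ => (sq_le_sq' (abs_le.1 (rho_abs h hF x)).1
    (abs_le.1 (rho_abs h hF x)).2)).trans (le_of_eq ?_)
  simp [Env.N, mul_comm]

theorem sum_abs_diag (h : E.Ok) (hF : Side E F ε) (k : ℕ) :
    ∑ x, |(F ^ (k + 2)) x x| ≤ E.u ^ k * tk F 2 := by
  rw [← sum_rr hF, mul_sum]
  exact sum_le_sum fun x _ => ent_diag h hF k x

/-- mean of an entry of a power -/
theorem av_pow (h : E.Ok) (hF : Side E F ε) (k : ℕ) :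
    |E.av (fun i j => (F ^ (k + 2)) i j) - (E.N - E.th * trace (E.C * F ^ (k + 2)))| ≤
      E.D * (E.u ^ k * tk F 2) := by
  have hu := h.u1
  have h9 := (AVG_proof ι E h).2.2.2.2.2.2.2.2.1 (fun i j => (F ^ (k + 2)) i j)
    (fun x => E.u ^ k * rr F x) (fun x => E.u ^ k * rr F x)
    (fun x => by have := rr_nonneg F x; positivity) (fun x => by have := rr_nonneg F x; positivity)
    (fun i j => (ent_sq hF.sy hF.op k i j).trans (le_of_eq (by ring)))
  rw [pow_tot hF.toBas0, ← trace_mul_sy _ _ (pow_sy hF.sy _), ← mul_sum, sum_rr hF, mul_assoc,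
    Real.mul_self_sqrt (by have := Q0 hF; positivity)] at h9
  exact h9

theorem sqrt_div (h : E.Ok) : √E.N * √E.Tf = E.N * √(E.Tf / E.N) := by
  have hN := N1 h
  have h1 := sqrt1 h
  have h2 := sqrt_sq h
  rw [Real.sqrt_div' _ (by linarith)]
  field_simp
  rw [sq, h2, mul_comm]

end A26

end Crest.Agent.R62
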