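import Crest.Agent.R62.DefsB
import Crest.Agent.R62.Aux26

/-! Row 62, task O1C: observables 3 and 4 of phase 1. -/

set_option autoImplicit false
set_option linter.unusedSectionVars false

namespace Crest.Agent.R62

open Matrix Finset

namespace O1C

section
variable {ι : Type} [Fintype ι] [DecidableEq ι] {E : Env ι} {F : Mat ι} {ε : ℝ}

theorem av_const (c : ℝ) : E.av (fun _ _ => c) = c * E.Z := by
  rw [Env.Z, ← A26.av_mul]; simp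

theorem Z_le (hAvg : AvgStmt) (h : E.Ok) : E.Z ≤ 2 * E.N ^ 2 := by
  have := (hAvg ι E h).2.2.2.2.2.2.2.2.2.2.1 (fun _ _ => 1) fun _ _ => zero_le_one
  simp only [sum_const, nsmul_eq_mul, mul_one] at this
  unfold Env.Z Env.N
  linarith

theorem sum_rho_sq' : ∑ x, A26.rho E F x ^ 2 = ∑ x ∈ E.U, (rr F x - 1) ^ 2 := by
  rw [← sum_subset (subset_univ E.U) fun x _ hx => by simp [A26.rho, hx]]
  exact sum_congr rfl fun x hx => by simp [A26.rho, hx]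

theorem drift (hAvg : AvgStmt) (h : E.Ok) (hF : Side E F ε) (g V : ℝ)
    (hV : ∑ x ∈ E.U, (rr F x - 1) ^ 2 ≤ V) :
    |E.av (fun i j => tk (step F i j) 2 - tk F 2 + 2 + g) -
      (E.av (rest F) + 2 * (tk F 2 - E.N) ^ 2 + g * E.Z)| ≤ 2 * ((2 * E.th * E.u + E.D) * V) := by
  obtain ⟨-, -, -, a4, -, -, -, -, -, -, -, -, -, a14, -⟩ := hAvg ι E h
  have e : E.av (fun i j => tk (step F i j) 2 - tk F 2 + 2 + g) =
      E.av (rest F) + 2 * E.av (fun i j => A26.rho E F i * A26.rho E F j) + g * E.Z := by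
    rw [← av_const, ← A26.av_mul, ← A26.av_add, ← A26.av_add]
    refine A26.av_congr fun i j hp => ?_
    obtain ⟨hi, hj, -⟩ := a14 i j hp
    simp only [rest, A26.rho, if_pos hi, if_pos hj]
    ring
  have h4 := a4 (A26.rho E F) (A26.rho E F)
  rw [A26.sum_rho hF, mul_assoc, Real.mul_self_sqrt (sum_nonneg fun _ _ => sq_nonneg _),
    sum_rho_sq'] at h4
  have h0 : 0 ≤ 2 * E.th * E.u + E.D := by
    have := h.th0; have := h.u1; have := h.D1'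
    positivity
  have h5 := h4.trans (mul_le_mul_of_nonneg_left hV h0)
  rw [e]
  rw [abs_le] at h5 ⊢
  constructor <;> nlinarith [h5.1, h5.2]

theorem second (hAvg : AvgStmt) (h : E.Ok) (g V : ℝ)
    (hV : ∑ x ∈ E.U, (rr F x - 1) ^ 2 ≤ V) :
    E.av (fun i j => (tk (step F i j) 2 - tk F 2 + 2 + g) ^ 2) ≤
      3 * (E.av (fun i j => rest F i j ^ 2) + 24 * V ^ 2 + g ^ 2 * E.Z) := by
  obtain ⟨-, -, -, -, -, -, -, -, -, -, -, a12, -, -, a15⟩ := hAvg ι E h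
  have h1 := a15 (fun x => rr F x - 1) 0
  simp only [ne_eq, OfNat.ofNat_ne_zero, not_false_eq_true, zero_pow, sub_zero, add_zero,
    mul_zero, zero_mul] at h1
  have h0 : 0 ≤ ∑ x ∈ E.U, (rr F x - 1) ^ 2 := sum_nonneg fun _ _ => sq_nonneg _
  have h2 : (∑ x ∈ E.U, (rr F x - 1) ^ 2) ^ 2 ≤ V ^ 2 := pow_le_pow_left₀ h0 hV 2
  have h3 := a12 (fun i j => (tk (step F i j) 2 - tk F 2 + 2 + g) ^ 2)
    (fun i j => 3 * (rest F i j ^ 2 + 4 * ((rr F i - 1) * (rr F j - 1)) ^ 2 + g ^ 2))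
    (fun i j _ => by
      have e : tk (step F i j) 2 - tk F 2 + 2 + g =
          rest F i j + 2 * ((rr F i - 1) * (rr F j - 1)) + g := by
        simp only [rest]; ring
      rw [e]
      generalize rest F i j = a
      generalize (rr F i - 1) * (rr F j - 1) = b
      nlinarith [sq_nonneg (a - 2 * b), sq_nonneg (a - g), sq_nonneg (2 * b - g)])
  rw [A26.av_mul, A26.av_add, A26.av_add, A26.av_mul, av_const] at h3
  linarith

end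

/-! ### real inequalities -/

theorem sqrtV {Λ w N : ℝ} (hΛ : 10 ^ 20 ≤ Λ) (w1 : 1 ≤ w) (w2 : w ≤ Λ ^ 8002)
    (hN : Λ ^ 23906 ≤ N) (hS : w ^ 2 * Λ ^ 7864 ≤ N / Λ ^ 38) :
    2 * √(N * (w ^ 2 * Λ ^ 7693)) + w ^ 2 * Λ ^ 7864 ≤ N := by
  have h1 : 1 ≤ Λ := by linarith [show (1 : ℝ) ≤ 10 ^ 20 by norm_num]
  have h16 : 16 ≤ Λ := by linarith [show (16 : ℝ) ≤ 10 ^ 20 by norm_num]
  have p : ∀ a b : ℕ, a ≤ b → Λ ^ a ≤ Λ ^ b := fun a b h => pow_le_pow_right₀ h1 h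
  have N0 : 0 < N := lt_of_lt_of_le (by positivity) hN
  have a1 : w ^ 2 ≤ Λ ^ 16004 := by
    calc w ^ 2 ≤ (Λ ^ 8002) ^ 2 := pow_le_pow_left₀ (by linarith) w2 2
      _ = Λ ^ 16004 := by rw [← pow_mul]
  have a2 : 16 * (w ^ 2 * Λ ^ 7693) ≤ N := by
    calc 16 * (w ^ 2 * Λ ^ 7693) ≤ Λ * (Λ ^ 16004 * Λ ^ 7693) := by gcongr
      _ = Λ ^ 23698 := by ring
      _ ≤ Λ ^ 23906 := p _ _ (by norm_num)
      _ ≤ N := hN
  have a3 : √(N * (w ^ 2 * Λ ^ 7693)) ≤ N / 4 := by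
    refine Real.sqrt_le_iff.2 ⟨by positivity, ?_⟩
    generalize w ^ 2 * Λ ^ 7693 = T at a2
    nlinarith
  have a4 : N / Λ ^ 38 ≤ N / 2 := by
    refine div_le_div_of_nonneg_left N0.le (by norm_num) ?_
    calc (2 : ℝ) ≤ Λ ^ 1 := by linarith [pow_one Λ]
      _ ≤ Λ ^ 38 := p _ _ (by norm_num)
  linarith

theorem errs {Λ w N th u D Tf Q V : ℝ} (hΛ : 10 ^ 20 ≤ Λ) (w1 : 1 ≤ w) (w2 : w ≤ Λ ^ 8002)
    (hN : Λ ^ 23906 ≤ N) (hth : th = w / Λ ^ 160) (hu : u = Λ ^ 9 * w)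
    (hD : D = Λ * (Λ ^ 1320 + th ^ 2)) (T0 : 0 ≤ Tf) (T1 : Tf ≤ Λ ^ 7816)
    (Q1 : Q ≤ 101 / 100 * N) (hV : V = 2 * √(N * (w ^ 2 * Λ ^ 7693)) + w ^ 2 * Λ ^ 7864)
    (hQ : |Q - N| ≤ w ^ 2 * Λ ^ 7864) (hS : w ^ 2 * Λ ^ 7864 ≤ N / Λ ^ 38) :
    Λ * ((th + D + Tf) * N + (u ^ 2 + (D + Tf + th * √Tf) * u) * Q + √N * V)
      + 2 * (Q - N) ^ 2 + 2 * ((2 * th * u + D) * V) ≤ 27 * (w ^ 2 * N * Λ ^ 7830) := by
  have h1 : 1 ≤ Λ := by linarith [show (1 : ℝ) ≤ 10 ^ 20 by norm_num]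
  have p : ∀ a b : ℕ, a ≤ b → Λ ^ a ≤ Λ ^ b := fun a b h => pow_le_pow_right₀ h1 h
  have p1 : ∀ a : ℕ, 1 ≤ Λ ^ a := fun a => one_le_pow₀ h1
  have N0 : 0 < N := lt_of_lt_of_le (by positivity) hN
  have w0 : 0 < w := by linarith
  have ww : w ≤ w ^ 2 := by nlinarith
  have ww1 : 1 ≤ w ^ 2 := by nlinarith
  have th0 : 0 ≤ th := by rw [hth]; positivity
  have thw : th ≤ w := by rw [hth]; exact div_le_self w0.le (p1 _)
  have th160 : th * Λ ^ 160 = w := by rw [hth]; field_simp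
  have th2 : th ^ 2 ≤ w * Λ ^ 7682 := by
    refine le_of_mul_le_mul_right ?_ (show 0 < Λ ^ 320 by positivity)
    calc th ^ 2 * Λ ^ 320 = (th * Λ ^ 160) * (th * Λ ^ 160) := by ring
      _ = w * w := by rw [th160]
      _ ≤ w * Λ ^ 8002 := by gcongr
      _ = w * Λ ^ 7682 * Λ ^ 320 := by ring
  have u0 : 0 ≤ u := by rw [hu]; positivity
  have hVN : V ≤ N := by rw [hV]; exact sqrtV hΛ w1 w2 hN hS
  have V0 : 0 ≤ V := by rw [hV]; positivity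
  -- monomial bounds
  have m2 : ∀ a : ℕ, a ≤ 7829 → w ^ 2 * Λ ^ a ≤ w ^ 2 * Λ ^ 7829 := fun a ha =>
    mul_le_mul_of_nonneg_left (p _ _ ha) (by positivity)
  have m1 : ∀ a : ℕ, a ≤ 7829 → w * Λ ^ a ≤ w ^ 2 * Λ ^ 7829 := fun a ha =>
    (mul_le_mul_of_nonneg_right ww (by positivity)).trans (m2 a ha)
  have m0 : ∀ a : ℕ, a ≤ 7829 → Λ ^ a ≤ w ^ 2 * Λ ^ 7829 := fun a ha =>
    (le_mul_of_one_le_left (by positivity) ww1).trans (m2 a ha)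
  have b1 : th ≤ w ^ 2 * Λ ^ 7829 := thw.trans (by simpa using m1 0 (by norm_num))
  have b2 : D ≤ 2 * (w ^ 2 * Λ ^ 7829) := by
    have c1 : Λ * th ^ 2 ≤ w ^ 2 * Λ ^ 1 := by
      rw [pow_one, mul_comm]; gcongr
    have c2 := m2 1 (by norm_num)
    have c3 := m0 1321 (by norm_num)
    have c4 : D = Λ ^ 1321 + Λ * th ^ 2 := by rw [hD]; ring
    linarith
  have b3 : Tf ≤ w ^ 2 * Λ ^ 7829 := T1.trans (m0 _ (by norm_num))
  have b4 : u ^ 2 ≤ w ^ 2 * Λ ^ 7829 := by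
    calc u ^ 2 = w ^ 2 * Λ ^ 18 := by rw [hu]; ring
      _ ≤ _ := m2 _ (by norm_num)
  have b5 : D * u ≤ 2 * (w ^ 2 * Λ ^ 7829) := by
    have c1 : Λ ^ 10 * w * th ^ 2 ≤ w ^ 2 * Λ ^ 7692 := by
      calc Λ ^ 10 * w * th ^ 2 ≤ Λ ^ 10 * w * (w * Λ ^ 7682) := by gcongr
        _ = _ := by ring
    have c2 := m2 7692 (by norm_num)
    have c3 := m1 1330 (by norm_num)
    have c4 : D * u = w * Λ ^ 1330 + Λ ^ 10 * w * th ^ 2 := by rw [hD, hu]; ring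
    linarith
  have b6 : Tf * u ≤ w ^ 2 * Λ ^ 7829 := by
    calc Tf * u ≤ Λ ^ 7816 * u := by gcongr
      _ = w * Λ ^ 7825 := by rw [hu]; ring
      _ ≤ _ := m1 _ (by norm_num)
  have b7 : th * √Tf * u ≤ w ^ 2 * Λ ^ 7829 := by
    have c1 : √Tf ≤ Λ ^ 3908 :=
      Real.sqrt_le_iff.2 ⟨by positivity, by rw [← pow_mul]; exact T1⟩
    calc th * √Tf * u ≤ w * Λ ^ 3908 * u := by gcongr
      _ = w ^ 2 * Λ ^ 3917 := by rw [hu]; ring
      _ ≤ _ := m2 _ (by norm_num)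
  have sN : √N * √N = N := Real.mul_self_sqrt N0.le
  have b8 : √N * V ≤ 3 * (w ^ 2 * Λ ^ 7829 * N) := by
    have c1 : √(N * (w ^ 2 * Λ ^ 7693)) ≤ √N * (w * Λ ^ 3847) := by
      refine Real.sqrt_le_iff.2 ⟨by positivity, ?_⟩
      calc N * (w ^ 2 * Λ ^ 7693) ≤ N * (w ^ 2 * Λ ^ 7694) := by
            have := p 7693 7694 (by norm_num)
            gcongr
        _ = √N * √N * (w ^ 2 * Λ ^ 7694) := by rw [sN]
        _ = _ := by ring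
    have c2 : Λ ^ 35 ≤ √N := by
      refine Real.le_sqrt_of_sq_le ?_
      rw [← pow_mul]
      exact (p _ _ (by norm_num)).trans hN
    have c3 : √N * √(N * (w ^ 2 * Λ ^ 7693)) ≤ w ^ 2 * Λ ^ 7829 * N := by
      calc √N * √(N * (w ^ 2 * Λ ^ 7693)) ≤ √N * (√N * (w * Λ ^ 3847)) := by gcongr
        _ = w * Λ ^ 3847 * (√N * √N) := by ring
        _ = w * Λ ^ 3847 * N := by rw [sN]
        _ ≤ _ := mul_le_mul_of_nonneg_right (m1 _ (by norm_num)) N0.le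
    have c4 : √N * (w ^ 2 * Λ ^ 7864) ≤ w ^ 2 * Λ ^ 7829 * N := by
      calc √N * (w ^ 2 * Λ ^ 7864) = w ^ 2 * Λ ^ 7829 * (√N * Λ ^ 35) := by ring
        _ ≤ w ^ 2 * Λ ^ 7829 * (√N * √N) := by gcongr
        _ = _ := by rw [sN]
    rw [hV, mul_add, mul_left_comm]
    linarith
  have b9 : (Q - N) ^ 2 ≤ w ^ 2 * Λ ^ 7829 * N := by
    calc (Q - N) ^ 2 = |Q - N| * |Q - N| := by rw [abs_mul_abs_self, sq]
      _ ≤ (w ^ 2 * Λ ^ 7864) * (N / Λ ^ 38) :=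
          mul_le_mul hQ (hQ.trans hS) (abs_nonneg _) (by positivity)
      _ = w ^ 2 * Λ ^ 7826 * N := by field_simp
      _ ≤ _ := mul_le_mul_of_nonneg_right (m2 _ (by norm_num)) N0.le
  have b11 : th * u ≤ w ^ 2 * Λ ^ 7829 := by
    calc th * u ≤ w * u := by gcongr
      _ = w ^ 2 * Λ ^ 9 := by rw [hu]; ring
      _ ≤ _ := m2 _ (by norm_num)
  have e : w ^ 2 * N * Λ ^ 7830 = Λ * (w ^ 2 * Λ ^ 7829 * N) := by ring
  rw [e]
  have P0 : 0 ≤ w ^ 2 * Λ ^ 7829 := by positivity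
  have D0 : 0 ≤ D := by rw [hD]; positivity
  have s0 : 0 ≤ th * √Tf * u := by positivity
  have d1 : (u ^ 2 + (D + Tf + th * √Tf) * u) = u ^ 2 + D * u + Tf * u + th * √Tf * u := by ring
  rw [d1]
  generalize w ^ 2 * Λ ^ 7829 = P at *
  have k1 : (th + D + Tf) * N ≤ 4 * P * N := by gcongr; linarith
  have k2 : (u ^ 2 + D * u + Tf * u + th * √Tf * u) * Q ≤ 5 * P * (2 * N) :=
    (mul_le_mul_of_nonneg_left (show Q ≤ 2 * N by linarith) (by positivity)).trans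
      (mul_le_mul_of_nonneg_right (by linarith) (by positivity))
  have k3 : (2 * th * u + D) * V ≤ 4 * P * N :=
    mul_le_mul (by linarith) hVN V0 (by positivity)
  have k4 : Λ * ((th + D + Tf) * N + (u ^ 2 + D * u + Tf * u + th * √Tf * u) * Q + √N * V) ≤
      Λ * (17 * (P * N)) := mul_le_mul_of_nonneg_left (by linarith) (by linarith)
  have k5 : P * N ≤ Λ * (P * N) := le_mul_of_one_le_left (by positivity) h1
  linarith

theorem sec {Λ w N u Tf Q V g Z R : ℝ} (hΛ : 10 ^ 20 ≤ Λ) (w1 : 1 ≤ w) (w2 : w ≤ Λ ^ 8002)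
    (hN : Λ ^ 23906 ≤ N) (hu : u = Λ ^ 9 * w) (T0 : 0 ≤ Tf) (T1 : Tf ≤ u ^ 2)
    (Q1 : Q ≤ 101 / 100 * N) (hV : V = 2 * √(N * (w ^ 2 * Λ ^ 7693)) + w ^ 2 * Λ ^ 7864)
    (hS : w ^ 2 * Λ ^ 7864 ≤ N / Λ ^ 38) (g0 : 0 ≤ g) (g1 : g * N ≤ w ^ 3) (hZ : Z ≤ 2 * N ^ 2)
    (hR : R ≤ Λ * ((u ^ 4 + Tf * u ^ 2) * Q + N * Tf)) :
    3 * (R + 24 * V ^ 2 + g ^ 2 * Z) ≤ N * (w ^ 2 * Λ ^ 7840) ^ 2 / Λ := by
  have h1 : 1 ≤ Λ := by linarith [show (1 : ℝ) ≤ 10 ^ 20 by norm_num]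
  have h1000 : 1000 ≤ Λ := by linarith [show (1000 : ℝ) ≤ 10 ^ 20 by norm_num]
  have p : ∀ a b : ℕ, a ≤ b → Λ ^ a ≤ Λ ^ b := fun a b h => pow_le_pow_right₀ h1 h
  have p1 : ∀ a : ℕ, 1 ≤ Λ ^ a := fun a => one_le_pow₀ h1
  have N0 : 0 < N := lt_of_lt_of_le (by positivity) hN
  have w0 : 0 < w := by linarith
  have ww : w ^ 2 ≤ w ^ 4 := pow_le_pow_right₀ w1 (by norm_num)
  have u1 : 1 ≤ u := by rw [hu]; exact one_le_mul_of_one_le_of_one_le (p1 _) w1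
  have uu : u ^ 2 ≤ u ^ 4 := pow_le_pow_right₀ u1 (by norm_num)
  have c1 : R ≤ 5 * (N * w ^ 4 * Λ ^ 7826) := by
    have d1 : Tf * u ^ 2 ≤ u ^ 4 := by
      calc Tf * u ^ 2 ≤ u ^ 2 * u ^ 2 := by gcongr
        _ = u ^ 4 := by ring
    have d2 : (u ^ 4 + Tf * u ^ 2) * Q ≤ (2 * u ^ 4) * (2 * N) :=
      (mul_le_mul_of_nonneg_left (show Q ≤ 2 * N by linarith) (by positivity)).trans
        (mul_le_mul_of_nonneg_right (by linarith) (by positivity))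
    have d3 : N * Tf ≤ N * u ^ 4 := mul_le_mul_of_nonneg_left (T1.trans uu) N0.le
    calc R ≤ _ := hR
      _ ≤ Λ * (5 * (N * u ^ 4)) := mul_le_mul_of_nonneg_left (by linarith) (by linarith)
      _ = 5 * (N * w ^ 4 * Λ ^ 37) := by rw [hu]; ring
      _ ≤ _ := by
          have := p 37 7826 (by norm_num)
          gcongr
  have c2 : V ^ 2 ≤ 10 * (N * w ^ 4 * Λ ^ 7826) := by
    have d1 : √(N * (w ^ 2 * Λ ^ 7693)) ^ 2 ≤ N * w ^ 4 * Λ ^ 7826 := by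
      rw [Real.sq_sqrt (by positivity), ← mul_assoc]
      have := p 7693 7826 (by norm_num)
      gcongr
    have d2 : (w ^ 2 * Λ ^ 7864) ^ 2 ≤ N * w ^ 4 * Λ ^ 7826 := by
      calc (w ^ 2 * Λ ^ 7864) ^ 2 = (w ^ 2 * Λ ^ 7864) * (w ^ 2 * Λ ^ 7864) := sq _
        _ ≤ (w ^ 2 * Λ ^ 7864) * (N / Λ ^ 38) := by gcongr
        _ = N * w ^ 2 * Λ ^ 7826 := by field_simp
        _ ≤ _ := by gcongr
    rw [hV]
    generalize √(N * (w ^ 2 * Λ ^ 7693)) = a at *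
    generalize w ^ 2 * Λ ^ 7864 = b at *
    nlinarith [sq_nonneg (2 * a - b), sq_nonneg (a - 2 * b)]
  have c3 : g ^ 2 * Z ≤ 2 * (N * w ^ 4 * Λ ^ 7826) := by
    have a1 : w ^ 2 ≤ N := by
      calc w ^ 2 ≤ (Λ ^ 8002) ^ 2 := pow_le_pow_left₀ (by linarith) w2 2
        _ = Λ ^ 16004 := by rw [← pow_mul]
        _ ≤ Λ ^ 23906 := p _ _ (by norm_num)
        _ ≤ N := hN
    calc g ^ 2 * Z ≤ g ^ 2 * (2 * N ^ 2) := by gcongr
      _ = 2 * (g * N) ^ 2 := by ring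
      _ ≤ 2 * (w ^ 3) ^ 2 := by gcongr
      _ = 2 * (w ^ 2 * w ^ 4 * 1) := by ring
      _ ≤ _ := by
          have := p1 7826
          gcongr
  have c4 : N * (w ^ 2 * Λ ^ 7840) ^ 2 / Λ = N * w ^ 4 * Λ ^ 15679 := by field_simp
  have c5 : 1000 * (N * w ^ 4 * Λ ^ 7826) ≤ N * w ^ 4 * Λ ^ 15679 := by
    calc 1000 * (N * w ^ 4 * Λ ^ 7826) ≤ Λ * (N * w ^ 4 * Λ ^ 7826) := by gcongr
      _ = N * w ^ 4 * Λ ^ 7827 := by ring
      _ ≤ _ := by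
          have := p 7827 15679 (by norm_num)
          gcongr
  have c6 : 0 ≤ N * w ^ 4 * Λ ^ 7826 := by positivity
  rw [c4]
  linarith

theorem ratio {N₀ N : ℝ} (hN : 1000 ≤ N) (h0 : 0 ≤ N₀) :
    N₀ / N ≤ N₀ / (N - 2) ∧ ((N₀ / (N - 2)) ^ 3 - (N₀ / N) ^ 3) * N ≤ 61 / 10 * (N₀ / N) ^ 3 := by
  have N0 : 0 < N := by linarith
  have N2 : 0 < N - 2 := by linarith
  refine ⟨div_le_div_of_nonneg_left h0 N2 (by linarith), ?_⟩
  set w := N₀ / N with hw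
  have w0 : 0 ≤ w := by positivity
  set t := 1 / N with ht
  have t0 : 0 < t := by positivity
  have t1 : t ≤ 1 / 1000 := one_div_le_one_div_of_le (by norm_num) hN
  have tN : t * N = 1 := by rw [ht]; field_simp
  have a1 : N₀ / (N - 2) ≤ w * (1 + 201 / 100 * t) := by
    rw [div_le_iff₀ N2]
    have : N₀ = w * N := by rw [hw]; field_simp
    rw [this, mul_assoc]
    refine mul_le_mul_of_nonneg_left ?_ w0
    nlinarith
  have a2 : (N₀ / (N - 2)) ^ 3 ≤ (w * (1 + 201 / 100 * t)) ^ 3 :=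
    pow_le_pow_left₀ (by positivity) a1 3
  have a3 : (1 + 201 / 100 * t) ^ 3 ≤ 1 + 61 / 10 * t := by nlinarith [mul_pos t0 t0]
  have a4 : (w * (1 + 201 / 100 * t)) ^ 3 ≤ w ^ 3 * (1 + 61 / 10 * t) := by
    rw [mul_pow]; gcongr
  calc ((N₀ / (N - 2)) ^ 3 - w ^ 3) * N ≤ (w ^ 3 * (61 / 10 * t)) * N := by
        gcongr; linarith
    _ = 61 / 10 * w ^ 3 * (t * N) := by ring
    _ = _ := by rw [tN, mul_one]

theorem mean3 {Λ w N th t1 t3 t4 tr X K d2 g Z ε Q : ℝ} (hΛ : 10 ^ 20 ≤ Λ) (w1 : 1 ≤ w)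
    (hN : Λ ^ 23906 ≤ N) (hth : th = w / Λ ^ 160) (hε : ε = 1 ∨ ε = -1)
    (hK : K = w * Λ ^ 7691) (h1' : ε * t1 ≤ K) (h3 : 9 / 20 * (w * N) ≤ ε * t3)
    (h3' : |t3| ≤ 2 * d2 * (w * N)) (hd : d2 ≤ Λ) (t40 : 0 ≤ t4) (t41 : t4 ≤ N * Λ ^ 8 * w ^ 2)
    (hX : X ≤ Λ ^ 39602) (htr : |tr| ≤ √(t4 * X)) (hc : t3 ^ 2 ≤ Q * t4)
    (Q1 : Q ≤ 101 / 100 * N) (g0 : 0 ≤ g) (g1 : g * N ≤ 61 / 100 * (w ^ 2 * th))
    (hZ : Z ≤ 101 / 100 * N ^ 2) :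
    4 * t1 * t3 - 4 * th * (t4 + tr) + g * Z ≤ 12 * (w ^ 2 * N * Λ ^ 7830) := by
  have h1 : 1 ≤ Λ := by linarith [show (1 : ℝ) ≤ 10 ^ 20 by norm_num]
  have p : ∀ a b : ℕ, a ≤ b → Λ ^ a ≤ Λ ^ b := fun a b h => pow_le_pow_right₀ h1 h
  have N0 : 0 < N := lt_of_lt_of_le (by positivity) hN
  have w0 : 0 < w := by linarith
  have wN : 0 < w * N := by positivity
  have th0 : 0 ≤ th := by rw [hth]; positivity
  have th160 : th * Λ ^ 160 = w := by rw [hth]; field_simp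
  have K0 : 0 ≤ K := by rw [hK]; positivity
  have e3 : ε * t3 ≤ |t3| := by
    rcases hε with h | h <;> rw [h]
    · simpa using le_abs_self t3
    · simpa using neg_le_abs t3
  have e1 : t1 * t3 = (ε * t1) * (ε * t3) := by rcases hε with h | h <;> rw [h] <;> ring
  have e2 : (ε * t3) ^ 2 = t3 ^ 2 := by rcases hε with h | h <;> rw [h] <;> ring
  have a1 : t1 * t3 ≤ 2 * (w ^ 2 * N * Λ ^ 7830) := by
    calc t1 * t3 = (ε * t1) * (ε * t3) := e1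
      _ ≤ K * (ε * t3) := mul_le_mul_of_nonneg_right h1' (by linarith)
      _ ≤ K * (2 * Λ * (w * N)) := by
          refine mul_le_mul_of_nonneg_left (e3.trans (h3'.trans ?_)) K0
          gcongr
      _ = 2 * (w ^ 2 * N * Λ ^ 7692) := by rw [hK]; ring
      _ ≤ _ := by
          have := p 7692 7830 (by norm_num)
          gcongr
  have a2 : √(t4 * X) ≤ w * N * Λ ^ 7990 := by
    refine Real.sqrt_le_iff.2 ⟨by positivity, ?_⟩
    calc t4 * X ≤ t4 * Λ ^ 39602 := by gcongr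
      _ ≤ N * Λ ^ 8 * w ^ 2 * Λ ^ 39602 := by gcongr
      _ = N * w ^ 2 * Λ ^ 15980 * Λ ^ 23630 := by ring
      _ ≤ N * w ^ 2 * Λ ^ 15980 * N := by
          have := (p 23630 23906 (by norm_num)).trans hN
          gcongr
      _ = _ := by ring
  have a3 : th * (-tr) ≤ w ^ 2 * N * Λ ^ 7830 := by
    calc th * (-tr) ≤ th * (w * N * Λ ^ 7990) :=
          mul_le_mul_of_nonneg_left ((neg_le_abs tr).trans (htr.trans a2)) th0
      _ = th * Λ ^ 160 * (w * N * Λ ^ 7830) := by ring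
      _ = _ := by rw [th160]; ring
  have a4 : 1 / 5 * (w ^ 2 * N) ≤ t4 := by
    have b1 : (9 / 20 * (w * N)) ^ 2 ≤ (ε * t3) ^ 2 := pow_le_pow_left₀ (by positivity) h3 2
    have b2 : Q * t4 ≤ 101 / 100 * N * t4 := by gcongr
    refine le_of_mul_le_mul_left ?_ N0
    have b3 : 0 ≤ N * t4 := by positivity
    have b4 : 0 ≤ N * (w ^ 2 * N) := by positivity
    have b5 : (9 / 20 * (w * N)) ^ 2 = 81 / 400 * (N * (w ^ 2 * N)) := by ring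
    linarith
  have a5 : g * Z ≤ 4 * (th * t4) := by
    have b0 : 0 ≤ th * (w ^ 2 * N) := by positivity
    calc g * Z ≤ g * (101 / 100 * N ^ 2) := by gcongr
      _ = 101 / 100 * (g * N) * N := by ring
      _ ≤ 101 / 100 * (61 / 100 * (w ^ 2 * th)) * N := by gcongr
      _ = 6161 / 10000 * (th * (w ^ 2 * N)) := by ring
      _ ≤ 4 * (th * (1 / 5 * (w ^ 2 * N))) := by linarith
      _ ≤ _ := by gcongr
  linarith

theorem mean4 {Λ w N th u t1 t3 tr d2 Q : ℝ} (hΛ : 10 ^ 20 ≤ Λ) (w1 : 1 ≤ w) (w2 : w ≤ Λ ^ 8002)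
    (hN : Λ ^ 23906 ≤ N) (hth : th = w / Λ ^ 160) (hu : u = Λ ^ 9 * w)
    (h1' : |t1| ≤ w * Λ ^ 7855) (h3' : |t3| ≤ 2 * d2 * (w * N)) (hd : d2 ≤ Λ)
    (htr : |tr| ≤ 2 * u ^ 2 * Q) (Q1 : Q ≤ 101 / 100 * N) :
    |4 * t1 * t3 - 4 * th * tr| ≤ 24 * (w ^ 2 * N * Λ ^ 7860) := by
  have h1 : 1 ≤ Λ := by linarith [show (1 : ℝ) ≤ 10 ^ 20 by norm_num]
  have p : ∀ a b : ℕ, a ≤ b → Λ ^ a ≤ Λ ^ b := fun a b h => pow_le_pow_right₀ h1 h
  have N0 : 0 < N := lt_of_lt_of_le (by positivity) hN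
  have w0 : 0 < w := by linarith
  have th0 : 0 ≤ th := by rw [hth]; positivity
  have th1 : th ≤ Λ ^ 7842 := by
    rw [hth, div_le_iff₀ (by positivity), ← pow_add]; exact w2
  have a1 : |t1 * t3| ≤ 2 * (w ^ 2 * N * Λ ^ 7860) := by
    calc |t1 * t3| ≤ (w * Λ ^ 7855) * (2 * Λ * (w * N)) :=
          A26.abs_mul_le h1' (h3'.trans (by gcongr))
      _ = 2 * (w ^ 2 * N * Λ ^ 7856) := by ring
      _ ≤ _ := by
          have := p 7856 7860 (by norm_num)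
          gcongr
  have a2 : |th * tr| ≤ 4 * (w ^ 2 * N * Λ ^ 7860) := by
    calc |th * tr| ≤ Λ ^ 7842 * (2 * u ^ 2 * (2 * N)) :=
          A26.abs_mul_le (by rwa [abs_of_nonneg th0]) (htr.trans (by gcongr; linarith))
      _ = _ := by rw [hu]; ring
  rw [abs_le] at a1 a2 ⊢
  constructor <;> linarith [a1.1, a1.2, a2.1, a2.2]

theorem d2_le {d : ℕ} {Λ : ℝ} (hd : 3 ≤ d) (h : 10 ^ 20 * (d : ℝ) ^ 10 ≤ Λ) : (d : ℝ) ^ 2 ≤ Λ := by
  have h1 : (1 : ℝ) ≤ d := by exact_mod_cast (by omega : 1 ≤ d)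
  have h2 : (d : ℝ) ^ 2 ≤ (d : ℝ) ^ 10 := pow_le_pow_right₀ h1 (by norm_num)
  have h3 : (0 : ℝ) ≤ (d : ℝ) ^ 10 := by positivity
  linarith

theorem unit {Λ c x : ℝ} (hΛ : 10 ^ 20 ≤ Λ) (hx : 0 ≤ x) (hc : c ≤ 100) (a b : ℕ) (hab : a + 2 ≤ b) :
    c * (x * Λ ^ a) ≤ x * Λ ^ b / Λ := by
  have h1 : 1 ≤ Λ := by linarith [show (1 : ℝ) ≤ 10 ^ 20 by norm_num]
  have h100 : 100 ≤ Λ := by linarith [show (100 : ℝ) ≤ 10 ^ 20 by norm_num]
  rw [le_div_iff₀ (by linarith)]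
  calc c * (x * Λ ^ a) * Λ ≤ Λ * (x * Λ ^ a) * Λ := by gcongr; linarith
    _ = x * Λ ^ (a + 2) := by ring
    _ ≤ _ := mul_le_mul_of_nonneg_left (pow_le_pow_right₀ h1 hab) hx

end O1C

open O1C in
theorem O1_3_proof (hS : SM1Stmt) (hAvg : AvgStmt) (hPot : PotStmt) : O1Stmt 3 := by
  intro ι _ _ d p L Λ N₀ τ E F F' ε c
  obtain ⟨hΛ, w1, w2, hN, hZ, -, -, -, -, -, -, -, -, hSQ, hT1, hT2, -, -, t40, t41, -, -, -, h3,
    h3', hy, hQ, -, Q1, h1', -, -, -, -, hV, -, -, -, htr, hc, -, -⟩ :=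
    hS ι d p L Λ N₀ τ E F F' ε c
  have h1 : 1 ≤ Λ := by linarith [show (1 : ℝ) ≤ 10 ^ 20 by norm_num]
  have h10 : 10 ≤ Λ := by linarith [show (10 : ℝ) ≤ 10 ^ 20 by norm_num]
  have hΛN : Λ ^ 2 ≤ E.N := (pow_le_pow_right₀ h1 (by norm_num)).trans hN
  have N1000 : 1000 ≤ E.N := by nlinarith [show (1000 : ℝ) ≤ 10 ^ 20 by norm_num]
  have N0 : 0 < E.N := by linarith
  have hN₀ : N₀ = N₀ / E.N * E.N := by field_simp
  have N₀0 : 0 ≤ N₀ := by linarith [c.hi]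
  obtain ⟨r1, r2⟩ := ratio N1000 N₀0
  have T0 : 0 ≤ E.Tf := by linarith [c.ok.Tf1]
  obtain ⟨-, hT2At, hT2B, -⟩ := c.big.all
  have m1 := hT2At ι E F ε _ c.hL c.ok c.sF (Or.inl hV)
  have m2 := hT2B ι E F ε c.hL c.ok c.sF
  have hg : G1 Λ N₀ (E.N - 2) - G1 Λ N₀ E.N =
      ((N₀ / (E.N - 2)) ^ 3 - (N₀ / E.N) ^ 3) / (10 * Λ ^ 160) := by
    simp only [G1]; ring
  have htrC : trace (E.C * F ^ 3) = tk F 4 + trace (F' * F ^ 3) := by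
    rw [c.hC, Matrix.add_mul, trace_add, ← pow_succ']; rfl
  have hZ2 := Z_le hAvg c.ok
  have hZ1 : E.Z ≤ 101 / 100 * E.N ^ 2 := by
    have : E.N ^ 2 / Λ ^ 2 ≤ E.N ^ 2 / 100 :=
      div_le_div_of_nonneg_left (by positivity) (by norm_num) (by nlinarith)
    linarith [(abs_le.1 hZ).2]
  have hth := c.hth
  have hu := c.hu
  have hD := c.hD
  simp only [th1, u1, T41, sQ1, SQ1, K11, TP1] at hth hu t41 hy hQ hSQ h1' hV m1
  set g := G1 Λ N₀ (E.N - 2) - G1 Λ N₀ E.N with hgd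
  have key := (hPot ι E Λ c.ok h10 hΛN hZ).2.1 (tk F 2 - E.N + G1 Λ N₀ E.N) (sQ1 Λ N₀ E.N)
    (sQ1 Λ N₀ (E.N - 2)) 0
    (fun i j => tk (step F i j) 2 - (E.N - 2) + G1 Λ N₀ (E.N - 2))
  have ey : ∀ i j, tk (step F i j) 2 - (E.N - 2) + G1 Λ N₀ (E.N - 2)
      - (tk F 2 - E.N + G1 Λ N₀ E.N) = tk (step F i j) 2 - tk F 2 + 2 + g := fun i j => by
    rw [hgd]; ring
  simp only [ey, sQ1] at key
  have dr := drift hAvg c.ok c.sF g _ hV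
  have se := second hAvg c.ok g _ hV
  generalize hw' : N₀ / (E.N - 2) = w' at *
  generalize hw : N₀ / E.N = w at *
  have w0 : 0 < w := by linarith
  have g0 : 0 ≤ g := by
    rw [hg]
    have : w ^ 3 ≤ w' ^ 3 := pow_le_pow_left₀ w0.le r1 3
    exact div_nonneg (by linarith) (by positivity)
  have g1 : g * E.N ≤ 61 / 100 * (w ^ 2 * E.th) := by
    rw [hg, hth, div_mul_eq_mul_div, div_le_iff₀ (by positivity)]
    refine r2.trans (le_of_eq ?_)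
    field_simp
    ring
  have g2 : g * E.N ≤ w ^ 3 := by
    have a : E.th ≤ w := by rw [hth]; exact div_le_self w0.le (one_le_pow₀ h1)
    have b : w ^ 2 * E.th ≤ w ^ 2 * w := by gcongr
    have b' : 0 ≤ w ^ 2 * w := by positivity
    have b'' : w ^ 3 = w ^ 2 * w := by ring
    linarith
  rw [hN₀] at h3 h3'
  have k1 := errs hΛ w1 w2 hN hth hu hD T0 hT1 Q1 rfl hQ hSQ
  have k2 := mean3 hΛ w1 hN hth c.sF.sg rfl h1' h3 h3' (d2_le c.big.hd c.big.hΛ) t40 t41 c.xc htr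
    hc Q1 g0 g1 hZ1
  have k3 := sec hΛ w1 w2 hN hu T0 hT2 Q1 rfl hSQ g0 g2 hZ2 m2
  have k4 := unit (x := w ^ 2 * E.N) (c := 39) hΛ (by positivity) (by norm_num) 7830 7840
    (by norm_num)
  have s0 : 0 < w ^ 2 * Λ ^ 7840 := by positivity
  simp only [c1, obsR, sQ1, hw, hw']
  refine key hy s0 (by simp only [abs_zero]; positivity) ?_ (fun _ => ?_) (se.trans k3)
  · have a : w ^ 2 * Λ ^ 7840 ≤ w' ^ 2 * Λ ^ 7840 := by gcongr
    have b : 0 ≤ w ^ 2 * Λ ^ 7840 * (1 / (Λ * E.N)) := by positivity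
    simp only [zero_div, add_zero, mul_sub, mul_one]
    linarith
  · rw [htrC] at m1
    have e : E.N * (w ^ 2 * Λ ^ 7840) / Λ = w ^ 2 * E.N * Λ ^ 7840 / Λ := by ring
    rw [e]
    simp only [zero_mul, zero_add]
    linarith [(abs_le.1 dr).2, (abs_le.1 m1).2]

open O1C in
theorem O1_4_proof (hS : SM1Stmt) (hAvg : AvgStmt) (hPot : PotStmt) : O1Stmt 4 := by
  intro ι _ _ d p L Λ N₀ τ E F F' ε c
  obtain ⟨hΛ, w1, w2, hN, hZ, -, -, -, -, -, -, -, -, hSQ, hT1, hT2, -, -, -, -, -, -, -, -,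
    h3', -, hQ, -, Q1, -, h1', -, -, -, hV, -, -, -, -, -, -, htr⟩ :=
    hS ι d p L Λ N₀ τ E F F' ε c
  have h1 : 1 ≤ Λ := by linarith [show (1 : ℝ) ≤ 10 ^ 20 by norm_num]
  have h10 : 10 ≤ Λ := by linarith [show (10 : ℝ) ≤ 10 ^ 20 by norm_num]
  have hΛN : Λ ^ 2 ≤ E.N := (pow_le_pow_right₀ h1 (by norm_num)).trans hN
  have N1000 : 1000 ≤ E.N := by nlinarith [show (1000 : ℝ) ≤ 10 ^ 20 by norm_num]
  have N0 : 0 < E.N := by linarith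
  have hN₀ : N₀ = N₀ / E.N * E.N := by field_simp
  have N₀0 : 0 ≤ N₀ := by linarith [c.hi]
  obtain ⟨r1, -⟩ := ratio N1000 N₀0
  have T0 : 0 ≤ E.Tf := by linarith [c.ok.Tf1]
  obtain ⟨-, hT2At, hT2B, -⟩ := c.big.all
  have m1 := hT2At ι E F ε _ c.hL c.ok c.sF (Or.inl hV)
  have m2 := hT2B ι E F ε c.hL c.ok c.sF
  have hZ2 := Z_le hAvg c.ok
  have hth := c.hth
  have hu := c.hu
  have hD := c.hD
  simp only [th1, u1, SQ1, S11, TP1] at hth hu hQ hSQ h1' hV m1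
  have key := (hPot ι E Λ c.ok h10 hΛN hZ).2.2.1 (tk F 2 - E.N) (SQ1 Λ N₀ E.N)
    (SQ1 Λ N₀ (E.N - 2)) (fun i j => tk (step F i j) 2 - (E.N - 2))
  have ey : ∀ i j, tk (step F i j) 2 - (E.N - 2) - (tk F 2 - E.N) =
      tk (step F i j) 2 - tk F 2 + 2 + 0 := fun i j => by ring
  simp only [ey, SQ1] at key
  have dr := drift hAvg c.ok c.sF 0 _ hV
  have se := second hAvg c.ok 0 _ hV
  generalize hw' : N₀ / (E.N - 2) = w' at *
  generalize hw : N₀ / E.N = w at *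
  have w0 : 0 < w := by linarith
  rw [hN₀] at h3'
  have k1 := errs hΛ w1 w2 hN hth hu hD T0 hT1 Q1 rfl hQ hSQ
  have k2 := mean4 hΛ w1 w2 hN hth hu h1' h3' (d2_le c.big.hd c.big.hΛ) htr Q1
  have k3 := sec hΛ w1 w2 hN hu T0 hT2 Q1 rfl hSQ le_rfl (by simp only [zero_mul]; positivity)
    hZ2 m2
  have k4 := unit (x := w ^ 2 * E.N) (c := 51) hΛ (by positivity) (by norm_num) 7860 7864
    (by norm_num)
  have k5 : w ^ 2 * E.N * Λ ^ 7830 ≤ w ^ 2 * E.N * Λ ^ 7860 :=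
    mul_le_mul_of_nonneg_left (pow_le_pow_right₀ h1 (by norm_num)) (by positivity)
  have s0 : 0 < w ^ 2 * Λ ^ 7864 := by positivity
  simp only [c1, obsR, SQ1, hw, hw']
  refine key hQ s0 (by gcongr) ?_ (se.trans (k3.trans ?_))
  · have e : E.N * (w ^ 2 * Λ ^ 7864) / Λ = w ^ 2 * E.N * Λ ^ 7864 / Λ := by ring
    rw [e]
    have q0 : 0 ≤ (tk F 2 - E.N) ^ 2 := sq_nonneg _
    rw [abs_le] at dr m1 k2 ⊢
    constructor <;> linarith [dr.1, dr.2, m1.1, m1.2, k2.1, k2.2]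
  · have : Λ ^ 7840 ≤ Λ ^ 7864 := pow_le_pow_right₀ h1 (by norm_num)
    gcongr

end Crest.Agent.R62
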