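import Mathlib

/-!
Log-scale bookkeeping: `Up Λ X s` means `0 ≤ X ≤ Λ^s`, `Lo Λ X s` means `Λ^s ≤ X` (real exponents).
Monomial inequalities become linear arithmetic in the exponents.
-/

set_option autoImplicit false

namespace Crest.Agent.R62.Lg

def Up (Λ X s : ℝ) : Prop := 0 ≤ X ∧ X ≤ Λ ^ s
def Lo (Λ X s : ℝ) : Prop := Λ ^ s ≤ X

variable {Λ X Y s t m : ℝ}

theorem one_lt (h : 10 ^ 20 ≤ Λ) : 1 < Λ := lt_of_lt_of_le (by norm_num) h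
theorem pos (h : 10 ^ 20 ≤ Λ) : 0 < Λ := zero_lt_one.trans (one_lt h)
theorem epos (h : 10 ^ 20 ≤ Λ) (s : ℝ) : 0 < Λ ^ s := Real.rpow_pos_of_pos (pos h) s
theorem emono (h : 10 ^ 20 ≤ Λ) (hst : s ≤ t) : Λ ^ s ≤ Λ ^ t :=
  Real.rpow_le_rpow_of_exponent_le (one_lt h).le hst

theorem ten_le (h : 10 ^ 20 ≤ Λ) : 10 ≤ Λ ^ (1 / 20 : ℝ) := by
  have h1 : ((10 : ℝ) ^ 20) ^ (((20 : ℕ) : ℝ)⁻¹) = 10 :=
    Real.pow_rpow_inv_natCast (by norm_num) (by norm_num)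
  have h2 : (((20 : ℕ) : ℝ)⁻¹) = 1 / 20 := by norm_num
  rw [h2] at h1
  rw [← h1]
  exact Real.rpow_le_rpow (by positivity) h (by norm_num)

/-- Every positive real is a power of `Λ`. -/
theorem ex (h : 10 ^ 20 ≤ Λ) (hX : 0 < X) : ∃ a, Up Λ X a ∧ Lo Λ X a :=
  ⟨Real.logb Λ X, ⟨hX.le, (Real.rpow_logb (pos h) (one_lt h).ne' hX).ge⟩,
    (Real.rpow_logb (pos h) (one_lt h).ne' hX).le⟩

theorem exp_le (h : 10 ^ 20 ≤ Λ) (hl : Lo Λ X s) (hu : Up Λ X t) : s ≤ t :=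
  (Real.rpow_le_rpow_left_iff (one_lt h)).1 (le_trans hl hu.2)

theorem Lo.pos (h : 10 ^ 20 ≤ Λ) (hX : Lo Λ X s) : 0 < X := (epos h s).trans_le hX

theorem Up.mono (h : 10 ^ 20 ≤ Λ) (hX : Up Λ X s) (hst : s ≤ t) : Up Λ X t :=
  ⟨hX.1, hX.2.trans (emono h hst)⟩
theorem Lo.mono (h : 10 ^ 20 ≤ Λ) (hX : Lo Λ X s) (hst : t ≤ s) : Lo Λ X t :=
  (emono h hst).trans hX
theorem Up.of_le (hY : Up Λ Y s) (h0 : 0 ≤ X) (hXY : X ≤ Y) : Up Λ X s := ⟨h0, hXY.trans hY.2⟩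
theorem Lo.of_le (hX : Lo Λ X s) (hXY : X ≤ Y) : Lo Λ Y s := le_trans hX hXY

theorem Up.mul (h : 10 ^ 20 ≤ Λ) (hX : Up Λ X s) (hY : Up Λ Y t) : Up Λ (X * Y) (s + t) :=
  ⟨mul_nonneg hX.1 hY.1, by
    rw [Real.rpow_add (Lg.pos h)]; exact mul_le_mul hX.2 hY.2 hY.1 (epos h s).le⟩
theorem Lo.mul (h : 10 ^ 20 ≤ Λ) (hX : Lo Λ X s) (hY : Lo Λ Y t) : Lo Λ (X * Y) (s + t) := by
  unfold Lo
  rw [Real.rpow_add (Lg.pos h)]
  exact mul_le_mul hX hY (epos h t).le (hX.pos h).le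
theorem Up.div (h : 10 ^ 20 ≤ Λ) (hX : Up Λ X s) (hY : Lo Λ Y t) : Up Λ (X / Y) (s - t) :=
  ⟨div_nonneg hX.1 (hY.pos h).le, by
    rw [Real.rpow_sub (Lg.pos h)]; exact div_le_div₀ (epos h s).le hX.2 (epos h t) hY⟩
theorem Lo.div (h : 10 ^ 20 ≤ Λ) (hX : Lo Λ X s) (hY : Up Λ Y t) (h0 : 0 < Y) :
    Lo Λ (X / Y) (s - t) := by
  unfold Lo
  rw [Real.rpow_sub (Lg.pos h)]
  exact div_le_div₀ (hX.pos h).le hX h0 hY.2
theorem Up.sqrt (h : 10 ^ 20 ≤ Λ) (hX : Up Λ X s) : Up Λ (√X) (s / 2) :=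
  ⟨Real.sqrt_nonneg _, by
    refine Real.sqrt_le_iff.2 ⟨(epos h _).le, ?_⟩
    rw [sq, ← Real.rpow_add (Lg.pos h), add_halves]; exact hX.2⟩
theorem Lo.sqrt (h : 10 ^ 20 ≤ Λ) (hX : Lo Λ X s) : Lo Λ (√X) (s / 2) := by
  refine Real.le_sqrt_of_sq_le ?_
  rw [sq, ← Real.rpow_add (Lg.pos h), add_halves]
  exact hX
theorem Up.pow (h : 10 ^ 20 ≤ Λ) (hX : Up Λ X s) (k : ℕ) : Up Λ (X ^ k) (s * k) :=
  ⟨pow_nonneg hX.1 k, by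
    rw [Real.rpow_mul_natCast (Lg.pos h).le]; exact pow_le_pow_left₀ hX.1 hX.2 k⟩
theorem Lo.pow (h : 10 ^ 20 ≤ Λ) (hX : Lo Λ X s) (k : ℕ) : Lo Λ (X ^ k) (s * k) := by
  unfold Lo
  rw [Real.rpow_mul_natCast (Lg.pos h).le]
  exact pow_le_pow_left₀ (epos h s).le hX k

theorem upN (h : 10 ^ 20 ≤ Λ) (k : ℕ) : Up Λ (Λ ^ k) k :=
  ⟨(pow_pos (pos h) k).le, (Real.rpow_natCast Λ k).ge⟩
theorem loN (Λ : ℝ) (k : ℕ) : Lo Λ (Λ ^ k) k := (Real.rpow_natCast Λ k).le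
theorem up1 (h : 10 ^ 20 ≤ Λ) : Up Λ Λ 1 := ⟨(pos h).le, (Real.rpow_one Λ).ge⟩
theorem lo1 (Λ : ℝ) : Lo Λ Λ 1 := (Real.rpow_one Λ).le
theorem up_one (Λ : ℝ) : Up Λ 1 0 := ⟨zero_le_one, (Real.rpow_zero Λ).ge⟩
theorem lo_one (hX : 1 ≤ X) : Lo Λ X 0 := (Real.rpow_zero Λ).le.trans hX
/-- constants in `[0, 10]` -/
theorem upC (h : 10 ^ 20 ≤ Λ) (c : ℝ) (h0 : 0 ≤ c := by norm_num) (h1 : c ≤ 10 := by norm_num) :
    Up Λ c (1 / 20) := ⟨h0, h1.trans (ten_le h)⟩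
/-- constants in `[0, 10^20]` -/
theorem upB (h : 10 ^ 20 ≤ Λ) (c : ℝ) (h0 : 0 ≤ c := by norm_num)
    (h1 : c ≤ 10 ^ 20 := by norm_num) : Up Λ c 1 := (up1 h).of_le h0 (h1.trans h)
/-- constants `≥ 1/10` -/
theorem loC (h : 10 ^ 20 ≤ Λ) (c : ℝ) (h1 : 1 / 10 ≤ c := by norm_num) : Lo Λ c (-(1 / 20)) := by
  unfold Lo
  rw [Real.rpow_neg (pos h).le]
  refine le_trans ?_ h1
  rw [one_div (10 : ℝ)]
  exact inv_anti₀ (by norm_num) (ten_le h)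
theorem upInv (h : 10 ^ 20 ≤ Λ) (k : ℕ) : Up Λ (1 / Λ ^ k) (-k) := by
  simpa using (up_one Λ).div h (loN Λ k)
theorem loInv (h : 10 ^ 20 ≤ Λ) (k : ℕ) : Lo Λ (1 / Λ ^ k) (-k) := by
  simpa using (lo_one le_rfl).div h (upN h k) (pow_pos (pos h) k)

theorem ten_mul (h : 10 ^ 20 ≤ Λ) (m : ℝ) : 10 * Λ ^ (m - 1 / 20) ≤ Λ ^ m := by
  have := ((upC h 10).mul h (⟨(epos h _).le, le_rfl⟩ : Up Λ (Λ ^ (m - 1 / 20)) (m - 1 / 20))).2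
  rwa [add_sub_cancel] at this

theorem Up.add (h : 10 ^ 20 ≤ Λ) (hX : Up Λ X s) (hY : Up Λ Y t) (m : ℝ)
    (hs : s + 1 / 20 ≤ m := by push_cast; linarith)
    (ht : t + 1 / 20 ≤ m := by push_cast; linarith) :
    Up Λ (X + Y) m := by
  have h1 := (hX.mono h (t := m - 1 / 20) (by linarith)).2
  have h2 := (hY.mono h (t := m - 1 / 20) (by linarith)).2
  have h3 := ten_mul h m
  have h4 := epos h (m - 1 / 20)
  exact ⟨add_nonneg hX.1 hY.1, by linarith⟩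

theorem Up.add3 {Z r : ℝ} (h : 10 ^ 20 ≤ Λ) (hX : Up Λ X s) (hY : Up Λ Y t) (hZ : Up Λ Z r)
    (m : ℝ) (hs : s + 1 / 20 ≤ m := by push_cast; linarith)
    (ht : t + 1 / 20 ≤ m := by push_cast; linarith)
    (hr : r + 1 / 20 ≤ m := by push_cast; linarith) : Up Λ (X + Y + Z) m := by
  have h1 := (hX.mono h (t := m - 1 / 20) (by linarith)).2
  have h2 := (hY.mono h (t := m - 1 / 20) (by linarith)).2
  have h2' := (hZ.mono h (t := m - 1 / 20) (by linarith)).2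
  have h3 := ten_mul h m
  have h4 := epos h (m - 1 / 20)
  exact ⟨add_nonneg (add_nonneg hX.1 hY.1) hZ.1, by linarith⟩

theorem Up.add4 {Z r W q : ℝ} (h : 10 ^ 20 ≤ Λ) (hX : Up Λ X s) (hY : Up Λ Y t) (hZ : Up Λ Z r)
    (hW : Up Λ W q) (m : ℝ) (hs : s + 1 / 20 ≤ m := by push_cast; linarith)
    (ht : t + 1 / 20 ≤ m := by push_cast; linarith)
    (hr : r + 1 / 20 ≤ m := by push_cast; linarith)
    (hq : q + 1 / 20 ≤ m := by push_cast; linarith) : Up Λ (X + Y + Z + W) m := by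
  have h1 := (hX.mono h (t := m - 1 / 20) (by linarith)).2
  have h2 := (hY.mono h (t := m - 1 / 20) (by linarith)).2
  have h2' := (hZ.mono h (t := m - 1 / 20) (by linarith)).2
  have h2'' := (hW.mono h (t := m - 1 / 20) (by linarith)).2
  have h3 := ten_mul h m
  have h4 := epos h (m - 1 / 20)
  exact ⟨add_nonneg (add_nonneg (add_nonneg hX.1 hY.1) hZ.1) hW.1, by linarith⟩

/-- The comparison step. -/
theorem Up.le (h : 10 ^ 20 ≤ Λ) (hX : Up Λ X s) (hY : Lo Λ Y t)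
    (hst : s ≤ t := by push_cast; linarith) : X ≤ Y :=
  (hX.mono h hst).2.trans hY

theorem Up.le_inv (h : 10 ^ 20 ≤ Λ) (hX : Up Λ X s) (k : ℕ)
    (hst : s ≤ -(k : ℝ) := by push_cast; linarith) : X ≤ 1 / Λ ^ k :=
  hX.le h (loInv h k) hst

end Crest.Agent.R62.Lg
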