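import Crest.Agent.R62.DefsB
import Crest.Agent.R62.PLib
import Crest.Agent.R62.Lg

set_option autoImplicit false

namespace Crest.Agent.R62

open Matrix Finset

namespace O1D

open Lg

theorem ratio {N₀ N W Λ γ : ℝ} (hN : 2 < N) (hW : 0 ≤ W) (hΛ : 0 < Λ) (hγ : γ ≤ 4) :
    (N₀ / N) ^ 2 * W * (1 + γ / N - 3 / (Λ * N)) ≤ (N₀ / (N - 2)) ^ 2 * W := by
  have hN0 : 0 < N := by linarith
  have hN2 : 0 < N - 2 := by linarith
  have e : (N₀ / (N - 2)) ^ 2 * W = (N₀ / N) ^ 2 * W * (N / (N - 2)) ^ 2 := by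
    field_simp
  rw [e]
  refine mul_le_mul_of_nonneg_left ?_ (mul_nonneg (sq_nonneg _) hW)
  have h1 : 1 + 2 / N ≤ N / (N - 2) := by
    rw [le_div_iff₀ hN2]
    have : (1 + 2 / N) * (N - 2) = N - 4 / N := by field_simp; ring
    rw [this]
    have : 0 ≤ 4 / N := by positivity
    linarith
  have h2 : 0 ≤ 2 / N := by positivity
  have h3 : (1 + 2 / N) ^ 2 ≤ (N / (N - 2)) ^ 2 := pow_le_pow_left₀ (by linarith) h1 2
  have h4 : γ / N ≤ 4 / N := div_le_div_of_nonneg_right hγ hN0.le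
  have h5 : 0 ≤ 3 / (Λ * N) := by positivity
  have h6 : 4 / N = 2 * (2 / N) := by ring
  nlinarith [sq_nonneg (2 / N)]

theorem err7 {Λ y N P X e3 r th u Tf : ℝ} (h : 10 ^ 20 ≤ Λ) (y1 : 1 ≤ y) (y2 : y ≤ Λ ^ 8002)
    (hN : Λ ^ 23906 ≤ N) (P0 : 0 ≤ P) (P1 : P ≤ y ^ 2 * Λ ^ 7693) (X0 : 0 ≤ X)
    (X1 : X ≤ Λ ^ 39602) (e0 : 0 ≤ e3) (e1 : e3 ≤ 1 / Λ ^ 3900) (r0 : 0 ≤ r)
    (r1 : Λ ^ 3 * r ≤ √(y ^ 2 * Λ ^ 7693 / N)) (hth : th = y / Λ ^ 160) (hu : u = Λ ^ 9 * y)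
    (T0 : 0 ≤ Tf) (T1 : Tf ≤ u ^ 2) (s1 : √(y ^ 2 * Λ ^ 7693 / N) ≤ 1 / Λ ^ 104) :
    Λ * ((1 / Λ ^ 3 + e3 + √(P / N)) * N * P + √(N * P) * N * r + th * u * √(X * P)
      + N * (u ^ 2 + Tf) / (1 / Λ ^ 3)) ≤ 3 * N * (y ^ 2 * Λ ^ 7693) / Λ := by
  have h0 := pos h
  have hN0 : 0 < N := (pow_pos h0 _).trans_le hN
  obtain ⟨a, uy, ly⟩ := ex h (zero_lt_one.trans_le y1)
  obtain ⟨n, uN, lN⟩ := ex h hN0
  have a0 : 0 ≤ a := exp_le h (lo_one y1) uy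
  have a1 : a ≤ 8002 := by exact_mod_cast exp_le h ly ((upN h 8002).of_le uy.1 y2)
  have n0 : 23906 ≤ n := by exact_mod_cast exp_le h ((loN Λ 23906).of_le hN) uN
  have uT : Up Λ (y ^ 2 * Λ ^ 7693) (2 * a + 7693) :=
    ((uy.pow h 2).mul h (upN h 7693)).mono h (by push_cast; linarith)
  have lT : Lo Λ (y ^ 2 * Λ ^ 7693) (2 * a + 7693) :=
    ((ly.pow h 2).mul h (loN Λ 7693)).mono h (by push_cast; linarith)
  have uP : Up Λ P (2 * a + 7693) := uT.of_le P0 P1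
  have uX : Up Λ X (39602 : ℕ) := (upN h _).of_le X0 X1
  have ue : Up Λ e3 (-(3900 : ℕ)) := (upInv h _).of_le e0 e1
  have uth : Up Λ th (a - 160) := by
    rw [hth]; exact (uy.div h (loN Λ 160)).mono h (by norm_num)
  have uu : Up Λ u (a + 9) := by
    rw [hu]; exact ((upN h 9).mul h uy).mono h (by push_cast; linarith)
  have uTf : Up Λ Tf ((a + 9) * (2 : ℕ)) := (uu.pow h 2).of_le T0 T1
  have us : Up Λ (√(P / N)) (-(104 : ℕ)) := (upInv h _).of_le (Real.sqrt_nonneg _)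
    ((Real.sqrt_le_sqrt (div_le_div_of_nonneg_right P1 hN0.le)).trans s1)
  have ur : Up Λ r ((2 * a + 7693 - n) / 2 - (3 : ℕ)) :=
    (((uT.div h lN).sqrt h).div h (loN Λ 3)).of_le r0
      ((le_div_iff₀' (pow_pos h0 3)).2 r1)
  have t1 := (((upInv h 3).add3 h ue us (-2.9)).mul h uN).mul h uP
  have t2 := (((uN.mul h uP).sqrt h).mul h uN).mul h ur
  have t3 := (uth.mul h uu).mul h ((uX.mul h uP).sqrt h)
  have t4 := (uN.mul h ((uu.pow h 2).add h uTf (2 * a + 19))).div h (loInv h 3)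
  have t := (up1 h).mul h (t1.add4 h t2 t3 t4 (n + 2 * a + 7693 - 2.8))
  have l3 : Lo Λ 3 0 := lo_one (by norm_num)
  exact t.le h (((l3.mul h lN).mul h lT).div h (up1 h) h0)

theorem err8 {Λ y N P P2 e3 e4 K th u Tf w : ℝ} (h : 10 ^ 20 ≤ Λ) (y1 : 1 ≤ y)
    (y2 : y ≤ Λ ^ 8002) (hN : Λ ^ 23906 ≤ N) (P0 : 0 ≤ P) (P1 : P ≤ y ^ 2 * Λ ^ 22)
    (e0 : 0 ≤ e3) (e1 : e3 ≤ 1 / Λ ^ 3900) (r0 : 0 ≤ e4 + K * u / N)
    (r1 : Λ ^ 3 * (e4 + K * u / N) ≤ 1 / Λ ^ 104) (th0 : 0 ≤ th)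
    (th1 : th * u ^ 2 / N ≤ 1 / Λ ^ 42) (hu : u = Λ ^ 9 * y)
    (T0 : 0 ≤ Tf) (T1 : Tf ≤ u ^ 2) (s1 : √(P2 / N) ≤ 1 / Λ ^ 104) (w0 : 0 ≤ w) (w1 : w ≤ 1) :
    P ≤ N ∧ Λ * ((√(P2 / N) + e4 + (K + th * u) * u / N) * N * (w + P / (1 / Λ))
      + (u ^ 2 + Tf) * N + P ^ 2 + e3 * N * P) ≤ 3 * N * (y ^ 2 * Λ ^ 22) / Λ := by
  have h0 := pos h
  have hN0 : 0 < N := (pow_pos h0 _).trans_le hN
  obtain ⟨a, uy, ly⟩ := ex h (zero_lt_one.trans_le y1)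
  obtain ⟨n, uN, lN⟩ := ex h hN0
  have a0 : 0 ≤ a := exp_le h (lo_one y1) uy
  have a1 : a ≤ 8002 := by exact_mod_cast exp_le h ly ((upN h 8002).of_le uy.1 y2)
  have n0 : 23906 ≤ n := by exact_mod_cast exp_le h ((loN Λ 23906).of_le hN) uN
  have uT : Up Λ (y ^ 2 * Λ ^ 22) (2 * a + 22) :=
    ((uy.pow h 2).mul h (upN h 22)).mono h (by push_cast; linarith)
  have lT : Lo Λ (y ^ 2 * Λ ^ 22) (2 * a + 22) :=
    ((ly.pow h 2).mul h (loN Λ 22)).mono h (by push_cast; linarith)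
  have uP : Up Λ P (2 * a + 22) := uT.of_le P0 P1
  have ue : Up Λ e3 (-(3900 : ℕ)) := (upInv h _).of_le e0 e1
  have uu : Up Λ u (a + 9) := by
    rw [hu]; exact ((upN h 9).mul h uy).mono h (by push_cast; linarith)
  have uTf : Up Λ Tf ((a + 9) * (2 : ℕ)) := (uu.pow h 2).of_le T0 T1
  have us : Up Λ (√(P2 / N)) (-(104 : ℕ)) := (upInv h _).of_le (Real.sqrt_nonneg _) s1
  have ur : Up Λ (e4 + K * u / N) (-(104 : ℕ) - (3 : ℕ)) :=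
    ((upInv h 104).div h (loN Λ 3)).of_le r0 ((le_div_iff₀' (pow_pos h0 3)).2 r1)
  have uth : Up Λ (th * u ^ 2 / N) (-(42 : ℕ)) := (upInv h _).of_le (by positivity) th1
  have uw : Up Λ w 0 := (up_one Λ).of_le w0 w1
  have l1 : Lo Λ (1 / Λ) (0 - 1) := (lo_one le_rfl).div h (up1 h) h0
  have e : √(P2 / N) + e4 + (K + th * u) * u / N = √(P2 / N) + (e4 + K * u / N) + th * u ^ 2 / N := by
    ring
  rw [e]
  have t1 := ((us.add3 h ur uth (-41)).mul h uN).mul h (uw.add h (uP.div h l1) (2 * a + 24))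
  have t2 := ((uu.pow h 2).add h uTf (2 * a + 19)).mul h uN
  have t3 := uP.pow h 2
  have t4 := (ue.mul h uN).mul h uP
  have t := (up1 h).mul h (t1.add4 h t2 t3 t4 (n + 2 * a + 20))
  have l3 : Lo Λ 3 0 := lo_one (by norm_num)
  exact ⟨uP.le h lN, t.le h (((l3.mul h lN).mul h lT).div h (up1 h) h0)⟩

theorem sq_le {Λ N : ℝ} (h : 10 ^ 20 ≤ Λ) (hN : Λ ^ 23906 ≤ N) : Λ ^ 2 ≤ N :=
  (pow_le_pow_right₀ (one_lt h).le (by norm_num)).trans hN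

end O1D

open O1D Lg in
theorem O1_7_proof (hS : SM1Stmt) (_hAvg : AvgStmt) (hPot : PotStmt) : O1Stmt 7 := by
  intro ι _ _ d p L Λ N₀ τ E F F' ε c
  obtain ⟨h, y1, y2, hN, hZ, -, -, e3, -, r1, s1, -, -, -, -, T1, -, -, -, -, -, -, -, -, -, -, -,
    -, -, k1, -, P1, -, -, -, -, X0, -⟩ := hS ι d p L Λ N₀ τ E F F' ε c
  have h0 := pos h
  have h10 : (10 : ℝ) ≤ Λ := le_trans (by norm_num) h
  have hN2 := sq_le h hN
  have hN3 : 2 < E.N := by nlinarith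
  have hN0 : 0 < E.N := by linarith
  have hy : 0 < N₀ / E.N := zero_lt_one.trans_le y1
  have K0 : 0 ≤ K11 Λ N₀ E.N := (mul_pos hy (pow_pos h0 _)).le
  have u0 : 0 ≤ E.u := zero_le_one.trans c.ok.u1
  obtain ⟨-, -, -, -, -, -, -, -, -, -, hP2, -⟩ := c.big.all
  have hd := hP2 ι E F F' ε (1 / Λ ^ 3) (K11 Λ N₀ E.N) c.hL c.ok c.sF c.sF'.sy c.hC
    (one_div_pos.2 (pow_pos h0 _)) ((div_le_one (pow_pos h0 _)).2 (one_le_pow₀ (one_lt h).le))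
    K0 k1
  have P0 := PL.Pq_nonneg F 2
  have he := err7 (P := Pq F 2) (X := Xc F F') (e3 := E.eta3)
    (r := E.eta4 + K11 Λ N₀ E.N * E.u / E.N) (th := E.th) (u := E.u) (Tf := E.Tf) h y1 y2 hN P0
    P1 X0 c.xc (PL.eta3_nonneg c.ok) e3
    (add_nonneg (PL.eta4_nonneg c.ok) (div_nonneg (mul_nonneg K0 u0) hN0.le)) r1 c.hth c.hu
    (zero_le_one.trans c.ok.Tf1) T1 s1
  have hm : (8 * min (tk F 2) E.N - 4 * E.N) * Pq F 2 ≤ 4 * E.N * Pq F 2 :=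
    mul_le_mul_of_nonneg_right (by linarith [min_le_right (tk F 2) E.N]) P0
  exact (hPot ι E Λ c.ok h10 hN2 hZ).1 (Pq F 2) (TP1 Λ N₀ E.N) (TP1 Λ N₀ (E.N - 2)) 4
    (fun i j => Pq (step F i j) 2) P0 P1 (mul_pos (pow_pos hy _) (pow_pos h0 _))
    (by rw [abs_of_pos (by norm_num)]; linarith) (ratio hN3 (pow_pos h0 _).le h0 le_rfl)
    (hd.trans (add_le_add hm he))

open O1D Lg in
theorem O1_8_proof (hS : SM1Stmt) (_hAvg : AvgStmt) (hPot : PotStmt) : O1Stmt 8 := by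
  intro ι _ _ d p L Λ N₀ τ E F F' ε c
  obtain ⟨h, y1, y2, hN, hZ, -, -, e3, -, r1, s1, -, t1, -, -, T1, z1, w1, -, -, -, -, -, -, -, -, -,
    -, -, k1, -, P2, P1, -⟩ := hS ι d p L Λ N₀ τ E F F' ε c
  have h0 := pos h
  have h10 : (10 : ℝ) ≤ Λ := le_trans (by norm_num) h
  have hN2 := sq_le h hN
  have hN3 : 2 < E.N := by nlinarith
  have hN0 : 0 < E.N := by linarith
  have hy : 0 < N₀ / E.N := zero_lt_one.trans_le y1
  have K0 : 0 ≤ K11 Λ N₀ E.N := (mul_pos hy (pow_pos h0 _)).le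
  have u0 : 0 ≤ E.u := zero_le_one.trans c.ok.u1
  obtain ⟨-, -, -, -, -, -, -, -, -, -, -, hPP, -⟩ := c.big.all
  have P0 := PL.Pq_nonneg F p
  obtain ⟨hPN, he⟩ := err8 (P := Pq F p) (P2 := Pq F 2) (e3 := E.eta3) (e4 := E.eta4)
    (K := K11 Λ N₀ E.N) (th := E.th) (u := E.u) (Tf := E.Tf) (w := (1 / Λ) ^ (p - 1) * E.N)
    h y1 y2 hN P0 P1 (PL.eta3_nonneg c.ok) e3
    (add_nonneg (PL.eta4_nonneg c.ok) (div_nonneg (mul_nonneg K0 u0) hN0.le)) (r1.trans s1)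
    c.ok.th0 t1 c.hu (zero_le_one.trans c.ok.Tf1) T1
    ((Real.sqrt_le_sqrt (div_le_div_of_nonneg_right P2 hN0.le)).trans s1)
    (mul_nonneg (pow_nonneg (one_div_pos.2 h0).le _) hN0.le) w1
  have hd := hPP ι E F ε (1 / Λ) (K11 Λ N₀ E.N) c.hL c.ok c.sF (one_div_pos.2 h0)
    ((div_le_one h0).2 (one_lt h).le) K0 k1 z1 hPN
  have hm : (4 * min (tk F 2) E.N - 3 * E.N) * Pq F p ≤ 1 * E.N * Pq F p :=
    mul_le_mul_of_nonneg_right (by linarith [min_le_right (tk F 2) E.N]) P0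
  exact (hPot ι E Λ c.ok h10 hN2 hZ).1 (Pq F p) (Tp1 Λ N₀ E.N) (Tp1 Λ N₀ (E.N - 2)) 1
    (fun i j => Pq (step F i j) p) P0 P1 (mul_pos (pow_pos hy _) (pow_pos h0 _))
    (by rw [abs_of_pos (by norm_num)]; linarith) (ratio hN3 (pow_pos h0 _).le h0 (by norm_num))
    (hd.trans (add_le_add hm he))

end Crest.Agent.R62
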