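import Crest.Agent.R62.SM1

set_option autoImplicit false

namespace Crest.Agent.R62

open Matrix Finset

namespace O1E

open Lg

variable {ι : Type} [Fintype ι] [DecidableEq ι] {d p : ℕ} {L Λ N₀ τ : ℝ} {E : Env ι}
  {F F' : Mat ι} {ε : ℝ}

/-- Exponents of `y = N₀/N`, `N`, `Tf` in phase 1. -/
theorem setup (c : Ctx1 d p L Λ N₀ τ E F F' ε) :
    10 ^ 20 ≤ Λ ∧ 10 ≤ Λ ∧ Λ ^ 2 ≤ E.N ∧ 2 < E.N ∧ ∃ a n t : ℝ,
      Up Λ (N₀ / E.N) a ∧ Lo Λ (N₀ / E.N) a ∧ Up Λ E.N n ∧ Lo Λ E.N n ∧ Up Λ E.Tf t ∧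
      Lo Λ E.Tf t ∧ 0 ≤ a ∧ a ≤ 8002 ∧ 23906 ≤ n ∧ 31907 ≤ a + n ∧ a + n ≤ 31908 ∧ 8 ≤ t ∧
      3 * a - 16191 ≤ t ∧ t ≤ 7816 ∧ Up Λ E.th (a - 160) ∧ Up Λ E.u (a + 9) ∧ Lo Λ E.u (a + 9) ∧
      Up Λ E.D (a + 7700) ∧ Up Λ E.z (-330) ∧ Up Λ E.z' (-660) := by
  have h := SM1.big20 c.big
  have h0 := pos h
  have hN1 : Λ ^ 23906 ≤ E.N := by
    have := pow_pos h0 23906
    linarith [c.lo]
  have hN2 : 2 < E.N := by
    have := pow_pos h0 23906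
    linarith [c.lo]
  have hN0 : 0 < E.N := (pow_pos h0 _).trans_le hN1
  have hy1 : 1 ≤ N₀ / E.N := (one_le_div hN0).2 c.hi
  have uN0 : Up Λ N₀ (31908 : ℕ) := (upN h _).of_le (hN0.le.trans c.hi) c.big.hi
  have lN0 : Lo Λ N₀ (31907 : ℕ) := (loN Λ _).of_le c.big.lo
  have uy' : Up Λ (N₀ / E.N) 8002 :=
    (uN0.div h ((loN Λ 23906).of_le hN1)).mono h (by norm_num)
  obtain ⟨a, uy, ly⟩ := ex h (zero_lt_one.trans_le hy1)
  obtain ⟨n, uN, lN⟩ := ex h hN0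
  obtain ⟨t, uT, lT⟩ := ex h (zero_lt_one.trans_le c.ok.Tf1)
  have a0 : 0 ≤ a := exp_le h (lo_one hy1) uy
  have a1 : a ≤ 8002 := exp_le h ly uy'
  have n0 : 23906 ≤ n := by exact_mod_cast exp_le h ((loN Λ 23906).of_le hN1) uN
  have e : N₀ / E.N * E.N = N₀ := div_mul_cancel₀ _ hN0.ne'
  have an0 : 31907 ≤ a + n := by exact_mod_cast exp_le h lN0 (e ▸ uy.mul h uN)
  have an1 : a + n ≤ 31908 := by exact_mod_cast exp_le h (e ▸ ly.mul h lN) uN0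
  have uth : Up Λ E.th (a - 160) := by
    rw [c.hth]; exact (uy.div h (loN Λ 160)).mono h (by norm_num)
  have q1 := ((uy.pow h 3).div h (loN Λ 16191))
  have t0 : 8 ≤ t := by
    have : Lo Λ E.Tf (8 : ℕ) := by
      rw [c.hT]; exact (loN Λ 8).of_le (le_add_of_nonneg_right q1.1)
    exact_mod_cast exp_le h this uT
  have t1 : 3 * a - 16191 ≤ t := by
    have : Lo Λ E.Tf (a * (3 : ℕ) - (16191 : ℕ)) := by
      rw [c.hT]
      exact ((ly.pow h 3).div h (upN h 16191) (pow_pos h0 _)).of_le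
        (le_add_of_nonneg_left (pow_pos h0 _).le)
    have := exp_le h this uT
    push_cast at this
    linarith
  have t2 : t ≤ 7816 := by
    have : Up Λ E.Tf 7816 := by
      rw [c.hT]; exact (upN h 8).add h q1 7816
    exact exp_le h lT this
  refine ⟨h, le_trans (by norm_num) h, (upN h 2).le h lN, hN2, a, n, t, uy, ly, uN, lN, uT, lT,
    a0, a1, n0, an0, an1, t0, t1, t2, uth, ?_, ?_, ?_, ?_, ?_⟩
  · rw [c.hu]; exact ((upN h 9).mul h uy).mono h (by push_cast; linarith)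
  · rw [c.hu]; exact ((loN Λ 9).mul h ly).mono h (by push_cast; linarith)
  · rw [c.hD]
    exact ((up1 h).mul h ((upN h 1320).add h (uth.pow h 2) (a + 7690))).mono h (by linarith)
  · rw [c.hz]; exact (upInv h 330).mono h (by norm_num)
  · rw [c.hz']; exact (upInv h 660).mono h (by norm_num)

theorem upI (h : 10 ^ 20 ≤ Λ) {X : ℝ} {k : ℕ} (h0 : 0 ≤ X) (hX : X ≤ 1 / Λ ^ k) : Up Λ X (-k) :=
  (upInv h k).of_le h0 hX

theorem eta_nonneg (hE : E.Ok) : 0 ≤ E.eta ∧ 0 ≤ E.eta2 ∧ 0 ≤ E.eta3 ∧ 0 ≤ E.etaf := by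
  have := hE.th0
  have := zero_le_one.trans hE.u1
  have := zero_le_one.trans hE.D1'
  have := zero_le_one.trans hE.Tf1
  have := zero_le_one.trans (A26.N1 hE)
  unfold Env.eta Env.eta2 Env.eta3 Env.etaf
  refine ⟨?_, ?_, ?_, ?_⟩ <;> positivity

theorem rate0 {T N : ℝ} (hT : 0 < T) (hΛ : 0 < Λ) (hN : 0 < N) :
    T * (1 + 0 / N - 3 / (Λ * N)) ≤ T := by
  have : 0 ≤ 3 / (Λ * N) := by positivity
  rw [zero_div]
  nlinarith

end O1E

open O1E Lg in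
theorem O1_9_proof (hS : SM1Stmt) (_hAvg : AvgStmt) (hPot : PotStmt) : O1Stmt 9 := by
  intro ι _ _ d p L Λ N₀ τ E F F' ε c
  obtain ⟨h, h10, hΛN, hN2, a, n, t, uy, ly, uN, lN, uT, lT, a0, a1, n0, an0, an1, t0, t1, t2,
    uth, uu, lu, uD, uz, uz'⟩ := setup c
  obtain ⟨-, -, -, -, hZ, s1, -, -, -, -, -, -, -, -, -, -, -, -, -, -, -, -, -, -, -, -, -, -,
    sQ, -, s11, -, -, -, -, sr, -⟩ := hS ι d p L Λ N₀ τ E F F' ε c
  have h0 := pos h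
  have hN0 : 0 < E.N := by linarith
  have hT0 : 0 < E.Tf := lT.pos h
  obtain ⟨e1, -, -, -⟩ := eta_nonneg c.ok
  have hf0 : 0 ≤ fq F 2 := Finset.sum_nonneg fun _ _ => sq_nonneg _
  have hfT := c.sF.f2
  have key := c.big.all.2.2.2.2.2.2.2.2.1 ι E F ε (1 / Λ ^ 3) c.hL c.ok c.sF
    ((loInv h 3).pos h) ((upInv h 3).le h (lo_one le_rfl) (by norm_num))
  have hTT : E.Tf ≤ Tf1 Λ N₀ (E.N - 2) := by
    rw [c.hT]
    unfold Tf1
    have : N₀ / E.N ≤ N₀ / (E.N - 2) :=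
      div_le_div_of_nonneg_left (hN0.le.trans c.hi) (by linarith) (by linarith)
    have h2 := pow_le_pow_left₀ uy.1 this 3
    exact add_le_add le_rfl (div_le_div_of_nonneg_right h2 (pow_pos h0 _).le)
  have := (hPot ι E Λ c.ok h10 hΛN hZ).1 (fq F 2) E.Tf (Tf1 Λ N₀ (E.N - 2)) 0
    (fun i j => fq (step F i j) 2) hf0 hfT hT0 (by rw [abs_zero]; linarith)
    ((rate0 hT0 h0 hN0).trans hTT) (key.trans ?_)
  · change E.av (fun i j => fq (step F i j) 2 / Tf1 Λ N₀ (E.N - 2)) ≤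
      E.Z * (fq F 2 / Tf1 Λ N₀ E.N + 30 / (Λ * E.N))
    rw [← c.hT]
    exact this
  have uf : Up Λ (fq F 2) t := uT.of_le hf0 hfT
  have hr0 : 0 ≤ ∑ x, rr F x ^ 2 := Finset.sum_nonneg fun _ _ => sq_nonneg _
  have u3 : Up Λ (3 / Λ ^ 104) (-103) := ((upC h 3).div h (loN Λ 104)).mono h (by norm_num)
  have ur : Up Λ (∑ x, rr F x ^ 2) (n + 1 / 20) :=
    ((uN.mul h ((up_one Λ).add h u3 (1 / 20))).of_le hr0 sr)
  have u11 : Up Λ |tk F 1| (a + 7855) :=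
    ((uy.mul h (upN h 7855)).of_le (abs_nonneg _) s11).mono h (by norm_num)
  have uQ : Up Λ (tk F 2) (n + 1 / 20) :=
    (((upC h (101 / 100)).mul h uN).of_le (A26.Q0 c.sF) sQ).mono h (by linarith)
  have b1 : (2 * ∑ x, rr F x ^ 2 - 2 * E.N) * fq F 2 ≤ 2 * (E.N * (3 / Λ ^ 104)) * fq F 2 :=
    mul_le_mul_of_nonneg_right (by rw [mul_add] at sr; linarith) hf0
  have c1 := ((upC h 2).mul h (uN.mul h u3)).mul h uf
  have c2 := (((upC h 4).mul h u11).mul h (uf.sqrt h)).mul h (ur.sqrt h)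
  have c3 := (((upInv h 3).add3 h uz (upI h e1 s1) (-2.9)).mul h uN).mul h uT
  have c4 := uQ.div h (loInv h 3)
  have c5 := ((uN.mul h uT).sqrt h).mul h
    ((uth.mul h uu).add4 h uD (uN.sqrt h) uT ((n + t) / 2 - 3))
  have c6 := (up1 h).mul h (c3.add3 h c4 c5 (n + t - 2.5))
  have c7 := (c1.add3 h c2 c6 (n + t - 1)).le h
    (((lo_one (show (1 : ℝ) ≤ 3 by norm_num)).mul h lN).mul h lT |>.div h (up1 h) h0)
  rw [zero_mul, zero_mul, zero_add]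
  linarith

open O1E Lg in
theorem O1_10_proof (hS : SM1Stmt) (_hAvg : AvgStmt) (hPot : PotStmt) : O1Stmt 10 := by
  intro ι _ _ d p L Λ N₀ τ E F F' ε c
  obtain ⟨h, h10, hΛN, hN2, a, n, t, uy, ly, uN, lN, uT, lT, a0, a1, n0, an0, an1, t0, t1, t2,
    uth, uu, lu, uD, uz, uz'⟩ := setup c
  obtain ⟨-, -, -, -, hZ, -, -, s3, sf, -, sP, -, -, -, -, -, -, -, -, -, -, -, -, -, -, -, -, -,
    -, -, -, sP2, -, s8, -⟩ := hS ι d p L Λ N₀ τ E F F' ε c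
  have h0 := pos h
  have hN0 : 0 < E.N := by linarith
  have hT0 : 0 < 1 / Λ ^ 2641 := (loInv h _).pos h
  obtain ⟨-, -, e3, ef⟩ := eta_nonneg c.ok
  have hf0 : 0 ≤ fq F 8 := Finset.sum_nonneg fun _ _ => Even.pow_nonneg (by decide) _
  have key := c.big.all.2.2.2.2.2.2.2.2.2.1 ι E F ε (1 / Λ ^ 3) c.hL c.ok c.sF
    ((loInv h 3).pos h) ((upInv h 3).le h (lo_one le_rfl) (by norm_num))
  refine (hPot ι E Λ c.ok h10 hΛN hZ).1 (fq F 8) (1 / Λ ^ 2641) (1 / Λ ^ 2641) 0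
    (fun i j => fq (step F i j) 8) hf0 s8 hT0 (by rw [abs_zero]; linarith)
    (rate0 hT0 h0 hN0) (key.trans ?_)
  have uP : Up Λ (√(Pq F 2 / E.N)) (-(104 : ℕ)) := upI h (Real.sqrt_nonneg _)
    ((Real.sqrt_le_sqrt (div_le_div_of_nonneg_right sP2 hN0.le)).trans sP)
  have c1 := (((upInv h 3).add4 h uz (upI h e3 s3) uP (-2.9)).mul h uN).mul h (upI h hf0 s8)
  have c2 := ((uN.mul h ((upI h ef sf).pow h 6)).mul h uT).div h ((loInv h 3).pow h 5)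
  have c3 := (uN.mul h (uz'.pow h 5)).div h ((loInv h 3).pow h 7)
  have c4 := ((up1 h).mul h (c1.add3 h c2 c3 (n - 2643.5))).le h
    (((lo_one (show (1 : ℝ) ≤ 3 by norm_num)).mul h lN).mul h (loInv h 2641) |>.div h (up1 h) h0)
  rw [zero_mul, zero_mul, zero_add]
  exact c4

end Crest.Agent.R62
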