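import Crest.Agent.R62.DefsB

/-! Row 62, task O2A. -/

set_option autoImplicit false
set_option linter.unusedSectionVars false

namespace Crest.Agent.R62

open Matrix Finset

namespace O2A

theorem err {Λ N T t s v : ℝ} (hΛ : 10 ^ 20 ≤ Λ) (hN : 0 < N) (hNT : N ≤ T) (ht0 : 0 ≤ t)
    (ht : t ≤ T) (hs : s ≤ 3 / Λ ^ 5) (hv : 2 * Λ ^ 2 ≤ v) :
    Λ * (s * N * (N + t) + N * (T / v + t / v)) ≤ 2 * (N * T / Λ) := by
  have hΛ0 : 0 < Λ := by linarith [show (0 : ℝ) < 10 ^ 20 by norm_num]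
  have hΛ1 : 6 ≤ Λ := by linarith [show (6 : ℝ) ≤ 10 ^ 20 by norm_num]
  have hT : 0 < T := by linarith
  have hv0 : 0 < v := lt_of_lt_of_le (by positivity) hv
  have h1 : s * N * (N + t) ≤ 3 / Λ ^ 5 * N * (2 * T) :=
    mul_le_mul (mul_le_mul_of_nonneg_right hs hN.le) (by linarith) (by linarith) (by positivity)
  have h2 : T / v ≤ T / (2 * Λ ^ 2) := div_le_div_of_nonneg_left hT.le (by positivity) hv
  have h3 : t / v ≤ T / v := div_le_div_of_nonneg_right ht hv0.le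
  have h4 : N * (T / v + t / v) ≤ N * (2 * (T / (2 * Λ ^ 2))) :=
    mul_le_mul_of_nonneg_left (by linarith) hN.le
  have h5 : Λ * (N * (2 * (T / (2 * Λ ^ 2)))) = N * T / Λ := by field_simp
  have h6 : Λ * (3 / Λ ^ 5 * N * (2 * T)) = N * T / Λ * (6 / Λ ^ 3) := by field_simp; ring
  have h7 : 6 / Λ ^ 3 ≤ 1 := by
    rw [div_le_one (by positivity)]
    have : Λ ^ 1 ≤ Λ ^ 3 := pow_le_pow_right₀ (by linarith) (by norm_num)
    linarith
  have h8 := mul_le_mul_of_nonneg_left h7 (show 0 ≤ N * T / Λ by positivity)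
  have h9 := mul_le_mul_of_nonneg_left (add_le_add h1 h4) hΛ0.le
  rw [mul_add Λ (3 / Λ ^ 5 * N * (2 * T)), h5, h6] at h9
  linarith

theorem ww_step {Λ N : ℝ} (hΛ : 0 < Λ) (hN : 2 < N) :
    ww Λ (N - 2) = ww Λ N * ((N - 2) / N * ((N + Λ ^ 23842) / (N - 2 + Λ ^ 23842)) ^ 4) := by
  unfold ww xx sg
  have hA : 0 < Λ ^ 23906 := pow_pos hΛ _
  have hC : 0 < Λ ^ 23842 := pow_pos hΛ _
  generalize Λ ^ 23906 = A at *
  generalize Λ ^ 23842 = C at *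
  have : 0 < N - 2 + C := by linarith
  have : 0 < N + C := by linarith
  have : 0 < N := by linarith
  field_simp

theorem big_v {Λ x σ : ℝ} (hΛ : 10 ^ 20 ≤ Λ) (hx : 1 / Λ ^ 11285 ≤ x) (hσ : 1 ≤ σ) (e : ℕ)
    (he : 11290 ≤ e) : 2 * Λ ^ 2 ≤ √(Λ ^ e * (x * σ ^ 4)) := by
  have hΛ0 : 0 < Λ := by linarith [show (0 : ℝ) < 10 ^ 20 by norm_num]
  have hΛ1 : 4 ≤ Λ := by linarith [show (4 : ℝ) ≤ 10 ^ 20 by norm_num]
  refine Real.le_sqrt_of_sq_le ?_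
  have hP : 0 < Λ ^ 11285 := pow_pos hΛ0 _
  have h1 : Λ ^ (5 + 11285) ≤ Λ ^ e := pow_le_pow_right₀ (by linarith) he
  rw [pow_add] at h1
  have h2 : 1 ≤ Λ ^ 11285 * x := by
    rw [div_le_iff₀ hP] at hx
    linarith
  have hx0 : 0 < x := lt_of_lt_of_le (by positivity) hx
  have h3 : x ≤ x * σ ^ 4 := le_mul_of_one_le_right hx0.le (one_le_pow₀ hσ)
  generalize Λ ^ 11285 = P at *
  calc (2 * Λ ^ 2) ^ 2 = 4 * Λ ^ 4 := by ring
    _ ≤ Λ * Λ ^ 4 := mul_le_mul_of_nonneg_right hΛ1 (by positivity)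
    _ = Λ ^ 5 * 1 := by ring
    _ ≤ Λ ^ 5 * (P * x) := mul_le_mul_of_nonneg_left h2 (by positivity)
    _ = Λ ^ 5 * P * x := by ring
    _ ≤ _ := mul_le_mul h1 h3 hx0.le (by positivity)

theorem small {Λ η z κ μ β : ℝ} (hΛ : 10 ^ 20 ≤ Λ) (hη : η ≤ 1 / Λ ^ 3800) (hz : z = 1 / Λ ^ 330)
    (hκ : κ ≤ μ / Λ ^ 5) (hβ : 0 ≤ β) (hμ : β + μ = 1) : η + z + κ ≤ 3 / Λ ^ 5 := by
  have hΛ1 : 1 ≤ Λ := by linarith [show (1 : ℝ) ≤ 10 ^ 20 by norm_num]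
  have hP : 0 < Λ ^ 5 := by positivity
  have h1 : 1 / Λ ^ 3800 ≤ 1 / Λ ^ 5 :=
    one_div_le_one_div_of_le hP (pow_le_pow_right₀ hΛ1 (by norm_num))
  have h2 : 1 / Λ ^ 330 ≤ 1 / Λ ^ 5 :=
    one_div_le_one_div_of_le hP (pow_le_pow_right₀ hΛ1 (by norm_num))
  have h3 : μ / Λ ^ 5 ≤ 1 / Λ ^ 5 := div_le_div_of_nonneg_right (by linarith) hP.le
  have e : 3 / Λ ^ 5 = 1 / Λ ^ 5 + 1 / Λ ^ 5 + 1 / Λ ^ 5 := by ring
  rw [e, hz]
  exact add_le_add (add_le_add (hη.trans h1) h2) (hκ.trans h3)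

theorem cbd {Λ M c : ℝ} (hΛ : 10 ^ 20 ≤ Λ) (hM : 0 ≤ M) (hc : c ≤ 10 ^ 19) (n : ℕ) :
    c * (M / Λ ^ (n + 2)) ≤ M / Λ / 2 := by
  have hΛ1 : 1 ≤ Λ := by linarith [show (1 : ℝ) ≤ 10 ^ 20 by norm_num]
  have h1 : M / Λ ^ (n + 2) ≤ M / Λ ^ 2 :=
    div_le_div_of_nonneg_left hM (by positivity) (pow_le_pow_right₀ hΛ1 (by omega))
  have h2 : c * (M / Λ ^ (n + 2)) ≤ Λ / 2 * (M / Λ ^ 2) :=
    mul_le_mul (by linarith [show (10 : ℝ) ^ 20 = 10 * 10 ^ 19 by norm_num]) h1 (by positivity)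
      (by positivity)
  refine h2.trans (le_of_eq ?_)
  field_simp

theorem fin0 {Λ N T t Q t3 β X R : ℝ} (hΛ : 10 ^ 20 ≤ Λ) (hN : 0 < N) (t0 : 0 ≤ t) (tT : t ≤ T)
    (hβ : β ≤ 1) (hQ : Q ≤ β * N + N / Λ ^ 2) (h3 : t3 ≤ Q * t) (hR : R ≤ 2 * (N * T / Λ))
    (hX : X ≤ 2 * 4 * (Q - N) * t + 4 * t3 + R) : X ≤ (-4 + 8 * β) * N * t + 3 * N * T / Λ := by
  have hΛ0 : 0 < Λ := by linarith [show (0 : ℝ) < 10 ^ 20 by norm_num]
  have hT : 0 ≤ T := t0.trans tT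
  have e4 : Q * t ≤ (β * N + N / Λ ^ 2) * t := mul_le_mul_of_nonneg_right hQ t0
  have e5 : N / Λ ^ 2 * t ≤ N * T / Λ ^ (0 + 2) := by
    rw [zero_add, div_mul_eq_mul_div]
    exact div_le_div_of_nonneg_right (mul_le_mul_of_nonneg_left tT hN.le) (by positivity)
  have e6 := cbd (M := N * T) (c := 12) hΛ (by positivity) (by norm_num) 0
  have e7 : β * (N * t) ≤ 1 * (N * t) := mul_le_mul_of_nonneg_right hβ (by positivity)
  have e8 : 0 ≤ N * T / Λ := by positivity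
  have e9 : 3 * N * T / Λ = 3 * (N * T / Λ) := by ring
  rw [e9]
  linarith

theorem fin1 {Λ N T t Q S β X R : ℝ} (hΛ : 10 ^ 20 ≤ Λ) (hN : 0 < N) (t0 : 0 ≤ t) (tT : t ≤ T)
    (hβ : 0 ≤ β) (hQ : Q ≤ β * N + N / Λ ^ 2) (hS : S ≤ 31907 * (3 * (N * T / Λ ^ (2 + 2))))
    (hR : R ≤ 2 * (N * T / Λ)) (hX : X ≤ 2 * 31910 * (Q - N) * t + 31910 * S + R) :
    X ≤ (-31910 + 127632 * β) * N * t + 3 * N * T / Λ := by
  have hΛ0 : 0 < Λ := by linarith [show (0 : ℝ) < 10 ^ 20 by norm_num]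
  have hT : 0 ≤ T := t0.trans tT
  have e4 : Q * t ≤ (β * N + N / Λ ^ 2) * t := mul_le_mul_of_nonneg_right hQ t0
  have e5 : N / Λ ^ 2 * t ≤ N * T / Λ ^ (0 + 2) := by
    rw [zero_add, div_mul_eq_mul_div]
    exact div_le_div_of_nonneg_right (mul_le_mul_of_nonneg_left tT hN.le) (by positivity)
  have e6 := cbd (M := N * T) (c := 63820) hΛ (by positivity) (by norm_num) 0
  have e6' := cbd (M := N * T) (c := 31910 * (31907 * 3)) hΛ (by positivity) (by norm_num) 2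
  have e7 : 0 ≤ β * (N * t) := by positivity
  have e8 : 0 ≤ N * t := by positivity
  have e9 : 3 * N * T / Λ = 3 * (N * T / Λ) := by ring
  rw [e9]
  linarith

theorem cross {Λ N T t Q t4 T4 v W X : ℝ} (hΛ : 10 ^ 20 ≤ Λ) (hN : 0 < N) (hv : 0 < v)
    (hW : 0 ≤ W) (tT : t ≤ T) (hT : T = N * W * v) (hQ : Q ≤ 2 * N) (t40 : 0 ≤ t4)
    (t4T : t4 ≤ T4) (h3 : T4 * Λ ^ 9 = N * v ^ 2) (hX : |X| ≤ √(Q * t4) * (W * Q + t / v)) :
    X ≤ 3 * (N * T / Λ ^ (2 + 2)) := by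
  have hΛ0 : 0 < Λ := by linarith [show (0 : ℝ) < 10 ^ 20 by norm_num]
  have hΛ1 : 2 ≤ Λ := by linarith [show (2 : ℝ) ≤ 10 ^ 20 by norm_num]
  have hT0 : 0 ≤ T := by rw [hT]; positivity
  have h2 : √(Q * t4) ≤ N * v / Λ ^ 4 := by
    refine Real.sqrt_le_iff.2 ⟨by positivity, ?_⟩
    have h4 : Q * t4 ≤ 2 * N * T4 := mul_le_mul hQ t4T t40 (by linarith)
    have h5 : (N * v / Λ ^ 4) ^ 2 = Λ * N * T4 := by
      rw [div_pow, mul_pow, sq N, mul_assoc, ← h3]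
      field_simp
    rw [h5]
    exact h4.trans (mul_le_mul_of_nonneg_right
      (mul_le_mul_of_nonneg_right hΛ1 hN.le) (t40.trans t4T))
  have e1 : N * W = T / v := by rw [hT]; field_simp
  have h6 : W * Q ≤ 2 * (T / v) := by
    rw [← e1]
    have := mul_le_mul_of_nonneg_left hQ hW
    linarith
  have h7 : t / v ≤ T / v := div_le_div_of_nonneg_right tT hv.le
  have h8 : W * Q + t / v ≤ 3 * (T / v) := by linarith
  refine ((le_abs_self _).trans hX).trans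
    ((mul_le_mul_of_nonneg_left h8 (Real.sqrt_nonneg _)).trans
      ((mul_le_mul_of_nonneg_right h2 (by positivity)).trans (le_of_eq ?_)))
  field_simp
  ring

end O2A

open O2A in
theorem O2_0_proof (hS : SM2Stmt) (hAvg : AvgStmt) (hPot : PotStmt) (hCr : CrossStmt) :
    O2Stmt 0 := by
  intro ι _ _ d p L Λ N₀ τ E F F' ε c
  obtain ⟨hΛ, hN, hZ, rate, sg1, -, xlo, -, -, -, bm, blo, -, -, -, -, -, -, -, -, heta, -, -, -,
    hK, -, -, -, hK0, -, -, -, -, t40, t4T, -, -, -, hQ, -, hk1, -, -, -, -, h32, -⟩ :=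
    hS ι d p L Λ N₀ τ E F F' ε c
  have hΛ0 : 0 < Λ := by linarith [show (0 : ℝ) < 10 ^ 20 by norm_num]
  have hΛ1 : 100 ≤ Λ := by linarith [show (100 : ℝ) ≤ 10 ^ 20 by norm_num]
  have hΛN : Λ ^ 2 ≤ E.N := (pow_le_pow_right₀ (by linarith) (by norm_num)).trans hN
  have hN2 : 2 < E.N := by nlinarith
  have hN0 : 0 < E.N := by linarith
  have hβ0 : 0 ≤ be Λ E.N := le_trans (by positivity) blo
  have hβ1 : be Λ E.N ≤ 1 := by
    unfold be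
    rw [div_le_one (by positivity)]
    exact le_add_of_nonneg_right (by positivity)
  have hv : 2 * Λ ^ 2 ≤ √(Λ ^ 16013 * ww Λ E.N) := big_v hΛ xlo sg1 16013 (by norm_num)
  set v := √(Λ ^ 16013 * ww Λ E.N) with hvd
  have hv1 : 1 ≤ v := by nlinarith
  have hw0 : 0 ≤ Λ ^ 16013 * ww Λ E.N := by
    by_contra hneg
    rw [hvd, Real.sqrt_eq_zero'.2 (le_of_not_ge hneg)] at hv1
    linarith
  have hTv : T42 Λ E.N = E.N * v ^ 2 := by
    rw [hvd, Real.sq_sqrt hw0, T42, mul_assoc]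
  have hNT : E.N ≤ T42 Λ E.N := by
    rw [hTv]; exact le_mul_of_one_le_right hN0.le (one_le_pow₀ hv1)
  have mom := c.big.all.2.2.2.2.1 ι E F ε (K12 Λ E.N) v c.hL c.ok c.sF hv1
    (le_trans (by positivity) hK0) hk1
  have hr := rate 2 4 (Λ ^ 23842) (by norm_num) (by norm_num) (by positivity)
  refine (hPot ι E Λ c.ok (by linarith) hΛN hZ).1 (tk F 4) (T42 Λ E.N) (T42 Λ (E.N - 2))
    (-4 + 8 * be Λ E.N) (fun i j => tk (step F i j) 4) t40 t4T (by linarith) ?_ ?_ ?_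
  · rw [abs_le]; constructor <;> linarith
  · have e : T42 Λ (E.N - 2) = T42 Λ E.N * (((E.N - 2) / E.N) ^ 2 *
        ((E.N + Λ ^ 23842) / (E.N - 2 + Λ ^ 23842)) ^ 4) := by
      unfold T42
      rw [ww_step hΛ0 hN2]
      generalize (E.N + Λ ^ 23842) / (E.N - 2 + Λ ^ 23842) = s
      generalize Λ ^ 16013 = P
      field_simp
    rw [e]
    refine mul_le_mul_of_nonneg_left (le_trans ?_ hr) (by linarith)
    have h1 : 1 / (Λ * E.N) ≤ 3 / (Λ * E.N) :=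
      div_le_div_of_nonneg_right (by norm_num) (by positivity)
    have h2 : (-2 * ((2 : ℕ) : ℝ) + 2 * ((4 : ℕ) : ℝ) * (E.N / (E.N + Λ ^ 23842))) / E.N =
        (-4 + 8 * be Λ E.N) / E.N := by
      unfold be; push_cast; congr 1; ring
    rw [h2]
    linarith
  · have e1 : E.N * v ^ (4 - 3) = T42 Λ E.N / v := by
      rw [hTv, show 4 - 3 = 1 from rfl, pow_one]; field_simp
    rw [e1] at mom
    have e2 := err hΛ hN0 hNT t40 t4T (small hΛ heta c.hz hK hβ0 bm) hv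
    have e3 : ∑ a ∈ Icc 3 (4 - 1), tk F a * tk F (4 + 2 - a) = tk F 3 ^ 2 := by
      simp [sq]
    rw [e3] at mom
    rw [Nat.cast_ofNat] at mom
    exact fin0 hΛ hN0 t40 t4T hβ1 hQ h32 e2 mom

open O2A in
theorem O2_1_proof (hS : SM2Stmt) (hAvg : AvgStmt) (hPot : PotStmt) (hCr : CrossStmt) :
    O2Stmt 1 := by
  intro ι _ _ d p L Λ N₀ τ E F F' ε c
  obtain ⟨hΛ, hN, hZ, rate, sg1, -, xlo, -, -, -, bm, blo, -, -, -, -, -, -, -, -, heta, -, -, -,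
    hK, -, -, -, hK0, -, -, -, -, t40, t4T, tK0, tKT, -, hQ, hQ2, hk1, -⟩ :=
    hS ι d p L Λ N₀ τ E F F' ε c
  have hΛ0 : 0 < Λ := by linarith [show (0 : ℝ) < 10 ^ 20 by norm_num]
  have hΛ1 : 10 ^ 7 ≤ Λ := by linarith [show (10 ^ 7 : ℝ) ≤ 10 ^ 20 by norm_num]
  have hΛN : Λ ^ 2 ≤ E.N := (pow_le_pow_right₀ (by linarith) (by norm_num)).trans hN
  have hN2 : 2 < E.N := by nlinarith
  have hN0 : 0 < E.N := by linarith
  have hβ0 : 0 ≤ be Λ E.N := le_trans (by positivity) blo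
  have hβ1 : be Λ E.N ≤ 1 := by
    unfold be
    rw [div_le_one (by positivity)]
    exact le_add_of_nonneg_right (by positivity)
  have hv : 2 * Λ ^ 2 ≤ √(Λ ^ 16022 * ww Λ E.N) := big_v hΛ xlo sg1 16022 (by norm_num)
  set v := √(Λ ^ 16022 * ww Λ E.N) with hvd
  have hv1 : 1 ≤ v := by nlinarith
  have hv0 : 0 < v := by linarith
  have hw0 : 0 ≤ Λ ^ 16022 * ww Λ E.N := by
    by_contra hneg
    rw [hvd, Real.sqrt_eq_zero'.2 (le_of_not_ge hneg)] at hv1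
    linarith
  have hKK : KK = 31910 := rfl
  obtain ⟨m, hm⟩ : ∃ m, m = (KK - 2) / 2 := ⟨_, rfl⟩
  have hm1 : 2 * m = KK - 3 + 1 := by omega
  have hTv : TK2 Λ E.N = E.N * v ^ (KK - 3) * v := by
    rw [TK2, ← hm, ← Real.sq_sqrt hw0, ← hvd, ← pow_mul, hm1, pow_succ, mul_assoc]
  have hNT : E.N ≤ TK2 Λ E.N := by
    rw [hTv, mul_assoc]
    exact le_mul_of_one_le_right hN0.le (one_le_mul_of_one_le_of_one_le (one_le_pow₀ hv1) hv1)
  have mom := c.big.all.2.2.2.2.2.1 ι E F ε (K12 Λ E.N) v c.hL c.ok c.sF hv1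
    (le_trans (by positivity) hK0) hk1
  have hr := rate (m + 1) (4 * m) (Λ ^ 23842) (by omega) (by omega) (by positivity)
  have hmR : (m : ℝ) = 15954 := by
    have : m = 15954 := by omega
    rw [this]; norm_num
  have hKR : (KK : ℝ) = 31910 := by rw [hKK]; norm_num
  refine (hPot ι E Λ c.ok (by linarith) hΛN hZ).1 (tk F KK) (TK2 Λ E.N) (TK2 Λ (E.N - 2))
    (-31910 + 127632 * be Λ E.N) (fun i j => tk (step F i j) KK) tK0 tKT (by linarith) ?_ ?_ ?_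
  · rw [abs_le]; constructor <;> linarith
  · have e : TK2 Λ (E.N - 2) = TK2 Λ E.N * (((E.N - 2) / E.N) ^ (m + 1) *
        ((E.N + Λ ^ 23842) / (E.N - 2 + Λ ^ 23842)) ^ (4 * m)) := by
      unfold TK2
      rw [ww_step hΛ0 hN2, ← hm, ← mul_assoc (Λ ^ 16022), mul_pow _ (_ * _) m, mul_pow (_ / _),
        ← pow_mul, pow_succ ((E.N - 2) / E.N)]
      generalize ((E.N + Λ ^ 23842) / (E.N - 2 + Λ ^ 23842)) ^ (4 * m) = s
      generalize (Λ ^ 16022 * ww Λ E.N) ^ m = P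
      generalize ((E.N - 2) / E.N) ^ m = r
      field_simp
    rw [e]
    refine mul_le_mul_of_nonneg_left (le_trans ?_ hr) (by linarith)
    have h1 : 1 / (Λ * E.N) ≤ 3 / (Λ * E.N) :=
      div_le_div_of_nonneg_right (by norm_num) (by positivity)
    have h2 : (-2 * ((m + 1 : ℕ) : ℝ) + 2 * ((4 * m : ℕ) : ℝ) * (E.N / (E.N + Λ ^ 23842))) / E.N =
        (-31910 + 127632 * be Λ E.N) / E.N := by
      unfold be; push_cast; rw [hmR]; congr 1; ring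
    rw [h2]
    linarith
  · have e1 : E.N * v ^ (KK - 3) = TK2 Λ E.N / v := by
      rw [hTv]; field_simp
    have hQ0 : tk F 2 ≤ 2 * E.N :=
      hQ2.trans (mul_le_mul_of_nonneg_right (by linarith) hN0.le)
    have h3 : T42 Λ E.N * Λ ^ 9 = E.N * v ^ 2 := by
      rw [hvd, Real.sq_sqrt hw0, T42, show (16022 : ℕ) = 16013 + 9 from rfl, pow_add]
      generalize Λ ^ 16013 = P
      ring
    have cr : ∀ a ∈ Icc 3 (KK - 1), tk F a * tk F (KK + 2 - a) ≤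
        3 * (E.N * TK2 Λ E.N / Λ ^ (2 + 2)) := by
      intro a ha
      rw [mem_Icc] at ha
      exact cross hΛ hN0 hv0 (pow_nonneg hv0.le _) tKT hTv hQ0 t40 t4T h3
        (hCr ι F KK a v c.sF.sy (by rw [hKK]; decide) ha.1 (by omega) hv0)
    have e3 := sum_le_card_nsmul _ _ _ cr
    have e3' : (Icc 3 (KK - 1)).card = 31907 := by rw [Nat.card_Icc]; omega
    rw [e3', nsmul_eq_mul, Nat.cast_ofNat] at e3
    rw [e1, hKR] at mom
    exact fin1 hΛ hN0 tK0 tKT hβ0 hQ e3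
      (err hΛ hN0 hNT tK0 tKT (small hΛ heta c.hz hK hβ0 bm) hv) mom

end Crest.Agent.R62
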