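import Crest.Agent.R62.DefsB
import Crest.Agent.R62.Lg
import Crest.Agent.R62.Aux26

/-! Row 62, task O2B: the observable `tk F 2` in phase 2. -/

set_option autoImplicit false

namespace Crest.Agent.R62

open Matrix Finset

namespace O2B
open Lg

/-- The monomial inequalities. -/
theorem num {Λ N β μ L u Tf K η : ℝ} (h : 10 ^ 20 ≤ Λ) (hN : Λ ^ 12621 ≤ N)
    (hβ : 1 / Λ ^ 11221 ≤ β) (hμ : 1 / Λ ^ 65 ≤ μ) (hβμ : β + μ = 1)
    (hbm : Λ ^ 1400 ≤ N * β * μ) (hL0 : 2 ≤ L) (hL : 1000 * L ^ 10 ≤ Λ)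
    (hu : u ^ 2 / N ≤ 1 / Λ ^ 7622) (hT0 : 0 ≤ Tf) (hT : Tf / N ≤ 1 / Λ ^ 12611)
    (hη0 : 0 ≤ η) (hη : η ≤ 1 / Λ ^ 3800) (hK0 : 0 ≤ K) (hK : K ≤ μ / Λ ^ 5) :
    (2 * (N * β * μ / Λ ^ 2) ^ 2 + 2 * (Λ ^ 1321 * (L ^ 2 * N)) + 2 * (N * Λ ^ 1321)
        + 4 * ((K * N + √(N * Tf)) * (2 * β * N))
        + Λ * ((Λ ^ 1321 + Tf) * N + (u ^ 2 + η * N) * (2 * β * N)) ≤
      N * (N * β * μ / Λ ^ 2) / Λ) ∧
    72 * ((6 * L * β * N) ^ 2 + 2 * μ ^ 2 * N * (6 * L * β * N))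
        + 3 * (Λ * ((u ^ 2 * u ^ 2 + u ^ 2 * u ^ 2) * (2 * β * N) + N * Tf)) + 96 ≤
      N * (N * β * μ / Λ ^ 2) ^ 2 / Λ := by
  have hΛ := Lg.pos h
  have hN0 : 0 < N := lt_of_lt_of_le (by positivity) hN
  have hβ0 : 0 < β := lt_of_lt_of_le (by positivity) hβ
  have hμ0 : 0 < μ := lt_of_lt_of_le (by positivity) hμ
  obtain ⟨n, uN, lN⟩ := ex h hN0
  obtain ⟨b, uB, lB⟩ := ex h hβ0
  obtain ⟨m, uM, lM⟩ := ex h hμ0
  have e1 : (12621 : ℝ) ≤ n := by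
    have := exp_le h ((loN Λ 12621).of_le hN) uN
    exact_mod_cast this
  have e2 : (-11221 : ℝ) ≤ b := by
    have := exp_le h ((loInv h 11221).of_le hβ) uB
    exact_mod_cast this
  have e3 : (-65 : ℝ) ≤ m := by
    have := exp_le h ((loInv h 65).of_le hμ) uM
    exact_mod_cast this
  have e4 : b ≤ 0 := exp_le h lB ((up_one Λ).of_le hβ0.le (by linarith))
  have e5 : m ≤ 0 := exp_le h lM ((up_one Λ).of_le hμ0.le (by linarith))
  have e6 : (1400 : ℝ) ≤ n + b + m := by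
    have := exp_le h ((loN Λ 1400).of_le hbm) ((uN.mul h uB).mul h uM)
    exact_mod_cast this
  have hL1 : L ≤ Λ := by
    have : L ≤ L ^ 10 := le_self_pow₀ (by linarith) (by norm_num)
    have : 0 ≤ L ^ 10 := by positivity
    linarith
  have uL : Up Λ L 1 := (up1 h).of_le (by linarith) hL1
  have uu : Up Λ (u ^ 2) (-(7622 : ℕ) + n) :=
    ((upInv h 7622).mul h uN).of_le (sq_nonneg u) (by rwa [div_le_iff₀ hN0] at hu)
  have uT : Up Λ Tf (-(12611 : ℕ) + n) :=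
    ((upInv h 12611).mul h uN).of_le hT0 (by rwa [div_le_iff₀ hN0] at hT)
  have uη : Up Λ η (-(3800 : ℕ)) := (upInv h 3800).of_le hη0 hη
  have uK : Up Λ K (m - (5 : ℕ)) := (uM.div h (loN Λ 5)).of_le hK0 hK
  have us : Up Λ (N * β * μ / Λ ^ 2) (n + b + m - (2 : ℕ)) :=
    ((uN.mul h uB).mul h uM).div h (loN Λ 2)
  have ls : Lo Λ (N * β * μ / Λ ^ 2) (n + b + m - (2 : ℕ)) :=
    ((lN.mul h lB).mul h lM).div h (upN h 2) (by positivity)
  have uQ : Up Λ (2 * β * N) (1 / 20 + b + n) := ((upC h 2).mul h uB).mul h uN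
  constructor
  · have t1 := (upC h 2).mul h (us.pow h 2)
    have t2 := (upC h 2).mul h ((upN h 1321).mul h ((uL.pow h 2).mul h uN))
    have t3 := (upC h 2).mul h (uN.mul h (upN h 1321))
    have t4 := (upC h 4).mul h
      (((uK.mul h uN).add h ((uN.mul h uT).sqrt h) (m + n - 4 - 1 / 2)).mul h uQ)
    have t5 := ((upN h 1321).add h uT (n + b + m - 10)).mul h uN
    have t6 := (uu.add h (uη.mul h uN) (n - 3000)).mul h uQ
    have t7 := (up1 h).mul h (t5.add h t6 (2 * n + b + m - 6))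
    have t8 := (t1.add4 h t2 t3 t4 (2 * n + b + m - 3 - 1 / 2)).add h t7 (2 * n + b + m - 3)
    exact t8.le h ((lN.mul h ls).div h (up1 h) hΛ)
  · have uS : Up Λ (6 * L * β * N) (1 / 20 + 1 + b + n) :=
      (((upC h 6).mul h uL).mul h uB).mul h uN
    have t1 := (upB h 72).mul h ((uS.pow h 2).add h
      ((((upC h 2).mul h (uM.pow h 2)).mul h uN).mul h uS) (3 * n + 2 * b + 2 * m - 10))
    have t2 := (upC h 3).mul h ((up1 h).mul h
      ((((uu.mul h uu).add h (uu.mul h uu) (2 * n - 15000)).mul h uQ).add h (uN.mul h uT)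
        (3 * n + 2 * b + 2 * m - 10)))
    have t3 := t1.add3 h t2 (upB h 96) (3 * n + 2 * b + 2 * m - 5)
    exact t3.le h ((lN.mul h (ls.pow h 2)).div h (up1 h) hΛ)

/-- `TQ2 N - TQ2 (N-2) = 2 - γ_Q` with `2μ² ≤ γ_Q ≤ 2μ² + 4/N`. -/
theorem gam {N C : ℝ} (hN : 2 < N) (hC : 2 ≤ C) :
    ∃ g : ℝ, 0 ≤ g ∧ g ≤ 4 / N ∧
      N * (N / (N + C)) - (N - 2) * ((N - 2) / (N - 2 + C)) = 2 - 2 * (C / (N + C)) ^ 2 - g := by
  have h1 : 0 < N + C := by linarith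
  have h2 : 0 < N - 2 + C := by linarith
  refine ⟨4 * (C / (N + C)) ^ 2 / (N - 2 + C), by positivity, ?_, ?_⟩
  · have h3 : C / (N + C) ≤ 1 := by rw [div_le_one h1]; linarith
    have h4 : (C / (N + C)) ^ 2 ≤ 1 := pow_le_one₀ (by positivity) h3
    exact div_le_div₀ (by norm_num) (by linarith) (by linarith) (by linarith)
  · field_simp
    ring

end O2B

theorem O2_2_proof (hS : SM2Stmt) (hAvg : AvgStmt) (hPot : PotStmt) : O2Stmt 2 := by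
  intro ι _ _ d p L Λ N₀ τ E F F' ε c
  obtain ⟨h, hN, hZ, hrate, -, -, -, -, -, -, hβμ, hβ, hμ, hbm, -, hu, -, hT, -, hTu, hη, -, -,
    -, hK, -, -, -, hK1, -, -, -, -, -, -, -, -, hys, -, hQ, -, -, -, -, -, -, h13, -, hS, -⟩ :=
    hS ι d p L Λ N₀ τ E F F' ε c
  have ok := c.ok
  have sF := c.sF
  obtain ⟨a1, -, -, a4, -, -, -, -, -, -, -, a12, -, a14, a15⟩ := hAvg ι E ok
  have hΛ := Lg.pos h
  have hΛ1 : (1 : ℝ) ≤ Λ := (Lg.one_lt h).le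
  have hN2 : Λ ^ 2 ≤ E.N := (pow_le_pow_right₀ hΛ1 (by norm_num)).trans hN
  have hΛ10 : (10 : ℝ) ≤ Λ := le_trans (by norm_num) h
  have hN3 : 2 < E.N := by nlinarith
  have hN0 : 0 < E.N := by linarith
  have hC : (2 : ℝ) ≤ Λ ^ 23842 :=
    le_trans (by linarith) (le_self_pow₀ hΛ1 (by norm_num))
  have hβ0 : 0 < be Λ E.N := lt_of_lt_of_le (by positivity) hβ
  have hμ0 : 0 < mu Λ E.N := lt_of_lt_of_le (by positivity) hμ
  have hμ1 : mu Λ E.N ≤ 1 := by linarith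
  have hu0 : 0 ≤ E.u := by linarith [ok.u1]
  have hT0 : 0 ≤ E.Tf := by linarith [ok.Tf1]
  have hD0 : 0 ≤ E.D := by linarith [ok.D1']
  have hK0 : 0 ≤ K12 Λ E.N := le_trans (by positivity) hK1
  have hη0 : 0 ≤ E.eta := by
    unfold Env.eta; rw [c.hth]; positivity
  obtain ⟨n1, n2⟩ := O2B.num h hN hβ hμ hβμ hbm c.big.L2 c.big.LΛ hu hT0 hT hη0 hη
    (K := K12 Λ E.N * E.u / E.N) (div_nonneg (mul_nonneg hK0 hu0) hN0.le) hK
  obtain ⟨g, g0, g1, hg⟩ := O2B.gam hN3 hC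
  have hs0 : 0 < sQ2 Λ E.N := div_pos (mul_pos (mul_pos hN0 hβ0) hμ0) (pow_pos hΛ 2)
  have hdiff : ∀ i j, tk (step F i j) 2 - TQ2 Λ (E.N - 2) - (tk F 2 - TQ2 Λ E.N) =
      2 * ((rr F i - 1) * (rr F j - 1) - mu Λ E.N ^ 2) + rest F i j - g := by
    intro i j
    have : TQ2 Λ E.N - TQ2 Λ (E.N - 2) = 2 - 2 * mu Λ E.N ^ 2 - g := hg
    unfold rest
    linarith
  have hQ0 := A26.Q0 sF
  have hZ2 : E.Z ≤ 2 * E.N ^ 2 := by
    have h1 := (abs_le.1 hZ).2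
    have h2 : E.N ^ 2 / Λ ^ 2 ≤ E.N ^ 2 := div_le_self (by positivity) (one_le_pow₀ hΛ1)
    linarith
  have hZ0 : 0 ≤ E.Z := by
    have := a12 (fun _ _ => 0) (fun _ _ => 1) (fun _ _ _ => zero_le_one)
    simpa [Env.av, Env.Z] using this
  have hconst : ∀ k : ℝ, E.av (fun _ _ => k) = k * E.Z := by
    intro k
    have := A26.av_mul (E := E) k (fun _ _ => 1)
    simpa [Env.Z] using this
  refine (hPot ι E Λ ok hΛ10 hN2 hZ).2.1 (tk F 2 - TQ2 Λ E.N) (sQ2 Λ E.N) (sQ2 Λ (E.N - 2))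
    (-4 * mu Λ E.N) (fun i j => tk (step F i j) 2 - TQ2 Λ (E.N - 2)) hys hs0 ?_ ?_ ?_ ?_
  · rw [abs_le]; constructor <;> nlinarith
  · have hr := hrate 2 2 (Λ ^ 23842) (by norm_num) (by norm_num) (by positivity)
    have e1 : (-2 * ((2 : ℕ) : ℝ) + 2 * ((2 : ℕ) : ℝ) * (E.N / (E.N + Λ ^ 23842))) =
        -4 * mu Λ E.N := by
      have : be Λ E.N = E.N / (E.N + Λ ^ 23842) := rfl
      push_cast
      linarith
    rw [e1] at hr
    have e2 : sQ2 Λ (E.N - 2) = sQ2 Λ E.N *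
        (((E.N - 2) / E.N) ^ 2 * ((E.N + Λ ^ 23842) / (E.N - 2 + Λ ^ 23842)) ^ 2) := by
      unfold sQ2 be mu
      generalize Λ ^ 23842 = C at hC ⊢
      have h1 : 0 < E.N + C := by linarith
      have h2 : 0 < E.N - 2 + C := by linarith
      field_simp
    rw [e2]
    exact mul_le_mul_of_nonneg_left hr hs0.le
  · intro hy
    simp only [hdiff]
    rw [A26.av_sub, A26.av_add, A26.av_mul, A26.av_sub, hconst, hconst]
    have b1 : E.av (fun i j => (rr F i - 1) * (rr F j - 1)) =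
        E.av (fun i j => A26.rho E F i * A26.rho E F j) := by
      refine A26.av_congr fun i j hp => ?_
      obtain ⟨hi, hj, -⟩ := a14 i j hp
      simp [A26.rho, hi, hj]
    have b2 := (abs_le.1 (a4 (A26.rho E F) (A26.rho E F))).2
    rw [A26.sum_rho sF, c.hth, mul_assoc, Real.mul_self_sqrt (by positivity)] at b2
    have b3 := A26.sum_rho_sq ok sF
    have b4 := (abs_le.1 a1).1
    have b5 := (abs_le.1 (c.big.all.2.1 ι E F ε (tk F 2) c.hL ok sF (Or.inr le_rfl))).2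
    rw [c.hth] at b4 b5
    have b6 : (E.D + E.Tf) * E.u + √E.N ≤ E.eta * E.N := by
      unfold Env.eta
      rw [c.hth, div_mul_cancel₀ _ hN0.ne']
      have := Real.sqrt_nonneg E.N
      nlinarith [ok.u1]
    have b7 : tk F 1 * tk F 3 ≤ (K12 Λ E.N * E.u / E.N * E.N + √(E.N * E.Tf)) *
        (2 * be Λ E.N * E.N) := by
      rw [div_mul_cancel₀ _ hN0.ne']
      exact h13.trans (mul_le_mul_of_nonneg_left hQ
        (add_nonneg (mul_nonneg hK0 hu0) (Real.sqrt_nonneg _)))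
    have b8 : (E.u ^ 2 + (E.D + E.Tf + 0 * √E.Tf) * E.u) * tk F 2 + √E.N * tk F 2 ≤
        (E.u ^ 2 + E.eta * E.N) * (2 * be Λ E.N * E.N) := by
      calc _ = (E.u ^ 2 + ((E.D + E.Tf) * E.u + √E.N)) * tk F 2 := by ring
        _ ≤ _ := mul_le_mul (by linarith) hQ hQ0 (by positivity)
    have b9 : E.av (rest F) ≤ 4 * ((K12 Λ E.N * E.u / E.N * E.N + √(E.N * E.Tf)) *
        (2 * be Λ E.N * E.N)) + Λ * ((E.D + E.Tf) * E.N +
          (E.u ^ 2 + E.eta * E.N) * (2 * be Λ E.N * E.N)) := by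
      have : Λ * ((0 + E.D + E.Tf) * E.N + (E.u ^ 2 + (E.D + E.Tf + 0 * √E.Tf) * E.u) * tk F 2
          + √E.N * tk F 2) ≤ Λ * ((E.D + E.Tf) * E.N +
          (E.u ^ 2 + E.eta * E.N) * (2 * be Λ E.N * E.N)) :=
        mul_le_mul_of_nonneg_left (by linarith) hΛ.le
      linarith
    have b10 : (2 * 0 * E.u + E.D) * ∑ x, A26.rho E F x ^ 2 ≤ E.D * (E.L ^ 2 * E.N) := by
      rw [show 2 * 0 * E.u + E.D = E.D by ring]
      exact mul_le_mul_of_nonneg_left b3 hD0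
    have b11 : mu Λ E.N ^ 2 * E.N ^ 2 - E.N * E.D ≤ mu Λ E.N ^ 2 * E.Z := by
      have h1 : mu Λ E.N ^ 2 ≤ 1 := pow_le_one₀ hμ0.le hμ1
      have h2 : mu Λ E.N ^ 2 * (E.N ^ 2 - E.N * E.D) ≤ mu Λ E.N ^ 2 * E.Z :=
        mul_le_mul_of_nonneg_left (by linarith) (sq_nonneg _)
      have h3 : mu Λ E.N ^ 2 * (E.N * E.D) ≤ 1 * (E.N * E.D) :=
        mul_le_mul_of_nonneg_right h1 (by positivity)
      linarith
    have b12 : (tk F 2 - TQ2 Λ E.N) ^ 2 ≤ sQ2 Λ E.N ^ 2 := pow_le_pow_left₀ hy.le hys 2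
    have b13 : (tk F 2 - E.N) * (tk F 2 - E.N) = (tk F 2 - TQ2 Λ E.N) ^ 2
        - 2 * mu Λ E.N * E.N * (tk F 2 - TQ2 Λ E.N) + mu Λ E.N ^ 2 * E.N ^ 2 := by
      have : tk F 2 - E.N = (tk F 2 - TQ2 Λ E.N) - mu Λ E.N * E.N := by
        unfold TQ2
        have : be Λ E.N = 1 - mu Λ E.N := by linarith
        rw [this]; ring
      rw [this]; ring
    have b14 : 0 ≤ g * E.Z := by positivity
    rw [← c.hD, ← c.hL] at n1
    have e3 : sQ2 Λ E.N = E.N * be Λ E.N * mu Λ E.N / Λ ^ 2 := rfl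
    rw [← e3] at n1
    have b15 : E.av (fun i j => rest F i j) = E.av (rest F) := rfl
    rw [b1, b15]
    linarith
  · simp only [hdiff]
    have b1 : E.av (fun i j => (2 * ((rr F i - 1) * (rr F j - 1) - mu Λ E.N ^ 2) + rest F i j
        - g) ^ 2) ≤ E.av (fun i j => 12 * ((rr F i - 1) * (rr F j - 1) - mu Λ E.N ^ 2) ^ 2
          + 3 * rest F i j ^ 2 + 3 * g ^ 2) := by
      refine a12 _ _ fun i j _ => ?_
      generalize (rr F i - 1) * (rr F j - 1) - mu Λ E.N ^ 2 = x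
      generalize rest F i j = r
      nlinarith [sq_nonneg (2 * x - r), sq_nonneg (2 * x + g), sq_nonneg (r + g)]
    rw [A26.av_add, A26.av_add, A26.av_mul, A26.av_mul, hconst] at b1
    have b2 := a15 (fun x => rr F x - 1) (mu Λ E.N)
    have b3 := c.big.all.2.2.1 ι E F ε c.hL ok sF
    have hS0 : 0 ≤ ∑ x ∈ E.U, (rr F x - 1 + mu Λ E.N) ^ 2 := by positivity
    have b4 : (∑ x ∈ E.U, (rr F x - 1 + mu Λ E.N) ^ 2) ^ 2 + 2 * mu Λ E.N ^ 2 * E.N *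
        ∑ x ∈ E.U, (rr F x - 1 + mu Λ E.N) ^ 2 ≤ (6 * L * be Λ E.N * E.N) ^ 2 +
          2 * mu Λ E.N ^ 2 * E.N * (6 * L * be Λ E.N * E.N) :=
      add_le_add (pow_le_pow_left₀ hS0 hS 2) (mul_le_mul_of_nonneg_left hS
        (mul_nonneg (mul_nonneg zero_le_two (sq_nonneg _)) hN0.le))
    have b5 : (E.u ^ 4 + E.Tf * E.u ^ 2) * tk F 2 ≤
        (E.u ^ 2 * E.u ^ 2 + E.u ^ 2 * E.u ^ 2) * (2 * be Λ E.N * E.N) := by
      rw [show E.u ^ 4 = E.u ^ 2 * E.u ^ 2 by ring]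
      gcongr
    have b6 : Λ * ((E.u ^ 4 + E.Tf * E.u ^ 2) * tk F 2 + E.N * E.Tf) ≤
        Λ * ((E.u ^ 2 * E.u ^ 2 + E.u ^ 2 * E.u ^ 2) * (2 * be Λ E.N * E.N) + E.N * E.Tf) :=
      mul_le_mul_of_nonneg_left (by linarith) hΛ.le
    have b7 : 3 * g ^ 2 * E.Z ≤ 96 := by
      have h1 : g * E.N ≤ 4 := by rwa [le_div_iff₀ hN0] at g1
      have h2 : (g * E.N) ^ 2 ≤ 4 ^ 2 := pow_le_pow_left₀ (by positivity) h1 2
      have h3 : g ^ 2 * E.Z ≤ g ^ 2 * (2 * E.N ^ 2) :=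
        mul_le_mul_of_nonneg_left hZ2 (by positivity)
      nlinarith
    have e3 : sQ2 Λ E.N = E.N * be Λ E.N * mu Λ E.N / Λ ^ 2 := rfl
    rw [← e3] at n2
    linarith

end Crest.Agent.R62
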