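import Crest.Agent.R62.DefsB

/-! Row 62, task O2C: observables 3, 4, 5 of phase 2. -/

set_option autoImplicit false

namespace Crest.Agent.R62

open Matrix Finset

namespace O2C

theorem inv_le {Λ : ℝ} (h : 1 ≤ Λ) {a b : ℕ} (hab : a ≤ b) : 1 / Λ ^ b ≤ 1 / Λ ^ a :=
  one_div_le_one_div_of_le (by positivity) (pow_le_pow_right₀ h hab)

theorem rate {Λ N : ℝ} (hΛ : 0 < Λ) (hN : 2 < N) (m b : ℕ) :
    Λ ^ m * (xx Λ (N - 2) * sg Λ (N - 2) ^ b) = Λ ^ m * (xx Λ N * sg Λ N ^ b) *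
      (((N - 2) / N) ^ 1 * ((N + Λ ^ 23842) / (N - 2 + Λ ^ 23842)) ^ b) := by
  have h1 : 0 < Λ ^ 23842 := by positivity
  have e1 : xx Λ (N - 2) = xx Λ N * ((N - 2) / N) := by
    unfold xx
    field_simp
  have e2 : sg Λ (N - 2) = sg Λ N * ((N + Λ ^ 23842) / (N - 2 + Λ ^ 23842)) := by
    unfold sg
    generalize Λ ^ 23842 = C at h1
    have : 0 < N + C := by linarith
    have : 0 < N - 2 + C := by linarith
    field_simp
  rw [e1, e2, mul_pow]
  ring

theorem av_mul {ι : Type} [Fintype ι] (E : Env ι) (k : ℝ) (X : ι → ι → ℝ) :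
    E.av (fun i j => k * X i j) = k * E.av X := by
  simp only [Env.av, mul_sum]
  exact sum_congr rfl fun i _ => sum_congr rfl fun j _ => by ring

theorem Pq0 {ι : Type} [Fintype ι] (F : Mat ι) (q : ℕ) : 0 ≤ Pq F q :=
  sum_nonneg fun _ _ => pow_nonneg (le_max_right _ _) _

theorem fin {Λ N T : ℝ} (hΛ : 20 ≤ Λ) (hN : 0 ≤ N) (hT : 0 ≤ T) :
    20 * (N * T / Λ ^ 2) ≤ N * T / Λ := by
  have h0 : 0 < Λ := by linarith
  have e : N * T / Λ = Λ * (N * T / Λ ^ 2) := by field_simp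
  rw [e]
  exact mul_le_mul_of_nonneg_right hΛ (by positivity)

end O2C

open O2C

theorem O2_3_proof (hS : SM2Stmt) (_hAvg : AvgStmt) (hPot : PotStmt) : O2Stmt 3 := by
  intro ι _ _ d p L Λ N₀ τ E F F' ε c
  obtain ⟨hΛ, hN, hZ, hrate, hs1, -, hx0, -, -, -, hbm, hb0, hm0, -, -, -, -, -, -, hTu, -, -, -, -,
    -, -, -, -, hK, hKu, hKT, -, -, -, -, -, -, -, hQ, -, hy, -⟩ := hS ι d p L Λ N₀ τ E F F' ε c
  have hΛ20 : 20 ≤ Λ := le_trans (by norm_num) hΛ
  have hΛ1 : 1 ≤ Λ := by linarith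
  have hΛ0 : 0 < Λ := by linarith
  have hΛN : Λ ^ 2 ≤ E.N := (pow_le_pow_right₀ hΛ1 (by norm_num)).trans hN
  have hN2 : 2 < E.N := by nlinarith
  have hβ0 : 0 ≤ be Λ E.N := le_trans (by positivity) hb0
  have hβ1 : be Λ E.N ≤ 1 := by
    have : 0 ≤ mu Λ E.N := le_trans (by positivity) hm0
    linarith
  have hs0 : 0 < K12 Λ E.N := lt_of_lt_of_le (by positivity) hK
  obtain ⟨t1, t2⟩ := c.big.all.1 ι E F ε c.hL c.ok c.sF
  have hε : ε ^ 2 = 1 := by rcases c.sF.sg with h | h <;> rw [h] <;> norm_num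
  have hε1 : |ε| = 1 := by rcases c.sF.sg with h | h <;> rw [h] <;> norm_num
  have hu := c.ok.u1
  have hT := c.ok.Tf1
  refine (hPot ι E Λ c.ok (by linarith) hΛN hZ).2.1 (ε * tk F 1) (K12 Λ E.N) (K12 Λ (E.N - 2))
    (-2 + 2 * be Λ E.N) (fun i j => ε * tk (step F i j) 1) hy hs0 ?_ ?_ ?_ ?_
  · rw [abs_le]; constructor <;> linarith
  · have h1 := hrate 1 1 (Λ ^ 23842) (by norm_num) (by norm_num) (by positivity)
    have h2 := rate hΛ0 hN2 15694 1
    simp only [pow_one (sg _ _)] at h2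
    unfold K12
    rw [h2]
    refine mul_le_mul_of_nonneg_left (le_trans (le_of_eq ?_) h1) hs0.le
    unfold be
    push_cast
    ring
  · intro hy0
    have e1 : E.av (fun i j => ε * tk (step F i j) 1 - ε * tk F 1) =
        ε * E.av (fun i j => tk (step F i j) 1 - tk F 1) := by
      rw [← av_mul]; congr 1; funext i j; ring
    rw [e1]
    rw [c.hth, c.hD] at t1
    set a := E.av (fun i j => tk (step F i j) 1 - tk F 1)
    set s := K12 Λ E.N
    set W := E.N * s / Λ ^ 2 with hW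
    have hsq : √(E.Tf / E.N) ≤ 1 := by
      rw [Real.sqrt_le_one, div_le_one (by linarith)]
      exact c.ok.TfN
    have w : ∀ t : ℝ, Λ ^ 3 * t ≤ s → Λ * E.N * t ≤ W := by
      intro t ht
      rw [hW, le_div_iff₀ (by positivity)]
      calc Λ * E.N * t * Λ ^ 2 = E.N * (Λ ^ 3 * t) := by ring
        _ ≤ E.N * s := mul_le_mul_of_nonneg_left ht (by linarith)
    have w1 := w _ hKu
    have w2 := w _ hKT
    have w3 : Λ * E.N * Λ ^ 1321 ≤ W := w _ (by
      rw [← pow_add]; exact (pow_le_pow_right₀ hΛ1 (by norm_num)).trans hK)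
    have w4 : E.N ≤ W := by
      refine le_trans ?_ w3
      have : 1 ≤ Λ * Λ ^ 1321 := one_le_mul_of_one_le_of_one_le hΛ1 (one_le_pow₀ hΛ1)
      calc E.N = E.N * 1 := by ring
        _ ≤ E.N * (Λ * Λ ^ 1321) := mul_le_mul_of_nonneg_left this (by linarith)
        _ = _ := by ring
    have w5 : Λ * E.N * (Λ ^ 1321 * √(E.Tf / E.N)) ≤ W := by
      refine le_trans ?_ w3
      refine mul_le_mul_of_nonneg_left ?_ (by positivity)
      exact mul_le_of_le_one_right (by positivity) hsq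
    have w6 : ε * tk F 1 * (tk F 2 - E.N) ≤ ε * tk F 1 * ((be Λ E.N - 1) * E.N) + W := by
      have h1 : ε * tk F 1 * (tk F 2 - E.N) ≤
          ε * tk F 1 * ((be Λ E.N - 1) * E.N + E.N / Λ ^ 2) :=
        mul_le_mul_of_nonneg_left (by linarith) hy0.le
      have h2 : ε * tk F 1 * (E.N / Λ ^ 2) ≤ s * (E.N / Λ ^ 2) :=
        mul_le_mul_of_nonneg_right hy (by positivity)
      have e : s * (E.N / Λ ^ 2) = W := by rw [hW]; ring
      linarith
    have hfin := fin hΛ20 (by linarith : 0 ≤ E.N) hs0.le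
    rw [← hW] at hfin
    have hW0 : 0 ≤ W := by linarith
    generalize Λ ^ 1321 = D at *
    set m := 2 * tk F 1 * (tk F 2 - E.N) + 2 * E.N - 2 * 0 * trace (E.C * F ^ 2) with hm
    have h3 : ε * (a - m) ≤ |a - m| := by
      have := le_abs_self (ε * (a - m))
      rwa [abs_mul, hε1, one_mul] at this
    have h4 : ε * E.N ≤ E.N := by
      have := le_abs_self ε
      rw [hε1] at this
      exact mul_le_of_le_one_left (by linarith) this
    have e2 : ε * a = ε * (a - m) + 2 * (ε * tk F 1 * (tk F 2 - E.N)) + 2 * (ε * E.N) := by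
      rw [hm]; ring
    rw [e2]
    linarith
  · have e1 : E.av (fun i j => (ε * tk (step F i j) 1 - ε * tk F 1) ^ 2) =
        E.av (fun i j => (tk (step F i j) 1 - tk F 1) ^ 2) := by
      congr 1; funext i j
      rw [← mul_sub, mul_pow, hε, one_mul]
    rw [e1]
    refine t2.trans ?_
    rw [le_div_iff₀ hΛ0]
    have h1 : (Λ ^ 3 * E.u) ^ 2 ≤ K12 Λ E.N ^ 2 := pow_le_pow_left₀ (by positivity) hKu 2
    have h2 : 2 * Λ ^ 2 ≤ Λ ^ 6 := by
      have : 2 ≤ Λ ^ 4 := by nlinarith [sq_nonneg (Λ ^ 2), sq_nonneg Λ, one_le_pow₀ (n := 3) hΛ1]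
      calc 2 * Λ ^ 2 ≤ Λ ^ 4 * Λ ^ 2 := mul_le_mul_of_nonneg_right this (by positivity)
        _ = _ := by ring
    calc Λ * E.N * (E.Tf + E.u ^ 2) * Λ = E.N * (Λ ^ 2 * (E.Tf + E.u ^ 2)) := by ring
      _ ≤ E.N * (Λ ^ 2 * (2 * E.u ^ 2)) :=
          mul_le_mul_of_nonneg_left (mul_le_mul_of_nonneg_left (by linarith) (by positivity))
            (by linarith)
      _ = E.N * ((2 * Λ ^ 2) * E.u ^ 2) := by ring
      _ ≤ E.N * (Λ ^ 6 * E.u ^ 2) :=
          mul_le_mul_of_nonneg_left (mul_le_mul_of_nonneg_right h2 (by positivity)) (by linarith)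
      _ = E.N * (Λ ^ 3 * E.u) ^ 2 := by ring
      _ ≤ _ := mul_le_mul_of_nonneg_left h1 (by linarith)

theorem O2_4_proof (hS : SM2Stmt) (_hAvg : AvgStmt) (hPot : PotStmt) : O2Stmt 4 := by
  intro ι _ _ d p L Λ N₀ τ E F F' ε c
  obtain ⟨hΛ, hN, hZ, hrate, hs1, -, hx0, -, -, -, hbm, hb0, hm0, -, -, huN, -, -, -, hTu, -, hη3, -,
    -, -, h34, hP6, hP209, hK, -, -, -, -, -, -, -, -, -, hQ, -, hy, hP, -⟩ :=
    hS ι d p L Λ N₀ τ E F F' ε c
  have hΛ20 : 20 ≤ Λ := le_trans (by norm_num) hΛ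
  have hΛ1 : 1 ≤ Λ := by linarith
  have hΛ0 : 0 < Λ := by linarith
  have hΛN : Λ ^ 2 ≤ E.N := (pow_le_pow_right₀ hΛ1 (by norm_num)).trans hN
  have hN2 : 2 < E.N := by nlinarith
  have hN0 : 0 < E.N := by linarith
  have hβ0 : 0 ≤ be Λ E.N := le_trans (by positivity) hb0
  have hβ1 : be Λ E.N ≤ 1 := by
    have : 0 ≤ mu Λ E.N := le_trans (by positivity) hm0
    linarith
  have hs0 : 0 < K12 Λ E.N := lt_of_lt_of_le (by positivity) hK
  have hT0 : 0 < TP2 Λ E.N := by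
    have : 0 < TP2 Λ E.N / E.N := lt_of_lt_of_le (by positivity) hP209
    exact (div_pos_iff_of_pos_right hN0).1 this
  have t := c.big.all.2.2.2.2.2.2.2.2.2.2.1 ι E F F' ε (1 / Λ ^ 3) (K12 Λ E.N) c.hL c.ok c.sF
    c.sF'.sy c.hC (by positivity) (by simpa using inv_le hΛ1 (Nat.zero_le 3)) hs0.le hy
  have hP0 := Pq0 F 2
  have hu := c.ok.u1
  have hT := c.ok.Tf1
  refine (hPot ι E Λ c.ok (by linarith) hΛN hZ).1 (Pq F 2) (TP2 Λ E.N) (TP2 Λ (E.N - 2))
    (-2 + 6 * be Λ E.N) (fun i j => Pq (step F i j) 2) hP0 hP hT0 ?_ ?_ ?_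
  · rw [abs_le]; constructor <;> linarith
  · have h1 := hrate 1 3 (Λ ^ 23842) (by norm_num) (by norm_num) (by positivity)
    have h2 := rate hΛ0 hN2 23698 3
    unfold TP2
    rw [h2]
    refine mul_le_mul_of_nonneg_left (le_trans ?_ h1) hT0.le
    have : 1 / (Λ * E.N) ≤ 3 / (Λ * E.N) := div_le_div_of_nonneg_right (by norm_num) (by positivity)
    have e : (-2 + 6 * be Λ E.N) / E.N =
        (-2 * ((1 : ℕ) : ℝ) + 2 * ((3 : ℕ) : ℝ) * (E.N / (E.N + Λ ^ 23842))) / E.N := by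
      unfold be
      push_cast
      ring
    rw [e]
    linarith
  · refine t.trans ?_
    rw [c.hth]
    generalize TP2 Λ E.N = T at *
    generalize Pq F 2 = P at *
    obtain ⟨W, hW⟩ : ∃ W, W = E.N * T / Λ ^ 2 := ⟨_, rfl⟩
    have hfin := fin hΛ20 hN0.le hT0.le
    rw [← hW] at hfin
    have hW0 : 0 ≤ W := by rw [hW]; positivity
    have w1 : (8 * min (tk F 2) E.N - 4 * E.N) * P ≤ (-2 + 6 * be Λ E.N) * E.N * P + 8 * W := by
      have h1 : min (tk F 2) E.N ≤ be Λ E.N * E.N + E.N / Λ ^ 2 := (min_le_left _ _).trans hQ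
      have h2 : be Λ E.N * E.N ≤ 1 * E.N := mul_le_mul_of_nonneg_right hβ1 hN0.le
      have h3 : (8 * min (tk F 2) E.N - 4 * E.N) * P ≤
          ((-2 + 6 * be Λ E.N) * E.N + 8 * (E.N / Λ ^ 2)) * P :=
        mul_le_mul_of_nonneg_right (by linarith) hP0
      have h4 : E.N / Λ ^ 2 * P ≤ E.N / Λ ^ 2 * T := mul_le_mul_of_nonneg_left hP (by positivity)
      have e : E.N / Λ ^ 2 * T = W := by rw [hW]; ring
      linarith
    have hPN : √(P / E.N) ≤ 1 / Λ ^ 3 :=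
      ((Real.sqrt_le_sqrt (div_le_div_of_nonneg_right hP hN0.le)).trans hP6).trans
        (inv_le hΛ1 (by norm_num))
    have w2 : Λ * ((1 / Λ ^ 3 + E.eta3 + √(P / E.N)) * E.N * P) ≤ 3 * W := by
      have h1 : 1 / Λ ^ 3 + E.eta3 + √(P / E.N) ≤ 3 * (1 / Λ ^ 3) := by
        have := hη3.trans (inv_le hΛ1 (by norm_num : 3 ≤ 3800))
        linarith
      calc _ ≤ Λ * (3 * (1 / Λ ^ 3) * E.N * T) := by
            refine mul_le_mul_of_nonneg_left ?_ hΛ0.le
            exact mul_le_mul (mul_le_mul_of_nonneg_right h1 hN0.le) hP hP0 (by positivity)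
        _ = 3 * W := by rw [hW]; field_simp
    have w3 : Λ * (√(E.N * P) * E.N * (E.eta4 + K12 Λ E.N * E.u / E.N)) ≤ W := by
      have h1 : √(E.N * P) ≤ √(E.N * T) := Real.sqrt_le_sqrt (mul_le_mul_of_nonneg_left hP hN0.le)
      have h2 : E.eta4 + K12 Λ E.N * E.u / E.N ≤ √(T / E.N) / Λ ^ 3 := by
        rw [le_div_iff₀ (by positivity), mul_comm]; exact h34
      have h3 : √(E.N * T) * √(T / E.N) = T := by
        rw [← Real.sqrt_mul (by positivity), show E.N * T * (T / E.N) = T * T by field_simp,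
          Real.sqrt_mul_self hT0.le]
      rcases le_total 0 (E.eta4 + K12 Λ E.N * E.u / E.N) with h0 | h0
      · calc _ ≤ Λ * (√(E.N * T) * E.N * (√(T / E.N) / Λ ^ 3)) := by
              refine mul_le_mul_of_nonneg_left ?_ hΛ0.le
              exact mul_le_mul (mul_le_mul_of_nonneg_right h1 hN0.le) h2 h0 (by positivity)
          _ = E.N * (√(E.N * T) * √(T / E.N)) / Λ ^ 2 := by field_simp
          _ = W := by rw [h3, hW]
      · exact (mul_nonpos_of_nonneg_of_nonpos hΛ0.le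
          (mul_nonpos_of_nonneg_of_nonpos (by positivity) h0)).trans hW0
    have w4 : Λ * (E.N * (E.u ^ 2 + E.Tf) / (1 / Λ ^ 3)) ≤ 2 * W := by
      have h1 : E.u ^ 2 / E.N * Λ ^ 6 ≤ T / E.N := by
        refine le_trans ?_ hP209
        calc E.u ^ 2 / E.N * Λ ^ 6 ≤ 1 / Λ ^ 215 * Λ ^ 6 :=
              mul_le_mul_of_nonneg_right (huN.trans (inv_le hΛ1 (by norm_num))) (by positivity)
          _ = 1 / Λ ^ 209 := by field_simp
      have h2 : E.u ^ 2 * Λ ^ 6 ≤ T := by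
        have := mul_le_mul_of_nonneg_right h1 hN0.le
        rwa [div_mul_cancel₀ _ hN0.ne', show E.u ^ 2 / E.N * Λ ^ 6 * E.N = E.u ^ 2 * Λ ^ 6 by
          field_simp] at this
      calc _ = E.N * ((E.u ^ 2 + E.Tf) * Λ ^ 6) / Λ ^ 2 := by field_simp
        _ ≤ E.N * (2 * T) / Λ ^ 2 := by
            refine div_le_div_of_nonneg_right (mul_le_mul_of_nonneg_left ?_ hN0.le) (by positivity)
            have : E.Tf * Λ ^ 6 ≤ E.u ^ 2 * Λ ^ 6 := mul_le_mul_of_nonneg_right hTu (by positivity)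
            linarith
        _ = 2 * W := by rw [hW]; ring
    have e3 : 3 * E.N * T / Λ = 3 * (E.N * T / Λ) := by ring
    rw [e3]
    simp only [zero_mul, add_zero, mul_add Λ]
    linarith

theorem O2_5_proof (hS : SM2Stmt) (_hAvg : AvgStmt) (hPot : PotStmt) : O2Stmt 5 := by
  intro ι _ _ d p L Λ N₀ τ E F F' ε c
  obtain ⟨hΛ, hN, hZ, hrate, hs1, -, hx0, -, -, -, hbm, hb0, hm0, -, hu2, huN, -, -, -, hTu, -, hη3,
    -, -, -, h34, hP6, -, hK, -, -, hzp, hsp, -, -, -, -, -, hQ, -, hy, hP2, hP, -⟩ :=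
    hS ι d p L Λ N₀ τ E F F' ε c
  have hΛ20 : 20 ≤ Λ := le_trans (by norm_num) hΛ
  have hΛ1 : 1 ≤ Λ := by linarith
  have hΛ0 : 0 < Λ := by linarith
  have hΛN : Λ ^ 2 ≤ E.N := (pow_le_pow_right₀ hΛ1 (by norm_num)).trans hN
  have hN2 : 2 < E.N := by nlinarith
  have hN0 : 0 < E.N := by linarith
  have hβ0 : 0 ≤ be Λ E.N := le_trans (by positivity) hb0
  have hβ1 : be Λ E.N ≤ 1 := by
    have : 0 ≤ mu Λ E.N := le_trans (by positivity) hm0
    linarith
  have hs0 : 0 < K12 Λ E.N := lt_of_lt_of_le (by positivity) hK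
  have hu := c.ok.u1
  have hT := c.ok.Tf1
  have hTe : Tp2 Λ E.N = Λ ^ 4 * E.u ^ 2 := by
    rw [hu2]; unfold Tp2; ring
  have hT1 : 1 ≤ Tp2 Λ E.N := by
    rw [hTe]; exact one_le_mul_of_one_le_of_one_le (one_le_pow₀ hΛ1) (one_le_pow₀ hu)
  have hT0 : 0 < Tp2 Λ E.N := by linarith
  have hTN : Tp2 Λ E.N * Λ ^ 3 ≤ E.N := by
    have h1 : E.u ^ 2 / E.N ≤ 1 / Λ ^ 7 := huN.trans (inv_le hΛ1 (by norm_num))
    rw [div_le_div_iff₀ hN0 (by positivity)] at h1
    rw [hTe]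
    calc Λ ^ 4 * E.u ^ 2 * Λ ^ 3 = E.u ^ 2 * Λ ^ 7 := by ring
      _ ≤ _ := by linarith
  have hPN : Pq F p ≤ E.N := by
    refine hP.trans (le_trans ?_ hTN)
    exact le_mul_of_one_le_right hT0.le (one_le_pow₀ hΛ1)
  have t := c.big.all.2.2.2.2.2.2.2.2.2.2.2.1 ι E F ε (1 / Λ) (K12 Λ E.N) c.hL c.ok c.sF
    (by positivity) (by rw [div_le_one hΛ0]; exact hΛ1) hs0.le hy hzp hPN
  have hP0 := Pq0 F p
  refine (hPot ι E Λ c.ok (by linarith) hΛN hZ).1 (Pq F p) (Tp2 Λ E.N) (Tp2 Λ (E.N - 2))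
    (-2 + 8 * be Λ E.N) (fun i j => Pq (step F i j) p) hP0 hP hT0 ?_ ?_ ?_
  · rw [abs_le]; constructor <;> linarith
  · have h1 := hrate 1 4 (Λ ^ 23842) (by norm_num) (by norm_num) (by positivity)
    have h2 := rate hΛ0 hN2 16028 4
    unfold Tp2 ww
    rw [h2]
    refine mul_le_mul_of_nonneg_left (le_trans ?_ h1) hT0.le
    have : 1 / (Λ * E.N) ≤ 3 / (Λ * E.N) := div_le_div_of_nonneg_right (by norm_num) (by positivity)
    have e : (-2 + 8 * be Λ E.N) / E.N =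
        (-2 * ((1 : ℕ) : ℝ) + 2 * ((4 : ℕ) : ℝ) * (E.N / (E.N + Λ ^ 23842))) / E.N := by
      unfold be
      push_cast
      ring
    rw [e]
    linarith
  · refine t.trans ?_
    rw [c.hth]
    generalize Tp2 Λ E.N = T at *
    generalize Pq F p = P at *
    obtain ⟨W, hW⟩ : ∃ W, W = E.N * T / Λ ^ 2 := ⟨_, rfl⟩
    have hfin := fin hΛ20 hN0.le hT0.le
    rw [← hW] at hfin
    have hW0 : 0 ≤ W := by rw [hW]; positivity
    have w1 : (4 * min (tk F 2) E.N - 3 * E.N) * P ≤ (-2 + 8 * be Λ E.N) * E.N * P + 4 * W := by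
      have h1 : min (tk F 2) E.N ≤ be Λ E.N * E.N + E.N / Λ ^ 2 := (min_le_left _ _).trans hQ
      have h2 : 0 ≤ be Λ E.N * E.N := by positivity
      have h3 : (4 * min (tk F 2) E.N - 3 * E.N) * P ≤
          ((-2 + 8 * be Λ E.N) * E.N + 4 * (E.N / Λ ^ 2)) * P :=
        mul_le_mul_of_nonneg_right (by linarith) hP0
      have h4 : E.N / Λ ^ 2 * P ≤ E.N / Λ ^ 2 * T := mul_le_mul_of_nonneg_left hP (by positivity)
      have e : E.N / Λ ^ 2 * T = W := by rw [hW]; ring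
      linarith
    have w2 : Λ * ((√(Pq F 2 / E.N) + E.eta4 + (K12 Λ E.N + 0 * E.u) * E.u / E.N) * E.N
        * ((1 / Λ) ^ (p - 1) * E.N + P / (1 / Λ))) ≤ 4 * W := by
      have h0 : √(Pq F 2 / E.N) ≤ 1 / Λ ^ 6 :=
        (Real.sqrt_le_sqrt (div_le_div_of_nonneg_right hP2 hN0.le)).trans hP6
      have h1 : E.eta4 + K12 Λ E.N * E.u / E.N ≤ 1 / Λ ^ 6 := by
        rcases le_total 0 (E.eta4 + K12 Λ E.N * E.u / E.N) with h | h
        · exact (le_mul_of_one_le_left h (one_le_pow₀ hΛ1)).trans (h34.trans hP6)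
        · exact h.trans (by positivity)
      have h2 : √(Pq F 2 / E.N) + E.eta4 + (K12 Λ E.N + 0 * E.u) * E.u / E.N ≤ 2 * (1 / Λ ^ 4) := by
        have := inv_le hΛ1 (by norm_num : 4 ≤ 6)
        rw [zero_mul, add_zero]
        linarith
      have h3 : (1 / Λ) ^ (p - 1) * E.N + P / (1 / Λ) ≤ 2 * (Λ * T) := by
        have a1 : P / (1 / Λ) = Λ * P := by field_simp
        have a2 : Λ * P ≤ Λ * T := mul_le_mul_of_nonneg_left hP hΛ0.le
        have a3 : 1 ≤ Λ * T := one_le_mul_of_one_le_of_one_le hΛ1 hT1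
        linarith
      calc _ ≤ Λ * (2 * (1 / Λ ^ 4) * E.N * (2 * (Λ * T))) := by
            refine mul_le_mul_of_nonneg_left ?_ hΛ0.le
            exact mul_le_mul (mul_le_mul_of_nonneg_right h2 hN0.le) h3 (by positivity)
              (by positivity)
        _ = 4 * W := by rw [hW]; field_simp; norm_num
    have w3 : Λ * ((E.u ^ 2 + E.Tf) * E.N) ≤ 2 * W := by
      have h1 : E.u ^ 2 * Λ ^ 3 ≤ T := by
        rw [hTe, mul_comm]
        exact mul_le_mul_of_nonneg_right (pow_le_pow_right₀ hΛ1 (by norm_num)) (by positivity)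
      calc _ = E.N * ((E.u ^ 2 + E.Tf) * Λ ^ 3) / Λ ^ 2 := by field_simp
        _ ≤ E.N * (2 * T) / Λ ^ 2 := by
            refine div_le_div_of_nonneg_right (mul_le_mul_of_nonneg_left ?_ hN0.le) (by positivity)
            have : E.Tf * Λ ^ 3 ≤ E.u ^ 2 * Λ ^ 3 := mul_le_mul_of_nonneg_right hTu (by positivity)
            linarith
        _ = 2 * W := by rw [hW]; ring
    have w4 : Λ * P ^ 2 ≤ W := by
      calc Λ * P ^ 2 ≤ Λ * T ^ 2 := mul_le_mul_of_nonneg_left (pow_le_pow_left₀ hP0 hP 2) hΛ0.le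
        _ = T * Λ ^ 3 * T / Λ ^ 2 := by field_simp
        _ ≤ W := by
            rw [hW]
            exact div_le_div_of_nonneg_right (mul_le_mul_of_nonneg_right hTN hT0.le) (by positivity)
    have w5 : Λ * (E.eta3 * E.N * P) ≤ W := by
      have h1 := hη3.trans (inv_le hΛ1 (by norm_num : 3 ≤ 3800))
      calc _ ≤ Λ * (1 / Λ ^ 3 * E.N * T) := by
            refine mul_le_mul_of_nonneg_left ?_ hΛ0.le
            exact mul_le_mul (mul_le_mul_of_nonneg_right h1 hN0.le) hP hP0 (by positivity)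
        _ = W := by rw [hW]; field_simp
    have e3 : 3 * E.N * T / Λ = 3 * (E.N * T / Λ) := by ring
    rw [e3]
    simp only [mul_add Λ]
    linarith

end Crest.Agent.R62
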