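import Crest.Agent.R62.DefsB
import Crest.Agent.R62.PLib
import Crest.Agent.R62.Lg

set_option autoImplicit false

namespace Crest.Agent.R62

open Matrix Finset

namespace O2D

open Lg

theorem main {N f T S t κ s g w : ℝ} (f0 : 0 ≤ f) (f1 : f ≤ T) (N0 : 0 ≤ N) (k0 : 0 ≤ κ)
    (S1 : S ≤ κ ^ 2 * N) (S2 : S ≤ s * N) (t1 : t ≤ √(N * f)) (hg : 2 * s - 2 + 4 * κ ≤ g + w)
    (w0 : 0 ≤ w) : (2 * S - 2 * N) * f + 4 * t * √f * √S ≤ g * N * f + w * N * T := by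
  have h1 : √S ≤ κ * √N := by
    refine Real.sqrt_le_iff.2 ⟨by positivity, ?_⟩
    rw [mul_pow, Real.sq_sqrt N0]; exact S1
  have h2 : t * √f * √S ≤ κ * N * f := by
    calc t * √f * √S ≤ √(N * f) * √f * (κ * √N) := by
          refine mul_le_mul (mul_le_mul_of_nonneg_right t1 (Real.sqrt_nonneg _)) h1
            (Real.sqrt_nonneg _) (by positivity)
      _ = κ * (√N * √N) * (√f * √f) := by rw [Real.sqrt_mul N0]; ring
      _ = κ * N * f := by rw [Real.mul_self_sqrt N0, Real.mul_self_sqrt f0]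
  have h3 : S * f ≤ s * N * f := mul_le_mul_of_nonneg_right S2 f0
  have h4 : (2 * s - 2 + 4 * κ) * (N * f) ≤ (g + w) * (N * f) :=
    mul_le_mul_of_nonneg_right hg (mul_nonneg N0 f0)
  have h5 : w * N * f ≤ w * N * T := mul_le_mul_of_nonneg_left f1 (mul_nonneg w0 N0)
  nlinarith

theorem drift {Λ N f T S t Q : ℝ} (h : 10 ^ 20 ≤ Λ) (N0 : 0 < N) (f0 : 0 ≤ f) (f1 : f ≤ T)
    (S1 : S ≤ min Q N + 3 * N / Λ ^ 6) (Q1 : Q ≤ 2 * be Λ N * N) (t1 : t ≤ √(N * f)) :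
    (2 * S - 2 * N) * f + 4 * t * √f * √S ≤
      (-2 + 12 * (N / (N + Λ ^ 23836))) * N * f + 1 / Λ * N * T := by
  have h0 := pos h
  have hC : 0 < Λ ^ 23836 := pow_pos h0 _
  obtain ⟨δ, hδ⟩ : ∃ δ, δ = 1 / Λ ^ 3 := ⟨_, rfl⟩
  have d0 : 0 < δ := hδ ▸ one_div_pos.2 (pow_pos h0 _)
  have l1 : Lo Λ (1 / Λ) (0 - 1) := (lo_one le_rfl).div h (up1 h) h0
  have d1 : 100 * δ ≤ 1 / Λ := by
    rw [hδ]; exact ((upB h 100).mul h (upInv h 3)).le h l1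
  have d2 : 1 / Λ ≤ 1 := (div_le_one h0).2 (one_lt h).le
  have e6 : 3 * N / Λ ^ 6 = 3 * δ ^ 2 * N := by
    rw [hδ]; field_simp
  rw [e6] at S1
  have dd : δ ^ 2 ≤ δ := by nlinarith
  rcases le_total (Λ ^ 23836) N with hc | hc
  · have b1 : 1 / 2 ≤ N / (N + Λ ^ 23836) := by
      rw [le_div_iff₀ (by linarith)]; linarith
    have S2 : S ≤ (1 + 3 * δ ^ 2) * N := by linarith [min_le_right Q N]
    refine main (κ := 1 + 3 * δ ^ 2) f0 f1 N0.le (by positivity) (S2.trans ?_) S2 t1 ?_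
      (one_div_pos.2 h0).le
    · refine mul_le_mul_of_nonneg_right ?_ N0.le
      nlinarith [sq_nonneg δ]
    · linarith
  · have b0 : 0 ≤ N / (N + Λ ^ 23836) := by positivity
    have b1 : be Λ N ≤ δ ^ 2 := by
      have e : Λ ^ 23842 = Λ ^ 23836 * (Λ ^ 3) ^ 2 := by
        rw [← pow_mul, ← pow_add]
      have h3 : 0 < Λ ^ 3 := pow_pos h0 _
      unfold be
      rw [e, hδ]
      generalize Λ ^ 23836 = C at *
      generalize Λ ^ 3 = M at *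
      rw [div_pow, one_pow, div_le_div_iff₀ (by positivity) (by positivity)]
      nlinarith [mul_le_mul_of_nonneg_right hc (sq_nonneg M)]
    have Q2 : Q ≤ 2 * δ ^ 2 * N :=
      Q1.trans (mul_le_mul_of_nonneg_right (by linarith) N0.le)
    have S2 : S ≤ (5 * δ ^ 2) * N := by linarith [min_le_left Q N]
    refine main (κ := 3 * δ) f0 f1 N0.le (by positivity) (S2.trans ?_) S2 t1 ?_
      (one_div_pos.2 h0).le
    · refine mul_le_mul_of_nonneg_right ?_ N0.le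
      nlinarith [sq_nonneg δ]
    · linarith

theorem err6 {Λ N T Q η u : ℝ} (h : 10 ^ 20 ≤ Λ) (hN : Λ ^ 12621 ≤ N) (T0 : Λ ^ 9 ≤ T)
    (T1 : T / N ≤ 1 / Λ ^ 12611) (Q0 : 0 ≤ Q) (Q1 : Q ≤ 2 * N) (e0 : 0 ≤ η)
    (e1 : η ≤ 1 / Λ ^ 3800) :
    Λ * ((1 / Λ ^ 3 + 1 / Λ ^ 330 + η) * N * T + Q / (1 / Λ ^ 3)
      + √(N * T) * (0 * u + Λ ^ 1321 + √N + T)) ≤ 1 / Λ * N * T := by
  have h0 := pos h
  have hN0 : 0 < N := (pow_pos h0 _).trans_le hN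
  have hT0 : 0 < T := (pow_pos h0 _).trans_le T0
  obtain ⟨t, uT, lT⟩ := ex h hT0
  obtain ⟨n, uN, lN⟩ := ex h hN0
  have n0 : 12621 ≤ n := by exact_mod_cast exp_le h ((loN Λ 12621).of_le hN) uN
  have t0 : 9 ≤ t := by exact_mod_cast exp_le h ((loN Λ 9).of_le T0) uT
  have t1 : t - n ≤ -12611 := by
    exact_mod_cast exp_le h (lT.div h uN hN0) ((upInv h 12611).of_le (by positivity) T1)
  have l1 : Lo Λ (1 / Λ) (0 - 1) := (lo_one le_rfl).div h (up1 h) h0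
  have ue : Up Λ η (-(3800 : ℕ)) := (upInv h _).of_le e0 e1
  have uQ : Up Λ Q (1 / 20 + n) := ((upC h 2).mul h uN).of_le Q0 Q1
  rw [zero_mul, zero_add]
  have s1 := (((upInv h 3).add3 h (upInv h 330) ue (-2.9)).mul h uN).mul h uT
  have s2 := uQ.div h (loInv h 3)
  have s3 := ((uN.mul h uT).sqrt h).mul h
    ((upN h 1321).add3 h (uN.sqrt h) uT ((n + t) / 2 - 2.9))
  exact ((up1 h).mul h (s1.add3 h s2 s3 (n + t - 2.8))).le h ((l1.mul h lN).mul h lT)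

theorem err7 {Λ N T f η3 ηf s : ℝ} (h : 10 ^ 20 ≤ Λ) (hN0 : 0 < N) (T0 : 0 ≤ T)
    (T1 : T ≤ Λ ^ 11225) (f0 : 0 ≤ f) (f1 : f ≤ 1 / Λ ^ 2640) (e0 : 0 ≤ η3)
    (e1 : η3 ≤ 1 / Λ ^ 3800) (g0 : 0 ≤ ηf) (g1 : ηf ≤ 1 / Λ ^ 6300) (s0 : 0 ≤ s)
    (s1 : s ≤ 1 / Λ ^ 6) :
    Λ * ((1 / Λ ^ 3 + 1 / Λ ^ 330 + η3 + s) * N * f + N * ηf ^ 6 * T / (1 / Λ ^ 3) ^ 5
      + N * (1 / Λ ^ 660) ^ 5 / (1 / Λ ^ 3) ^ 7) ≤ 3 * N * (1 / Λ ^ 2640) / Λ := by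
  have h0 := pos h
  obtain ⟨n, uN, lN⟩ := ex h hN0
  have uT : Up Λ T (11225 : ℕ) := (upN h _).of_le T0 T1
  have uf : Up Λ f (-(2640 : ℕ)) := (upInv h _).of_le f0 f1
  have ue : Up Λ η3 (-(3800 : ℕ)) := (upInv h _).of_le e0 e1
  have ug : Up Λ ηf (-(6300 : ℕ)) := (upInv h _).of_le g0 g1
  have us : Up Λ s (-(6 : ℕ)) := (upInv h _).of_le s0 s1
  have s1 := (((upInv h 3).add4 h (upInv h 330) ue us (-2.9)).mul h uN).mul h uf
  have s2 := ((uN.mul h (ug.pow h 6)).mul h uT).div h ((loInv h 3).pow h 5)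
  have s3 := (uN.mul h ((upInv h 660).pow h 5)).div h ((loInv h 3).pow h 7)
  have l3 : Lo Λ 3 0 := lo_one (by norm_num)
  exact ((up1 h).mul h (s1.add3 h s2 s3 (n - 2640 - 2.8))).le h
    (((l3.mul h lN).mul h (loInv h 2640)).div h (up1 h) h0)

theorem sq_le {Λ N : ℝ} (h : 10 ^ 20 ≤ Λ) (hN : Λ ^ 12621 ≤ N) : Λ ^ 2 ≤ N :=
  (pow_le_pow_right₀ (one_lt h).le (by norm_num)).trans hN

theorem Tf2_eq {Λ N : ℝ} (h0 : 0 < Λ) (hN : 2 < N) :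
    Tf2 Λ (N - 2) = Tf2 Λ N *
      (((N - 2) / N) ^ 1 * ((N + Λ ^ 23836) / (N - 2 + Λ ^ 23836)) ^ 6) := by
  have hC : 0 < Λ ^ 23836 := pow_pos h0 _
  have hB : 0 < Λ ^ 12621 := pow_pos h0 _
  unfold Tf2
  generalize Λ ^ 23836 = C at *
  generalize Λ ^ 12621 = B at *
  generalize Λ ^ 10 = A at *
  have h1 : N ≠ 0 := by linarith
  have h2 : N + C ≠ 0 := by linarith
  have h3 : N - 2 + C ≠ 0 := by linarith
  field_simp

end O2D

open O2D Lg in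
theorem O2_6_proof (hS : SM2Stmt) (_hAvg : AvgStmt) (hPot : PotStmt) : O2Stmt 6 := by
  intro ι _ _ d p L Λ N₀ τ E F F' ε c
  obtain ⟨h, hN, hZ, rate, -, -, -, -, -, -, bm, -, mu1, -, -, -, T0, T1, -, -, e1, -, -, -, -, -, -,
    -, -, -, -, -, -, -, -, -, -, -, -, Q1, -, -, -, -, t1, -, -, S1, -⟩ :=
    hS ι d p L Λ N₀ τ E F F' ε c
  have h0 := pos h
  have h10 : (10 : ℝ) ≤ Λ := le_trans (by norm_num) h
  have h100 : (100 : ℝ) ≤ Λ := le_trans (by norm_num) h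
  have hN2 := sq_le h hN
  have hN3 : 2 < E.N := by nlinarith
  have hN0 : 0 < E.N := by linarith
  have hC : 0 < Λ ^ 23836 := pow_pos h0 _
  obtain ⟨-, -, -, -, -, -, -, -, hF2, -⟩ := c.big.all
  have hd := hF2 ι E F ε (1 / Λ ^ 3) c.hL c.ok c.sF
    (one_div_pos.2 (pow_pos h0 _)) ((div_le_one (pow_pos h0 _)).2 (one_le_pow₀ (one_lt h).le))
  have f0 : 0 ≤ fq F 2 := sum_nonneg fun _ _ => sq_nonneg _
  have Q0 : 0 ≤ tk F 2 := by
    rw [PL.tk_two F c.sF.sy]; exact sum_nonneg fun x _ => PL.rr_nonneg F x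
  have mu0 : 0 ≤ mu Λ E.N := (one_div_pos.2 (pow_pos h0 _)).le.trans mu1
  have Q2 : tk F 2 ≤ 2 * E.N := Q1.trans (mul_le_mul_of_nonneg_right (by linarith) hN0.le)
  have eta0 : 0 ≤ E.eta := by
    have := c.ok.th0; have := c.ok.u1; have := c.ok.D1'; have := c.ok.Tf1
    unfold Env.eta; positivity
  have he := err6 (u := E.u) h hN T0 T1 Q0 Q2 eta0 e1
  rw [← c.hz, ← c.hth, ← c.hD] at he
  have hm := drift h hN0 f0 c.sF.f2 S1 Q1 t1
  have hT0 : 0 < E.Tf := zero_lt_one.trans_le c.ok.Tf1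
  have b0 : 0 ≤ E.N / (E.N + Λ ^ 23836) := by positivity
  have b1 : E.N / (E.N + Λ ^ 23836) ≤ 1 := (div_le_one (by linarith)).2 (by linarith)
  have hr := rate 1 6 (Λ ^ 23836) (by norm_num) (by norm_num) hC.le
  have key := (hPot ι E Λ c.ok h10 hN2 hZ).1 (fq F 2) E.Tf (Tf2 Λ (E.N - 2))
    (-2 + 12 * (E.N / (E.N + Λ ^ 23836))) (fun i j => fq (step F i j) 2) f0 c.sF.f2 hT0
    (by rw [abs_le]; constructor <;> linarith) ?_ ?_
  · rw [c.hT] at key; exact key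
  · rw [Tf2_eq h0 hN3, ← c.hT]
    refine mul_le_mul_of_nonneg_left (le_trans ?_ hr) hT0.le
    have : 1 / (Λ * E.N) ≤ 3 / (Λ * E.N) := div_le_div_of_nonneg_right (by norm_num) (by positivity)
    have e : (-2 * ((1 : ℕ) : ℝ) + 2 * ((6 : ℕ) : ℝ) * (E.N / (E.N + Λ ^ 23836))) =
        -2 + 12 * (E.N / (E.N + Λ ^ 23836)) := by
      generalize E.N / (E.N + Λ ^ 23836) = b
      push_cast; ring
    rw [e]
    linarith
  · refine hd.trans ((add_le_add hm he).trans ?_)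
    have e : 3 * E.N * E.Tf / Λ = 3 * (1 / Λ * E.N * E.Tf) := by ring
    have : 0 ≤ 1 / Λ * E.N * E.Tf := by positivity
    rw [e]
    linarith

open O2D Lg in
theorem O2_7_proof (hS : SM2Stmt) (_hAvg : AvgStmt) (hPot : PotStmt) : O2Stmt 7 := by
  intro ι _ _ d p L Λ N₀ τ E F F' ε c
  obtain ⟨h, hN, hZ, -, -, -, -, -, -, -, -, -, -, -, -, -, -, -, T1, -, -, e3, -, ef, -, -, s1,
    -, -, -, -, -, -, -, -, -, -, -, -, -, -, P1, -, f1, -⟩ :=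
    hS ι d p L Λ N₀ τ E F F' ε c
  have h0 := pos h
  have h10 : (10 : ℝ) ≤ Λ := le_trans (by norm_num) h
  have hN2 := sq_le h hN
  have hN3 : 2 < E.N := by nlinarith
  have hN0 : 0 < E.N := by linarith
  obtain ⟨-, -, -, -, -, -, -, -, -, hF8, -⟩ := c.big.all
  have hd := hF8 ι E F ε (1 / Λ ^ 3) c.hL c.ok c.sF
    (one_div_pos.2 (pow_pos h0 _)) ((div_le_one (pow_pos h0 _)).2 (one_le_pow₀ (one_lt h).le))
  have f0 : 0 ≤ fq F 8 := sum_nonneg fun _ _ => Even.pow_nonneg (by decide) _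
  have hT0 : 0 < E.Tf := zero_lt_one.trans_le c.ok.Tf1
  have ef0 : 0 ≤ E.etaf := by
    have := c.ok.th0; have := c.ok.u1; have := c.ok.D1'
    unfold Env.etaf; positivity
  have he := err7 (s := √(Pq F 2 / E.N)) h hN0 hT0.le T1 f0 f1 (PL.eta3_nonneg c.ok) e3 ef0 ef
    (Real.sqrt_nonneg _) ((Real.sqrt_le_sqrt (div_le_div_of_nonneg_right P1 hN0.le)).trans s1)
  rw [← c.hz, ← c.hz'] at he
  have T0 : 0 < 1 / Λ ^ 2640 := one_div_pos.2 (pow_pos h0 _)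
  refine (hPot ι E Λ c.ok h10 hN2 hZ).1 (fq F 8) (1 / Λ ^ 2640) (1 / Λ ^ 2640) 0
    (fun i j => fq (step F i j) 8) f0 f1 T0 (by rw [abs_zero]; linarith) ?_ ?_
  · refine mul_le_of_le_one_right T0.le ?_
    have : 0 ≤ 3 / (Λ * E.N) := by positivity
    rw [zero_div]
    linarith
  · rw [zero_mul, zero_mul, zero_add]
    exact hd.trans he

end Crest.Agent.R62
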