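import Crest.Agent.R62.WS

/-! Row 62: drift of `tr (A B)`. -/

set_option autoImplicit false
set_option linter.unusedSectionVars false

namespace Crest.Agent.R62

open Matrix Finset

namespace OM

open XA WS M1

variable {ι : Type} [Fintype ι] [DecidableEq ι]

theorem expand (A B : Mat ι) (U U' : Matrix ι (Fin 2) ℝ) (V V' : Matrix (Fin 2) ι ℝ) (W W' : M2) :
    trace ((A + U * W * V) * (B + U' * W' * V')) =
      trace (A * B) + trace (W * (V * B * U)) + trace (W' * (V' * A * U'))
      + trace (W * (V * U') * W' * (V' * U)) := by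
  have e1 : trace (U * W * V * B) = trace (W * (V * B * U)) := by
    simp only [Matrix.mul_assoc]
    rw [trace_mul_comm]
    simp only [Matrix.mul_assoc]
  have e2 : trace (A * (U' * W' * V')) = trace (W' * (V' * A * U')) := by
    simp only [Matrix.mul_assoc]
    rw [trace_mul_comm]
    simp only [Matrix.mul_assoc]
    rw [trace_mul_comm]
    simp only [Matrix.mul_assoc]
  have e3 : trace (U * W * V * (U' * W' * V')) = trace (W * (V * U') * W' * (V' * U)) := by
    simp only [Matrix.mul_assoc]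
    rw [trace_mul_comm]
    simp only [Matrix.mul_assoc]
  rw [Matrix.add_mul, Matrix.mul_add, Matrix.mul_add, trace_add, trace_add, trace_add, e1, e2, e3]
  ring

/-- First-order term. -/
theorem first {E : Env ι} (hE : E.Ok) {A B : Mat ι} {ε ε' : ℝ} (hA : Side E A ε)
    (hB : Side E B ε') :
    |E.av fun i j => wtr A i j ((A - 1) * B * (A + 1))| ≤
      32 * E.L ^ 2 * ((E.eta + E.eta2) * E.N ^ 2) := by
  have hL := hE.L2
  have hu := hE.u1
  have hN := N1 hE
  have tA := Sy.tr hA.sy
  set J : Mat ι := diagonal fun x => if x ∈ E.U then 1 else 0 with hJ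
  have JB : J * B = B := by
    ext x y
    rw [hJ, diagonal_mul]
    split_ifs with hx
    · rw [one_mul]
    · rw [hB.su x y hx, mul_zero]
  have e1 : (J * (A - 1))ᵀ * (B * (A + 1)) = (A - 1) * B * (A + 1) := by
    rw [transpose_mul, transpose_sub, transpose_one, tA, hJ, diagonal_transpose, ← hJ,
      Matrix.mul_assoc, ← Matrix.mul_assoc J, JB, Matrix.mul_assoc]
  have oa : Op (A + 1)ᵀ (2 * E.u) := by
    rw [transpose_add, transpose_one, tA]; exact op_add hA.op hu
  have fB : fro B ≤ E.L * E.N := fro_le (U := E.U) hB.su (R := E.L) hB.ro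
  have LN : 0 ≤ E.L * E.N := by positivity
  have s1 : √(fro (J * (A - 1))) ≤ 2 * √(E.L * E.N) := by
    refine Real.sqrt_le_iff.2 ⟨by positivity, ?_⟩
    rw [mul_pow, Real.sq_sqrt LN]
    have := fro_le (U := E.U) (X := J * (A - 1)) (R := 4 * E.L)
      (fun x y hx => by rw [hJ, diagonal_mul]; simp [hx]) (fun x => by
        refine le_trans (sum_le_sum fun y _ => ?_) (rowB_sub hA.ro (by linarith) x)
        rw [hJ, diagonal_mul]
        split_ifs
        · rw [one_mul]
        · simpa using sq_nonneg _)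
    unfold Env.N
    linarith
  have s2 : √(fro (B * (A + 1))) ≤ 2 * E.u * √(E.L * E.N) := by
    refine Real.sqrt_le_iff.2 ⟨by positivity, (fro_mul _ _ oa).trans ?_⟩
    rw [mul_pow (2 * E.u), Real.sq_sqrt LN]
    exact mul_le_mul_of_nonneg_left fB (sq_nonneg _)
  have w := wtr_av hE hA _ _ _ _ s1 s2 (by
    rw [e1, Matrix.mul_assoc]; exact sum_zero hA.toBas0 _)
  rw [e1] at w
  refine w.trans (le_of_eq ?_)
  have q : √(E.L * E.N) * √(E.L * E.N) = E.L * E.N := Real.mul_self_sqrt LN
  calc _ = 32 * E.L * (kap E * E.u) * (√(E.L * E.N) * √(E.L * E.N)) := by ring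
    _ = _ := by rw [kap_u hE, q]; ring

end OM

open XA WS M1 OM in
theorem OM_proof (hF : FlatStmt) (hAvg : AvgStmt) : OmStmt := by
  refine ⟨20, ?_⟩
  intro L Λ hΛ ι _ _ E A B ε ε' hEL hE hA hB
  subst hEL
  have hL := hE.L2
  have hL1 : 1 ≤ E.L := by linarith
  have hu := hE.u1
  have hu0 : 0 ≤ E.u := by linarith
  have hN := N1 hE
  obtain ⟨z0, hz⟩ := z20 hE
  have rA := rowB_sub hA.ro hL1
  have rB := rowB_sub hB.ro hL1
  have cA := colB_add hA.sy hA.ro hL1
  have cB := colB_add hB.sy hB.ro hL1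
  have p : 2 ^ 14 * E.L ^ 3 ≤ Λ := by
    refine le_trans ?_ hΛ
    have : (2 : ℝ) ^ 14 ≤ E.L ^ 14 := pow_le_pow_left₀ (by norm_num) hL 14
    have h3 : E.L ^ 17 ≤ E.L ^ 20 := pow_le_pow_right₀ hL1 (by norm_num)
    refine le_trans ?_ h3
    rw [show E.L ^ 17 = E.L ^ 14 * E.L ^ 3 by ring]
    exact mul_le_mul_of_nonneg_right this (by positivity)
  have l1 : 1 ≤ E.L ^ 3 := one_le_pow₀ hL1
  have l2 : E.L ≤ E.L ^ 3 := by simpa using pow_le_pow_right₀ hL1 (show 1 ≤ 3 by norm_num)
  have l3 : E.L ^ 2 ≤ E.L ^ 3 := pow_le_pow_right₀ hL1 (by norm_num)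
  have key : ∀ i j, E.p i j ≠ 0 → Om (step A i j) (step B i j) - Om A B =
      -2 + trace (Wm A i j * rs ((A - 1) * B * (A + 1)) i j)
        + trace (Wm B i j * rs ((B - 1) * A * (B + 1)) i j)
        + trace (Wm A i j * rs ((A - 1) * (B + 1)) i j * Wm B i j * rs ((B - 1) * (A + 1)) i j) := by
    intro i j hp
    have hij : i ≠ j := (AVG.p_supp hE hp).2.2
    obtain ⟨dA, -⟩ := W_bd A i j E.z (hA.dg i) (hA.dg j) (hA.ad i j hp).1 hz
    obtain ⟨dB, -⟩ := W_bd B i j E.z (hB.dg i) (hB.dg j) (hB.ad i j hp).1 hz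
    have hfl := hF ι i j [A, B] hij (by simp) (by
      intro G hG
      simp only [List.mem_cons, List.not_mem_nil, or_false] at hG
      rcases hG with rfl | rfl
      · exact ⟨hA.sy, by linarith⟩
      · exact ⟨hB.sy, by linarith⟩)
    simp only [List.map_cons, List.map_nil, List.prod_cons, List.prod_nil, mul_one,
      List.length_cons, List.length_nil, flat_eq] at hfl
    rw [OM.expand] at hfl
    simp only [VXU2, VU2] at hfl
    simp only [Om]
    rw [hfl]
    ring
  constructor
  · have e : E.av (fun i j => Om (step A i j) (step B i j) - Om A B) =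
        -2 * E.Z + (E.av fun i j => wtr A i j ((A - 1) * B * (A + 1)))
          + (E.av fun i j => wtr B i j ((B - 1) * A * (B + 1)))
          + E.av (fun i j => trace (Wm A i j * rs ((A - 1) * (B + 1)) i j * Wm B i j *
              rs ((B - 1) * (A + 1)) i j) - s2 ((A - 1) * (B + 1)) ((B - 1) * (A + 1)) i j)
          + E.av (s2 ((A - 1) * (B + 1)) ((B - 1) * (A + 1))) := by
      rw [← av_const, ← av_add, ← av_add, ← av_add, ← av_add]
      refine av_congr E _ _ fun i j hp => ?_
      rw [key i j hp, tr_W, tr_W]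
      ring
    have f1 := first hE hA hB
    have f2 := first hE hB hA
    have f3 := av_abs_const hE (fun i j => trace (Wm A i j * rs ((A - 1) * (B + 1)) i j * Wm B i j *
        rs ((B - 1) * (A + 1)) i j) - s2 ((A - 1) * (B + 1)) ((B - 1) * (A + 1)) i j)
      (96 * E.z * (4 * E.L) * (4 * E.L)) (by positivity) fun i j hp => by
        obtain ⟨-, wA, hsg, -⟩ := W_bd A i j E.z (hA.dg i) (hA.dg j) (hA.ad i j hp).1 hz
        obtain ⟨-, wB, -, wB2⟩ := W_bd B i j E.z (hB.dg i) (hB.dg j) (hB.ad i j hp).1 hz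
        rw [← tr_s]
        exact two wA wB wB2 hsg (bd_rs (ent1 rA cB) i j) (bd_rs (ent1 rB cA) i j)
    have oa : ∀ {F : Mat ι} {e : ℝ}, Side E F e → Op (F + 1)ᵀ (2 * E.u) := fun hF => by
      rw [transpose_add, transpose_one, Sy.tr hF.sy]; exact op_add hF.op hu
    have rw1 : ∀ {X M : Mat ι}, RowB X (4 * E.L) → Op Mᵀ (2 * E.u) →
        RowB (X * M) ((4 * E.L * E.u) ^ 2) := fun hX hM x =>
      (WS.RowB.mul hX hM x).trans (by nlinarith [sq_nonneg E.u])
    have f4 := s2_av hE _ _ _ _ _ _ (ent1 rA cB) (ent1 rB cA) (by positivity) (by positivity)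
      (by positivity) (by positivity) (rw1 rA (oa hB)) (rw1 rB (oa hA))
    have tr : ∀ {F G : Mat ι} {e e' : ℝ}, Side E F e → Side E G e' →
        ∑ x ∈ E.U, ((F - 1) * (G + 1)) x x = trace (F * G) - E.N + (trace F - trace G) := by
      intro F G e e' hF hG
      have : (F - 1) * (G + 1) = F * G + F - G - 1 := by noncomm_ring
      rw [this]
      simp only [Matrix.sub_apply, Matrix.add_apply, sum_sub_distrib, sum_add_distrib,
        trU (su_mul hF.su G), trU hF.su, trU hG.su, one_apply_eq, sum_const, nsmul_eq_mul,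
        mul_one, Env.N]
      ring
    rw [tr hA hB, tr hB hA, trace_mul_comm B A] at f4
    have ta := tr_le hA.su hA.dg
    have tb := tr_le hB.su hB.dg
    have td : (trace A - trace B) ^ 2 ≤ E.z * E.N ^ 2 := by
      have : |trace A - trace B| ≤ 2 * E.z * E.N := by
        refine (abs_sub _ _).trans ?_
        unfold Env.N
        linarith
      have h2 := pow_le_pow_left₀ (abs_nonneg _) this 2
      rw [sq_abs] at h2
      have : 0 ≤ E.z * E.N ^ 2 := by positivity
      nlinarith
    have hZ := (hAvg ι E hE).1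
    have hth := hE.th0
    have hD := hE.D1'
    have hT := hE.Tf1
    have sN := u_le hE
    have eN := eta_N hE
    have tu : E.th ≤ E.th * E.u := le_mul_of_one_le_right hth hu
    have g0 : 0 ≤ E.th * E.u + E.D + √E.N + E.Tf := by positivity
    have g1 : E.th * E.u + E.D + √E.N + E.Tf ≤ E.eta * E.N := by
      rw [eN]; exact le_mul_of_one_le_right g0 hu
    have g2 : E.u * √E.N + E.D ≤ E.eta * E.N := by
      rw [eN]
      have : 0 ≤ E.th * E.u * E.u := by positivity
      nlinarith
    have g3 : E.u ^ 2 ≤ E.eta * E.N := by nlinarith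
    have g4 : E.D1 ≤ 2 * E.L * (E.eta * E.N) :=
      (D1_le hE).trans (mul_le_mul_of_nonneg_left g2 (by linarith))
    set a := E.eta * E.N ^ 2 with ha
    set b := E.eta2 * E.N ^ 2 with hb
    set c := E.z * E.N ^ 2 with hc
    have a0 : 0 ≤ a := by
      have : 0 ≤ E.eta * E.N := g0.trans g1
      rw [ha, sq, ← mul_assoc]; positivity
    have b0 : 0 ≤ b := by rw [hb]; unfold Env.eta2; positivity
    have c0 : 0 ≤ c := by positivity
    have k1 : E.N * (2 * E.th + E.D) ≤ 2 * a := by
      have : 2 * E.th + E.D ≤ 2 * (E.eta * E.N) := by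
        have := Real.sqrt_nonneg E.N
        linarith
      have := mul_le_mul_of_nonneg_left this (show 0 ≤ E.N by linarith)
      rw [ha]; linarith
    have k2 : 2 * E.D1 * E.N * (4 * E.L * (4 * E.L)) ≤ 64 * E.L ^ 3 * a := by
      have := mul_le_mul_of_nonneg_right g4 (show 0 ≤ 32 * E.N * E.L ^ 2 by positivity)
      rw [ha]; linarith
    have k3 : 4 * E.N * (4 * E.L * E.u * (4 * E.L * E.u)) ≤ 64 * E.L ^ 2 * a := by
      have := mul_le_mul_of_nonneg_right g3 (show 0 ≤ 64 * E.N * E.L ^ 2 by positivity)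
      rw [ha]; linarith
    have m1 := mul_le_mul_of_nonneg_right l1 a0
    have m2 := mul_le_mul_of_nonneg_right l3 a0
    have m3 := mul_le_mul_of_nonneg_right l3 b0
    have m4 := mul_le_mul_of_nonneg_right l3 c0
    have m5 := mul_le_mul_of_nonneg_right l1 c0
    have m6 := mul_le_mul_of_nonneg_right p (show 0 ≤ a + b + c by positivity)
    have m7 : 0 ≤ E.L ^ 3 * b := by positivity
    have e2 : Λ * (E.eta + E.eta2 + E.z) * E.N ^ 2 = Λ * (a + b + c) := by
      rw [ha, hb, hc]; ring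
    have e3 : (E.eta + E.eta2) * E.N ^ 2 = a + b := by rw [ha, hb]; ring
    have e4 : 2 * (96 * E.z * (4 * E.L) * (4 * E.L)) * E.N ^ 2 = 3072 * (E.L ^ 2 * c) := by
      rw [hc]; ring
    rw [e3] at f1 f2
    rw [e4] at f3
    rw [e, e2]
    simp only [Om]
    have sq0 := sq_nonneg (trace A - trace B)
    rw [abs_le] at f1 f2 f3 f4 hZ ⊢
    constructor <;> linarith [f1.1, f1.2, f2.1, f2.2, f3.1, f3.2, f4.1, f4.2, hZ.1, hZ.2]
  · intro i j hp
    obtain ⟨-, -, -, wA2⟩ := W_bd A i j E.z (hA.dg i) (hA.dg j) (hA.ad i j hp).1 hz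
    obtain ⟨-, -, -, wB2⟩ := W_bd B i j E.z (hB.dg i) (hB.dg j) (hB.ad i j hp).1 hz
    rw [key i j hp]
    have t1 := (wA2.mul (bd_rs (ent rA cA hB.op hu0) i j)).trace
    have t2 := (wB2.mul (bd_rs (ent rB cB hA.op hu0) i j)).trace
    have t3 := (((wA2.mul (bd_rs (ent1 rA cB) i j)).mul wB2).mul (bd_rs (ent1 rB cA) i j)).trace
    have m1 := mul_le_mul_of_nonneg_right l2 hu0
    have m2 : E.L ^ 3 ≤ E.L ^ 3 * E.u := le_mul_of_one_le_right (by positivity) hu
    have m3 := mul_le_mul_of_nonneg_right p hu0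
    rw [abs_le] at t1 t2 t3 ⊢
    constructor <;> linarith [t1.1, t1.2, t2.1, t2.2, t3.1, t3.2]

end Crest.Agent.R62
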