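import Crest.Agent.R62.DefsC
/-! Row 62, task OUT: the output graph. -/
set_option autoImplicit false

namespace Crest.Agent.R62

open Matrix Finset Crest.Agent.PT Crest.Agent.QC Crest.Agent.R317 Crest.Agent.R300U
open Classical

namespace OUT

lemma lt_N {d n v a : ℕ} (hv : v < n) (ha : a < d) : v * d + a < n * d := by
  have : (v + 1) * d ≤ n * d := Nat.mul_le_mul_right d hv
  nlinarith

lemma div_eq {d v a : ℕ} (ha : a < d) : (v * d + a) / d = v := by
  rw [mul_comm, Nat.mul_add_div (by omega), Nat.div_eq_of_lt ha, add_zero]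

lemma adjv_iff {d n : ℕ} (hd : 1 ≤ d) (m : List ℕ) (v : Fin n) (w : ℕ) :
    adjv d (n * d) m v w ↔ ∃ x < n * d, m.getD x (n * d) < n * d ∧ x / d = v ∧
      m.getD x (n * d) / d = w := by
  constructor
  · rintro ⟨a, ha, h1, h2⟩
    exact ⟨v * d + a, lt_N v.2 ha, h1, div_eq ha, h2⟩
  · rintro ⟨x, -, h1, h2, h3⟩
    have e : v * d + x % d = x := by rw [← h2]; exact Nat.div_add_mod' x d
    exact ⟨x % d, Nat.mod_lt _ hd, by simp only [e]; exact ⟨h1, h3⟩⟩

lemma count {d n : ℕ} (hd : 1 ≤ d) {m : List ℕ} (hm : Val d (n * d) m) (v w : Fin n) :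
    AjR d n m v w = ∑ x : Fin (n * d),
      if m.getD x (n * d) < n * d ∧ (x : ℕ) / d = v ∧ m.getD x (n * d) / d = w then 1 else 0 := by
  simp only [AjR, Matrix.of_apply]
  split_ifs with h
  · obtain ⟨x, hx, h1, h2, h3⟩ := (adjv_iff hd m v w).1 h
    rw [sum_eq_single (⟨x, hx⟩ : Fin (n * d))]
    · rw [if_pos ⟨h1, h2, h3⟩]
    · intro y _ hy
      rw [if_neg]
      rintro ⟨k1, k2, k3⟩
      exact hy (Fin.ext (hm.2 y y.2 x hx k1 h1 (k2.trans h2.symm) (k3.trans h3.symm)))
    · intro h; exact absurd (mem_univ _) h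
  · symm
    refine sum_eq_zero fun x _ => if_neg fun hx => h ((adjv_iff hd m v w).2 ⟨x, x.2, hx⟩)

lemma all_matched {N : ℕ} {m : List ℕ} (h : cnt N m = 0) : ∀ x < N, m.getD x N < N := by
  intro x hx
  have := (sum_eq_zero_iff.1 h) x (mem_range.2 hx)
  by_contra h'
  rw [if_pos (show fr N m x from not_lt.1 h')] at this
  exact one_ne_zero this

lemma adj_iff {d n : ℕ} (hd : 1 ≤ d) {m : List ℕ} (hm : Val d (n * d) m) (v w : Fin n) :
    (Crest.CombinatoricsR.GraphCode.adjGraph n (outp d n m)).Adj v w ↔ adjv d (n * d) m v w := by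
  have hg : ∀ v w : Fin n, (outp d n m).getD (v.val * n + w.val) false = true ↔
      adjv d (n * d) m v w := fun v w => by
    unfold outp
    rw [getD_mkL _ _ (lt_N v.2 w.2), div_eq w.2, mul_comm (v : ℕ) n, Nat.mul_add_mod,
      Nat.mod_eq_of_lt w.2, decide_eq_true_iff]
  change v ≠ w ∧ _ ∧ _ ↔ _
  rw [hg, hg]
  refine ⟨fun h => h.2.1, fun h => ?_⟩
  obtain ⟨x, hx, h1, h2, h3⟩ := (adjv_iff hd m v w).1 h
  obtain ⟨k1, k2⟩ := hm.1 x hx h1
  refine ⟨fun e => k2 (by rw [h2, h3, e]), h, (adjv_iff hd m w v).2 ⟨_, h1, ?_, h3, ?_⟩⟩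
  · rw [k1]; exact hx
  · rw [k1]; exact h2

lemma fibre (d n : ℕ) (v : Fin n) :
    ∑ x : Fin (n * d), (if (x : ℕ) / d = v then (1 : ℝ) else 0) = d := by
  rw [← Equiv.sum_comp finProdFinEquiv, Fintype.sum_prod_type]
  have : ∀ (a : Fin n) (b : Fin d), ((finProdFinEquiv (a, b) : Fin (n * d)) : ℕ) / d = a :=
    fun a b => by
      rw [finProdFinEquiv_apply_val, add_comm, mul_comm]
      exact div_eq b.2
  simp only [this, Fin.val_inj]
  rw [sum_comm]
  simp

end OUT

open OUT in
theorem OUT_proof : OutStmt := by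
  intro d n m hd hm h0
  have hall := all_matched h0
  refine ⟨fun v => ?_, ?_, fun m₀ hm₀ hE => ?_⟩
  · have h1 := SimpleGraph.degree_eq_sum_if_adj (R := ℝ)
      (Crest.CombinatoricsR.GraphCode.adjGraph n (outp d n m)) v
    have h2 : ∑ w : Fin n, AjR d n m v w = d := by
      simp only [count hd hm]
      rw [sum_comm, ← fibre d n v]
      refine sum_congr rfl fun x _ => ?_
      have hx := hall x x.2
      have hw : m.getD x (n * d) / d < n := Nat.div_lt_of_lt_mul (hx.trans_eq (mul_comm n d))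
      rw [sum_eq_single (⟨_, hw⟩ : Fin n)]
      · simp only [hx, true_and, and_true]
      · intro w _ hw'
        exact if_neg fun h => hw' (Fin.ext h.2.2.symm)
      · intro h; exact absurd (mem_univ _) h
    simp only [adj_iff hd hm] at h1
    simp only [AjR, Matrix.of_apply] at h2
    have h3 := h1.trans h2
    exact_mod_cast h3
  · ext v w
    simp only [SimpleGraph.adjMatrix_apply, adj_iff hd hm, AjR, Matrix.of_apply]
  · refine ⟨fun x => ⟨m.getD x (n * d), hall x x.2⟩, fun x hx => ?_, fun v w => ?_⟩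
    · obtain ⟨k1, k2⟩ := hm.1 x x.2 (hall x x.2)
      have hx' : n * d ≤ m₀.getD x (n * d) := (mem_filter.1 hx).2
      refine ⟨mem_filter.2 ⟨mem_univ _, ?_⟩, fun e => k2 (congrArg (fun z : Fin (n * d) => z.val / d) e),
        Fin.ext k1⟩
      by_contra h
      have h1 : m₀.getD (m.getD x (n * d)) (n * d) < n * d := not_le.1 h
      have h2 := hE _ (hall x x.2) h1
      have h3 := (hm₀.1 _ (hall x x.2) h1).1
      rw [← h2, k1] at h3
      have := hall x x.2
      omega
    · rw [count hd hm, count hd hm₀]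
      unfold Uof
      rw [sum_filter, ← sum_add_distrib]
      refine sum_congr rfl fun x _ => ?_
      have hx := hall x x.2
      by_cases h : m₀.getD x (n * d) < n * d
      · rw [if_neg (show ¬ fr (n * d) m₀ x from not_le.2 h), add_zero, hE x x.2 h]
      · rw [if_pos (show fr (n * d) m₀ x from not_lt.1 h),
          if_neg (c := m₀.getD x (n * d) < n * d ∧ _) (fun h' => h h'.1), zero_add]
        refine if_congr ?_ rfl rfl
        simp only [hx, true_and, Fin.ext_iff, Fin.coe_divNat]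
        exact ⟨fun h => ⟨h.1.symm, h.2.symm⟩, fun h => ⟨h.1.symm, h.2.symm⟩⟩

end Crest.Agent.R62
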