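import Crest.Agent.R62.PLib

/-! Task P2: drift of `Pq F 2`. -/

set_option autoImplicit false

namespace Crest.Agent.R62

open Matrix Finset PL

namespace P2

variable {ι : Type} [Fintype ι] [DecidableEq ι]

theorem max_sq_le (t : ℝ) : max t 0 ^ 2 ≤ t ^ 2 := by
  rcases le_total t 0 with h | h
  · rw [max_eq_right h]; nlinarith [sq_nonneg t]
  · rw [max_eq_left h]

theorem young {e : ℝ} (he : 0 < e) (y b : ℝ) : 2 * y * b ≤ e * y ^ 2 + b ^ 2 / e := by
  have : e * y ^ 2 + b ^ 2 / e - 2 * y * b = (e * y - b) ^ 2 / e := by field_simp; ring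
  have h : 0 ≤ (e * y - b) ^ 2 / e := by positivity
  linarith

theorem shift {e : ℝ} (he : 0 < e) (he1 : e ≤ 1) (s b : ℝ) :
    max (s + b) 0 ^ 2 ≤ (1 + e) * max s 0 ^ 2 + 2 * (b ^ 2 / e) := by
  have h1 : max (s + b) 0 ≤ max s 0 + |b| :=
    max_le (add_le_add (le_max_left _ _) (le_abs_self _)) (by positivity)
  have h2 := pow_le_pow_left₀ (le_max_right _ _) h1 2
  have h3 := young he (max s 0) |b|
  have h4 : b ^ 2 ≤ b ^ 2 / e := le_div_self (sq_nonneg _) he he1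
  rw [sq_abs] at h3
  nlinarith [sq_abs b]

theorem remove {e : ℝ} (he : 0 < e) (r s : ℝ) :
    (1 - e) * max (r - 1) 0 ^ 2 - (s - r) ^ 2 / e ≤ max (s - 1) 0 ^ 2 := by
  have h1 : max (r - 1) 0 ≤ max (s - 1) 0 + |s - r| :=
    max_le (by linarith [le_max_left (s - 1) 0, neg_abs_le (s - r)]) (by positivity)
  have h3 := young he (max (r - 1) 0) |s - r|
  rw [sq_abs] at h3
  have hy : 0 ≤ max (r - 1) 0 := le_max_right _ _
  have ha : 0 ≤ max (s - 1) 0 := le_max_right _ _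
  have hd := abs_nonneg (s - r)
  set y := max (r - 1) 0
  set a := max (s - 1) 0
  set d := |s - r|
  have : y ^ 2 - 2 * y * d ≤ a ^ 2 := by
    rcases le_total y d with h | h
    · nlinarith
    · nlinarith
  linarith

theorem prod_bound (F : Mat ι) {L : ℝ} (hL : 2 ≤ L) (x j : ι) (hj : yy F j ≤ L) :
    max (rb F x * rr F j - 1) 0 ^ 2 ≤ mm F j * yy F x ^ 2 + yy F j ^ 2
      + (2 * yy F x * yy F j + 3 * L * (yy F x ^ 2 * yy F j + yy F x * yy F j ^ 2)) := by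
  have hy := yy_nonneg F x
  have hw := yy_nonneg F j
  have hr := rr_nonneg F j
  rw [rb_eq]
  rcases le_total (rr F j) 1 with h | h
  · have e1 : yy F j = 0 := max_eq_right (by linarith)
    have e2 : mm F j = rr F j := min_eq_left h
    have h1 : max ((1 + yy F x) * rr F j - 1) 0 ≤ rr F j * yy F x :=
      max_le (by nlinarith) (by positivity)
    have h2 := pow_le_pow_left₀ (le_max_right _ _) h1 2
    rw [e1, e2]
    have : rr F j * (rr F j * yy F x ^ 2) ≤ 1 * (rr F j * yy F x ^ 2) :=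
      mul_le_mul_of_nonneg_right h (by positivity)
    nlinarith
  · have e1 : rr F j = 1 + yy F j := by
      have : yy F j = rr F j - 1 := max_eq_left (by linarith)
      linarith
    have e2 : mm F j = 1 := min_eq_right h
    refine (max_sq_le _).trans ?_
    rw [e2, e1]
    set y := yy F x
    set w := yy F j
    have a1 : 0 ≤ y ^ 2 * w := by positivity
    have a2 : 0 ≤ y * w ^ 2 := by positivity
    have a3 : y ^ 2 * w * w ≤ y ^ 2 * w * L := mul_le_mul_of_nonneg_left hj a1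
    nlinarith

theorem sqrt_div_mul {N P : ℝ} (hN : 0 < N) (hP : 0 ≤ P) : √(P / N) * N = √(N * P) := by
  rw [eq_comm, Real.sqrt_eq_iff_mul_self_eq (by positivity) (by positivity)]
  have := Real.mul_self_sqrt (show 0 ≤ P / N by positivity)
  symm
  calc √(P / N) * N * (√(P / N) * N) = √(P / N) * √(P / N) * N * N := by ring
    _ = N * P := by rw [this]; field_simp

theorem xc_eq (F F' : Mat ι) (hF : Sy F) (hF' : Sy F') :
    ∑ x, ∑ a, (F' *ᵥ fun y => F y x) a ^ 2 = Xc F F' := by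
  have e1 : (F' * F)ᵀ = F * F' := by
    rw [transpose_mul]
    congr 1
    · ext a b; exact hF b a
    · ext a b; exact hF' b a
  have e2 : Xc F F' = trace ((F' * F)ᵀ * (F' * F)) := by
    unfold Xc
    rw [e1, ← Matrix.mul_assoc, trace_mul_comm (F * F' * F') F]
    simp only [Matrix.mul_assoc]
  rw [e2]
  simp only [trace, Matrix.diag, mul_apply, transpose_apply, mulVec, dotProduct, pow_two]

section
variable {E : Env ι} {F F' : Mat ι} {ε : ℝ}

theorem quad_neg (hE : E.Ok) (hF : Side E F ε) (hC : E.C = F + F') (x : ι) :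
    -(F ^ 2 * E.C * F) x x ≤ E.u * E.L * √(∑ a, (F' *ᵥ fun y => F y x) a ^ 2) := by
  rw [quad_eq F E.C hF.sy, hC]
  simp only [add_mulVec, Pi.add_apply, mul_add, sum_add_distrib]
  have hu := hE.u1
  have hr := rr_nonneg F x
  have hL := hF.ro x
  have hL2 := hE.L2
  have h1 := hF.op fun y => F y x
  rw [col_sq F hF.sy] at h1
  have h0 : 0 ≤ ∑ a, (F' *ᵥ fun y => F y x) a ^ 2 := sum_nonneg fun _ _ => sq_nonneg _
  have h2 := cs_abs (c := E.u * E.L * √(∑ a, (F' *ᵥ fun y => F y x) a ^ 2)) h1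
    (le_refl (∑ a, (F' *ᵥ fun y => F y x) a ^ 2)) (by positivity) (by
      rw [mul_pow, Real.sq_sqrt h0, mul_pow]
      exact mul_le_mul_of_nonneg_right
        (mul_le_mul_of_nonneg_left (by nlinarith) (by positivity)) h0)
  have h3 : 0 ≤ ∑ a, (F *ᵥ fun y => F y x) a * (F *ᵥ fun y => F y x) a :=
    sum_nonneg fun _ _ => mul_self_nonneg _
  linarith [neg_abs_le (∑ a, (F *ᵥ fun y => F y x) a * (F' *ᵥ fun y => F y x) a)]

theorem first (hE : E.Ok) (hF : Side E F ε) (hF' : Sy F') (hC : E.C = F + F') {K B : ℝ}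
    (hK : 0 ≤ K) (hK1 : ε * tk F 1 ≤ K) (hB : 0 ≤ B)
    (h : ∀ x, E.av (fun i j => bx F i j x) ≤ -4 * E.th * (F ^ 2 * E.C * F) x x
      + 4 * tk F 1 * (F ^ 3) x x + B * E.eta4 * E.N * max (rr F x) 1) :
    ∑ x, 2 * yy F x * E.av (fun i j => bx F i j x) ≤
      8 * E.L * (E.th * E.u * √(Xc F F' * Pq F 2))
        + (8 * E.L * (K * E.u) + (8 + 2 * B) * E.L * (E.eta4 * E.N)) * √(E.N * Pq F 2) := by
  have hu := hE.u1
  have hL := hE.L2
  have hth := hE.th0
  have hN := one_le_N hE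
  have h4 := eta4_nonneg hE
  set n : ι → ℝ := fun x => √(∑ a, (F' *ᵥ fun y => F y x) a ^ 2) with hn
  set c := 8 * E.L * (K * E.u) + (8 + 2 * B) * E.L * (E.eta4 * E.N) with hc
  have s1 : ∀ x, 2 * yy F x * E.av (fun i j => bx F i j x) ≤
      8 * E.L * (E.th * E.u) * (n x * yy F x) + c * yy F x ^ 1 := by
    intro x
    have a1 := mul_le_mul_of_nonneg_left (quad_neg hE hF hC x) hth
    have a2 := tk_cube hE hF hK hK1 x
    have a3 : B * E.eta4 * E.N * max (rr F x) 1 ≤ B * E.eta4 * E.N * E.L :=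
      mul_le_mul_of_nonneg_left (rb_le hE hF x) (by positivity)
    have a4 : E.av (fun i j => bx F i j x) ≤ 4 * E.L * (E.th * E.u) * n x + c / 2 := by
      have := h x
      simp only [hn, hc]
      nlinarith
    have := mul_le_mul_of_nonneg_left a4 (show 0 ≤ 2 * yy F x by linarith [yy_nonneg F x])
    nlinarith
  refine (sum_le_sum fun x _ => s1 x).trans ?_
  rw [sum_add_distrib, ← mul_sum, ← mul_sum, ← Pq_eq]
  have s2 : ∑ x, n x * yy F x ≤ √(Xc F F' * Pq F 2) := by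
    refine Real.le_sqrt_of_sq_le ((sum_mul_sq_le_sq_mul_sq _ _ _).trans (le_of_eq ?_))
    rw [← xc_eq F F' hF.sy hF', Pq_eq]
    congr 1
    exact sum_congr rfl fun x _ => Real.sq_sqrt (sum_nonneg fun _ _ => sq_nonneg _)
  have s3 : Pq F 1 ≤ √(E.N * Pq F 2) := Pq_one_le hF.toBas0
  have s4 := mul_le_mul_of_nonneg_left s2 (show 0 ≤ 8 * E.L * (E.th * E.u) by positivity)
  have s5 := mul_le_mul_of_nonneg_left s3 (show 0 ≤ c by positivity)
  linarith

theorem second (hE : E.Ok) (hF : Side E F ε) {B : ℝ} (hB : 0 ≤ B)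
    (h : ∀ x, E.av (fun i j => bx F i j x ^ 2) ≤ B * (E.u ^ 2 + E.Tf) * max (rr F x) 1 ^ 2) :
    ∑ x, E.av (fun i j => bx F i j x ^ 2) ≤ B * E.L ^ 2 * (E.N * (E.u ^ 2 + E.Tf)) := by
  have hT := hE.Tf1
  rw [← sumU (U := E.U) fun x hx => by simp [Env.av, bx_off hF.toBas0 _ _ hx]]
  calc ∑ x ∈ E.U, E.av (fun i j => bx F i j x ^ 2)
      ≤ ∑ _x ∈ E.U, B * (E.u ^ 2 + E.Tf) * E.L ^ 2 := sum_le_sum fun x _ => (h x).trans
        (mul_le_mul_of_nonneg_left (pow_le_pow_left₀ (rb_pos F x).le (rb_le hE hF x) 2)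
          (by positivity))
    _ = _ := by rw [sum_const, nsmul_eq_mul]; unfold Env.N; ring

theorem diag_av (hAvg : AvgStmt) (hE : E.Ok) (hF : Side E F ε) :
    E.av (fun i j => F i i ^ 2 + F j j ^ 2 + 2 * F i j ^ 2) ≤ 6 * E.L * (E.N * E.Tf) := by
  obtain ⟨-, -, -, -, -, -, -, -, -, -, h11, -⟩ := hAvg ι E hE
  refine (h11 _ fun i j => by positivity).trans ?_
  have a1 : ∑ x ∈ E.U, F x x ^ 2 ≤ E.Tf :=
    (sum_le_sum_of_subset_of_nonneg (subset_univ _) fun _ _ _ => sq_nonneg _).trans hF.f2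
  have a2 : ∑ i ∈ E.U, ∑ j ∈ E.U, F i j ^ 2 ≤ E.N * E.L := by
    calc ∑ i ∈ E.U, ∑ j ∈ E.U, F i j ^ 2 ≤ ∑ _i ∈ E.U, E.L := sum_le_sum fun i _ =>
          (sum_le_sum_of_subset_of_nonneg (subset_univ _) fun _ _ _ => sq_nonneg _).trans (hF.ro i)
      _ = E.N * E.L := by rw [sum_const, nsmul_eq_mul]; rfl
  simp only [sum_add_distrib, sum_const, nsmul_eq_mul, ← mul_sum]
  change 2 * (E.N * _ + E.N * _ + _) ≤ _
  have hN := one_le_N hE
  have hL := hE.L2
  have hT := hE.Tf1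
  have a3 := mul_le_mul_of_nonneg_left a1 (show 0 ≤ E.N by linarith)
  have a4 : E.N * E.L * 1 ≤ E.N * E.L * E.Tf := mul_le_mul_of_nonneg_left hT (by positivity)
  have a5 : 2 * (E.N * E.Tf) ≤ E.L * (E.N * E.Tf) := mul_le_mul_of_nonneg_right hL (by positivity)
  nlinarith

theorem cross (hAvg : AvgStmt) (hE : E.Ok) (hF : Side E F ε) :
    E.av (fun i j => ∑ x, tt F x i * (2 * yy F x * yy F j
      + 3 * E.L * (yy F x ^ 2 * yy F j + yy F x * yy F j ^ 2))) ≤
      2 * ((∑ x, mm F x) * Pq F 2) + 4 * E.L ^ 2 * (E.eta3 * E.N * Pq F 2)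
        + 12 * E.L * (√(E.N * Pq F 2) * Pq F 2) := by
  have e1 : (fun i j => ∑ x, tt F x i * (2 * yy F x * yy F j
      + 3 * E.L * (yy F x ^ 2 * yy F j + yy F x * yy F j ^ 2))) = fun i j =>
      2 * (gam F 1 i * yy F j ^ 1) + 3 * E.L * (gam F 2 i * yy F j ^ 1 + gam F 1 i * yy F j ^ 2) := by
    funext i j
    simp only [gam, mul_add, mul_sum, sum_mul, ← sum_add_distrib]
    exact sum_congr rfl fun x _ => by ring
  rw [e1]
  simp only [av_add, av_smul]
  have c1 := av_cross hAvg hE hF (a := 2) (b := 1) (by norm_num) le_rfl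
  have c2 := av_cross hAvg hE hF (a := 1) (b := 2) le_rfl (by norm_num)
  obtain ⟨-, -, -, -, -, -, a7, -⟩ := hAvg ι E hE
  have c3 := (abs_le.mp (a7 (gam F 1) fun j => yy F j ^ 1)).2
  rw [sumU_gam hF.toBas0 le_rfl, sumU_yy hF.toBas0 le_rfl] at c3
  have hP := Pq_nonneg F 2
  have hL := hE.L2
  have d1 : ∑ x, gam F 1 x ^ 2 ≤ E.L ^ 2 * Pq F 2 := by
    rw [← sum_gam_pos F (show 1 ≤ 2 by norm_num), mul_sum]
    refine sum_le_sum fun i _ => ?_
    have h1 : gam F 1 i ^ 2 ≤ gam F 0 i * gam F 2 i :=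
      sum_sq_le_sum_mul_sum_of_sq_le_mul _
        (fun x _ => mul_nonneg (tt_nonneg F x i) (pow_nonneg (yy_nonneg F x) _))
        (fun x _ => mul_nonneg (tt_nonneg F x i) (pow_nonneg (yy_nonneg F x) _))
        (fun x _ => le_of_eq (by ring))
    refine h1.trans (mul_le_mul_of_nonneg_right ?_ (gam_nonneg F 2 i))
    have := (gam_zero_le F hF.sy i).trans (hF.ro i)
    nlinarith
  have d2 : √(∑ x, gam F 1 x ^ 2) ≤ E.L * √(Pq F 2) := by
    refine Real.sqrt_le_iff.mpr ⟨by positivity, ?_⟩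
    rw [mul_pow, Real.sq_sqrt hP]; exact d1
  have d3 : ∑ x, (yy F x ^ 1) ^ 2 = Pq F 2 := by simp only [pow_one]; rfl
  rw [d3] at c3
  have d4 : E.D1 * √(∑ x, gam F 1 x ^ 2) * √(Pq F 2) ≤ 2 * E.L ^ 2 * (E.eta3 * E.N * Pq F 2) := by
    have hη : 0 ≤ E.eta3 * E.N := mul_nonneg (eta3_nonneg hE) (by linarith [one_le_N hE])
    calc E.D1 * √(∑ x, gam F 1 x ^ 2) * √(Pq F 2)
        ≤ 2 * E.L * (E.eta3 * E.N) * (E.L * √(Pq F 2)) * √(Pq F 2) :=
          mul_le_mul_of_nonneg_right (mul_le_mul (D1_le hE) d2 (Real.sqrt_nonneg _)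
            (by positivity)) (Real.sqrt_nonneg _)
      _ = 2 * E.L ^ 2 * (E.eta3 * E.N * (√(Pq F 2) * √(Pq F 2))) := by ring
      _ = _ := by rw [Real.mul_self_sqrt hP]
  have d5 := Pq_one_sq F
  have d6 : Pq F 1 * Pq F 2 ≤ √(E.N * Pq F 2) * Pq F 2 :=
    mul_le_mul_of_nonneg_right (Pq_one_le hF.toBas0) hP
  have d7 : E.av (fun i j => gam F 2 i * yy F j ^ 1) + E.av (fun i j => gam F 1 i * yy F j ^ 2) ≤
      4 * (√(E.N * Pq F 2) * Pq F 2) := by linarith
  have d8 := mul_le_mul_of_nonneg_left d7 (show 0 ≤ 3 * E.L by linarith)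
  nlinarith

end

end P2

theorem P2_proof (hAlg : AlgStmt) (hAvg : AvgStmt) (hB1 : B1Stmt) (hB2 : B2Stmt) : P2Stmt := by
  obtain ⟨c₁, hB1⟩ := hB1
  obtain ⟨c₂, hB2⟩ := hB2
  refine ⟨c₁ + c₂ + 3 + 20, fun L Λ hΛ ι _ _ E F F' ε e K hL hE hF hF' hC he he1 hK hK1 => ?_⟩
  subst hL
  have hL := hE.L2
  have hN := one_le_N hE
  have hT := hE.Tf1
  have hu := hE.u1
  have hth := hE.th0
  have hP := Pq_nonneg F 2
  have h3 := eta3_nonneg hE
  have h4 := eta4_nonneg hE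
  obtain ⟨b2, b3⟩ := hB2 ι E F ε hE hF
  obtain ⟨-, -, -, -, -, -, -, -, -, -, -, -, -, a14, -⟩ := hAvg ι E hE
  have key := skel hAlg hAvg hE hF (q := 2) (by norm_num) he.le he1 (fun x => 2 * yy F x)
    (fun x i j => 4 / e * bx F i j x ^ 2)
    (fun i j => 80000 * E.L ^ 2 / e * (F i i ^ 2 + F j j ^ 2 + 2 * F i j ^ 2))
    (fun x j => 2 * yy F x * yy F j + 3 * E.L * (yy F x ^ 2 * yy F j + yy F x * yy F j ^ 2))
    (fun i j hp x => by
      have hs : ∀ k, max (rb F x * rr F k - 1 + bx F i j x) 0 ^ 2 ≤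
          (1 + e) * (mm F k * yy F x ^ 2 + yy F k ^ 2 + (2 * yy F x * yy F k
            + 3 * E.L * (yy F x ^ 2 * yy F k + yy F x * yy F k ^ 2))) + 2 * (bx F i j x ^ 2 / e) :=
        fun k => (P2.shift he he1 _ _).trans (add_le_add_left (mul_le_mul_of_nonneg_left
          (P2.prod_bound F hL x k (yy_le hE hF k)) (by linarith)) _)
      have h := point F 2 (a14 i j hp).2.2 x (e := e) (d := 2 * yy F x * bx F i j x)
        (R₁ := bx F i j x ^ 2 / e) (R₂ := bx F i j x ^ 2 / e) (by positivity) (by positivity)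
        (by positivity)
        ((P2.max_sq_le _).trans (by
          have := le_div_self (sq_nonneg (bx F i j x)) he he1
          nlinarith))
        (by have := P2.young he (yy F x) (-bx F i j x); rw [neg_sq] at this; linarith)
        (hs j) (hs i)
      refine h.trans (le_of_eq ?_)
      ring)
    (fun i j hp => by
      obtain ⟨h1, h2⟩ := b3 i j hp
      have r1 := P2.remove he (rr F i) (rnew F i j i)
      have r2 := P2.remove he (rr F j) (rnew F i j j)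
      have hb : max (rr F i) 1 + max (rr F j) 1 ≤ 2 * E.L := by
        linarith [show max (rr F i) 1 ≤ E.L from rb_le hE hF i,
          show max (rr F j) 1 ≤ E.L from rb_le hE hF j]
      have g : ∀ d a c : ℝ, |d| ≤ 100 * (|a| + |c|) * (max (rr F i) 1 + max (rr F j) 1) →
          d ^ 2 / e ≤ 80000 * E.L ^ 2 / e * (a ^ 2 + c ^ 2) := by
        intro d a c h
        have h' : |d| ≤ 100 * (|a| + |c|) * (2 * E.L) :=
          h.trans (mul_le_mul_of_nonneg_left hb (by positivity))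
        have h'' := pow_le_pow_left₀ (abs_nonneg _) h' 2
        rw [sq_abs] at h''
        rw [div_mul_eq_mul_div]
        refine div_le_div_of_nonneg_right (h''.trans ?_) he.le
        have : (|a| + |c|) ^ 2 ≤ 2 * (a ^ 2 + c ^ 2) := by
          nlinarith [sq_abs a, sq_abs c, sq_nonneg (|a| - |c|)]
        nlinarith [mul_le_mul_of_nonneg_left this (sq_nonneg E.L)]
      have g1 := g _ _ _ h1
      have g2 := g _ _ _ h2
      change (1 - e) * yy F i ^ 2 - _ ≤ _ at r1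
      change (1 - e) * yy F j ^ 2 - _ ≤ _ at r2
      linarith)
  refine key.trans ?_
  have f1 := P2.first hE hF hF' hC hK hK1 (show 0 ≤ E.L ^ c₁ by positivity) (hB1 ι E F ε hE hF)
  have f2 := P2.second hE hF (show 0 ≤ E.L ^ c₂ by positivity) b2
  have f3 := P2.diag_av hAvg hE hF
  have f4 := P2.cross hAvg hE hF
  simp only [av_smul, ← mul_sum]
  have hM : ∑ x, mm F x ≤ min (tk F 2) E.N := sum_mm_le hF.toBas0
  have hMN : ∑ x, mm F x ≤ E.N := hM.trans (min_le_right _ _)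
  have hM0 : 0 ≤ ∑ x, mm F x := sum_nonneg fun x _ => mm_nonneg F x
  set M := ∑ x, mm F x
  set P := Pq F 2
  have hs := P2.sqrt_div_mul (show 0 < E.N by linarith) hP
  have e1 : (e + E.eta3 + √(P / E.N)) * E.N * P + √(E.N * P) * E.N * (E.eta4 + K * E.u / E.N)
      + E.th * E.u * √(Xc F F' * P) + E.N * (E.u ^ 2 + E.Tf) / e =
      e * E.N * P + E.eta3 * E.N * P + √(E.N * P) * P + E.eta4 * E.N * √(E.N * P)
        + K * E.u * √(E.N * P) + E.th * E.u * √(Xc F F' * P) + E.N * (E.u ^ 2 + E.Tf) / e := by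
    rw [← hs]; field_simp; ring
  rw [e1]
  set t₁ := e * E.N * P with ht₁
  set t₂ := E.eta3 * E.N * P with ht₂
  set t₃ := √(E.N * P) * P with ht₃
  set t₄ := E.eta4 * E.N * √(E.N * P) with ht₄
  set t₅ := K * E.u * √(E.N * P) with ht₅
  set t₆ := E.th * E.u * √(Xc F F' * P) with ht₆
  set t₇ := E.N * (E.u ^ 2 + E.Tf) / e with ht₇
  have p₁ : 0 ≤ t₁ := by positivity
  have p₂ : 0 ≤ t₂ := by positivity
  have p₃ : 0 ≤ t₃ := by positivity
  have p₄ : 0 ≤ t₄ := by positivity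
  have p₅ : 0 ≤ t₅ := by positivity
  have p₆ : 0 ≤ t₆ := by positivity
  have p₇ : 0 ≤ t₇ := by positivity
  have hL1 : 1 ≤ E.L := by linarith
  set B := E.L ^ (c₁ + c₂ + 3) with hB
  have l0 : ∀ k, k ≤ c₁ + c₂ + 3 → E.L ^ k ≤ B := fun k hk => pow_le_pow_right₀ hL1 hk
  have l1 : E.L ≤ B := by simpa using l0 1 (by omega)
  have l2 := l0 2 (by omega)
  have l3 := l0 3 (by omega)
  have l4 : E.L ^ c₁ * E.L ≤ B := by rw [← pow_succ]; exact l0 _ (by omega)
  have l5 : E.L ^ c₂ * E.L ^ 2 ≤ B := by rw [← pow_add]; exact l0 _ (by omega)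
  have l6 : 1000000 * B ≤ Λ := by
    refine le_trans ?_ hΛ
    rw [pow_add, mul_comm]
    refine mul_le_mul_of_nonneg_left ?_ (by positivity)
    exact le_trans (by norm_num) (pow_le_pow_left₀ (by norm_num) hL 20)
  have g1 : 4 / e * ∑ x, E.av (fun i j => bx F i j x ^ 2) ≤ 4 * B * t₇ := by
    refine (mul_le_mul_of_nonneg_left f2 (by positivity)).trans ?_
    calc 4 / e * (E.L ^ c₂ * E.L ^ 2 * (E.N * (E.u ^ 2 + E.Tf))) = 4 * (E.L ^ c₂ * E.L ^ 2) * t₇ := by
          rw [ht₇]; ring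
      _ ≤ _ := by gcongr
  have g2 : 80000 * E.L ^ 2 / e * E.av (fun i j => F i i ^ 2 + F j j ^ 2 + 2 * F i j ^ 2) ≤
      480000 * B * t₇ := by
    refine (mul_le_mul_of_nonneg_left f3 (by positivity)).trans ?_
    calc 80000 * E.L ^ 2 / e * (6 * E.L * (E.N * E.Tf)) = 480000 * E.L ^ 3 * (E.N * E.Tf / e) := by
          ring
      _ ≤ _ := by rw [ht₇]; gcongr; nlinarith
  have g3 := mul_le_mul_of_nonneg_left f4 (show 0 ≤ 2 * (1 + e) by linarith)
  have g4 : e * (M * P) ≤ t₁ := by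
    rw [ht₁, mul_assoc]; gcongr
  have g5 : e * (E.L ^ 2 * t₂) ≤ E.L ^ 2 * t₂ := mul_le_of_le_one_left (by positivity) he1
  have g6 : e * (E.L * t₃) ≤ E.L * t₃ := mul_le_of_le_one_left (by positivity) he1
  have g7 : M * P ≤ min (tk F 2) E.N * P := mul_le_mul_of_nonneg_right hM hP
  have k1 : 2 * t₁ ≤ B * t₁ := mul_le_mul_of_nonneg_right (by linarith) p₁
  have k2 : E.L ^ 2 * t₂ ≤ B * t₂ := mul_le_mul_of_nonneg_right l2 p₂
  have k3 : E.L * t₃ ≤ B * t₃ := mul_le_mul_of_nonneg_right l1 p₃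
  have k4 : E.L * t₄ ≤ B * t₄ := mul_le_mul_of_nonneg_right l1 p₄
  have k4' : E.L ^ c₁ * E.L * t₄ ≤ B * t₄ := mul_le_mul_of_nonneg_right l4 p₄
  have k5 : E.L * t₅ ≤ B * t₅ := mul_le_mul_of_nonneg_right l1 p₅
  have k6 : E.L * t₆ ≤ B * t₆ := mul_le_mul_of_nonneg_right l1 p₆
  have hB0 : 0 ≤ B := by positivity
  have k7 := mul_le_mul_of_nonneg_right l6
    (show 0 ≤ t₁ + t₂ + t₃ + t₄ + t₅ + t₆ + t₇ by positivity)
  have q₁ := mul_nonneg hB0 p₁
  have q₂ := mul_nonneg hB0 p₂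
  have q₃ := mul_nonneg hB0 p₃
  have q₄ := mul_nonneg hB0 p₄
  have q₅ := mul_nonneg hB0 p₅
  have q₆ := mul_nonneg hB0 p₆
  have q₇ := mul_nonneg hB0 p₇
  have f1' : ∑ x, 2 * yy F x * E.av (fun i j => bx F i j x) ≤
      8 * (E.L * t₆) + 8 * (E.L * t₅) + 8 * (E.L * t₄) + 2 * (E.L ^ c₁ * E.L * t₄) := by
    refine f1.trans (le_of_eq ?_)
    rw [ht₄, ht₅]; ring
  have m1 : (4 * M - 4 * E.N + 8 * e * E.N + 16 * E.L ^ 2 * (E.eta3 * E.N)) * P =
      4 * (M * P) - 4 * (E.N * P) + 8 * t₁ + 16 * (E.L ^ 2 * t₂) := by rw [ht₁, ht₂]; ring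
  rw [m1]
  linarith

end Crest.Agent.R62
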