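import Crest.Agent.R62.DefsC

/-! Task P4: the combinatorial last phase. -/

set_option autoImplicit false

namespace Crest.Agent.R62

open Finset Crest.Agent.R317
open Classical

namespace P4

noncomputable def fU (N : ℕ) (m : List ℕ) : Finset ℕ := (range N).filter (fr N m)
noncomputable def om (d N : ℕ) (m : List ℕ) (a b : ℕ) : ℕ :=
  if a ≠ b then (if a / d = b / d then 4 * d else if adjv d N m (a / d) (b / d) then 1 else 0)
  else 0
noncomputable def wt (d N : ℕ) (m : List ℕ) (a : ℕ) : ℕ := ∑ b ∈ fU N m, om d N m a b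
noncomputable def sv (d N : ℕ) (m : List ℕ) (a : ℕ) : ℕ :=
  ((fU N m).filter fun b => b ≠ a ∧ b / d = a / d).card

theorem mem_fU {N : ℕ} {m : List ℕ} {x : ℕ} : x ∈ fU N m ↔ x < N ∧ fr N m x := by
  simp [fU]

theorem cnt_eq (N : ℕ) (m : List ℕ) : cnt N m = (fU N m).card := by
  unfold cnt fU
  rw [card_filter]

theorem Phi_eq (d N : ℕ) (m : List ℕ) : Phi d N m = ∑ a ∈ fU N m, wt d N m a := by
  unfold Phi wt fU
  rw [sum_filter]
  refine sum_congr rfl fun a _ => ?_
  split_ifs with ha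
  · rw [sum_filter]
    refine sum_congr rfl fun b _ => ?_
    unfold om
    by_cases hb : fr N m b <;> by_cases hab : a = b <;> simp [ha, hb, hab]
  · exact sum_eq_zero fun b _ => by simp [ha]

theorem fib_card {d : ℕ} (hd : 1 ≤ d) (S : Finset ℕ) (v : ℕ) :
    (S.filter fun b => b / d = v).card ≤ d := by
  calc (S.filter fun b => b / d = v).card ≤ ((range d).image fun a => v * d + a).card := by
        refine card_le_card fun b hb => ?_
        rw [mem_filter] at hb
        refine mem_image.mpr ⟨b % d, mem_range.mpr (Nat.mod_lt _ hd), ?_⟩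
        rw [← hb.2]; exact Nat.div_add_mod' b d
    _ ≤ d := card_image_le.trans (by simp)

theorem adj_card {d : ℕ} (hd : 1 ≤ d) (N : ℕ) (m : List ℕ) (S : Finset ℕ) (v : ℕ) :
    (S.filter fun b => adjv d N m v (b / d)).card ≤ d ^ 2 := by
  calc (S.filter fun b => adjv d N m v (b / d)).card
      ≤ ((range d).biUnion fun a => S.filter fun b => b / d = m.getD (v * d + a) N / d).card := by
        refine card_le_card fun b hb => ?_
        rw [mem_filter] at hb
        obtain ⟨a, ha, -, h⟩ := hb.2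
        exact mem_biUnion.mpr ⟨a, mem_range.mpr ha, mem_filter.mpr ⟨hb.1, h.symm⟩⟩
    _ ≤ ∑ a ∈ range d, d := card_biUnion_le.trans (sum_le_sum fun a _ => fib_card hd S _)
    _ = d ^ 2 := by simp [sq]

theorem wt_le {d : ℕ} (hd : 1 ≤ d) (N : ℕ) (m : List ℕ) (a : ℕ) : wt d N m a ≤ 5 * d ^ 2 := by
  have h1 := fib_card hd (fU N m) (a / d)
  have h2 := adj_card hd N m (fU N m) (a / d)
  rw [card_filter] at h1 h2
  calc wt d N m a ≤ ∑ b ∈ fU N m, (4 * d * (if b / d = a / d then 1 else 0)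
        + if adjv d N m (a / d) (b / d) then 1 else 0) := by
        refine sum_le_sum fun b _ => ?_
        unfold om
        split_ifs <;> omega
    _ ≤ 4 * d * d + d ^ 2 := by
        rw [sum_add_distrib, ← mul_sum]
        exact add_le_add (Nat.mul_le_mul_left _ h1) h2
    _ = 5 * d ^ 2 := by ring

theorem sv_le {d : ℕ} (hd : 1 ≤ d) (N : ℕ) (m : List ℕ) (a : ℕ) : sv d N m a ≤ d :=
  (card_le_card fun b hb => by
    rw [mem_filter] at hb ⊢; exact ⟨hb.1, hb.2.2⟩).trans (fib_card hd (fU N m) (a / d))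

theorem sv_wt (d N : ℕ) (m : List ℕ) (a : ℕ) : 4 * d * sv d N m a ≤ wt d N m a := by
  unfold sv wt
  rw [card_filter, mul_sum]
  refine sum_le_sum fun b _ => ?_
  unfold om
  split_ifs <;> omega

theorem idx_lt {d n x a : ℕ} (hx : x < n * d) (ha : a < d) : x / d * d + a < n * d := by
  have h : x / d < n := Nat.div_lt_of_lt_mul (by rwa [mul_comm] at hx)
  calc x / d * d + a < x / d * d + d := by omega
    _ = (x / d + 1) * d := by ring
    _ ≤ n * d := Nat.mul_le_mul_right _ h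

theorem idx_div {d v a : ℕ} (ha : a < d) : (v * d + a) / d = v := by
  rw [mul_comm, Nat.mul_add_div (by omega), Nat.div_eq_of_lt ha, add_zero]

theorem adj_symm {d n : ℕ} {m : List ℕ} (hd : 1 ≤ d) (hm : Val d (n * d) m) {x w : ℕ}
    (hx : x < n * d) (h : adjv d (n * d) m (x / d) w) : adjv d (n * d) m w (x / d) := by
  obtain ⟨a, ha, h1, h2⟩ := h
  have h3 := (hm.1 _ (idx_lt hx ha) h1).1
  refine ⟨m.getD (x / d * d + a) (n * d) % d, Nat.mod_lt _ hd, ?_⟩
  beta_reduce
  rw [← h2, Nat.div_add_mod', h3]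
  exact ⟨idx_lt hx ha, idx_div ha⟩

theorem om_symm {d n : ℕ} {m : List ℕ} (hd : 1 ≤ d) (hm : Val d (n * d) m) {x y : ℕ}
    (hx : x < n * d) (hy : y < n * d) : om d (n * d) m x y = om d (n * d) m y x := by
  have h : adjv d (n * d) m (x / d) (y / d) ↔ adjv d (n * d) m (y / d) (x / d) :=
    ⟨adj_symm hd hm hx, adj_symm hd hm hy⟩
  unfold om
  simp only [h, ne_comm (a := x), eq_comm (a := x / d)]

theorem okc_symm {d n : ℕ} {m : List ℕ} (hd : 1 ≤ d) (hm : Val d (n * d) m) {x y : ℕ}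
    (h : okc d (n * d) m x y) : okc d (n * d) m y x := by
  obtain ⟨hx, hy, fx, fy, hb⟩ := h
  refine ⟨hy, hx, fy, fx, fun h' => hb ?_⟩
  rcases h' with h' | h'
  · exact Or.inl h'.symm
  · exact Or.inr (adj_symm hd hm hy h')

theorem fU_upd {N : ℕ} {m : List ℕ} {x y : ℕ} (hx : x < N) (hy : y < N) :
    fU N (upd N m x y) = ((fU N m).erase x).erase y := by
  ext z
  simp only [mem_erase, mem_fU]
  constructor
  · rintro ⟨hz, h⟩
    unfold fr upd at h
    rw [getD_mkL _ _ hz] at h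
    split_ifs at h with h1 h2
    · omega
    · omega
    · exact ⟨h2, h1, hz, h⟩
  · rintro ⟨h2, h1, hz, h⟩
    refine ⟨hz, ?_⟩
    unfold fr upd
    rw [getD_mkL _ _ hz, if_neg h1, if_neg h2]
    exact h

theorem adj_upd {d n : ℕ} {m : List ℕ} {x y a w : ℕ} (ha : a < n * d)
    (h : adjv d (n * d) (upd (n * d) m x y) (a / d) w) :
    adjv d (n * d) m (a / d) w ∨ (a / d = x / d ∧ w = y / d) ∨ (a / d = y / d ∧ w = x / d) := by
  obtain ⟨k, hk, h1, h2⟩ := h
  unfold upd at h1 h2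
  rw [getD_mkL _ _ (idx_lt ha hk)] at h1 h2
  split_ifs at h1 h2 with e1 e2
  · exact Or.inr (Or.inl ⟨by rw [← e1, idx_div hk], h2.symm⟩)
  · exact Or.inr (Or.inr ⟨by rw [← e2, idx_div hk], h2.symm⟩)
  · exact Or.inl ⟨k, hk, h1, h2⟩

theorem step_le {d n : ℕ} {m : List ℕ} (hd : 1 ≤ d) (hm : Val d (n * d) m) {x y : ℕ}
    (h : okc d (n * d) m x y) :
    Phi d (n * d) (upd (n * d) m x y) + 2 * (wt d (n * d) m x + wt d (n * d) m y) ≤
      Phi d (n * d) m + 2 * (sv d (n * d) m x * sv d (n * d) m y) := by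
  obtain ⟨hx, hy, fx, fy, hb⟩ := h
  have hv : x / d ≠ y / d := fun e => hb (Or.inl e)
  have hxy : x ≠ y := fun e => hv (by rw [e])
  have hx' : x ∈ fU (n * d) m := mem_fU.mpr ⟨hx, fx⟩
  have hy' : y ∈ (fU (n * d) m).erase x := mem_erase.mpr ⟨hxy.symm, mem_fU.mpr ⟨hy, fy⟩⟩
  set U' := ((fU (n * d) m).erase x).erase y with hU'
  have split : ∀ f : ℕ → ℕ, ∑ a ∈ fU (n * d) m, f a = ∑ a ∈ U', f a + f x + f y := by
    intro f
    rw [← sum_erase_add _ _ hx', ← sum_erase_add _ _ hy']; ring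
  have hlt : ∀ a ∈ U', a < n * d := fun a ha =>
    (mem_fU.mp (mem_of_mem_erase (mem_of_mem_erase ha))).1
  have o1 : ∀ a, om d (n * d) m a a = 0 := fun a => by simp [om]
  have o2 : om d (n * d) m x y = 0 := by
    have : ¬ adjv d (n * d) m (x / d) (y / d) := fun e => hb (Or.inr e)
    simp [om, hv, this]
  have o3 : om d (n * d) m y x = 0 := by rw [om_symm hd hm hy hx, o2]
  have e1 : Phi d (n * d) m = ∑ a ∈ U', ∑ b ∈ U', om d (n * d) m a b
      + 2 * (wt d (n * d) m x + wt d (n * d) m y) := by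
    have w1 : wt d (n * d) m x = ∑ a ∈ U', om d (n * d) m a x := by
      unfold wt
      rw [split, o1, o2, add_zero]
      exact sum_congr rfl fun a ha => om_symm hd hm hx (hlt a ha)
    have w2 : wt d (n * d) m y = ∑ a ∈ U', om d (n * d) m a y := by
      unfold wt
      rw [split, o1, o3, add_zero]
      exact sum_congr rfl fun a ha => om_symm hd hm hy (hlt a ha)
    have w3 : ∑ a ∈ U', wt d (n * d) m a = ∑ a ∈ U', ∑ b ∈ U', om d (n * d) m a b
        + ∑ a ∈ U', om d (n * d) m a x + ∑ a ∈ U', om d (n * d) m a y := by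
      rw [← sum_add_distrib, ← sum_add_distrib]
      exact sum_congr rfl fun a _ => split _
    rw [Phi_eq, split, w3, ← w1, ← w2]; ring
  have s1 : (U'.filter fun a => a / d = x / d).card ≤ sv d (n * d) m x :=
    card_le_card fun a ha => by
      rw [mem_filter, mem_erase, mem_erase] at ha
      exact mem_filter.mpr ⟨ha.1.2.2, ha.1.2.1, ha.2⟩
  have s2 : (U'.filter fun a => a / d = y / d).card ≤ sv d (n * d) m y :=
    card_le_card fun a ha => by
      rw [mem_filter, mem_erase, mem_erase] at ha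
      exact mem_filter.mpr ⟨ha.1.2.2, ha.1.1, ha.2⟩
  rw [card_filter] at s1 s2
  have e2 : Phi d (n * d) (upd (n * d) m x y) ≤ ∑ a ∈ U', ∑ b ∈ U', (om d (n * d) m a b
      + ((if a / d = x / d then 1 else 0) * (if b / d = y / d then 1 else 0)
        + (if a / d = y / d then 1 else 0) * (if b / d = x / d then 1 else 0))) := by
    rw [Phi_eq]
    unfold wt
    rw [fU_upd hx hy]
    refine sum_le_sum fun a ha => sum_le_sum fun b _ => ?_
    unfold om
    by_cases h1 : a = b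
    · simp [h1]
    by_cases h2 : a / d = b / d
    · simp [h1, h2]
    by_cases h3 : adjv d (n * d) (upd (n * d) m x y) (a / d) (b / d)
    · rcases adj_upd (hlt a ha) h3 with h4 | ⟨h4, h5⟩ | ⟨h4, h5⟩
      · simp [h1, h2, h3, h4]
      · rw [if_pos h1, if_neg h2, if_pos h3, if_pos h4, if_pos h5]; omega
      · rw [if_pos h1, if_neg h2, if_pos h3, if_pos h4, if_pos h5]; omega
    · simp [h1, h2, h3]
  simp only [sum_add_distrib, ← sum_mul_sum] at e2
  have m1 := Nat.mul_le_mul s1 s2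
  have m2 := Nat.mul_le_mul s2 s1
  rw [mul_comm (sv d (n * d) m y)] at m2
  omega

theorem avg {d n : ℕ} {m : List ℕ} (hd : 1 ≤ d) (hm : Val d (n * d) m)
    (hc : 32 * d ^ 2 ≤ cnt (n * d) m) : ∃ x y, okc d (n * d) m x y ∧
      4 * cnt (n * d) m * Phi d (n * d) (upd (n * d) m x y) + 13 * Phi d (n * d) m ≤
        4 * cnt (n * d) m * Phi d (n * d) m := by
  rw [cnt_eq] at hc ⊢
  set U := fU (n * d) m with hU
  set K := (U ×ˢ U).filter fun q => okc d (n * d) m q.1 q.2 with hK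
  have deg : ∀ x ∈ U, 15 * U.card ≤ 16 * (U.filter fun y => okc d (n * d) m x y).card := by
    intro x hx
    have h1 := card_filter_add_card_filter_not (s := U) (fun y => okc d (n * d) m x y)
    have h2 : (U.filter fun y => ¬ okc d (n * d) m x y).card ≤ d + d ^ 2 := by
      refine le_trans (card_le_card ?_) ((card_union_le _ _).trans
        (add_le_add (fib_card hd U (x / d)) (adj_card hd (n * d) m U (x / d))))
      intro y hy
      rw [mem_filter] at hy
      have hb : bad d (n * d) m x y := by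
        by_contra hb
        exact hy.2 ⟨(mem_fU.mp hx).1, (mem_fU.mp hy.1).1, (mem_fU.mp hx).2, (mem_fU.mp hy.1).2, hb⟩
      rcases hb with hb | hb
      · exact mem_union_left _ (mem_filter.mpr ⟨hy.1, hb.symm⟩)
      · exact mem_union_right _ (mem_filter.mpr ⟨hy.1, hb⟩)
    have h3 : d ≤ d ^ 2 := by nlinarith
    omega
  have hpos : 0 < U.card := by nlinarith
  have hne : K.Nonempty := by
    obtain ⟨x, hx⟩ := card_pos.mp hpos
    obtain ⟨y, hy⟩ := card_pos.mp
      (show 0 < (U.filter fun y => okc d (n * d) m x y).card by have := deg x hx; omega)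
    rw [mem_filter] at hy
    exact ⟨(x, y), mem_filter.mpr ⟨mem_product.mpr ⟨hx, hy.1⟩, hy.2⟩⟩
  have a1 : 15 * U.card * Phi d (n * d) m ≤ 16 * ∑ q ∈ K, wt d (n * d) m q.1 := by
    rw [Phi_eq, hK, sum_filter, sum_product, mul_sum, mul_sum]
    refine sum_le_sum fun x hx => ?_
    dsimp only
    rw [← sum_filter, sum_const, smul_eq_mul, ← mul_assoc]
    exact Nat.mul_le_mul_right _ (deg x hx)
  have a2 : ∑ q ∈ K, wt d (n * d) m q.2 = ∑ q ∈ K, wt d (n * d) m q.1 := by
    have hs : ∀ q ∈ K, Prod.swap q ∈ K := fun q hq => by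
      rw [mem_filter, mem_product] at hq ⊢
      exact ⟨⟨hq.1.2, hq.1.1⟩, okc_symm hd hm hq.2⟩
    exact sum_nbij' Prod.swap Prod.swap hs hs (fun _ _ => rfl) (fun _ _ => rfl) fun _ _ => rfl
  have a3 : K.card ≤ U.card * U.card := (card_filter_le _ _).trans (card_product _ _).le
  have a4 : 4 * ∑ q ∈ K, sv d (n * d) m q.1 * sv d (n * d) m q.2 ≤ U.card * Phi d (n * d) m := by
    have b1 : ∑ q ∈ K, sv d (n * d) m q.1 * sv d (n * d) m q.2 ≤
        (∑ x ∈ U, sv d (n * d) m x) * ∑ x ∈ U, sv d (n * d) m x := by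
      rw [sum_mul_sum, ← sum_product']
      exact sum_le_sum_of_subset (filter_subset _ _)
    have b2 : ∑ x ∈ U, sv d (n * d) m x ≤ U.card * d :=
      (sum_le_card_nsmul _ _ _ fun x _ => sv_le hd _ m x).trans (smul_eq_mul _ _).le
    have b3 : 4 * d * ∑ x ∈ U, sv d (n * d) m x ≤ Phi d (n * d) m := by
      rw [Phi_eq, mul_sum]; exact sum_le_sum fun x _ => sv_wt _ _ m x
    calc 4 * ∑ q ∈ K, sv d (n * d) m q.1 * sv d (n * d) m q.2
        ≤ 4 * (U.card * d * ∑ x ∈ U, sv d (n * d) m x) :=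
          Nat.mul_le_mul_left _ (b1.trans (Nat.mul_le_mul_right _ b2))
      _ = U.card * (4 * d * ∑ x ∈ U, sv d (n * d) m x) := by ring
      _ ≤ _ := Nat.mul_le_mul_left _ b3
  obtain ⟨q, hq, h⟩ := exists_le_of_sum_le hne
    (f := fun q => 13 * Phi d (n * d) m + 8 * U.card * (sv d (n * d) m q.1 * sv d (n * d) m q.2))
    (g := fun q => 8 * U.card * (wt d (n * d) m q.1 + wt d (n * d) m q.2)) (by
      rw [sum_add_distrib, sum_const, smul_eq_mul, ← mul_sum, ← mul_sum, sum_add_distrib, a2]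
      have c1 := Nat.mul_le_mul_right (13 * Phi d (n * d) m) a3
      have c2 := Nat.mul_le_mul_left (2 * U.card) a4
      have c3 := Nat.mul_le_mul_left U.card a1
      nlinarith)
  have hq' := (mem_filter.mp hq).2
  refine ⟨q.1, q.2, hq', ?_⟩
  have := Nat.mul_le_mul_left (4 * U.card) (step_le hd hm hq')
  nlinarith

end P4

open P4 in
theorem p4 : P4Stmt := by
  intro d n M m hd hm
  refine ⟨?_, fun hM hc hΦ => ?_⟩
  · rw [Phi_eq, cnt_eq, mul_comm (5 * d ^ 2)]
    exact (sum_le_card_nsmul _ _ _ fun x _ => wt_le hd _ m x).trans (smul_eq_mul _ _).le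
  rcases le_or_gt (32 * d ^ 2) (cnt (n * d) m) with h | h
  · obtain ⟨x, y, hxy, h1⟩ := avg hd hm h
    refine ⟨x, y, hxy, ?_⟩
    obtain ⟨k, hk⟩ : ∃ k, cnt (n * d) m = k + 4 := ⟨cnt (n * d) m - 4, by
      have : 1 ≤ d ^ 2 := Nat.one_le_pow _ _ hd
      omega⟩
    rw [hk] at h1 hΦ ⊢
    rw [show k + 4 - 2 = k + 2 from rfl]
    have h2 : 4 * (k + 4) * Phi d (n * d) (upd (n * d) m x y) ≤ (4 * k + 3) * Phi d (n * d) m := by
      nlinarith
    have h3 := Nat.mul_le_mul_right M (Nat.pow_le_pow_left h2 2)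
    have h4 := Nat.mul_le_mul_left ((4 * k + 3) ^ 2) hΦ
    have h5 : (4 * k + 3) ^ 2 * (k + 4) ≤ 16 * (k + 2) ^ 3 := by nlinarith [Nat.zero_le k]
    have h6 := Nat.mul_le_mul_left (25 * d ^ 4 * (k + 4) ^ 2) h5
    refine le_of_mul_le_mul_left (a := (4 * (k + 4)) ^ 2) ?_ (by positivity)
    calc (4 * (k + 4)) ^ 2 * (Phi d (n * d) (upd (n * d) m x y) ^ 2 * M)
        = (4 * (k + 4) * Phi d (n * d) (upd (n * d) m x y)) ^ 2 * M := by ring
      _ ≤ ((4 * k + 3) * Phi d (n * d) m) ^ 2 * M := h3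
      _ = (4 * k + 3) ^ 2 * (Phi d (n * d) m ^ 2 * M) := by ring
      _ ≤ (4 * k + 3) ^ 2 * (25 * d ^ 4 * (k + 4) ^ 3) := h4
      _ = 25 * d ^ 4 * (k + 4) ^ 2 * ((4 * k + 3) ^ 2 * (k + 4)) := by ring
      _ ≤ 25 * d ^ 4 * (k + 4) ^ 2 * (16 * (k + 2) ^ 3) := h6
      _ = _ := by ring
  · have h0 : Phi d (n * d) m = 0 := by
      by_contra h0
      have h1 : 1 * M ≤ Phi d (n * d) m ^ 2 * M :=
        Nat.mul_le_mul_right _ (Nat.one_le_pow _ _ (Nat.pos_of_ne_zero h0))
      have h2 := Nat.mul_le_mul_left (25 * d ^ 4) (Nat.pow_le_pow_left h.le 3)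
      have h3 : 1 ≤ d ^ 10 := Nat.one_le_pow _ _ hd
      have h4 : 25 * d ^ 4 * (32 * d ^ 2) ^ 3 = 819200 * d ^ 10 := by ring
      omega
    rw [cnt_eq] at hc
    obtain ⟨x, hx, y, hy, hxy⟩ := one_lt_card.mp hc
    have hw : wt d (n * d) m x = 0 := by
      rw [Phi_eq] at h0
      exact sum_eq_zero_iff.mp h0 x hx
    have ho : om d (n * d) m x y = 0 := sum_eq_zero_iff.mp hw y hy
    have hok : okc d (n * d) m x y := by
      refine ⟨(mem_fU.mp hx).1, (mem_fU.mp hy).1, (mem_fU.mp hx).2, (mem_fU.mp hy).2, fun hb => ?_⟩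
      unfold om at ho
      rw [if_pos hxy] at ho
      rcases hb with hb | hb
      · rw [if_pos hb] at ho; omega
      · rw [if_pos hb] at ho
        split_ifs at ho <;> omega
    refine ⟨x, y, hok, ?_⟩
    have h1 := step_le hd hm hok
    have h2 := sv_wt d (n * d) m x
    have h3 : sv d (n * d) m x = 0 := by
      rw [hw] at h2
      rcases Nat.mul_eq_zero.mp (Nat.le_zero.mp h2) with h | h <;> omega
    rw [h0, h3, zero_mul] at h1
    have h4 : Phi d (n * d) (upd (n * d) m x y) = 0 := by omega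
    rw [h4]; simp

theorem P4_proof (_hC : CombStmt) : P4Stmt := p4

end Crest.Agent.R62
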