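import Crest.Agent.R62.DefsC

set_option autoImplicit false

namespace Crest.Agent.R62

open Matrix Finset

namespace PAR

theorem root (k M N : ℕ) (hk : k ≠ 0) (hM : 2 ^ k ≤ M) (hN : M ^ k ≤ N) :
    M ≤ Nat.nthRoot k N ∧ Nat.nthRoot k N ^ k ≤ N ∧ N ≤ Nat.nthRoot k N ^ (k + 1) := by
  have h1 : M ≤ Nat.nthRoot k N := (Nat.le_nthRoot_iff hk).2 hN
  refine ⟨h1, Nat.pow_nthRoot_le (Or.inl hk), (Nat.lt_pow_nthRoot_add_one hk N).le.trans ?_⟩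
  have h2 : 1 ≤ Nat.nthRoot k N := (Nat.one_le_two_pow.trans hM).trans h1
  calc (Nat.nthRoot k N + 1) ^ k ≤ (2 * Nat.nthRoot k N) ^ k := Nat.pow_le_pow_left (by omega) k
    _ = 2 ^ k * Nat.nthRoot k N ^ k := mul_pow _ _ _
    _ ≤ Nat.nthRoot k N * Nat.nthRoot k N ^ k := Nat.mul_le_mul_right _ (hM.trans h1)
    _ = _ := by ring

theorem basic (d n : ℕ) (hd : 3 ≤ d) (hn : 1 ≤ n) :
    (0 : ℝ) < tq d n ∧ (tq d n : ℝ) < 1 ∧ (0 : ℝ) < hq d n ∧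
    (tq d n : ℝ) ^ 2 * (d - 1) ≤ 1 ∧ 1 ≤ (hq d n : ℝ) ^ 2 * (d - 1) ∧
    (hq d n : ℝ) = tq d n + 1 / (n * (d - 1)) := by
  have h1 : sqq d n ^ 2 ≤ (d - 1) * n ^ 2 := Nat.pow_nthRoot_le (Or.inl two_ne_zero)
  have h2 : (d - 1) * n ^ 2 < (sqq d n + 1) ^ 2 := Nat.lt_pow_nthRoot_add_one two_ne_zero _
  have h3 : n ≤ sqq d n := (Nat.le_nthRoot_iff two_ne_zero).2
    (Nat.le_mul_of_pos_left _ (by omega))
  have e : ((d - 1 : ℕ) : ℝ) = d - 1 := by rw [Nat.cast_sub (by omega)]; norm_num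
  have g1 : (sqq d n : ℝ) ^ 2 ≤ (d - 1) * n ^ 2 := by rw [← e]; exact_mod_cast h1
  have g2 : ((d : ℝ) - 1) * n ^ 2 ≤ (sqq d n + 1) ^ 2 := by rw [← e]; exact_mod_cast h2.le
  have g3 : (0 : ℝ) < sqq d n := by exact_mod_cast (by omega : 0 < sqq d n)
  have gn : (0 : ℝ) < n := by exact_mod_cast hn
  have gd : (3 : ℝ) ≤ d := by exact_mod_cast hd
  have gq : (0 : ℝ) < d - 1 := by linarith
  have et : (tq d n : ℝ) = sqq d n / (n * (d - 1)) := by unfold tq; push_cast; rfl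
  have eh : (hq d n : ℝ) = (sqq d n + 1) / (n * (d - 1)) := by unfold hq; push_cast; rfl
  have t0 : (0 : ℝ) < tq d n := by rw [et]; positivity
  have t2 : (tq d n : ℝ) ^ 2 * (d - 1) ≤ 1 := by
    have : (tq d n : ℝ) ^ 2 * (d - 1) = (sqq d n : ℝ) ^ 2 / ((d - 1) * n ^ 2) := by
      rw [et]; field_simp
    rw [this]
    exact (div_le_one (by positivity)).2 g1
  refine ⟨t0, by nlinarith, by rw [eh]; positivity, t2, ?_, by rw [eh, et, add_div]⟩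
  have : (hq d n : ℝ) ^ 2 * (d - 1) = ((sqq d n : ℝ) + 1) ^ 2 / ((d - 1) * n ^ 2) := by
    rw [eh]; field_simp
  rw [this]
  exact (one_le_div (by positivity)).2 g2

end PAR

open PAR in
theorem PAR_proof (hK : ConstStmt) (hI : InitStmt) (hC : CombStmt) : ParStmt := by
  intro d hd
  have init := fun (p n : ℕ) (hn : 1 ≤ n) =>
    hI (Fin (n * d)) (Fin n) Fin.divNat d p (tq d n) (hq d n) hd ⟨⟨0, hn⟩⟩
      (hC d n (by omega)).2.1 (basic d n hd hn).1 (basic d n hd hn).2.2.2.1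
      (basic d n hd hn).2.2.2.2.1 (by rw [Fintype.card_fin]; exact (basic d n hd hn).2.2.2.2.2)
  refine ⟨fun n hn => ?_, ?_⟩
  · obtain ⟨b1, b2, b3, b4, b5, b6⟩ := basic d n hd hn
    exact ⟨b1, b2, b3, b4, b5, b6, (init 0 n hn).1.2.2⟩
  obtain ⟨p, Λ₀, hp, hΛ⟩ := hK
  obtain ⟨k, hk⟩ : ∃ k : ℕ, k = 31907 := ⟨_, rfl⟩
  have hk0 : k ≠ 0 := by omega
  obtain ⟨M, hM1, hM2, hM3⟩ : ∃ M : ℕ, 2 ^ k ≤ M ∧ 10 ^ 20 * d ^ 10 ≤ M ∧ Λ₀ ≤ M :=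
    ⟨2 ^ k + 10 ^ 20 * d ^ 10 + ⌈Λ₀⌉₊, (Nat.le_add_right _ _).trans (Nat.le_add_right _ _),
      (Nat.le_add_left _ _).trans (Nat.le_add_right _ _),
      (Nat.le_ceil Λ₀).trans (Nat.cast_le.2 (Nat.le_add_left _ _))⟩
  refine ⟨p, M ^ k + 1, fun n hn => ?_⟩
  have hn1 : 1 ≤ n := by omega
  refine ⟨hn1, ?_⟩
  have hN : M ^ k ≤ n * d := (by omega : M ^ k ≤ n).trans (Nat.le_mul_of_pos_right _ (by omega))
  obtain ⟨r1, r2, r3⟩ := root k M (n * d) hk0 hM1 hN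
  have eL : Nat.nthRoot k (n * d) = La d n := by rw [hk]; rfl
  rw [eL, hk] at r2 r3
  rw [eL] at r1
  have r1' : (M : ℝ) ≤ La d n := Nat.cast_le.2 r1
  obtain ⟨L, l1, l2, l3, l4⟩ := hΛ (La d n) (hM3.trans r1')
  obtain ⟨⟨i1, i2, -⟩, i3⟩ := init p n hn1
  have et : (tau d n : ℝ) = n * (((hq d n : ℝ) * d - tq d n) ^ 3 - (d - 1) * (tq d n : ℝ) ^ 3) := by
    unfold tau; push_cast; rfl
  simp only [Fintype.card_fin, ← et] at i1 i2 i3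
  have big : Big d p L (La d n) (n * d : ℕ) (tau d n) :=
    ⟨hd, le_trans (by exact_mod_cast hM2) r1', by rw [← Nat.cast_pow]; exact Nat.cast_le.2 r2,
      by rw [← Nat.cast_pow]; exact Nat.cast_le.2 r3, l1, l2, l3, hp, i1, i2, l4⟩
  exact ⟨L, big, i3 L _ big⟩

end Crest.Agent.R62
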