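import Crest.Agent.R62.DefsC

set_option autoImplicit false

namespace Crest.Agent.R62

open Matrix Finset

namespace PH

theorem logb {Λ N₀ x : ℝ} (hΛ : 10 ^ 20 ≤ Λ) (hi : N₀ ≤ Λ ^ 31908) (hx : 1 ≤ x) (hxN : x ≤ N₀) :
    720 * Real.log (N₀ / x) / Λ ≤ 3 / 4 := by
  have hΛ0 : 0 < Λ := lt_of_lt_of_le (by norm_num) hΛ
  have hx0 : 0 < x := by linarith
  have hN : 0 < N₀ := by linarith
  have h1 : Real.log (N₀ / x) ≤ Real.log (Λ ^ 31908) :=
    Real.log_le_log (div_pos hN hx0) ((div_le_self hN.le hx).trans hi)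
  rw [Real.log_pow] at h1
  have hs : 0 < √Λ := Real.sqrt_pos.2 hΛ0
  have hss : √Λ * √Λ = Λ := Real.mul_self_sqrt hΛ0.le
  have h2 : Real.log Λ ≤ 2 * √Λ := by
    have : Real.log Λ = 2 * Real.log √Λ := by
      conv_lhs => rw [← hss]
      rw [Real.log_mul hs.ne' hs.ne']; ring
    have h3 := Real.log_le_sub_one_of_pos hs
    linarith
  have h4 : (10 : ℝ) ^ 10 ≤ √Λ := by
    apply Real.le_sqrt_of_sq_le
    have : ((10 : ℝ) ^ 10) ^ 2 = 10 ^ 20 := by norm_num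
    linarith
  rw [div_le_iff₀ hΛ0]
  have h5 : (10 : ℝ) ^ 10 * √Λ ≤ Λ := by
    calc (10 : ℝ) ^ 10 * √Λ ≤ √Λ * √Λ := mul_le_mul_of_nonneg_right h4 hs.le
      _ = Λ := hss
  have h6 : ((31908 : ℕ) : ℝ) = 31908 := by norm_num
  rw [h6] at h1
  have h7 : (10 : ℝ) ^ 10 = 10000000000 := by norm_num
  rw [h7] at h5
  nlinarith

theorem stepb {Λ N₀ c : ℝ} (hΛ : 0 < Λ) (hN : 0 < N₀) (hc : 2 < c) :
    720 * Real.log (N₀ / c) / Λ + 720 / (Λ * c) ≤ 720 * Real.log (N₀ / (c - 2)) / Λ := by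
  have hc0 : 0 < c := by linarith
  have hc2 : 0 < c - 2 := by linarith
  have h1 : Real.log ((c - 2) / c) ≤ (c - 2) / c - 1 := Real.log_le_sub_one_of_pos (div_pos hc2 hc0)
  rw [Real.log_div hc2.ne' hc0.ne'] at h1
  rw [Real.log_div hN.ne' hc0.ne', Real.log_div hN.ne' hc2.ne']
  have h2 : (c - 2) / c - 1 = -2 * (1 / c) := by field_simp; ring
  have h3 : 0 < 1 / c := by positivity
  have h4 : 720 / (Λ * c) = 720 * (1 / c) / Λ := by field_simp
  rw [h4, ← add_div]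
  apply div_le_div_of_nonneg_right _ hΛ.le
  linarith

theorem lognn {Λ N₀ x : ℝ} (hΛ : 0 < Λ) (hx : 0 < x) (hxN : x ≤ N₀) :
    0 ≤ 720 * Real.log (N₀ / x) / Λ :=
  div_nonneg (mul_nonneg (by norm_num) (Real.log_nonneg ((one_le_div hx).2 hxN))) hΛ.le

theorem par {a c : ℕ} (hc : Even c) (h : 2 * a < c) : 2 * a + 2 ≤ c := by
  obtain ⟨k, rfl⟩ := hc
  omega

theorem cast2 {Λ k c : ℕ} (h : 2 * Λ ^ k + 2 ≤ c) : 2 * (Λ : ℝ) ^ k + 2 ≤ (c : ℝ) := by
  exact_mod_cast h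

theorem cast3 {Λ k c : ℕ} (h : c ≤ 2 * Λ ^ k) : (c : ℝ) ≤ 2 * (Λ : ℝ) ^ k := by
  exact_mod_cast h

theorem cast4 {Λ k c : ℕ} (h : c = 2 * Λ ^ k) : (c : ℝ) = 2 * (Λ : ℝ) ^ k := by
  exact_mod_cast h

end PH

open PH in
theorem PH_proof (h1 : Step1Stmt) (h2 : Step2Stmt) (h3 : Step3Stmt) (hS : SwStmt) : PhStmt := by
  intro ι _ _ d p Λ L N₀ τ U A B bd hB hA hB' hsy hrow hev hlo hhi hP
  obtain ⟨P1, P2, P3⟩ := hP
  have hΛ : (10 : ℝ) ^ 20 ≤ Λ := by
    have hd : (1 : ℝ) ≤ d := by exact_mod_cast le_trans (by norm_num) hB.hd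
    have h10 : (1 : ℝ) ≤ (d : ℝ) ^ 10 := one_le_pow₀ hd
    exact le_trans (le_mul_of_one_le_right (by positivity) h10) hB.hΛ
  have hΛ0 : (0 : ℝ) < Λ := lt_of_lt_of_le (by positivity) hΛ
  have hΛ2 : 1 < Λ := by
    have : (1 : ℝ) < Λ := lt_of_lt_of_le (by norm_num) hΛ
    exact_mod_cast this
  have e1 : Λ ^ 12621 < Λ ^ 23906 := Nat.pow_lt_pow_right hΛ2 (by decide)
  have e0 : 1 ≤ Λ ^ 11218 := Nat.one_le_pow _ _ (by omega)
  have hc4 : 4 ≤ U.card := le_trans (by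
    generalize Λ ^ 11218 = a at e0
    omega) (par hev hlo)
  have hc4' : (4 : ℝ) ≤ U.card := by exact_mod_cast hc4
  have hcast : ((U.card - 2 : ℕ) : ℝ) = (U.card : ℝ) - 2 := by
    rw [Nat.cast_sub (by omega)]; norm_num
  have hN0 : 0 < N₀ := by linarith
  have b1 := logb hΛ hB.hi (x := (U.card : ℝ)) (by linarith) hhi
  have b2 := logb hΛ hB.hi (x := (U.card : ℝ) - 2) (by linarith) (by linarith)
  have b3 := stepb hΛ0 hN0 (c := (U.card : ℝ)) (by linarith)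
  have b4 := lognn hΛ0 (x := (U.card : ℝ) - 2) (N₀ := N₀) (by linarith) (by linarith)
  by_cases c1 : 2 * Λ ^ 23906 < U.card
  · have c1' := par hev c1
    have Q := P1 c1.le
    obtain ⟨i, hi, j, hj, hij, hb, dA, dB, hst⟩ :=
      h1 ι d p L Λ N₀ τ U A B bd hB hA hB' hsy hrow (cast2 c1') hhi (by linarith)
    refine ⟨i, hi, j, hj, hij, hb, dA, dB, fun U' A' B' hA' hB'' hv => ?_⟩
    simp only [valR, if_pos c1] at hv
    have key : pot1R p Λ N₀ τ ((U.card : ℝ) - 2) A' B' ≤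
        1 / 4 + 720 * Real.log (N₀ / ((U.card : ℝ) - 2)) / Λ := by linarith
    refine ⟨fun _ => by rw [hcast]; exact key, fun _ q => ?_, fun q => ?_⟩
    · have e : U.card - 2 = 2 * Λ ^ 23906 := by
        generalize Λ ^ 23906 = a at q c1'
        omega
      have e' := cast4 e
      rw [hcast] at e' ⊢
      have := (hS ι d p L Λ N₀ τ U' A' B' hB hA' hB'').1 (by rw [← e']; linarith)
      rw [← e'] at this
      linarith
    · exfalso
      generalize Λ ^ 23906 = a at q c1' e1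
      generalize Λ ^ 12621 = b at q e1
      omega
  · have c1' : U.card ≤ 2 * Λ ^ 23906 := not_lt.1 c1
    by_cases c2 : 2 * Λ ^ 12621 < U.card
    · have c2' := par hev c2
      have Q := P2 c2.le c1'
      obtain ⟨i, hi, j, hj, hij, hb, dA, dB, hst⟩ :=
        h2 ι d p L Λ N₀ τ U A B bd hB hA hB' hsy hrow (cast2 c2') (cast3 c1') (by linarith)
      refine ⟨i, hi, j, hj, hij, hb, dA, dB, fun U' A' B' hA' hB'' hv => ?_⟩
      simp only [valR, if_neg c1, if_pos c2] at hv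
      have key : pot2R p Λ ((U.card : ℝ) - 2) A' B' ≤
          1 / 4 + 720 * Real.log (N₀ / ((U.card : ℝ) - 2)) / Λ := by linarith
      refine ⟨fun q => ?_, fun _ _ => by rw [hcast]; exact key, fun q => ?_⟩
      · exfalso
        generalize Λ ^ 23906 = a at q c1'
        omega
      · have e : U.card - 2 = 2 * Λ ^ 12621 := by
          generalize Λ ^ 12621 = a at q c2'
          omega
        have e' := cast4 e
        rw [hcast] at e' ⊢
        have := (hS ι d p L Λ N₀ τ U' A' B' hB hA' hB'').2.1 (by rw [← e']; linarith)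
        rw [← e'] at this
        exact this
    · have c2' : U.card ≤ 2 * Λ ^ 12621 := not_lt.1 c2
      have Q := P3 c2'
      obtain ⟨i, hi, j, hj, hij, hb, dA, dB, hst⟩ :=
        h3 ι d p L Λ N₀ τ U A B bd hB hA.toBas0 hB'.toBas0 hsy hrow (cast2 (par hev hlo))
          (cast3 c2') Q
      refine ⟨i, hi, j, hj, hij, hb, dA, dB, fun U' A' B' hA' hB'' hv => ?_⟩
      simp only [valR, if_neg c1, if_neg c2] at hv
      refine ⟨fun q => ?_, fun q _ => ?_, fun _ => ?_⟩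
      · exfalso
        generalize Λ ^ 23906 = a at q c1'
        omega
      · exfalso
        generalize Λ ^ 12621 = a at q c2'
        omega
      · rw [hcast]; linarith

end Crest.Agent.R62
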