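import Crest.Agent.R62.DefsA

set_option autoImplicit false

namespace Crest.Agent.R62

open Matrix Finset

namespace POT
variable {ι : Type} [Fintype ι] [DecidableEq ι]

theorem av_lin (E : Env ι) (X Y : ι → ι → ℝ) (a b c : ℝ) :
    E.av (fun i j => a * X i j + b * Y i j + c) = a * E.av X + b * E.av Y + c * E.Z := by
  simp only [Env.av, Env.Z, Finset.mul_sum, ← Finset.sum_add_distrib]
  refine Finset.sum_congr rfl fun i _ => Finset.sum_congr rfl fun j _ => ?_
  ring

theorem av_mono (E : Env ι) (h : E.Ok) (X Y : ι → ι → ℝ) (hXY : ∀ i j, X i j ≤ Y i j) :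
    E.av X ≤ E.av Y := by
  unfold Env.av
  exact Finset.sum_le_sum fun i _ => Finset.sum_le_sum fun j _ =>
    mul_le_mul_of_nonneg_left (hXY i j) (h.p0 i j)

theorem core (N Z Λ x γ : ℝ) (hΛ : 10 ≤ Λ) (hN : Λ ^ 2 ≤ N) (hZ : |Z - N ^ 2| ≤ N ^ 2 / Λ ^ 2)
    (hx0 : 0 ≤ x) (hx1 : x ≤ 1) (hγ : |γ| ≤ Λ / 2) :
    9 / 10 ≤ 1 + γ / N - 3 / (Λ * N) ∧ 0 ≤ γ * N * x + 3 * N / Λ + x * Z ∧
    γ * N * x + 3 * N / Λ + x * Z ≤ Z * (x + 30 / (Λ * N)) * (1 + γ / N - 3 / (Λ * N)) := by
  have hΛ0 : 0 < Λ := by linarith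
  have hN100 : 100 ≤ N := by nlinarith
  have hN0 : 0 < N := by linarith
  have hΛN : 10 * Λ ≤ N := by nlinarith
  obtain ⟨hZ1, hZ2⟩ := abs_le.mp hZ
  obtain ⟨hγ1, hγ2⟩ := abs_le.mp hγ
  have h100 : N ^ 2 / Λ ^ 2 ≤ N ^ 2 / 100 := by
    apply div_le_div_of_nonneg_left (by positivity) (by norm_num) (by nlinarith)
  have hZlo : 99 / 100 * N ^ 2 ≤ Z := by linarith
  have hg1 : -(1 / 20) ≤ γ / N := by
    rw [le_div_iff₀ hN0]; linarith
  have hg2 : 3 / (Λ * N) ≤ 1 / 20 := by
    rw [div_le_iff₀ (by positivity)]; nlinarith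
  have hd : 9 / 10 ≤ 1 + γ / N - 3 / (Λ * N) := by linarith
  refine ⟨hd, ?_, ?_⟩
  · have h1 : 0 ≤ x * (γ * N + Z) := by
      apply mul_nonneg hx0; nlinarith
    have h2 : 0 ≤ 3 * N / Λ := by positivity
    nlinarith
  · set d := 1 + γ / N - 3 / (Λ * N) with hdd
    set w := N / Λ with hw
    have hw0 : 0 < w := by positivity
    -- the term `γ x (Z - N²)/N`
    have e1 : |γ * x * (Z - N ^ 2) / N| ≤ w / 2 := by
      rw [abs_div, abs_mul, abs_mul, abs_of_pos hN0, abs_of_nonneg hx0, div_le_iff₀ hN0]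
      have h1 : |γ| * x ≤ Λ / 2 := by
        calc |γ| * x ≤ |γ| * 1 := mul_le_mul_of_nonneg_left hx1 (abs_nonneg _)
          _ ≤ Λ / 2 := by linarith
      calc |γ| * x * |Z - N ^ 2| ≤ Λ / 2 * (N ^ 2 / Λ ^ 2) :=
            mul_le_mul h1 hZ (abs_nonneg _) (by positivity)
        _ = w / 2 * N := by rw [hw]; field_simp
    have e2 : 23 * w ≤ Z * (30 * d - 3 * x) / (Λ * N) := by
      rw [le_div_iff₀ (by positivity)]
      have : 23 * w * (Λ * N) = 23 * N ^ 2 := by rw [hw]; field_simp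
      rw [this]
      have h1 : 24 ≤ 30 * d - 3 * x := by linarith
      have h2 : 0 ≤ N ^ 2 := by positivity
      nlinarith
    have e3 : Z * (x + 30 / (Λ * N)) * d =
        x * Z + γ * N * x + γ * x * (Z - N ^ 2) / N + Z * (30 * d - 3 * x) / (Λ * N) := by
      rw [hdd]; field_simp; ring
    have e4 : 3 * N / Λ = 3 * w := by rw [hw]; ring
    rw [e3, e4]
    have := (abs_le.mp e1).1
    linarith

theorem part1 (E : Env ι) (Λ : ℝ) (hΛ : 10 ≤ Λ) (hN : Λ ^ 2 ≤ E.N)
    (hZ : |E.Z - E.N ^ 2| ≤ E.N ^ 2 / Λ ^ 2)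
    (O T T' γ : ℝ) (O' : ι → ι → ℝ) (hO : 0 ≤ O) (hOT : O ≤ T) (hT : 0 < T) (hγ : |γ| ≤ Λ / 2)
    (hT' : T * (1 + γ / E.N - 3 / (Λ * E.N)) ≤ T')
    (hav : E.av (fun i j => O' i j - O) ≤ γ * E.N * O + 3 * E.N * T / Λ) :
    E.av (fun i j => O' i j / T') ≤ E.Z * (O / T + 30 / (Λ * E.N)) := by
  obtain ⟨hd, h0, h1⟩ := core E.N E.Z Λ (O / T) γ hΛ hN hZ (by positivity)
    ((div_le_one hT).mpr hOT) hγ
  set d := 1 + γ / E.N - 3 / (Λ * E.N) with hdd
  have hd0 : 0 < d := by linarith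
  have hTd : 0 < T * d := by positivity
  have hT'0 : 0 < T' := by linarith
  have e1 : E.av (fun i j => O' i j / T') =
      (1 / T') * E.av (fun i j => O' i j - O) + 0 * E.av (fun i j => O' i j - O)
        + (O / T') * E.Z := by
    rw [← av_lin]
    congr 1
    funext i j
    ring
  rw [e1]
  set M := γ * E.N * (O / T) + 3 * E.N / Λ + O / T * E.Z with hM
  have e2 : γ * E.N * O + 3 * E.N * T / Λ + O * E.Z = T * M := by
    rw [hM]; field_simp
  have e3 : (1 / T') * E.av (fun i j => O' i j - O) + 0 * E.av (fun i j => O' i j - O)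
        + (O / T') * E.Z ≤ T * M / T' := by
    rw [← e2, le_div_iff₀ hT'0]
    have : ((1 / T') * E.av (fun i j => O' i j - O) + 0 * E.av (fun i j => O' i j - O)
        + (O / T') * E.Z) * T' = E.av (fun i j => O' i j - O) + O * E.Z := by
      field_simp; ring
    rw [this]; linarith
  refine e3.trans ?_
  calc T * M / T' ≤ T * M / (T * d) :=
        div_le_div_of_nonneg_left (mul_nonneg hT.le h0) hTd hT'
    _ = M / d := by field_simp
    _ ≤ _ := by rw [div_le_iff₀ hd0]; exact h1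

end POT

open POT in
theorem POT_proof : PotStmt := by
  intro ι _ _ E Λ hE hΛ hN hZ
  have hΛ0 : 0 < Λ := by linarith
  have hN100 : 100 ≤ E.N := by nlinarith
  have hN0 : 0 < E.N := by linarith
  have hΛN : 10 * Λ ≤ E.N := by nlinarith
  refine ⟨fun O T T' γ O' h1 h2 h3 h4 h5 h6 => part1 E Λ hΛ hN hZ O T T' γ O' h1 h2 h3 h4 h5 h6,
    ?_, ?_, ?_⟩
  · intro y s s' γ y' hys hs hγ hs' h1 h2
    obtain ⟨hγ1, hγ2⟩ := abs_le.mp hγ
    have hm0 : 0 ≤ max y 0 := le_max_right _ _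
    have hms : max y 0 ≤ s := max_le hys hs.le
    have key := part1 E Λ hΛ hN hZ (max y 0 ^ 2) (s ^ 2) (s' ^ 2) (2 * γ)
      (fun i j => max (y' i j) 0 ^ 2) (by positivity) (pow_le_pow_left₀ hm0 hms 2) (by positivity)
      (by rw [abs_mul, abs_two]; linarith) ?_ ?_
    · simpa only [div_pow] using key
    · have hg1 : -(1 / 20) ≤ γ / E.N := by
        rw [le_div_iff₀ hN0]; linarith
      have hg2 : 1 / (Λ * E.N) ≤ 1 / 20 := by
        rw [div_le_iff₀ (by positivity)]; nlinarith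
      have hg3 : 0 ≤ 1 / (Λ * E.N) := by positivity
      set a := γ / E.N with ha
      set b := 1 / (Λ * E.N) with hb
      have e1 : 2 * γ / E.N = 2 * a := by rw [ha]; ring
      have e2 : 3 / (Λ * E.N) = 3 * b := by rw [hb]; ring
      rw [e1, e2]
      have h3 : 0 ≤ s * (1 + a - b) := mul_nonneg hs.le (by linarith)
      have h4 : (s * (1 + a - b)) ^ 2 ≤ s' ^ 2 := pow_le_pow_left₀ h3 hs' 2
      have h5 : 1 + 2 * a - 3 * b ≤ (1 + a - b) ^ 2 := by nlinarith [sq_nonneg (a - b)]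
      calc s ^ 2 * (1 + 2 * a - 3 * b) ≤ s ^ 2 * (1 + a - b) ^ 2 :=
            mul_le_mul_of_nonneg_left h5 (by positivity)
        _ = (s * (1 + a - b)) ^ 2 := by ring
        _ ≤ _ := h4
    · have e1 : E.av (fun i j => max (y' i j) 0 ^ 2 - max y 0 ^ 2) ≤
          E.av (fun i j => (2 * max y 0) * (y' i j - y) + 1 * (y' i j - y) ^ 2 + 0) := by
        refine av_mono E hE _ _ fun i j => ?_
        have hy : y ≤ max y 0 := le_max_left _ _
        have : max (y' i j) 0 ^ 2 ≤ (max y 0 + (y' i j - y)) ^ 2 := by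
          rcases le_total (y' i j) 0 with h | h
          · rw [max_eq_right h]; simpa using sq_nonneg _
          · rw [max_eq_left h]
            exact pow_le_pow_left₀ h (by linarith) 2
        nlinarith
      rw [av_lin] at e1
      refine e1.trans ?_
      have hw : 0 ≤ E.N * s ^ 2 / Λ := by positivity
      have e3 : 3 * E.N * s ^ 2 / Λ = 3 * (E.N * s ^ 2 / Λ) := by ring
      rw [e3]
      rcases lt_or_ge 0 y with h | h
      · rw [max_eq_left h.le]
        have h3 := h1 h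
        have h4 : 2 * y * E.av (fun i j => y' i j - y) ≤ 2 * y * (γ * E.N * y + E.N * s / Λ) :=
          mul_le_mul_of_nonneg_left h3 (by linarith)
        have h5 : y * (E.N * s / Λ) ≤ E.N * s ^ 2 / Λ := by
          calc y * (E.N * s / Λ) ≤ s * (E.N * s / Λ) :=
                mul_le_mul_of_nonneg_right hys (by positivity)
            _ = _ := by ring
        nlinarith
      · rw [max_eq_right h]
        linarith
  · intro y s s' y' hys hs hs' h1 h2
    have key := part1 E Λ hΛ hN hZ (y ^ 2) (s ^ 2) (s' ^ 2) 0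
      (fun i j => y' i j ^ 2) (by positivity)
      (by rw [← sq_abs y]; exact pow_le_pow_left₀ (abs_nonneg _) hys 2) (by positivity)
      (by rw [abs_zero]; linarith) ?_ ?_
    · simpa only [div_pow] using key
    · have hg3 : 0 ≤ 3 / (Λ * E.N) := by positivity
      have h4 : s ^ 2 ≤ s' ^ 2 := pow_le_pow_left₀ hs.le hs' 2
      have : 0 ≤ s ^ 2 * (3 / (Λ * E.N)) := by positivity
      rw [zero_div]
      nlinarith
    · have e1 : E.av (fun i j => y' i j ^ 2 - y ^ 2) =
          E.av (fun i j => (2 * y) * (y' i j - y) + 1 * (y' i j - y) ^ 2 + 0) := by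
        congr 1; funext i j; ring
      rw [e1, av_lin]
      have h3 : |y * E.av (fun i j => y' i j - y)| ≤ s * (E.N * s / Λ) := by
        rw [abs_mul]; exact mul_le_mul hys h1 (abs_nonneg _) hs.le
      have h4 := (abs_le.mp h3).2
      have e3 : 3 * E.N * s ^ 2 / Λ = 3 * (E.N * s ^ 2 / Λ) := by ring
      have e4 : s * (E.N * s / Λ) = E.N * s ^ 2 / Λ := by ring
      rw [e3]; rw [e4] at h4
      linarith
  · intro X m hX
    by_contra hcon
    push Not at hcon
    have h100 : E.N ^ 2 / Λ ^ 2 ≤ E.N ^ 2 / 100 := by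
      apply div_le_div_of_nonneg_left (by positivity) (by norm_num) (by nlinarith)
    have hZ0 : 0 < E.Z := by
      have := (abs_le.mp hZ).1
      have h2 : 0 < E.N ^ 2 := by positivity
      linarith
    have hex : ∃ i j, E.p i j ≠ 0 := by
      by_contra h
      push Not at h
      have : E.Z = 0 := by simp [Env.Z, Env.av, h]
      linarith
    obtain ⟨i₀, j₀, h₀⟩ := hex
    have hle : ∀ i j, E.p i j * m ≤ E.p i j * X i j := by
      intro i j
      by_cases h : E.p i j = 0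
      · simp [h]
      · exact mul_le_mul_of_nonneg_left (hcon i j h).le (hE.p0 i j)
    have hlt : E.Z * m < E.av X := by
      have e : E.Z * m = ∑ i, ∑ j, E.p i j * m := by
        simp [Env.Z, Env.av, Finset.sum_mul]
      rw [e]
      unfold Env.av
      refine Finset.sum_lt_sum (fun i _ => Finset.sum_le_sum fun j _ => hle i j)
        ⟨i₀, Finset.mem_univ _, ?_⟩
      refine Finset.sum_lt_sum (fun j _ => hle i₀ j) ⟨j₀, Finset.mem_univ _, ?_⟩
      exact mul_lt_mul_of_pos_left (hcon i₀ j₀ h₀) (lt_of_le_of_ne (hE.p0 _ _) (Ne.symm h₀))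
    linarith

end Crest.Agent.R62
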