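import Crest.Agent.R62.P2

/-! Task PP: drift of `Pq F p`. -/

set_option autoImplicit false

namespace Crest.Agent.R62

open Matrix Finset PL

namespace PP

theorem add_pow_le' {a b : ℝ} (ha : 0 ≤ a) (hb : 0 ≤ b) (n : ℕ) :
    (a + b) ^ n ≤ 2 ^ n * (a ^ n + b ^ n) :=
  (add_pow_le ha hb n).trans (mul_le_mul_of_nonneg_right
    (pow_le_pow_right₀ (by norm_num) (Nat.sub_le _ _)) (by positivity))

theorem taylor0 (n : ℕ) : ∃ C : ℝ, 0 ≤ C ∧ ∀ y b : ℝ, 0 ≤ y →
    |(y + b) ^ (n + 2) - y ^ (n + 2) - (n + 2) * y ^ (n + 1) * b| ≤ C * (b ^ 2 * (y + |b|) ^ n) := by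
  induction n with
  | zero => exact ⟨1, zero_le_one, fun y b _ => by
      have : (y + b) ^ (0 + 2) - y ^ (0 + 2) - ((0 : ℕ) + 2) * y ^ (0 + 1) * b = b ^ 2 := by
        push_cast; ring
      rw [this, abs_of_nonneg (sq_nonneg _)]; simp⟩
  | succ n ih =>
    obtain ⟨C, hC, h⟩ := ih
    refine ⟨C + (n + 2), by positivity, fun y b hy => ?_⟩
    have e : (y + b) ^ (n + 1 + 2) - y ^ (n + 1 + 2) - ((n + 1 : ℕ) + 2) * y ^ (n + 1 + 1) * b =
        (y + b) * ((y + b) ^ (n + 2) - y ^ (n + 2) - (n + 2) * y ^ (n + 1) * b)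
          + (n + 2) * (b ^ 2 * y ^ (n + 1)) := by push_cast; ring
    rw [e]
    refine (abs_add_le _ _).trans ?_
    have h1 : |y + b| ≤ y + |b| := by
      refine (abs_add_le _ _).trans ?_; rw [abs_of_nonneg hy]
    have h2 : |(y + b) * ((y + b) ^ (n + 2) - y ^ (n + 2) - (n + 2) * y ^ (n + 1) * b)| ≤
        (y + |b|) * (C * (b ^ 2 * (y + |b|) ^ n)) := by
      rw [abs_mul]; exact mul_le_mul h1 (h y b hy) (abs_nonneg _) (by positivity)
    have h3 : |((n : ℝ) + 2) * (b ^ 2 * y ^ (n + 1))| ≤ (n + 2) * (b ^ 2 * (y + |b|) ^ (n + 1)) := by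
      rw [abs_of_nonneg (by positivity)]
      gcongr
      linarith [abs_nonneg b]
    refine (add_le_add h2 h3).trans (le_of_eq (by ring))

theorem taylor (n : ℕ) (hn : Even n) : ∃ C : ℝ, 0 ≤ C ∧ ∀ y b : ℝ, 0 ≤ y →
    max (y + b) 0 ^ (n + 2) ≤ y ^ (n + 2) + (n + 2) * y ^ (n + 1) * b
      + C * (y ^ n * b ^ 2 + |b| ^ (n + 2)) := by
  obtain ⟨C, hC, h⟩ := taylor0 n
  refine ⟨C * 2 ^ n, by positivity, fun y b hy => ?_⟩
  have h1 : max (y + b) 0 ^ (n + 2) ≤ (y + b) ^ (n + 2) := by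
    rcases le_total (y + b) 0 with h' | h'
    · rw [max_eq_right h', zero_pow (by omega)]
      exact (hn.add (by norm_num)).pow_nonneg _
    · rw [max_eq_left h']
  have h2 := (abs_le.mp (h y b hy)).2
  have h3 := mul_le_mul_of_nonneg_left (add_pow_le' hy (abs_nonneg b) n) (sq_nonneg b)
  have h4 := mul_le_mul_of_nonneg_left h3 hC
  have e : |b| ^ (n + 2) = b ^ 2 * |b| ^ n := by rw [pow_add, sq_abs, mul_comm]
  rw [e]
  nlinarith

theorem young (n : ℕ) : ∃ C : ℝ, 0 ≤ C ∧ ∀ y b : ℝ, 0 ≤ y →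
    -((n + 1) * y ^ n * b) ≤ 1 / 20 * y ^ (n + 1) + C * |b| ^ (n + 1) := by
  refine ⟨(n + 1) * (20 * (n + 1)) ^ n, by positivity, fun y b hy => ?_⟩
  have hb := abs_nonneg b
  have h0 : -((n + 1) * y ^ n * b) ≤ (n + 1) * y ^ n * |b| := by
    rw [← mul_neg]; exact mul_le_mul_of_nonneg_left (neg_le_abs b) (by positivity)
  refine h0.trans ?_
  rcases le_total y (20 * (n + 1) * |b|) with h | h
  · have h1 : y ^ n ≤ (20 * (n + 1) * |b|) ^ n := pow_le_pow_left₀ hy h n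
    have h2 : (n + 1) * y ^ n * |b| ≤ (n + 1) * (20 * (n + 1) * |b|) ^ n * |b| := by gcongr
    have h3 : 0 ≤ 1 / 20 * y ^ (n + 1) := by positivity
    rw [mul_pow] at h2
    rw [pow_succ |b|]
    linarith
  · have h1 := mul_le_mul_of_nonneg_left h (pow_nonneg hy n)
    have h3 : 0 ≤ (n + 1) * (20 * ((n : ℝ) + 1)) ^ n * |b| ^ (n + 1) := by positivity
    rw [pow_succ y]
    linarith

theorem shift0 (p : ℕ) (hp : p ≠ 0) : ∃ C : ℝ, 0 ≤ C ∧ ∀ a d : ℝ, 0 ≤ a → 0 ≤ d →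
    (a + d) ^ p ≤ (1 + 1 / 20) * a ^ p + C * d ^ p := by
  set ρ : ℝ := (1 + 1 / 20 : ℝ) ^ ((p : ℝ)⁻¹) with hρ
  have h1 : ρ ^ p = 1 + 1 / 20 := Real.rpow_inv_natCast_pow (by norm_num) hp
  have h2 : 1 < ρ := Real.one_lt_rpow (by norm_num) (by positivity)
  have h3 : 0 < ρ - 1 := by linarith
  refine ⟨(1 / (ρ - 1) + 1) ^ p, by positivity, fun a d ha hd => ?_⟩
  rcases le_total d ((ρ - 1) * a) with h | h
  · have h4 : (a + d) ^ p ≤ (ρ * a) ^ p := pow_le_pow_left₀ (by positivity) (by linarith) p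
    rw [mul_pow, h1] at h4
    have : 0 ≤ (1 / (ρ - 1) + 1) ^ p * d ^ p := by positivity
    linarith
  · have h5 : a ≤ 1 / (ρ - 1) * d := by
      rw [one_div, ← div_eq_inv_mul, le_div_iff₀ h3]; linarith
    have h4 : (a + d) ^ p ≤ ((1 / (ρ - 1) + 1) * d) ^ p :=
      pow_le_pow_left₀ (by positivity) (by linarith) p
    rw [mul_pow] at h4
    have : 0 ≤ (1 + 1 / 20) * a ^ p := by positivity
    linarith

theorem shift (p : ℕ) (hp : p ≠ 0) : ∃ C : ℝ, 0 ≤ C ∧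
    (∀ s b : ℝ, max (s + b) 0 ^ p ≤ (1 + 1 / 20) * max s 0 ^ p + C * |b| ^ p) ∧
    ∀ r s : ℝ, (1 - 1 / 20) * max (r - 1) 0 ^ p - C * |s - r| ^ p ≤ max (s - 1) 0 ^ p := by
  obtain ⟨C, hC, h⟩ := shift0 p hp
  have k : ∀ s b : ℝ, max (s + b) 0 ^ p ≤ (1 + 1 / 20) * max s 0 ^ p + C * |b| ^ p := by
    intro s b
    have h1 : max (s + b) 0 ≤ max s 0 + |b| :=
      max_le (add_le_add (le_max_left _ _) (le_abs_self _)) (by positivity)
    exact (pow_le_pow_left₀ (le_max_right _ _) h1 p).trans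
      (h _ _ (le_max_right _ _) (abs_nonneg _))
  refine ⟨C, hC, k, fun r s => ?_⟩
  have h1 := k (s - 1) (r - s)
  rw [show s - 1 + (r - s) = r - 1 by ring, abs_sub_comm r s] at h1
  have h2 : 0 ≤ max (s - 1) 0 ^ p := by positivity
  have h3 : 0 ≤ C * |s - r| ^ p := by positivity
  linarith

theorem mv {a d : ℝ} (ha : 0 ≤ a) (hd : 0 ≤ d) (n : ℕ) :
    (a + d) ^ (n + 1) ≤ a ^ (n + 1) + (n + 1) * (d * (a + d) ^ n) := by
  induction n with
  | zero => simp
  | succ n ih =>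
    have h1 := mul_le_mul_of_nonneg_left ih (add_nonneg ha hd)
    have h2 : d * a ^ (n + 1) ≤ d * (a + d) ^ (n + 1) := by gcongr; linarith
    push_cast
    rw [pow_succ' (a + d) (n + 1)]
    refine h1.trans ?_
    rw [pow_succ' (a + d) n] at h2 ⊢
    rw [pow_succ' a (n + 1)]
    nlinarith

theorem two {y w : ℝ} (hy : 0 ≤ y) (hw : 0 ≤ w) (n : ℕ) :
    (y + w) ^ (n + 1) ≤ y ^ (n + 1) + w ^ (n + 1) + (n + 1) * 2 ^ n * (y ^ n * w + y * w ^ n) := by
  have k : ∀ {y w : ℝ}, 0 ≤ y → 0 ≤ w → w ≤ y →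
      (y + w) ^ (n + 1) ≤ y ^ (n + 1) + (n + 1) * 2 ^ n * (y ^ n * w) := by
    intro y w hy hw h
    refine (mv hy hw n).trans ?_
    have : (y + w) ^ n ≤ (2 * y) ^ n := pow_le_pow_left₀ (by positivity) (by linarith) n
    rw [mul_pow] at this
    have h2 : ((n : ℝ) + 1) * (w * (y + w) ^ n) ≤ (n + 1) * (w * (2 ^ n * y ^ n)) := by gcongr
    linarith
  rcases le_total w y with h | h
  · have h1 := k hy hw h
    have : 0 ≤ w ^ (n + 1) + (n + 1) * 2 ^ n * (y * w ^ n) := by positivity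
    linarith
  · have h1 := k hw hy h
    have : 0 ≤ y ^ (n + 1) + (n + 1) * 2 ^ n * (y ^ n * w) := by positivity
    rw [add_comm w y] at h1
    linarith

theorem three {y w : ℝ} (hy : 0 ≤ y) (hw : 0 ≤ w) (n : ℕ) :
    (y + w + y * w) ^ (n + 1) ≤ y ^ (n + 1) + w ^ (n + 1) + (n + 1) * 4 ^ n * (y ^ n * w + y * w ^ n
      + y ^ (n + 1) * w + y * w ^ (n + 1) + y ^ (n + 1) * w ^ (n + 1)) := by
  have h1 := mv (add_nonneg hy hw) (mul_nonneg hy hw) n
  have h2 := two hy hw n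
  have h3 := add_pow_le' (add_nonneg hy hw) (mul_nonneg hy hw) n
  have h4 := add_pow_le' hy hw n
  have h5 : (1 : ℝ) ≤ 2 ^ n := one_le_pow₀ (by norm_num)
  have e4 : (4 : ℝ) ^ n = 2 ^ n * 2 ^ n := by rw [← mul_pow]; norm_num
  have h6 : (y + w + y * w) ^ n ≤ 4 ^ n * (y ^ n + w ^ n + (y * w) ^ n) := by
    refine h3.trans ?_
    rw [e4, mul_assoc]
    refine mul_le_mul_of_nonneg_left ?_ (by positivity)
    have : 1 * (y * w) ^ n ≤ 2 ^ n * (y * w) ^ n := mul_le_mul_of_nonneg_right h5 (by positivity)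
    linarith
  have h7 : ((n : ℝ) + 1) * (y * w * (y + w + y * w) ^ n) ≤
      (n + 1) * (y * w * (4 ^ n * (y ^ n + w ^ n + (y * w) ^ n))) := by gcongr
  have h8 : ((n : ℝ) + 1) * 2 ^ n * (y ^ n * w + y * w ^ n) ≤
      (n + 1) * 4 ^ n * (y ^ n * w + y * w ^ n) := by gcongr; norm_num
  have e : ((n : ℝ) + 1) * (y * w * (4 ^ n * (y ^ n + w ^ n + (y * w) ^ n))) =
      (n + 1) * 4 ^ n * (y ^ (n + 1) * w + y * w ^ (n + 1) + y ^ (n + 1) * w ^ (n + 1)) := by ring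
  linarith

variable {ι : Type} [Fintype ι] [DecidableEq ι]

noncomputable def cr (F : Mat ι) (n : ℕ) (x j : ι) : ℝ :=
  yy F x ^ n * yy F j + yy F x * yy F j ^ n + yy F x ^ (n + 1) * yy F j
    + yy F x * yy F j ^ (n + 1) + yy F x ^ (n + 1) * yy F j ^ (n + 1)

theorem prod_bound (F : Mat ι) (n : ℕ) (x j : ι) :
    max (rb F x * rr F j - 1) 0 ^ (n + 1) ≤ mm F j * yy F x ^ (n + 1) + yy F j ^ (n + 1)
      + (n + 1) * 4 ^ n * cr F n x j := by
  have hy := yy_nonneg F x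
  have hw := yy_nonneg F j
  have hr := rr_nonneg F j
  rw [rb_eq]
  rcases le_total (rr F j) 1 with h | h
  · have e2 : mm F j = rr F j := min_eq_left h
    have h1 : max ((1 + yy F x) * rr F j - 1) 0 ≤ rr F j * yy F x :=
      max_le (by nlinarith) (by positivity)
    have h2 := pow_le_pow_left₀ (le_max_right _ _) h1 (n + 1)
    rw [mul_pow] at h2
    have h3 : rr F j ^ (n + 1) ≤ rr F j := pow_le_of_le_one hr h (by omega)
    have h4 := mul_le_mul_of_nonneg_right h3 (pow_nonneg hy (n + 1))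
    have h5 : 0 ≤ yy F j ^ (n + 1) + (n + 1) * 4 ^ n * cr F n x j := by unfold cr; positivity
    rw [e2]
    linarith
  · have e1 : rr F j = 1 + yy F j := by
      have : yy F j = rr F j - 1 := max_eq_left (by linarith)
      linarith
    have e2 : mm F j = 1 := min_eq_right h
    have e3 : max ((1 + yy F x) * rr F j - 1) 0 = yy F x + yy F j + yy F x * yy F j := by
      rw [e1, max_eq_left (by nlinarith)]; ring
    rw [e2, e3, one_mul]
    exact three hy hw n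

theorem rb_pow (F : Mat ι) (x : ι) (p : ℕ) : rb F x ^ p ≤ 2 ^ p * (1 + yy F x ^ p) := by
  have := add_pow_le' zero_le_one (yy_nonneg F x) p
  rwa [one_pow, ← rb_eq] at this

section
variable {E : Env ι} {F : Mat ι} {ε : ℝ}

theorem Pq_pred (hF : Side E F ε) {n : ℕ} (hn : 1 ≤ n) {s : ℝ} (hs : 0 < s) :
    Pq F n ≤ s ^ n * E.N + Pq F (n + 1) / s := by
  rw [← sumU_yy hF.toBas0 hn, ← sumU_yy hF.toBas0 (show 1 ≤ n + 1 by omega), sum_div]
  have e : s ^ n * E.N = ∑ _x ∈ E.U, s ^ n := by rw [sum_const, nsmul_eq_mul, mul_comm]; rfl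
  rw [e, ← sum_add_distrib]
  refine sum_le_sum fun x _ => ?_
  have hy := yy_nonneg F x
  rcases le_total (yy F x) s with h | h
  · have : 0 ≤ yy F x ^ (n + 1) / s := by positivity
    linarith [pow_le_pow_left₀ hy h n]
  · have : yy F x ^ n ≤ yy F x ^ (n + 1) / s := by
      rw [le_div_iff₀ hs, pow_succ]; gcongr
    have h' : 0 ≤ s ^ n := by positivity
    linarith

theorem first (hE : E.Ok) (hF : Side E F ε) {K B c : ℝ} (n : ℕ)
    (hK : 0 ≤ K) (hK1 : ε * tk F 1 ≤ K) (hB : 0 ≤ B) (hc : 0 ≤ c)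
    (h : ∀ x, E.av (fun i j => bx F i j x) ≤ -4 * E.th * (F ^ 2 * E.C * F) x x
      + 4 * tk F 1 * (F ^ 3) x x + B * E.eta4 * E.N * max (rr F x) 1) :
    ∑ x, c * yy F x ^ n * E.av (fun i j => bx F i j x) ≤
      c * ((8 * E.L * ((K + E.th * E.u) * E.u) + (4 + B) * E.L * (E.eta4 * E.N)) * Pq F n) := by
  have hu := hE.u1
  have hL := hE.L2
  have hth := hE.th0
  have hN := one_le_N hE
  have h4 := eta4_nonneg hE
  rw [Pq_eq, mul_sum, mul_sum]
  refine sum_le_sum fun x _ => ?_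
  have a1 := mul_le_mul_of_nonneg_left ((neg_le_abs _).trans (quad_abs hE hF x)) hth
  have a2 := tk_cube hE hF hK hK1 x
  have a3 : B * E.eta4 * E.N * max (rr F x) 1 ≤ B * E.eta4 * E.N * E.L :=
    mul_le_mul_of_nonneg_left (rb_le hE hF x) (by positivity)
  have a5 : 0 ≤ E.L * (K * E.u) := by positivity
  have a4 : E.av (fun i j => bx F i j x) ≤
      8 * E.L * ((K + E.th * E.u) * E.u) + (4 + B) * E.L * (E.eta4 * E.N) := by
    have := h x
    nlinarith
  have := mul_le_mul_of_nonneg_left a4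
    (show 0 ≤ c * yy F x ^ n from mul_nonneg hc (pow_nonneg (yy_nonneg F x) n))
  linarith

theorem second (hE : E.Ok) (hF : Side E F ε) {B : ℝ} (n : ℕ) (hB : 0 ≤ B) (hP : Pq F (n + 2) ≤ E.N)
    (h : ∀ x, E.av (fun i j => bx F i j x ^ 2) ≤ B * (E.u ^ 2 + E.Tf) * max (rr F x) 1 ^ 2) :
    ∑ x, yy F x ^ n * E.av (fun i j => bx F i j x ^ 2) ≤
      2 * 2 ^ (n + 2) * (B * ((E.u ^ 2 + E.Tf) * E.N)) := by
  have hT := hE.Tf1
  rw [← sumU (U := E.U) fun x hx => by simp [Env.av, bx_off hF.toBas0 _ _ hx]]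
  calc ∑ x ∈ E.U, yy F x ^ n * E.av (fun i j => bx F i j x ^ 2)
      ≤ ∑ x ∈ E.U, B * (E.u ^ 2 + E.Tf) * (2 ^ (n + 2) * (1 + yy F x ^ (n + 2))) :=
        sum_le_sum fun x _ => by
          have hy := yy_nonneg F x
          have h1 := mul_le_mul_of_nonneg_left (h x) (pow_nonneg hy n)
          have h2 : yy F x ^ n * rb F x ^ 2 ≤ rb F x ^ (n + 2) := by
            rw [pow_add]
            exact mul_le_mul_of_nonneg_right
              (pow_le_pow_left₀ hy (by rw [rb_eq]; linarith) n) (sq_nonneg _)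
          have h3 := mul_le_mul_of_nonneg_left (h2.trans (rb_pow F x (n + 2)))
            (show 0 ≤ B * (E.u ^ 2 + E.Tf) by positivity)
          change _ ≤ yy F x ^ n * (B * (E.u ^ 2 + E.Tf) * rb F x ^ 2) at h1
          linarith
    _ = B * (E.u ^ 2 + E.Tf) * (2 ^ (n + 2) * (E.N + Pq F (n + 2))) := by
        rw [← mul_sum, ← mul_sum, sum_add_distrib, sumU_yy hF.toBas0 (by omega), sum_const,
          nsmul_eq_mul, mul_one]; rfl
    _ ≤ B * (E.u ^ 2 + E.Tf) * (2 ^ (n + 2) * (E.N + E.N)) := by gcongr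
    _ = _ := by ring

theorem rem_av (hAvg : AvgStmt) (hE : E.Ok) (hF : Side E F ε) {p : ℕ} (hp : 1 ≤ p)
    (hP : Pq F p ≤ E.N) : E.av (fun i j => 2 + yy F i ^ p + yy F j ^ p) ≤ 8 * E.N ^ 2 := by
  obtain ⟨-, -, -, -, -, -, -, -, -, -, h11, -⟩ := hAvg ι E hE
  refine (h11 _ fun i j => by
    have := yy_nonneg F i; have := yy_nonneg F j; positivity).trans ?_
  simp only [sum_add_distrib, sum_const, nsmul_eq_mul, ← mul_sum, sumU_yy hF.toBas0 hp]
  change 2 * (E.N * (E.N * 2) + E.N * _ + E.N * _) ≤ _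
  have hN := one_le_N hE
  nlinarith

theorem cross (hAvg : AvgStmt) (hE : E.Ok) (hF : Side E F ε) {n : ℕ} (hn : 1 ≤ n) {W c : ℝ}
    (hc : 0 ≤ c) (h1 : Pq F n ≤ W) (h2 : Pq F (n + 1) ≤ W) :
    E.av (fun i j => ∑ x, tt F x i * (c * cr F n x j)) ≤
      c * (8 * (√(E.N * Pq F 2) * W) + 2 * Pq F (n + 1) ^ 2) := by
  have e1 : (fun i j => ∑ x, tt F x i * (c * cr F n x j)) = fun i j =>
      c * (gam F n i * yy F j ^ 1 + gam F 1 i * yy F j ^ n + gam F (n + 1) i * yy F j ^ 1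
        + gam F 1 i * yy F j ^ (n + 1) + gam F (n + 1) i * yy F j ^ (n + 1)) := by
    funext i j
    simp only [gam, cr, mul_add, mul_sum, sum_mul, ← sum_add_distrib]
    exact sum_congr rfl fun x _ => by ring
  rw [e1, av_smul]
  refine mul_le_mul_of_nonneg_left ?_ hc
  simp only [av_add]
  have c1 := av_cross hAvg hE hF hn (le_refl 1)
  have c2 := av_cross hAvg hE hF (le_refl 1) hn
  have c3 := av_cross hAvg hE hF (show 1 ≤ n + 1 by omega) (le_refl 1)
  have c4 := av_cross hAvg hE hF (le_refl 1) (show 1 ≤ n + 1 by omega)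
  have c5 := av_cross hAvg hE hF (show 1 ≤ n + 1 by omega) (show 1 ≤ n + 1 by omega)
  have d : Pq F 1 ≤ √(E.N * Pq F 2) := Pq_one_le hF.toBas0
  have d1 : Pq F 1 * Pq F n ≤ √(E.N * Pq F 2) * W :=
    mul_le_mul d h1 (Pq_nonneg F _) (Real.sqrt_nonneg _)
  have d2 : Pq F 1 * Pq F (n + 1) ≤ √(E.N * Pq F 2) * W :=
    mul_le_mul d h2 (Pq_nonneg F _) (Real.sqrt_nonneg _)
  linarith

end

end PP

set_option maxHeartbeats 4000000 in
theorem PP_proof (hAlg : AlgStmt) (hAvg : AvgStmt) (hB1 : B1Stmt) (hB2 : B2Stmt) (hBP : BPStmt) :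
    PPStmt := by
  obtain ⟨c₁, hB1⟩ := hB1
  obtain ⟨c₂, hB2⟩ := hB2
  obtain ⟨c₃, hBP⟩ := hBP
  refine ⟨c₁ + c₂ + c₃ + 2, fun p hp4 hpe => ?_⟩
  obtain ⟨C₃, hBP⟩ := hBP p hp4 hpe
  obtain ⟨n, rfl⟩ : ∃ n, p = n + 2 := ⟨p - 2, by omega⟩
  have hne : Even n := by simpa [Nat.even_add] using hpe
  obtain ⟨CA, hCA, hA⟩ := PP.taylor n hne
  obtain ⟨CB, hCB, hB⟩ := PP.young (n + 1)
  obtain ⟨CC, hCC, hC, hC'⟩ := PP.shift (n + 2) (by omega)
  set CD : ℝ := ((n + 1 : ℕ) + 1) * 4 ^ (n + 1) with hCD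
  have hCD0 : 0 ≤ CD := by positivity
  refine ⟨13 * (n + 2) + 2 * 2 ^ (n + 2) * CA + (CA + CB + CC) * |C₃| + 16 * 800 ^ (n + 2) * CC
    + 40 * CD + 16, fun L Λ hΛ ι _ _ E F ε s K hL hE hF hs hs1 hK hK1 hz hPN => ?_⟩
  subst hL
  have hL := hE.L2
  have hN := one_le_N hE
  have hT := hE.Tf1
  have hu := hE.u1
  have hth := hE.th0
  have hP := Pq_nonneg F (n + 2)
  have h3 := eta3_nonneg hE
  have h4 := eta4_nonneg hE
  have hz0 : 0 ≤ E.z := hE.z0.trans hE.zz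
  obtain ⟨b2, b3⟩ := hB2 ι E F ε hE hF
  obtain ⟨-, -, -, -, -, -, -, -, -, -, -, -, -, a14, -⟩ := hAvg ι E hE
  have key := skel hAlg hAvg hE hF (q := n + 2) (by omega) (e := 1 / 20) (by norm_num)
    (by norm_num) (fun x => (n + 2) * yy F x ^ (n + 1))
    (fun x i j => CA * (yy F x ^ n * bx F i j x ^ 2) + (CA + CB + CC) * |bx F i j x| ^ (n + 2))
    (fun i j => 2 * 800 ^ (n + 2) * CC * E.z ^ (n + 2) * (2 + yy F i ^ (n + 2) + yy F j ^ (n + 2)))
    (fun x j => CD * PP.cr F (n + 1) x j)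
    (fun i j hp x => by
      have hy := yy_nonneg F x
      have hs : ∀ k, max (rb F x * rr F k - 1 + bx F i j x) 0 ^ (n + 2) ≤
          (1 + 1 / 20) * (mm F k * yy F x ^ (n + 2) + yy F k ^ (n + 2) + CD * PP.cr F (n + 1) x k)
            + CC * |bx F i j x| ^ (n + 2) :=
        fun k => (hC _ _).trans (add_le_add_left (mul_le_mul_of_nonneg_left
          (PP.prod_bound F (n + 1) x k) (by norm_num)) _)
      have h := point F (n + 2) (a14 i j hp).2.2 x (e := 1 / 20)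
        (d := (n + 2) * yy F x ^ (n + 1) * bx F i j x)
        (R₁ := CA * (yy F x ^ n * bx F i j x ^ 2 + |bx F i j x| ^ (n + 2)))
        (R₂ := CB * |bx F i j x| ^ (n + 2)) (by positivity) (by positivity) (by positivity)
        (hA _ _ hy)
        (by have := hB _ (bx F i j x) hy; push_cast at this; linarith)
        (hs j) (hs i)
      refine h.trans (le_of_eq ?_)
      ring)
    (fun i j hp => by
      obtain ⟨h1, h2⟩ := b3 i j hp
      have r1 := hC' (rr F i) (rnew F i j i)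
      have r2 := hC' (rr F j) (rnew F i j j)
      have hc := (hF.ad i j hp).1
      have g : ∀ d a : ℝ, |a| ≤ E.z → |d| ≤ 100 * (|a| + |F i j|) * (rb F i + rb F j) →
          CC * |d| ^ (n + 2) ≤
            800 ^ (n + 2) * CC * E.z ^ (n + 2) * (2 + yy F i ^ (n + 2) + yy F j ^ (n + 2)) := by
        intro d a ha h
        have p1 := rb_pos F i
        have p2 := rb_pos F j
        have h' : |d| ≤ 200 * E.z * (rb F i + rb F j) :=
          h.trans (mul_le_mul_of_nonneg_right (by linarith) (by positivity))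
        have h'' := pow_le_pow_left₀ (abs_nonneg _) h' (n + 2)
        have q1 := PP.add_pow_le' p1.le p2.le (n + 2)
        have q2 : (rb F i + rb F j) ^ (n + 2) ≤
            2 ^ (n + 2) * (2 ^ (n + 2) * (2 + yy F i ^ (n + 2) + yy F j ^ (n + 2))) := by
          refine q1.trans (mul_le_mul_of_nonneg_left ?_ (by positivity))
          linarith [PP.rb_pow F i (n + 2), PP.rb_pow F j (n + 2)]
        rw [mul_pow, mul_pow] at h''
        have q3 := h''.trans (mul_le_mul_of_nonneg_left q2 (by positivity))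
        refine (mul_le_mul_of_nonneg_left q3 hCC).trans (le_of_eq ?_)
        rw [show (800 : ℝ) = 200 * 2 * 2 by norm_num, mul_pow, mul_pow]; ring
      have g1 := g _ _ (hF.dg i) h1
      have g2 := g _ _ (hF.dg j) h2
      change (1 - 1 / 20) * yy F i ^ (n + 2) - _ ≤ _ at r1
      change (1 - 1 / 20) * yy F j ^ (n + 2) - _ ≤ _ at r2
      linarith)
  refine key.trans ?_
  set P := Pq F (n + 2) with hPdef
  set W := s ^ (n + 1) * E.N + P / s with hW
  have w1 : Pq F (n + 1) ≤ W := PP.Pq_pred hF (by omega) hs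
  have w2 : P ≤ W := by
    have := le_div_self hP hs hs1
    have h' : 0 ≤ s ^ (n + 1) * E.N := by positivity
    linarith
  have hW0 : 0 ≤ W := hP.trans w2
  have f1 := PP.first hE hF (n + 1) hK hK1 (show 0 ≤ E.L ^ c₁ by positivity)
    (show (0 : ℝ) ≤ n + 2 by positivity) (hB1 ι E F ε hE hF)
  have f2 := PP.second hE hF n (show 0 ≤ E.L ^ c₂ by positivity) hPN b2
  have f3 := PP.rem_av hAvg hE hF (show 1 ≤ n + 2 by omega) hPN
  have f4 := PP.cross hAvg hE hF (show 1 ≤ n + 1 by omega) hCD0 w1 w2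
  have f5 := hBP ι E F ε hE hF hz hPN
  simp only [av_add, av_smul, sum_add_distrib, ← mul_sum] at f3 ⊢
  have hM : ∑ x, mm F x ≤ min (tk F 2) E.N := sum_mm_le hF.toBas0
  set M := ∑ x, mm F x
  have hs := P2.sqrt_div_mul (show 0 < E.N by linarith) (Pq_nonneg F 2)
  have e1 : (√(Pq F 2 / E.N) + E.eta4 + (K + E.th * E.u) * E.u / E.N) * E.N
        * (s ^ (n + 2 - 1) * E.N + P / s) + (E.u ^ 2 + E.Tf) * E.N + P ^ 2 + E.eta3 * E.N * P =
      √(E.N * Pq F 2) * W + E.eta4 * E.N * W + (K + E.th * E.u) * E.u * W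
        + (E.u ^ 2 + E.Tf) * E.N + P ^ 2 + E.eta3 * E.N * P := by
    rw [← hs, show n + 2 - 1 = n + 1 from rfl, ← hW]; field_simp
  rw [e1]
  set t₁ := √(E.N * Pq F 2) * W with ht₁
  set t₂ := E.eta4 * E.N * W with ht₂
  set t₃ := (K + E.th * E.u) * E.u * W with ht₃
  set t₄ := (E.u ^ 2 + E.Tf) * E.N with ht₄
  set t₆ := E.eta3 * E.N * P with ht₆
  have p₁ : 0 ≤ t₁ := by positivity
  have p₂ : 0 ≤ t₂ := by positivity
  have p₃ : 0 ≤ t₃ := by positivity
  have p₄ : 1 ≤ t₄ := one_le_mul_of_one_le_of_one_le (by linarith [sq_nonneg E.u]) hN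
  have p₅ : 0 ≤ P ^ 2 := by positivity
  have p₆ : 0 ≤ t₆ := by positivity
  set T := t₁ + t₂ + t₃ + t₄ + P ^ 2 + t₆ with hTdef
  have hT0 : 0 ≤ T := by positivity
  have hL1 : 1 ≤ E.L := by linarith
  set B := E.L ^ (c₁ + c₂ + c₃ + 2) with hB
  have l0 : ∀ k, k ≤ c₁ + c₂ + c₃ + 2 → E.L ^ k ≤ B := fun k hk => pow_le_pow_right₀ hL1 hk
  have l1 : E.L ≤ B := by simpa using l0 1 (by omega)
  have l4 : E.L ^ c₁ * E.L ≤ B := by rw [← pow_succ]; exact l0 _ (by omega)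
  have hB1' : 1 ≤ B := by linarith
  have m : ∀ {a t : ℝ}, a ≤ B → 0 ≤ t → t ≤ T → a * t ≤ B * T := fun ha ht h =>
    mul_le_mul ha h ht (by linarith)
  have g1 : ∑ x, (n + 2) * yy F x ^ (n + 1) * E.av (fun i j => bx F i j x) ≤
      13 * (n + 2) * (B * T) := by
    refine f1.trans ?_
    have k1 := m l1 p₃ (by linarith)
    have k2 := m l1 p₂ (by linarith)
    have k3 := m l4 p₂ (by linarith)
    have k4 : (8 * E.L * ((K + E.th * E.u) * E.u) + (4 + E.L ^ c₁) * E.L * (E.eta4 * E.N))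
        * Pq F (n + 1) ≤ 13 * (B * T) := by
      refine (mul_le_mul_of_nonneg_left w1 (by positivity)).trans ?_
      rw [ht₂] at k2 k3
      rw [ht₃] at k1
      linarith
    have := mul_le_mul_of_nonneg_left k4 (show (0 : ℝ) ≤ n + 2 by positivity)
    linarith
  have g2 : CA * ∑ x, yy F x ^ n * E.av (fun i j => bx F i j x ^ 2) ≤
      2 * 2 ^ (n + 2) * CA * (B * T) := by
    have k1 := m (l0 c₂ (by omega)) (show 0 ≤ t₄ by linarith) (by linarith)
    have k2 := f2.trans (mul_le_mul_of_nonneg_left k1 (by positivity))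
    have := mul_le_mul_of_nonneg_left k2 hCA
    linarith
  have g3 : (CA + CB + CC) * ∑ x, E.av (fun i j => |bx F i j x| ^ (n + 2)) ≤
      (CA + CB + CC) * |C₃| * (B * T) := by
    rw [mul_assoc]
    refine mul_le_mul_of_nonneg_left (f5.trans ?_) (by positivity)
    rw [mul_assoc]
    have k0 : E.u ^ 2 * E.N ≤ t₄ := by rw [ht₄]; gcongr; linarith
    have k1 := m (l0 c₃ (by omega)) (show 0 ≤ E.u ^ 2 * E.N + P ^ 2 by positivity) (by linarith)
    exact mul_le_mul (le_abs_self _) k1 (by positivity) (abs_nonneg _)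
  have g4 : 2 * 800 ^ (n + 2) * CC * E.z ^ (n + 2) * (E.av (fun _ _ => 2)
      + E.av (fun i _ => yy F i ^ (n + 2)) + E.av (fun _ j => yy F j ^ (n + 2))) ≤
      16 * 800 ^ (n + 2) * CC * (B * T) := by
    refine (mul_le_mul_of_nonneg_left f3 (by positivity)).trans ?_
    have k1 : E.z ^ (n + 2) * E.N ^ 2 ≤ 1 :=
      le_trans (mul_le_mul_of_nonneg_left (pow_le_pow_right₀ hN (by norm_num)) (by positivity)) hz
    have k2 := m hB1' zero_le_one (by linarith)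
    have k3 := mul_le_mul_of_nonneg_left (k1.trans (by linarith : (1 : ℝ) ≤ B * T))
      (show 0 ≤ 16 * 800 ^ (n + 2) * CC by positivity)
    linarith
  have g5 : 2 * (1 + 1 / 20) * E.av (fun i j => ∑ x, tt F x i * (CD * PP.cr F (n + 1) x j)) ≤
      40 * CD * (B * T) := by
    have k1 := m hB1' p₁ (by linarith)
    have k2 := m hB1' p₅ (by linarith)
    have k3 : 8 * t₁ + 2 * P ^ 2 ≤ 10 * (B * T) := by linarith
    have k4 := f4.trans (mul_le_mul_of_nonneg_left k3 hCD0)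
    have k5 : 0 ≤ CD * (B * T) := by positivity
    linarith
  have g6 := m (l0 2 (by omega)) p₆ (by linarith)
  have g7 : M * P ≤ min (tk F 2) E.N * P := mul_le_mul_of_nonneg_right hM hP
  have g8 : 0 ≤ E.N * P := by positivity
  have g9 := mul_le_mul_of_nonneg_right hΛ hT0
  have m1 : (4 * M - 4 * E.N + 8 * (1 / 20) * E.N + 16 * E.L ^ 2 * (E.eta3 * E.N)) * P =
      4 * (M * P) - 18 / 5 * (E.N * P) + 16 * (E.L ^ 2 * t₆) := by rw [ht₆]; ring
  rw [m1]
  linarith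

end Crest.Agent.R62
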