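import Crest.Agent.R62.PT1

/-! Row 62, PT2: one step of the algorithm is polynomial-time. -/

set_option autoImplicit false

namespace Crest.Agent.R62

open Finset Crest.Agent.PT Crest.Agent.QC Crest.Agent.R317 Crest.Agent.R300U PT1

namespace PT2
variable {α : Type} [Enc α]

@[fun_prop] theorem bt_getD {l : α → List ℕ} {k d : α → ℕ} (hl : PT l) (hk : PT k) (hd : PT d) :
    BT fun a => (l a).getD (k a) (d a) := BT.ofPT (pt_getD hl hk hd)

@[fun_prop] theorem dt_fr {N x : α → ℕ} {m : α → List ℕ} (hN : PT N) (hm : PT m) (hx : PT x) :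
    DT fun a => fr (N a) (m a) (x a) := by
  unfold fr; fun_prop

@[fun_prop] theorem pt_cnt {N : α → ℕ} {m : α → List ℕ} (hN : PT N) (hm : PT m) :
    PT fun a => cnt (N a) (m a) := by
  unfold cnt; fun_prop

@[fun_prop] theorem bt_cnt {N : α → ℕ} {m : α → List ℕ} (hN : PT N) (hm : PT m) :
    BT fun a => cnt (N a) (m a) := BT.ofPT (pt_cnt hN hm)

@[fun_prop] theorem dt_adjv {N v w : α → ℕ} {m : α → List ℕ} (d : ℕ) (hN : PT N) (hm : PT m)
    (hv : PT v) (hw : PT w) : DT fun a => adjv d (N a) (m a) (v a) (w a) := by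
  unfold adjv; fun_prop

@[fun_prop] theorem dt_okc {N x y : α → ℕ} {m : α → List ℕ} (d : ℕ) (hN : PT N) (hm : PT m)
    (hx : PT x) (hy : PT y) : DT fun a => okc d (N a) (m a) (x a) (y a) := by
  unfold okc bad; fun_prop

@[fun_prop] theorem pt_upd {N x y : α → ℕ} {m : α → List ℕ} (hN : PT N) (hm : PT m)
    (hx : PT x) (hy : PT y) : PT fun a => upd (N a) (m a) (x a) (y a) := by
  unfold upd; fun_prop

@[fun_prop] theorem bt_Phi {N : α → ℕ} {m : α → List ℕ} (d : ℕ) (hN : PT N) (hm : PT m) :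
    BT fun a => Phi d (N a) (m a) := by
  unfold Phi; fun_prop

@[fun_prop] theorem dt_small {B N : α → ℕ} {F : α → QM} (hB : PT B) (hN : PT N) (hF : PT F) :
    DT fun a => small (B a) (N a) (F a) := by
  unfold small; fun_prop

@[fun_prop] theorem pt_Bt {n : α → ℕ} (d : ℕ) (hn : PT n) : PT fun a => Bt d (n a) := by
  unfold Bt; fun_prop

@[fun_prop] theorem bt_N3 {n : α → ℕ} (d : ℕ) (hn : PT n) : BT fun a => N3 d (n a) := by
  unfold N3; fun_prop

@[fun_prop] theorem dt_okp {n x y : α → ℕ} {s : α → St} (d : ℕ) (hn : PT n) (hs : PT s)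
    (hx : PT x) (hy : PT y) : DT fun a => okp d (n a) (s a) (x a) (y a) := by
  unfold okp; fun_prop

@[fun_prop] theorem pt_valM {n c : α → ℕ} {A B : α → QM} (d p : ℕ) (hn : PT n) (hc : PT c)
    (hA : PT A) (hB : PT B) : PT fun a => valM d p (n a) (c a) (A a) (B a) :=
  (PT1_proof d p).comp (f := fun a => (n a, c a, A a, B a)) (by fun_prop)

@[fun_prop] theorem pt_valQ {n x y : α → ℕ} {s : α → St} (d p : ℕ) (hn : PT n) (hs : PT s)
    (hx : PT x) (hy : PT y) : PT fun a => valQ d p (n a) (s a) (x a) (y a) := by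
  unfold valQ; fun_prop

@[fun_prop] theorem pt_mv {n x y : α → ℕ} {s : α → St} (d : ℕ) (hn : PT n) (hs : PT s)
    (hx : PT x) (hy : PT y) : PT fun a => mv d (n a) (s a) (x a) (y a) := by
  unfold mv; fun_prop

@[fun_prop] theorem pt_sel {n : α → ℕ} {s : α → St} (d p : ℕ) (hn : PT n) (hs : PT s) :
    PT fun a => sel d p (n a) (s a) := by
  unfold sel; fun_prop

@[fun_prop] theorem bt_sel {n : α → ℕ} {s : α → St} (d p : ℕ) (hn : PT n) (hs : PT s) :
    BT fun a => sel d p (n a) (s a) := BT.ofPT (pt_sel d p hn hs)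

@[fun_prop] theorem pt_F0Q {n : α → ℕ} (d : ℕ) (ε : ℚ) (hn : PT n) :
    PT fun a => F0Q d (n a) ε := by
  unfold F0Q; fun_prop

end PT2

open PT2 in
theorem PT2_proof (_h : Pt1Stmt) : Pt2Stmt := by
  intro d p
  refine ⟨?_, ?_, ?_⟩
  · unfold nxt; fun_prop
  · show PT fun n => (([] : List ℕ), F0Q d n 1, F0Q d n (-1))
    fun_prop
  · unfold outp; fun_prop

end Crest.Agent.R62
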