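import Crest.Agent.R62.DefsC

/-! Row 62, PT3: the whole algorithm is polynomial-time. -/

set_option autoImplicit false

namespace Crest.Agent.R62

open Finset Crest.Agent.PT Crest.Agent.QC Crest.Agent.R317 Crest.Agent.R300U

namespace PT3

theorem sz_mkM {N B : ℕ} {f : ℕ → ℕ → ℚ} (h : small B N (mkM N f)) :
    sz (mkM N f) ≤ N * (2 * (N * (2 * (5 * B + 8) + 1)) + 1) := by
  have h1 := sz_list_le (mkM N f) (N * (2 * (5 * B + 8) + 1)) (fun r hr => by
    obtain ⟨x, hx, rfl⟩ := mem_mkL.1 hr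
    have h2 := sz_list_le (mkL N fun y => f x y) (5 * B + 8) (fun q hq => by
      obtain ⟨y, hy, rfl⟩ := mem_mkL.1 hq
      have h3 := h x hx y hy
      have e : gq (mkM N f) x y = f x y := by
        unfold gq mkM; rw [getD_mkL _ _ hx, getD_mkL _ _ hy]
      beta_reduce at h3
      rw [e] at h3
      exact sz_q_le (f x y).den_nz (Rat.num_div_den _).symm h3.1 h3.2)
    simpa using h2)
  simpa [mkM] using h1

/-- Size invariant. -/
def SI (d n : ℕ) (s : St) : Prop :=
  s.1.length ≤ n * d ∧ (∀ z ∈ s.1, z ≤ n * d) ∧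
    (s.2 = (st0 d n).2 ∨
      (sz s.2.1 ≤ n * d * (2 * (n * d * (2 * (5 * Bt d n + 8) + 1)) + 1) ∧
        sz s.2.2 ≤ n * d * (2 * (n * d * (2 * (5 * Bt d n + 8) + 1)) + 1)))

theorem si_nxt {d p n : ℕ} {s : St} (h : SI d n s) : SI d n (nxt d p n s) := by
  unfold nxt
  split_ifs with hs
  · obtain ⟨⟨⟨hx, hy, -⟩, h2⟩, -⟩ := (fnd_spec _ _).2.2 hs
    change sel d p n s / (n * d) < _ at hx
    change sel d p n s % (n * d) < _ at hy
    refine ⟨by simp [mv, upd], fun z hz => ?_, ?_⟩
    · obtain ⟨i, -, rfl⟩ := mem_mkL.1 hz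
      split_ifs
      · exact hy.le
      · exact hx.le
      · by_cases hi : i < s.1.length
        · rw [List.getD_eq_getElem _ _ hi]; exact h.2.1 _ (List.getElem_mem hi)
        · rw [List.getD_eq_default _ _ (by omega)]
    · unfold mv
      split_ifs with hc
      · exact h.2.2
      · obtain ⟨-, -, h3, h4⟩ := h2.resolve_left hc
        exact Or.inr ⟨sz_mkM h3, sz_mkM h4⟩
  · exact h

theorem si_iter (d p n k : ℕ) : SI d n ((nxt d p n)^[k] (st0 d n)) := by
  induction k with
  | zero => exact ⟨by simp [st0], by simp [st0], Or.inl rfl⟩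
  | succ k ih => rw [Function.iterate_succ_apply']; exact si_nxt ih

theorem iter_pair (d p n k : ℕ) (s : St) :
    (fun a : ℕ × St => (a.1, nxt d p a.1 a.2))^[k] (n, s) = (n, (nxt d p n)^[k] s) := by
  induction k with
  | zero => rfl
  | succ k ih => rw [Function.iterate_succ_apply', Function.iterate_succ_apply', ih]

end PT3

open PT3 in
theorem PT3_proof (h : Pt2Stmt) : Pt3Stmt := by
  intro d p
  obtain ⟨h1, h2, h3⟩ := h d p
  have hB : PT fun n : ℕ => 2 * n + 1 + (2 * (n * d * (2 * (n * d) + 1)) + 1 + (sz (st0 d n) +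
      (3 * (n * d * (2 * (n * d * (2 * (5 * (10 * (n + d + 1) ^ 2) + 8) + 1)) + 1)) + 1))) := by
    have := h2.len
    fun_prop
  have h4 : PT fun n : ℕ =>
      (fun a : ℕ × St => (a.1, nxt d p a.1 a.2))^[n * d / 2] (n, st0 d n) := by
    refine PT.iter (PT.pair (by fun_prop) h1) (by fun_prop) (PT.pair PT.id' h2) hB.pbNat
      fun n i _ => ?_
    rw [iter_pair]
    obtain ⟨a1, a2, a3⟩ := si_iter d p n i
    generalize (nxt d p n)^[i] (st0 d n) = s at a1 a2 a3
    obtain ⟨m, A, B⟩ := s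
    have b1 := sz_list_le m (n * d) (fun z hz => by simpa using a2 z hz)
    have b2 : m.length * (2 * (n * d) + 1) ≤ n * d * (2 * (n * d) + 1) := Nat.mul_le_mul_right _ a1
    have b3 : sz (st0 d n).2 ≤ sz (st0 d n) := by
      have := sz_pair (st0 d n).1 (st0 d n).2
      change sz (st0 d n) = _ at this
      omega
    rw [sz_pair, sz_pair, sz_nat]
    rcases a3 with a3 | ⟨a3, a4⟩
    · dsimp only at a3; rw [a3]; omega
    · rw [sz_pair]; unfold Bt at a3 a4; dsimp only at a3 a4; omega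
  have h5 : PT fun n : ℕ => toR (outp d n ((nxt d p n)^[n * d / 2] (st0 d n)).1) :=
    pt_toR ((h3.comp (PT.pair PT.id' h4.snd.fst)).congr fun n => by rw [iter_pair])
  exact PT.polyTime (h5.comp (PT.len (PT.id' (α := Raw))))

end Crest.Agent.R62
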