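import Crest.Agent.R62.DefsC

/-! Row 62, RUN: the invariant along the first three phases. -/

set_option autoImplicit false

namespace Crest.Agent.R62

open Finset

theorem RUN_proof (hPh : PhStmt) (hB : BrStmt) (hC : CombStmt) (hS : SelStmt) (hP : ParStmt)
    (hH : HtStmt) (hLS : LASStmt) (hLP : LAPStmt) : RunStmt := by
  intro d p n L hd hn hev hbig hinit k
  obtain ⟨ht0, ht1, hh0, -⟩ := (hP d hd).1 n hn
  obtain ⟨⟨c1, c2, c3⟩, cf, cm⟩ := hC d n (by omega)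
  obtain ⟨b1, b2, b3⟩ := hB d p n
  have hΛ : (3 : ℝ) ≤ La d n := by
    have h1 : (1 : ℝ) ≤ (d : ℝ) ^ 10 := one_le_pow₀ (by exact_mod_cast (by omega : 1 ≤ d))
    have := hbig.hΛ
    nlinarith
  have hΛ' : 3 ≤ La d n := by exact_mod_cast hΛ
  have hN3 : 2 ≤ N3 d n := by
    have := Nat.one_le_pow 11218 (La d n) (by omega)
    unfold N3; omega
  induction k with
  | zero =>
    intro _
    have hcnt : cnt (n * d) [] = n * d := by rw [(cm _ c1).1, c2]; simp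
    have hla : ∀ ε : ℚ, ((ε : ℝ) = 1 ∨ (ε : ℝ) = -1) → LAs d n ε [] (F0Q d n ε) := fun ε hε => by
      unfold LAs
      rw [c2, c3, b3]
      exact (hLP _ _ _ _ _ ht0 ht1 hε).2.1 d _ hh0 (by omega) ⟨⟨0, hn⟩⟩ cf
    have hlt : 2 * La d n ^ 23906 < n * d := by
      have h1 : La d n ^ 31907 ≤ n * d := by exact_mod_cast hbig.lo
      have h2 : La d n ^ (23906 + 1) ≤ La d n ^ 31907 :=
        Nat.pow_le_pow_right (by omega) (by norm_num)
      have h3 := Nat.one_le_pow 23906 (La d n) (by omega)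
      rw [pow_succ] at h2
      generalize La d n ^ 23906 = X at *
      generalize La d n ^ 31907 = Y at *
      nlinarith
    have hlt2 : La d n ^ 12621 ≤ La d n ^ 23906 := Nat.pow_le_pow_right (by omega) (by omega)
    refine ⟨⟨c1, by simpa [st0] using hla 1 (by simp),
      by simpa [st0] using hla (-1) (by simp), ?_⟩, hcnt⟩
    show PInv p _ (cnt (n * d) []) _ _ (toM _ (F0Q d n 1)) (toM _ (F0Q d n (-1)))
    rw [hcnt, b3, b3]
    refine ⟨fun _ => ?_, fun _ h => by omega, fun h => by omega⟩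
    have : ((n * d : ℕ) : ℝ) ≠ 0 := by exact_mod_cast (by omega : n * d ≠ 0)
    rw [div_self this, Real.log_one]
    simpa using hinit
  | succ k ih =>
    intro hk
    obtain ⟨⟨hv, ⟨Γa, ha⟩, ⟨Γb, hb⟩, hpi⟩, hc⟩ := ih (by omega)
    rw [Function.iterate_succ_apply']
    generalize (nxt d p n)^[k] (st0 d n) = s at hv ha hb hpi hc
    obtain ⟨e1, e2, e3, e4⟩ := cm _ hv
    have hgt : ¬ cnt (n * d) s.1 ≤ N3 d n := by omega
    have key : ∀ i j : Fin (n * d), okc d (n * d) s.1 i j → 1 / 2 ≤ DlQ s.2.1 i j →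
        1 / 2 ≤ DlQ s.2.2 i j →
        LAs d n 1 (upd (n * d) s.1 i j) (stepQ (n * d) s.2.1 i j) ∧
          LAs d n (-1) (upd (n * d) s.1 i j) (stepQ (n * d) s.2.2 i j) := fun i j ho h1 h2 => by
      obtain ⟨f1, -, f3, f4, -⟩ := e4 i j ho
      have hi : i ∈ Uof (n * d) s.1 := by simpa [Uof] using ho.2.2.1
      have hj : j ∈ Uof (n * d) s.1 := by simpa [Uof] using ho.2.2.2.1
      have pos : ∀ F : QM, 1 / 2 ≤ DlQ F i j → 0 < Dl (toM (n * d) F) i j := fun F h => by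
        rw [← (b1 _ F i j).2]; exact_mod_cast (by linarith : 0 < DlQ F i j)
      unfold LAs
      rw [f3, f4, (b1 _ _ i j).1, (b1 _ _ i j).1]
      exact ⟨hLS _ _ _ _ _ _ _ _ _ _ _ i j ht0 ht1 (Or.inl rfl) ha hi hj f1 (pos _ h1) (by omega),
        hLS _ _ _ _ _ _ _ _ _ _ _ i j ht0 ht1 (Or.inr rfl) hb hi hj f1 (pos _ h2) (by omega)⟩
    have hev' : Even (Uof (n * d) s.1).card := by
      obtain ⟨r, hr⟩ := hev.mul_right d
      exact ⟨r - k, by omega⟩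
    obtain ⟨i, hi, j, hj, -, hij, d1, d2, hall⟩ := hPh _ d p (La d n) L _ _ (Uof (n * d) s.1) _ _
      (badS d (n * d) s.1) hbig ((hLP _ _ _ _ _ ht0 ht1 (Or.inl rfl)).1 _ _ _ _ ha)
      ((hLP _ _ _ _ _ ht0 ht1 (Or.inr rfl)).1 _ _ _ _ hb) e2
      (fun i _ => (card_le_card (filter_subset_filter _ (subset_univ _))).trans (e3 i)) hev'
      (by unfold N3 at hgt; omega) (by exact_mod_cast (by omega : _ ≤ n * d)) (e1 ▸ hpi)
    have ho : okc d (n * d) s.1 i j :=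
      ⟨i.2, j.2, by simpa [Uof] using hi, by simpa [Uof] using hj, by simpa [badS] using hij⟩
    have dq : ∀ F : QM, 1 / 2 ≤ Dl (toM (n * d) F) i j → 1 / 2 ≤ DlQ F i j := fun F h => by
      rw [← (b1 _ F i j).2] at h
      have : ((1 / 2 : ℚ) : ℝ) ≤ DlQ F i j := by simpa using h
      exact_mod_cast this
    obtain ⟨k1, k2⟩ := key i j ho (dq _ d1) (dq _ d2)
    have hne : (Uof (n * d) (upd (n * d) s.1 i j)).Nonempty := by
      obtain ⟨-, f2, -, -, f5, -⟩ := e4 i j ho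
      rw [← card_pos, ← (cm _ f2).1]; omega
    obtain ⟨x, y, ⟨g1, g2⟩, g3, g4⟩ := hS d p n s i j ⟨ho, Or.inr ⟨dq _ d1, dq _ d2,
      hH d n _ _ _ hd (Or.inl rfl) k1 hne, hH d n _ _ _ hd (Or.inr rfl) k2 hne⟩⟩
    obtain ⟨g5, g6, -⟩ := g2.resolve_left hgt
    lift x to Fin (n * d) using g1.1
    lift y to Fin (n * d) using g1.2.1
    obtain ⟨⟨Γ1, l1⟩, ⟨Γ2, l2⟩⟩ := key x y g1 g5 g6
    obtain ⟨-, f2, -, -, f5, -⟩ := e4 x y g1
    rw [g4]
    unfold valQ at g3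
    rw [if_neg hgt, if_neg hgt] at g3
    have g7 := (Rat.cast_le (K := ℝ)).2 g3
    rw [b2, b2, (b1 _ s.2.1 i j).1, (b1 _ s.2.2 i j).1, e1] at g7
    have g8 := hall _ _ _ l1.b0 l2.b0 g7
    unfold mv
    rw [if_neg hgt]
    refine ⟨⟨f2, ⟨Γ1, l1⟩, ⟨Γ2, l2⟩, ?_⟩, by dsimp only; omega⟩
    rwa [show (Uof (n * d) s.1).card - 2 = cnt (n * d) (upd (n * d) s.1 x y) by omega] at g8

end Crest.Agent.R62
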