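import Crest.Agent.R62.DefsC

set_option autoImplicit false

namespace Crest.Agent.R62

open Matrix Finset Crest.Agent.PT Crest.Agent.QC Crest.Agent.R317 Crest.Agent.R300U
open Classical

theorem SEL_proof : SelStmt := by
  intro d p n s x y hxy
  set N := n * d with hN
  have hx : x < N := hxy.1.1
  have hy : y < N := hxy.1.2.1
  have hN0 : 0 < N := by omega
  have hk : x * N + y < N * N := by nlinarith
  have e1 : (x * N + y) / N = x := by
    rw [add_comm, Nat.add_mul_div_right _ _ hN0, Nat.div_eq_of_lt hy, zero_add]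
  have e2 : (x * N + y) % N = y := by
    rw [add_comm, Nat.add_mul_mod_self_right, Nat.mod_eq_of_lt hy]
  have hne : ((range (N * N)).filter fun k => okp d n s (k / N) (k % N)).Nonempty :=
    ⟨x * N + y, by rw [mem_filter, mem_range, e1, e2]; exact ⟨hk, hxy⟩⟩
  obtain ⟨k, hk1, hk2⟩ := Finset.exists_min_image _
    (fun k => valQ d p n s (k / N) (k % N)) hne
  rw [mem_filter, mem_range] at hk1
  have hlt : sel d p n s < N * N := by
    unfold sel
    rw [fnd_lt_iff]
    refine ⟨k, hk1.1, hk1.2, fun l hl => ?_⟩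
    by_cases h : okp d n s (l / N) (l % N)
    · exact Or.inr (hk2 l (by rw [mem_filter, mem_range]; exact ⟨hl, h⟩))
    · exact Or.inl h
  have hsp := (fnd_spec (N * N) _).2.2 hlt
  refine ⟨sel d p n s / N, sel d p n s % N, hsp.1, ?_, ?_⟩
  · have : ¬ okp d n s ((x * N + y) / N) ((x * N + y) % N) ∨
        valQ d p n s (sel d p n s / N) (sel d p n s % N) ≤
          valQ d p n s ((x * N + y) / N) ((x * N + y) % N) := hsp.2 (x * N + y) hk
    rw [e1, e2] at this
    exact this.resolve_left (not_not.2 hxy)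
  · unfold nxt
    rw [if_pos hlt]

theorem RUN4_proof (hC : CombStmt) (hS : SelStmt) (hP : P4Stmt) : Run4Stmt := by
  intro d p n s hd hM hV hc
  have key : ∀ k, k ≤ La d n ^ 11218 →
      Val d (n * d) ((nxt d p n)^[k] s).1 ∧
      cnt (n * d) ((nxt d p n)^[k] s).1 + 2 * k = N3 d n ∧
      Phi d (n * d) ((nxt d p n)^[k] s).1 ^ 2 * N3 d n ≤
        25 * d ^ 4 * cnt (n * d) ((nxt d p n)^[k] s).1 ^ 3 ∧
      Ext (n * d) s.1 ((nxt d p n)^[k] s).1 := by
    intro k
    induction k with
    | zero =>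
      intro _
      refine ⟨hV, by simpa using hc, ?_, fun _ _ _ => rfl⟩
      have h1 := (hP d n (N3 d n) s.1 hd hV).1
      simp only [Function.iterate_zero, id]
      rw [← hc]
      refine (Nat.mul_le_mul_right _ (Nat.pow_le_pow_left h1 2)).trans (le_of_eq (by ring))
    | succ k ih =>
      intro hk
      obtain ⟨v, c, f, e⟩ := ih (by omega)
      rw [Function.iterate_succ_apply']
      set t := (nxt d p n)^[k] s with ht
      have hN3 : N3 d n = 2 * La d n ^ 11218 := rfl
      have h2 : 2 ≤ cnt (n * d) t.1 := by omega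
      have hle : cnt (n * d) t.1 ≤ N3 d n := by omega
      obtain ⟨x, y, hok, hphi⟩ := (hP d n (N3 d n) t.1 hd v).2 hM h2 f
      obtain ⟨x', y', hok', hval, hn⟩ := hS d p n t x y ⟨hok, Or.inl hle⟩
      unfold valQ at hval
      rw [if_pos hle, if_pos hle, Nat.cast_le] at hval
      obtain ⟨-, v', -, -, c', e'⟩ :=
        ((hC d n hd).2.2 t.1 v).2.2.2 ⟨x', hok'.1.1⟩ ⟨y', hok'.1.2.1⟩ hok'.1
      rw [hn]
      change Val d (n * d) (upd (n * d) t.1 x' y') ∧
        cnt (n * d) (upd (n * d) t.1 x' y') + 2 * (k + 1) = N3 d n ∧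
        Phi d (n * d) (upd (n * d) t.1 x' y') ^ 2 * N3 d n ≤
          25 * d ^ 4 * cnt (n * d) (upd (n * d) t.1 x' y') ^ 3 ∧
        Ext (n * d) s.1 (upd (n * d) t.1 x' y')
      simp only at v' c' e'
      refine ⟨v', by omega, ?_, fun z hz hm => ?_⟩
      · have : cnt (n * d) (upd (n * d) t.1 x' y') = cnt (n * d) t.1 - 2 := by omega
        rw [this]
        exact (Nat.mul_le_mul_right _ (Nat.pow_le_pow_left hval 2)).trans hphi
      · have h1 := e z hz hm
        rw [e' z hz (h1 ▸ hm), h1]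
  obtain ⟨v, c, -, e⟩ := key _ le_rfl
  have hN3 : N3 d n = 2 * La d n ^ 11218 := rfl
  exact ⟨v, by omega, e⟩

end Crest.Agent.R62
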