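import Crest.Agent.R62.DefsA

set_option autoImplicit false

namespace Crest.Agent.R62

open Matrix Finset

namespace SPEC

variable {ι : Type} [Fintype ι] [DecidableEq ι]

lemma exists_spec (F : Mat ι) (hF : Sy F) : ∃ lam O, Spec F lam O := by
  have hH : F.IsHermitian := by
    ext x y
    simp [Matrix.conjTranspose_apply, hF y x]
  set U : Matrix ι ι ℝ := (hH.eigenvectorUnitary : Matrix ι ι ℝ) with hU
  have h1 : star U * U = 1 := Unitary.coe_star_mul_self _
  have h2 : U * star U = 1 := Unitary.coe_mul_star_self _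
  have hs : F = U * Matrix.diagonal hH.eigenvalues * star U := by
    have := hH.spectral_theorem
    simpa [Unitary.conjStarAlgAut_apply, hU, Function.comp_def] using this
  have hk : ∀ k : ℕ, F ^ k = U * Matrix.diagonal (fun a => hH.eigenvalues a ^ k) * star U := by
    intro k
    induction k with
    | zero => simp [h2]
    | succ k ih =>
      rw [pow_succ, ih]
      refine (congrArg (fun M => U * Matrix.diagonal (fun a => hH.eigenvalues a ^ k) * star U * M)
        hs).trans ?_
      have : U * Matrix.diagonal (fun a => hH.eigenvalues a ^ k) * star U *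
          (U * Matrix.diagonal hH.eigenvalues * star U) =
          U * (Matrix.diagonal (fun a => hH.eigenvalues a ^ k) * (star U * U) *
            Matrix.diagonal hH.eigenvalues) * star U := by
        simp only [Matrix.mul_assoc]
      rw [this, h1, Matrix.mul_one, Matrix.diagonal_mul_diagonal]
      simp only [pow_succ]
  refine ⟨hH.eigenvalues, U, fun k x y => ?_, fun a b => ?_⟩
  · rw [hk k, Matrix.mul_apply]
    refine Finset.sum_congr rfl fun a _ => ?_
    rw [Matrix.mul_diagonal, Matrix.star_apply]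
    simp only [star_trivial]
    ring
  · have := congrFun (congrFun h1 a) b
    rw [Matrix.mul_apply, Matrix.one_apply] at this
    rw [← this]
    refine Finset.sum_congr rfl fun x _ => ?_
    rw [Matrix.star_apply]
    simp

variable {F : Mat ι} {lam : ι → ℝ} {O : Mat ι}

lemma col_sq (h : Spec F lam O) (a : ι) : ∑ x, O x a ^ 2 = 1 := by
  have := h.2 a a
  simp only [if_true] at this
  rw [← this]
  exact Finset.sum_congr rfl fun x _ => sq _

lemma row_sq (h : Spec F lam O) (x : ι) : ∑ a, O x a ^ 2 = 1 := by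
  have := h.1 0 x x
  simp only [pow_zero, Matrix.one_apply_eq, one_mul] at this
  rw [this]
  exact Finset.sum_congr rfl fun x _ => sq _

lemma row_orth (h : Spec F lam O) (x y : ι) :
    ∑ a, O x a * O y a = if x = y then 1 else 0 := by
  have := h.1 0 x y
  simp only [pow_zero, one_mul, Matrix.one_apply] at this
  exact this.symm

lemma tk_eq (h : Spec F lam O) (k : ℕ) : tk F k = ∑ a, lam a ^ k := by
  unfold tk Matrix.trace
  simp only [Matrix.diag_apply, h.1 k]
  rw [Finset.sum_comm]
  refine Finset.sum_congr rfl fun a _ => ?_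
  have : ∑ x, lam a ^ k * O x a * O x a = lam a ^ k * ∑ x, O x a ^ 2 := by
    rw [Finset.mul_sum]
    exact Finset.sum_congr rfl fun x _ => by ring
  rw [this, col_sq h, mul_one]

lemma am_even (h : Spec F lam O) (k : ℕ) (hk : Even k) : am lam k = tk F k := by
  rw [tk_eq h]
  unfold am
  exact Finset.sum_congr rfl fun a _ => hk.pow_abs _

omit [DecidableEq ι] in
lemma am_nonneg (lam : ι → ℝ) (k : ℕ) : 0 ≤ am lam k :=
  Finset.sum_nonneg fun _ _ => pow_nonneg (abs_nonneg _) _

lemma pow_symm (h : Spec F lam O) (k : ℕ) (x y : ι) : (F ^ k) x y = (F ^ k) y x := by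
  rw [h.1, h.1]
  exact Finset.sum_congr rfl fun a _ => by ring

lemma fro_pow (h : Spec F lam O) (k : ℕ) : fro (F ^ k) = am lam (2 * k) := by
  rw [am_even h _ (even_two_mul k)]
  unfold fro tk Matrix.trace
  refine Finset.sum_congr rfl fun x _ => ?_
  rw [Matrix.diag_apply, two_mul, pow_add, Matrix.mul_apply]
  refine Finset.sum_congr rfl fun y _ => ?_
  rw [pow_symm h k y x, sq]

lemma rr_eq (h : Spec F lam O) (x : ι) : rr F x = ∑ a, O x a ^ 2 * lam a ^ 2 := by
  have h2 := h.1 2 x x
  have : rr F x = (F ^ 2) x x := by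
    unfold rr
    rw [pow_two F, Matrix.mul_apply]
    refine Finset.sum_congr rfl fun y _ => ?_
    have := pow_symm h 1 y x
    simp only [pow_one] at this
    rw [this, sq]
  rw [this, h2]
  exact Finset.sum_congr rfl fun a _ => by ring

lemma mulVec_col (h : Spec F lam O) (a x : ι) :
    (F *ᵥ fun y => O y a) x = lam a * O x a := by
  have h1 : ∀ y, F x y = ∑ b, lam b * O x b * O y b := fun y => by
    simpa using h.1 1 x y
  simp only [Matrix.mulVec, dotProduct, h1, Finset.sum_mul]
  rw [Finset.sum_comm]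
  have : ∀ b, ∑ y, lam b * O x b * O y b * O y a = if b = a then lam b * O x b else 0 := by
    intro b
    have : ∑ y, lam b * O x b * O y b * O y a = lam b * O x b * ∑ y, O y b * O y a := by
      rw [Finset.mul_sum]
      exact Finset.sum_congr rfl fun y _ => by ring
    rw [this, h.2]
    split_ifs <;> simp
  simp [this]

lemma abs_le_of_op (h : Spec F lam O) {u : ℝ} (hu : 0 ≤ u) (hop : Op F u) (a : ι) :
    |lam a| ≤ u := by
  have := hop fun y => O y a
  simp only [mulVec_col h, mul_pow] at this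
  rw [← Finset.mul_sum, col_sq h, mul_one, mul_one] at this
  exact abs_le_of_sq_le_sq this hu

lemma op_of_abs (h : Spec F lam O) {u : ℝ} (hl : ∀ a, |lam a| ≤ u) : Op F u := by
  intro v
  set c : ι → ℝ := fun a => ∑ y, O y a * v y with hc
  have h1 : ∀ x y, F x y = ∑ b, lam b * O x b * O y b := fun x y => by
    simpa using h.1 1 x y
  have hFv : ∀ x, (F *ᵥ v) x = ∑ b, O x b * (lam b * c b) := by
    intro x
    simp only [Matrix.mulVec, dotProduct, h1, Finset.sum_mul, hc, Finset.mul_sum]
    rw [Finset.sum_comm]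
    exact Finset.sum_congr rfl fun b _ => Finset.sum_congr rfl fun y _ => by ring
  have hv : ∀ x, v x = ∑ b, O x b * c b := by
    intro x
    simp only [hc, Finset.mul_sum]
    rw [Finset.sum_comm]
    have : ∀ y, ∑ b, O x b * (O y b * v y) = if x = y then v y else 0 := by
      intro y
      have : ∑ b, O x b * (O y b * v y) = (∑ b, O x b * O y b) * v y := by
        rw [Finset.sum_mul]
        exact Finset.sum_congr rfl fun b _ => by ring
      rw [this, row_orth h]
      split_ifs <;> simp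
    simp [this]
  have key : ∀ d : ι → ℝ, ∑ x, (∑ b, O x b * d b) ^ 2 = ∑ b, d b ^ 2 := by
    intro d
    have : ∀ x, (∑ b, O x b * d b) ^ 2 = ∑ b, ∑ b', O x b * O x b' * (d b * d b') := by
      intro x
      rw [sq, Finset.sum_mul_sum]
      exact Finset.sum_congr rfl fun b _ => Finset.sum_congr rfl fun b' _ => by ring
    simp only [this]
    rw [Finset.sum_comm]
    refine Finset.sum_congr rfl fun b _ => ?_
    rw [Finset.sum_comm]
    have : ∀ b', ∑ x, O x b * O x b' * (d b * d b') = if b = b' then d b * d b' else 0 := by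
      intro b'
      rw [← Finset.sum_mul, h.2]
      split_ifs <;> simp
    simp [this, sq]
  have e1 : ∑ x, (F *ᵥ v) x ^ 2 = ∑ b, (lam b * c b) ^ 2 := by
    simp only [hFv]
    exact key _
  have e2 : ∑ x, v x ^ 2 = ∑ b, c b ^ 2 := by
    rw [← key c]
    exact Finset.sum_congr rfl fun x _ => by rw [← hv x]
  rw [e1, e2, Finset.mul_sum]
  refine Finset.sum_le_sum fun b _ => ?_
  rw [mul_pow]
  refine mul_le_mul_of_nonneg_right ?_ (sq_nonneg _)
  rw [← sq_abs]
  exact pow_le_pow_left₀ (abs_nonneg _) (hl b) 2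

lemma nt_eq (h : Spec F lam O) (s : ℕ) (x y : ι) :
    Nt F s x y = ∑ a, (lam a ^ (s + 2) - lam a ^ s) * O x a * O y a := by
  unfold Nt
  rw [Matrix.sub_apply, h.1, h.1, ← Finset.sum_sub_distrib]
  exact Finset.sum_congr rfl fun a _ => by ring

lemma mu_le (l : ℝ) (s : ℕ) : |l ^ (s + 2) - l ^ s| ≤ (1 + |l|) ^ (s + 2) := by
  have h0 := abs_nonneg l
  have : l ^ (s + 2) - l ^ s = l ^ s * (l ^ 2 - 1) := by ring
  rw [this, abs_mul, abs_pow, pow_add]
  refine mul_le_mul (pow_le_pow_left₀ h0 (by linarith) s) ?_ (abs_nonneg _) (by positivity)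
  have h2 : l ^ 2 = |l| ^ 2 := (sq_abs l).symm
  rw [abs_le]
  constructor <;> nlinarith

omit [DecidableEq ι] in
lemma cheb (w t : ι → ℝ) (hw : ∀ c, 0 ≤ w c) (ht : ∀ c, 0 ≤ t c) (p a b : ℕ) :
    (∑ c, w c * t c ^ (p + a)) * (∑ c, w c * t c ^ (p + b)) ≤
      (∑ c, w c * t c ^ p) * ∑ c, w c * t c ^ (p + a + b) := by
  have hpos : 0 ≤ ∑ c, ∑ d, (w c * t c ^ p) * (w d * t d ^ p) *
      ((t c ^ a - t d ^ a) * (t c ^ b - t d ^ b)) := by
    refine Finset.sum_nonneg fun c _ => Finset.sum_nonneg fun d _ => ?_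
    refine mul_nonneg (mul_nonneg (mul_nonneg (hw c) (pow_nonneg (ht c) _))
      (mul_nonneg (hw d) (pow_nonneg (ht d) _))) ?_
    rcases le_total (t c) (t d) with hcd | hcd
    · exact mul_nonneg_of_nonpos_of_nonpos
        (sub_nonpos.2 (pow_le_pow_left₀ (ht c) hcd _))
        (sub_nonpos.2 (pow_le_pow_left₀ (ht c) hcd _))
    · exact mul_nonneg (sub_nonneg.2 (pow_le_pow_left₀ (ht d) hcd _))
        (sub_nonneg.2 (pow_le_pow_left₀ (ht d) hcd _))
  set S : ℕ → ℝ := fun n => ∑ c, w c * t c ^ n with hS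
  have hprod : ∀ m n, S m * S n = ∑ c, ∑ d, (w c * t c ^ m) * (w d * t d ^ n) := fun m n =>
    Finset.sum_mul_sum _ _ _ _
  have hexp : ∑ c, ∑ d, (w c * t c ^ p) * (w d * t d ^ p) *
      ((t c ^ a - t d ^ a) * (t c ^ b - t d ^ b)) =
      S (p + a + b) * S p + S p * S (p + a + b) - S (p + a) * S (p + b)
        - S (p + b) * S (p + a) := by
    simp only [hprod, ← Finset.sum_add_distrib, ← Finset.sum_sub_distrib]
    exact Finset.sum_congr rfl fun c _ => Finset.sum_congr rfl fun d _ => by ring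
  rw [hexp] at hpos
  change S (p + a) * S (p + b) ≤ S p * S (p + a + b)
  nlinarith

omit [DecidableEq ι] in
lemma ns_add (lam : ι → ℝ) (O : Mat ι) (s : ℕ) (i j : ι) :
    ns lam O s i + ns lam O s j = ∑ c, (O i c ^ 2 + O j c ^ 2) * (1 + |lam c|) ^ (2 + s) := by
  unfold ns
  rw [← Finset.sum_add_distrib]
  exact Finset.sum_congr rfl fun c _ => by rw [add_comm 2 s]; ring

omit [DecidableEq ι] in
lemma ns_nonneg (lam : ι → ℝ) (O : Mat ι) (s : ℕ) (x : ι) : 0 ≤ ns lam O s x :=
  Finset.sum_nonneg fun _ _ => by positivity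

lemma nt_abs (h : Spec F lam O) (s : ℕ) (x y : ι) :
    |Nt F s x y| ≤ ∑ a, (1 + |lam a|) ^ (s + 2) * (|O x a| * |O y a|) := by
  rw [nt_eq h]
  refine (Finset.abs_sum_le_sum_abs _ _).trans (Finset.sum_le_sum fun a _ => ?_)
  rw [mul_assoc, abs_mul, abs_mul]
  exact mul_le_mul_of_nonneg_right (mu_le _ _) (by positivity)

lemma nt_sq (h : Spec F lam O) (s : ℕ) (x y : ι) :
    Nt F s x y ^ 2 ≤ ns lam O s x * ns lam O s y := by
  have h1 := nt_abs h s x y
  rw [← sq_abs]
  refine (pow_le_pow_left₀ (abs_nonneg _) h1 2).trans ?_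
  unfold ns
  refine Finset.sum_sq_le_sum_mul_sum_of_sq_le_mul _ (fun a _ => by positivity)
    (fun a _ => by positivity) fun a _ => le_of_eq ?_
  rw [mul_pow, mul_pow, sq_abs, sq_abs]
  ring

lemma one_add_pow_le (t : ℝ) (ht : 0 ≤ t) (n : ℕ) : (1 + t) ^ n ≤ 2 ^ n * (1 + t ^ n) := by
  rcases le_total t 1 with h | h
  · have : (1 + t) ^ n ≤ 2 ^ n := pow_le_pow_left₀ (by linarith) (by linarith) n
    have h2 : (0 : ℝ) ≤ 2 ^ n * t ^ n := by positivity
    linarith
  · have : (1 + t) ^ n ≤ (2 * t) ^ n := pow_le_pow_left₀ (by linarith) (by linarith) n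
    rw [mul_pow] at this
    have h2 : (0 : ℝ) ≤ 2 ^ n := by positivity
    linarith

omit [DecidableEq ι] in
lemma am_cheb (lam : ι → ℝ) (a b c e : ℕ) (hab : a ≤ b) (hac : a ≤ c) (he : a + e = b + c) :
    am lam b * am lam c ≤ am lam a * am lam e := by
  obtain ⟨b', rfl⟩ := Nat.exists_eq_add_of_le hab
  obtain ⟨c', rfl⟩ := Nat.exists_eq_add_of_le hac
  have : e = a + b' + c' := by omega
  subst this
  have := cheb (fun _ => (1 : ℝ)) (fun c => |lam c|) (fun _ => zero_le_one)
    (fun _ => abs_nonneg _) a b' c'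
  simpa [am] using this

lemma am_split (h : Spec F lam O) (k : ℕ) (v : ℝ) (hk : 3 ≤ k) (hv : 0 < v) :
    am lam (k - 1) ≤ v ^ (k - 3) * tk F 2 + am lam k / v := by
  obtain ⟨m, rfl⟩ := Nat.exists_eq_add_of_le hk
  have e1 : 3 + m - 1 = m + 2 := by omega
  have e2 : 3 + m - 3 = m := by omega
  rw [e1, e2, ← am_even h 2 even_two]
  unfold am
  rw [Finset.mul_sum, Finset.sum_div, ← Finset.sum_add_distrib]
  refine Finset.sum_le_sum fun a _ => ?_
  have h0 := abs_nonneg (lam a)
  rcases le_total |lam a| v with hl | hl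
  · have : |lam a| ^ (m + 2) ≤ v ^ m * |lam a| ^ 2 := by
      rw [pow_add]
      exact mul_le_mul_of_nonneg_right (pow_le_pow_left₀ h0 hl m) (by positivity)
    have h2 : 0 ≤ |lam a| ^ (3 + m) / v := by positivity
    linarith
  · have : |lam a| ^ (m + 2) ≤ |lam a| ^ (3 + m) / v := by
      rw [le_div_iff₀ hv]
      have : |lam a| ^ (3 + m) = |lam a| ^ (m + 2) * |lam a| := by ring
      rw [this]
      exact mul_le_mul_of_nonneg_left hl (by positivity)
    have h2 : 0 ≤ v ^ m * |lam a| ^ 2 := by positivity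
    linarith

lemma am_three (h : Spec F lam O) : am lam 3 ≤ √(tk F 2 * tk F 4) := by
  rw [← am_even h 2 even_two, ← am_even h 4 (by decide)]
  refine Real.le_sqrt_of_sq_le ?_
  have := am_cheb lam 2 3 3 4 (by omega) (by omega) rfl
  rw [sq]
  exact this

lemma c_nt (h : Spec F lam O) (C : Mat ι) (w : ℝ) (s : ℕ) (hw : 0 ≤ w) (hC : Op C w) :
    |∑ i, ∑ j, C i j * Nt F s i j| ≤ w * (am lam (s + 2) + am lam s) := by
  have e : ∑ i, ∑ j, C i j * Nt F s i j =
      ∑ a, (lam a ^ (s + 2) - lam a ^ s) * ∑ i, O i a * (C *ᵥ fun y => O y a) i := by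
    simp only [nt_eq h, Finset.mul_sum, Matrix.mulVec, dotProduct]
    rw [Finset.sum_congr rfl fun i _ => Finset.sum_comm, Finset.sum_comm]
    exact Finset.sum_congr rfl fun a _ => Finset.sum_congr rfl fun i _ =>
      Finset.sum_congr rfl fun j _ => by ring
  have hq : ∀ a, |∑ i, O i a * (C *ᵥ fun y => O y a) i| ≤ w := by
    intro a
    refine abs_le_of_sq_le_sq ?_ hw
    refine (Finset.sum_mul_sq_le_sq_mul_sq _ _ _).trans ?_
    have := hC fun y => O y a
    rw [col_sq h, mul_one] at this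
    rw [col_sq h, one_mul]
    exact this
  rw [e]
  refine (Finset.abs_sum_le_sum_abs _ _).trans ?_
  unfold am
  rw [← Finset.sum_add_distrib, Finset.mul_sum]
  refine Finset.sum_le_sum fun a _ => ?_
  rw [abs_mul, mul_comm]
  refine mul_le_mul (hq a) ?_ (abs_nonneg _) hw
  refine (abs_sub _ _).trans ?_
  rw [abs_pow, abs_pow]

end SPEC

open SPEC in
theorem SPEC_proof : SpecStmt := by
  intro ι _ _ F hF
  refine ⟨exists_spec F hF, fun K u hK hK0 hu ht => ?_, fun lam O h => ?_⟩
  · obtain ⟨lam, O, h⟩ := exists_spec F hF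
    refine op_of_abs h fun a => ?_
    rw [← am_even h K hK] at ht
    have : |lam a| ^ K ≤ u ^ K :=
      (Finset.single_le_sum (f := fun a => |lam a| ^ K)
        (fun _ _ => pow_nonneg (abs_nonneg _) _) (Finset.mem_univ a)).trans ht
    exact (pow_le_pow_iff_left₀ (abs_nonneg _) hu hK0.ne').1 this
  refine ⟨fun k => ?_, am_even h, fro_pow h, fun k => ?_, nt_sq h, fun s x y => ?_,
    fun a b i j => ?_, fun a x => ?_, fun x => ⟨?_, ?_⟩, fun s U => ?_, fun u hu hop k => ?_,
    am_cheb lam, am_split h, am_three h, c_nt h⟩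
  · rw [tk_eq h]
    refine (Finset.abs_sum_le_sum_abs _ _).trans (le_of_eq ?_)
    exact Finset.sum_congr rfl fun a _ => abs_pow _ _
  · unfold am
    have : ∀ a, |lam a| ^ (2 * k) = (|lam a| ^ k) ^ 2 := fun a => by ring
    simp only [this]
    exact Finset.sum_sq_le_sq_sum_of_nonneg fun a _ => by positivity
  · have h1 := nt_sq h s x y
    have h2 := ns_nonneg lam O s x
    have h3 := ns_nonneg lam O s y
    exact abs_le_of_sq_le_sq (by nlinarith) (by linarith)
  · rw [ns_add, ns_add, ns_add, ns_add]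
    have := cheb (fun c => O i c ^ 2 + O j c ^ 2) (fun c => 1 + |lam c|)
      (fun _ => by positivity) (fun _ => by positivity) 2 a b
    simpa [add_assoc] using this
  · unfold ns
    refine Finset.sum_le_sum fun c _ => mul_le_mul_of_nonneg_left ?_ (sq_nonneg _)
    exact pow_le_pow_right₀ (by linarith [abs_nonneg (lam c)]) (by omega)
  · rw [← row_sq h x]
    unfold ns
    refine Finset.sum_le_sum fun c _ => le_mul_of_one_le_right (sq_nonneg _) ?_
    exact one_le_pow₀ (by linarith [abs_nonneg (lam c)])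
  · rw [rr_eq h, ← row_sq h x, ← Finset.sum_add_distrib, Finset.mul_sum]
    unfold ns
    refine Finset.sum_le_sum fun c _ => ?_
    have h2 : lam c ^ 2 = |lam c| ^ 2 := (sq_abs _).symm
    have h3 : (1 + |lam c|) ^ (0 + 2) ≤ 2 * (1 + lam c ^ 2) := by
      rw [h2, zero_add]
      generalize |lam c| = t
      nlinarith [sq_nonneg (1 - t)]
    nlinarith [mul_le_mul_of_nonneg_left h3 (sq_nonneg (O x c))]
  · have h1 : ∀ x, ns lam O s x ≤ 2 ^ (s + 2) * (1 + ∑ a, O x a ^ 2 * |lam a| ^ (s + 2)) := by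
      intro x
      rw [← row_sq h x, ← Finset.sum_add_distrib, Finset.mul_sum]
      unfold ns
      refine Finset.sum_le_sum fun c _ => ?_
      have := mul_le_mul_of_nonneg_left (one_add_pow_le _ (abs_nonneg (lam c)) (s + 2))
        (sq_nonneg (O x c))
      refine this.trans (le_of_eq (by ring))
    refine (Finset.sum_le_sum fun x _ => h1 x).trans ?_
    rw [← Finset.mul_sum, Finset.sum_add_distrib]
    refine mul_le_mul_of_nonneg_left ?_ (by positivity)
    simp only [Finset.sum_const, nsmul_eq_mul, mul_one]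
    refine add_le_add le_rfl ?_
    refine (Finset.sum_le_sum_of_subset_of_nonneg (Finset.subset_univ U)
      fun x _ _ => Finset.sum_nonneg fun a _ => by positivity).trans (le_of_eq ?_)
    rw [Finset.sum_comm]
    unfold am
    refine Finset.sum_congr rfl fun a _ => ?_
    rw [← Finset.sum_mul, col_sq h, one_mul]
  · unfold am
    rw [Finset.mul_sum]
    refine Finset.sum_le_sum fun a _ => ?_
    rw [pow_succ, mul_comm]
    exact mul_le_mul_of_nonneg_right (abs_le_of_op h hu hop a) (by positivity)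

theorem CROSS_proof (hSpec : SpecStmt) : CrossStmt := by
  intro ι _ _ F k a v hF hk ha hak hv
  obtain ⟨⟨lam, O, h⟩, -, hall⟩ := hSpec ι F hF
  obtain ⟨h1, h2, -, -, -, -, -, -, -, -, -, h12, h13, h14, -⟩ := hall lam O h
  have e1 := h12 3 a (k + 2 - a) (k - 1) ha (by omega) (by omega)
  have e2 := h13 k v (by omega) hv
  rw [h2 k hk] at e2
  rw [abs_mul]
  refine (mul_le_mul (h1 a) (h1 _) (abs_nonneg _) (SPEC.am_nonneg _ _)).trans (e1.trans ?_)
  exact mul_le_mul h14 e2 (SPEC.am_nonneg _ _) (Real.sqrt_nonneg _)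

end Crest.Agent.R62
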