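import Crest.Agent.R62.DefsB
import Crest.Agent.R62.Aux26
import Crest.Agent.R62.SPEC
import Crest.Agent.R62.Lg

set_option autoImplicit false

namespace Crest.Agent.R62

open Matrix Finset

namespace SM1

open Lg

theorem big20 {d p : ℕ} {L Λ N₀ τ : ℝ} (h : Big d p L Λ N₀ τ) : 10 ^ 20 ≤ Λ := by
  have h1 : (1 : ℝ) ≤ d := by exact_mod_cast le_trans (by norm_num) h.hd
  have h2 : (1 : ℝ) ≤ (d : ℝ) ^ 10 := one_le_pow₀ h1
  have := h.hΛ
  nlinarith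

theorem abs_of_sq {x s : ℝ} (hs : 0 < s) (h : (x / s) ^ 2 ≤ 1) : |x| ≤ s := by
  have := (sq_le_one_iff_abs_le_one _).1 h
  rwa [abs_div, abs_of_pos hs, div_le_one hs] at this

theorem le_of_max {x s : ℝ} (hs : 0 < s) (h : (max x 0 / s) ^ 2 ≤ 1) : x ≤ s :=
  (le_max_left x 0).trans ((le_abs_self _).trans (abs_of_sq hs h))

variable {ι : Type} [Fintype ι] [DecidableEq ι]

theorem tk_even {F : Mat ι} (hF : Sy F) (k : ℕ) (hk : Even k) : 0 ≤ tk F k := by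
  obtain ⟨lam, O, h⟩ := SPEC.exists_spec F hF
  rw [← SPEC.am_even h k hk]
  exact SPEC.am_nonneg _ _

theorem fro_eq {F : Mat ι} (hF : Sy F) (k : ℕ) : fro (F ^ k) = tk F (2 * k) := by
  obtain ⟨lam, O, h⟩ := SPEC.exists_spec F hF
  rw [SPEC.fro_pow h, SPEC.am_even h _ (even_two_mul k)]

omit [DecidableEq ι] in
theorem tr_cs (X Y : Mat ι) (hY : Sy Y) : |trace (X * Y)| ≤ √(fro Y * fro X) := by
  classical
  refine Real.abs_le_sqrt ?_
  rw [A26.trace_mul_sy X Y hY, mul_comm]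
  unfold fro
  rw [← Finset.sum_product', ← Finset.sum_product', ← Finset.sum_product']
  exact Finset.sum_mul_sq_le_sq_mul_sq _ _ _

omit [DecidableEq ι] in
theorem xc_eq {F F' : Mat ι} (hF : Sy F) (hF' : Sy F') : Xc F F' = fro (F' * F) := by
  have : Xc F F' = trace ((F' * F) * (F * F')) := by
    unfold Xc
    rw [Matrix.trace_mul_comm (F * F * F') F']
    simp only [Matrix.mul_assoc]
  rw [this]
  unfold fro trace
  refine Finset.sum_congr rfl fun x _ => ?_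
  rw [Matrix.diag_apply, Matrix.mul_apply]
  refine Finset.sum_congr rfl fun y _ => ?_
  have : (F * F') y x = (F' * F) x y := by
    simp only [Matrix.mul_apply]
    exact Finset.sum_congr rfl fun w _ => by rw [hF y w, hF' w x, mul_comm]
  rw [this, sq]

omit [DecidableEq ι] in
theorem fro_nonneg (X : Mat ι) : 0 ≤ fro X :=
  Finset.sum_nonneg fun _ _ => Finset.sum_nonneg fun _ _ => sq_nonneg _

theorem sum_pos_le {E : Env ι} (F : Mat ι) :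
    ∑ x ∈ E.U, max (rr F x - 1) 0 ≤ √(E.N * Pq F 2) := by
  refine Real.le_sqrt_of_sq_le ?_
  have h1 := sum_mul_sq_le_sq_mul_sq E.U (fun _ => (1 : ℝ)) (fun x => max (rr F x - 1) 0)
  simp only [one_mul, one_pow, sum_const, nsmul_eq_mul, mul_one] at h1
  refine h1.trans (mul_le_mul_of_nonneg_left ?_ (Nat.cast_nonneg _))
  exact A26.sum_U_le fun _ => sq_nonneg _

theorem rho_sq {E : Env ι} {F : Mat ι} {ε : ℝ} (hF : Side E F ε) :
    ∑ x ∈ E.U, (rr F x - 1) ^ 2 ≤ Pq F 2 + √(E.N * Pq F 2) + |tk F 2 - E.N| := by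
  have h1 : ∀ x, (rr F x - 1) ^ 2 ≤ max (rr F x - 1) 0 ^ 2 + max (rr F x - 1) 0 - rr F x + 1 := by
    intro x
    have := A26.rr_nonneg F x
    rcases le_total (rr F x - 1) 0 with h | h
    · rw [max_eq_right h]; nlinarith
    · rw [max_eq_left h]; nlinarith
  refine (Finset.sum_le_sum fun x _ => h1 x).trans ?_
  rw [Finset.sum_add_distrib, Finset.sum_sub_distrib, Finset.sum_add_distrib, A26.sum_rr_U hF]
  have h2 : ∑ x ∈ E.U, max (rr F x - 1) 0 ^ 2 ≤ Pq F 2 := A26.sum_U_le fun _ => sq_nonneg _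
  have h3 := sum_pos_le (E := E) F
  have h4 := neg_abs_le (tk F 2 - E.N)
  have h5 : ∑ _x ∈ E.U, (1 : ℝ) = E.N := by simp [Env.N]
  linarith

theorem rr_sq {E : Env ι} {F : Mat ι} {ε : ℝ} (hF : Side E F ε) :
    ∑ x, rr F x ^ 2 ≤ E.N + 2 * √(E.N * Pq F 2) + Pq F 2 := by
  rw [← Finset.sum_subset (Finset.subset_univ E.U) fun x _ hx => by simp [A26.rr_out hF hx]]
  have h1 : ∀ x, rr F x ^ 2 ≤ 1 + 2 * max (rr F x - 1) 0 + max (rr F x - 1) 0 ^ 2 := by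
    intro x
    have := A26.rr_nonneg F x
    rcases le_total (rr F x - 1) 0 with h | h
    · rw [max_eq_right h]; nlinarith
    · rw [max_eq_left h]; nlinarith
  refine (Finset.sum_le_sum fun x _ => h1 x).trans ?_
  rw [Finset.sum_add_distrib, Finset.sum_add_distrib, ← Finset.mul_sum]
  have h2 : ∑ x ∈ E.U, max (rr F x - 1) 0 ^ 2 ≤ Pq F 2 := A26.sum_U_le fun _ => sq_nonneg _
  have h3 := sum_pos_le (E := E) F
  have h5 : ∑ _x ∈ E.U, (1 : ℝ) = E.N := by simp [Env.N]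
  linarith

theorem trC (hAvg : AvgStmt) {E : Env ι} (hE : E.Ok) {F : Mat ι} {ε : ℝ} (hF : Side E F ε) :
    |trace (E.C * F ^ 2)| ≤ 2 * E.u * tk F 2 ∧ |trace (E.C * F ^ 3)| ≤ 2 * E.u ^ 2 * tk F 2 := by
  obtain ⟨-, -, -, -, -, -, -, -, -, a10, -⟩ := hAvg ι E hE
  have ht : Fᵀ = F := by ext x y; exact hF.sy y x
  have hQ := A26.Q0 hF
  have hu := hE.u1
  have f1 : fro F = tk F 2 := by simpa using fro_eq hF.sy 1
  have f2 : fro (F ^ 2) ≤ E.u ^ 2 * tk F 2 := by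
    rw [← A26.sum_rr hF, Finset.mul_sum]
    exact Finset.sum_le_sum fun x _ => A26.rr_pow hF.sy hF.op x 1
  constructor
  · have := a10 F F
    rw [ht, ← pow_two, ← A26.trace_mul_sy _ _ (A26.pow_sy hF.sy 2), f1, mul_assoc,
      Real.mul_self_sqrt hQ] at this
    exact this
  · have := a10 F (F ^ 2)
    rw [ht, ← pow_succ', ← A26.trace_mul_sy _ _ (A26.pow_sy hF.sy 3), f1] at this
    refine this.trans ?_
    have h2 : √(fro (F ^ 2)) ≤ E.u * √(tk F 2) := by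
      refine Real.sqrt_le_iff.2 ⟨by positivity, ?_⟩
      rw [mul_pow, Real.sq_sqrt hQ]
      exact f2
    refine (mul_le_mul_of_nonneg_left h2 (by positivity)).trans (le_of_eq ?_)
    have := Real.mul_self_sqrt hQ
    calc 2 * E.u * √(tk F 2) * (E.u * √(tk F 2)) = 2 * E.u ^ 2 * (√(tk F 2) * √(tk F 2)) := by ring
      _ = _ := by rw [this]

theorem par {Λ N₀ N th u D Tf z : ℝ} {p : ℕ} (h : 10 ^ 20 ≤ Λ)
    (hi : N₀ ≤ Λ ^ 31908) (hp : 31910 ≤ p) (hth : th = th1 Λ N₀ N) (hu : u = u1 Λ N₀ N)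
    (hz : z = 1 / Λ ^ 330) (hD : D = Λ * (Λ ^ 1320 + th ^ 2)) (hT : Tf = Tf1 Λ N₀ N)
    (Nlo : 2 * Λ ^ 23906 + 2 ≤ N) (Nhi : N ≤ N₀) :
    1 ≤ N₀ / N ∧ N₀ / N ≤ Λ ^ 8002 ∧ Λ ^ 23906 ≤ N ∧ 2 * th + D ≤ N / Λ ^ 2 ∧
    (th * u + D + √N + Tf) * u / N ≤ 1 / Λ ^ 41 ∧ u * √(Tf / N) ≤ 1 / Λ ^ 34 ∧
    (u * √N + D) / N ≤ 1 / Λ ^ 3900 ∧ (th * u + D + √N + √(N * Tf)) / N ≤ 1 / Λ ^ 8000 ∧
    Λ ^ 3 * (((D + Tf + √N + th * √Tf) * u + √(N * Tf)) / N + K11 Λ N₀ N * u / N) ≤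
      √(TP1 Λ N₀ N / N) ∧
    √(TP1 Λ N₀ N / N) ≤ 1 / Λ ^ 104 ∧ K11 Λ N₀ N * u / N ≤ 1 / Λ ^ 202 ∧
    th * u ^ 2 / N ≤ 1 / Λ ^ 42 ∧ SQ1 Λ N₀ N ≤ N / Λ ^ 38 ∧ Tf ≤ Λ ^ 7816 ∧
    Tf ≤ u ^ 2 ∧ z ^ p * N ^ 3 ≤ 1 ∧ (1 / Λ) ^ (p - 1) * N ≤ 1 := by
  have h0 := pos h
  have hN1 : Λ ^ 23906 ≤ N := by
    have := pow_pos h0 23906
    linarith
  have hN0 : 0 < N := (pow_pos h0 _).trans_le hN1
  have hy1 : 1 ≤ N₀ / N := (one_le_div hN0).2 Nhi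
  have uN0 : Up Λ N₀ (31908 : ℕ) := (upN h _).of_le (hN0.le.trans Nhi) hi
  have uy' : Up Λ (N₀ / N) 8002 :=
    (uN0.div h ((loN Λ 23906).of_le hN1)).mono h (by norm_num)
  obtain ⟨a, uy, ly⟩ := ex h (zero_lt_one.trans_le hy1)
  obtain ⟨n, uN, lN⟩ := ex h hN0
  have a0 : 0 ≤ a := exp_le h (lo_one hy1) uy
  have a1 : a ≤ 8002 := exp_le h ly uy'
  have n0 : 23906 ≤ n := by exact_mod_cast exp_le h ((loN Λ 23906).of_le hN1) uN
  have n1 : n ≤ 31908 := by exact_mod_cast exp_le h lN (uN0.of_le hN0.le Nhi)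
  have uth : Up Λ th (a - 160) := by
    rw [hth]; exact (uy.div h (loN Λ 160)).mono h (by norm_num)
  have uu : Up Λ u (a + 9) := by
    rw [hu]; exact ((upN h 9).mul h uy).mono h (by push_cast; linarith)
  have lu : Lo Λ u (a + 9) := by
    rw [hu]; exact ((loN Λ 9).mul h ly).mono h (by push_cast; linarith)
  have uD : Up Λ D 15686 := by
    rw [hD]
    exact ((up1 h).mul h ((upN h 1320).add h (uth.pow h 2) 15685)).mono h (by norm_num)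
  have uT : Up Λ Tf 7816 := by
    rw [hT]
    exact (upN h 8).add h ((uy.pow h 3).div h (loN Λ 16191)) 7816
  have uT' : Up Λ Tf (2 * a + 9) := by
    rw [hT]
    exact (upN h 8).add h ((uy.pow h 3).div h (loN Λ 16191)) _
  have uK : Up Λ (K11 Λ N₀ N) (a + 7691) := (uy.mul h (upN h 7691)).mono h (by norm_num)
  have uP : Up Λ (TP1 Λ N₀ N) (2 * a + 7693) :=
    ((uy.pow h 2).mul h (upN h 7693)).mono h (by push_cast; linarith)
  have lP : Lo Λ (TP1 Λ N₀ N) (2 * a + 7693) :=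
    ((ly.pow h 2).mul h (loN Λ 7693)).mono h (by push_cast; linarith)
  have hp' : (31910 : ℝ) ≤ p := by exact_mod_cast hp
  refine ⟨hy1, ?_, hN1, ?_, ?_, ?_, ?_, ?_, ?_, ?_, ?_, ?_, ?_, ?_, ?_, ?_, ?_⟩
  · exact uy'.le h (loN Λ 8002)
  · exact (((upC h 2).mul h uth).add h uD 15687).le h (lN.div h (upN h 2) (pow_pos h0 _))
  · exact ((((uth.mul h uu).add4 h uD (uN.sqrt h) uT (n - 8052)).mul h uu).div h lN).le_inv h 41
  · exact (uu.mul h ((uT.div h lN).sqrt h)).le_inv h 34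
  · exact (((uu.mul h (uN.sqrt h)).add h uD (n - 3900)).div h lN).le_inv h 3900
  · exact (((uth.mul h uu).add4 h uD (uN.sqrt h) ((uN.mul h uT).sqrt h) (n - 8000)).div h
      lN).le_inv h 8000
  · have s1 := uD.add4 h uT (uN.sqrt h) (uth.mul h (uT.sqrt h)) (n / 2 + 3800)
    have s2 := ((s1.mul h uu).add h ((uN.mul h uT').sqrt h) (n / 2 + a + 3810)).div h lN
    have s3 := s2.add h ((uK.mul h uu).div h lN) (a + 3811 - n / 2)
    exact ((upN h 3).mul h s3).le h ((lP.div h uN hN0).sqrt h)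
  · exact ((uP.div h lN).sqrt h).le_inv h 104
  · exact ((uK.mul h uu).div h lN).le_inv h 202
  · exact ((uth.mul h (uu.pow h 2)).div h lN).le_inv h 42
  · exact ((uy.pow h 2).mul h (upN h 7864)).le h (lN.div h (upN h 38) (pow_pos h0 _))
  · exact uT.le h (loN Λ 7816)
  · exact uT'.le h (lu.pow h 2)
  · rw [hz]
    exact (((upInv h 330).pow h p).mul h (uN.pow h 3)).le h (lo_one le_rfl)
  · have e : (1 / Λ) = 1 / Λ ^ 1 := by rw [pow_one]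
    rw [e]
    have : ((p - 1 : ℕ) : ℝ) = p - 1 := by
      rw [Nat.cast_sub (by omega)]; norm_num
    exact (((upInv h 1).pow h (p - 1)).mul h uN).le h (lo_one le_rfl) (by rw [this]; push_cast; linarith)

end SM1

open SM1 Lg in
theorem SM1_proof (hAvg : AvgStmt) : SM1Stmt := by
  intro ι _ _ d p L Λ N₀ τ E F F' ε c
  have h := big20 c.big
  have h0 := pos h
  obtain ⟨p1, p2, p3, p4, p5, p6, p7, p8, p9, p10, p11, p12, p13, p14, p15, p16, p17⟩ :=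
    par h c.big.hi c.big.hp c.hth c.hu c.hz c.hD c.hT c.lo c.hi
  have hN0 : 0 < E.N := (pow_pos h0 _).trans_le p3
  have hy : 0 < N₀ / E.N := zero_lt_one.trans_le p1
  have hN₀ : 0 < N₀ := hN0.trans_le c.hi
  have sy := c.sF.sy
  have sy' := c.sF'.sy
  have hZ : |E.Z - E.N ^ 2| ≤ E.N ^ 2 / Λ ^ 2 := by
    refine (hAvg ι E c.ok).1.trans ((mul_le_mul_of_nonneg_left p4 hN0.le).trans (le_of_eq ?_))
    rw [sq E.N, mul_div_assoc]
  have pT4 : 0 < T41 Λ N₀ E.N := mul_pos (mul_pos hN0 (pow_pos h0 _)) (pow_pos hy _)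
  have pTK : 0 < TK1 Λ N₀ E.N := mul_pos hN0 (pow_pos (mul_pos (pow_pos h0 _) hy) _)
  have pm : ∀ k l : ℕ, 0 < (N₀ / E.N) ^ k * Λ ^ l := fun k l => mul_pos (pow_pos hy _) (pow_pos h0 _)
  have pm1 : ∀ l : ℕ, 0 < N₀ / E.N * Λ ^ l := fun l => mul_pos hy (pow_pos h0 _)
  have o0 : tk F 4 ≤ T41 Λ N₀ E.N := (div_le_one pT4).1 (c.oF 0)
  have o1 : tk F KK ≤ TK1 Λ N₀ E.N := (div_le_one pTK).1 (c.oF 1)
  have o2 : |tk F 3 - ε * τ| ≤ N₀ / 4 := abs_of_sq (by positivity) (c.oF 2)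
  have o3 : tk F 2 - E.N + G1 Λ N₀ E.N ≤ sQ1 Λ N₀ E.N := le_of_max (pm _ _) (c.oF 3)
  have o4 : |tk F 2 - E.N| ≤ SQ1 Λ N₀ E.N := abs_of_sq (pm _ _) (c.oF 4)
  have o4' : |tk F' 2 - E.N| ≤ SQ1 Λ N₀ E.N := abs_of_sq (pm _ _) (c.oF' 4)
  have o5 : ε * tk F 1 ≤ K11 Λ N₀ E.N := le_of_max (pm1 _) (c.oF 5)
  have o6 : |tk F 1| ≤ S11 Λ N₀ E.N := abs_of_sq (pm1 _) (c.oF 6)
  have o7 : Pq F 2 ≤ TP1 Λ N₀ E.N := (div_le_one (pm _ _)).1 (c.oF 7)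
  have o8 : Pq F p ≤ Tp1 Λ N₀ E.N := (div_le_one (pm _ _)).1 (c.oF 8)
  have o10 : fq F 8 ≤ 1 / Λ ^ 2641 := (div_le_one (one_div_pos.2 (pow_pos h0 _))).1 (c.oF 10)
  have t0 := c.big.t0
  have t1 := c.big.t1
  have hd : (1 : ℝ) ≤ (d : ℝ) ^ 2 := one_le_pow₀ (by exact_mod_cast le_trans (by norm_num) c.big.hd)
  have o2' := abs_le.1 o2
  have hd' : N₀ ≤ (d : ℝ) ^ 2 * N₀ := le_mul_of_one_le_left hN₀.le hd
  have q1 : 9 / 20 * N₀ ≤ ε * tk F 3 := by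
    rcases c.sF.sg with rfl | rfl <;> linarith [o2'.1, o2'.2]
  have q2 : |tk F 3| ≤ 2 * (d : ℝ) ^ 2 * N₀ := by
    rw [abs_le]
    rcases c.sF.sg with rfl | rfl <;> constructor <;> linarith [o2'.1, o2'.2]
  have q3 : tk F 2 ≤ 101 / 100 * E.N := by
    have h1 : (100 : ℝ) ≤ Λ ^ 38 := (upB h 100).le h (loN Λ 38) (by norm_num)
    have h2 : E.N / Λ ^ 38 ≤ E.N / 100 := div_le_div_of_nonneg_left hN0.le (by norm_num) h1
    linarith [(abs_le.1 o4).2]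
  have hP0 : 0 ≤ Pq F 2 := Finset.sum_nonneg fun _ _ => sq_nonneg _
  have hs1 : √(TP1 Λ N₀ E.N / E.N) ≤ 1 :=
    p10.trans ((div_le_one (pow_pos h0 _)).2 (one_le_pow₀ (one_lt h).le))
  have hTN : TP1 Λ N₀ E.N ≤ E.N := (div_le_one hN0).1 (Real.sqrt_le_one.1 hs1)
  have r1 : √(E.N * Pq F 2) ≤ √(E.N * TP1 Λ N₀ E.N) :=
    Real.sqrt_le_sqrt (mul_le_mul_of_nonneg_left o7 hN0.le)
  have r2 : Pq F 2 ≤ √(E.N * TP1 Λ N₀ E.N) := by
    refine Real.le_sqrt_of_sq_le ?_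
    rw [sq]
    exact mul_le_mul (o7.trans hTN) o7 hP0 hN0.le
  have r3 : √(E.N * TP1 Λ N₀ E.N) ≤ E.N * (1 / Λ ^ 104) := by
    have e : E.N * TP1 Λ N₀ E.N = E.N ^ 2 * (TP1 Λ N₀ E.N / E.N) := by
      generalize TP1 Λ N₀ E.N = T
      field_simp
    rw [e, Real.sqrt_mul (sq_nonneg _), Real.sqrt_sq hN0.le]
    exact mul_le_mul_of_nonneg_left p10 hN0.le
  have q4 := rho_sq c.sF
  have q5 := rr_sq c.sF
  have f1 : fro F = tk F 2 := by simpa using fro_eq sy 1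
  have f2 : fro (F ^ 2) = tk F 4 := fro_eq sy 2
  have xc := xc_eq sy sy'
  obtain ⟨c2, c3⟩ := trC hAvg c.ok c.sF
  refine ⟨h, p1, p2, p3, hZ, p5, p6, p7, p8, p9, p10, p11, p12, p13, p14, p15, p16, p17,
    tk_even sy 4 (by decide), o0, tk_even sy KK ⟨15955, rfl⟩, o1, o2, q1, q2, o3, o4, o4', q3, o5,
    o6, o7, o8, o10, by linarith, ?_, xc ▸ fro_nonneg _, ?_, ?_, ?_, c2, c3⟩
  · have e : E.N * (1 + 3 / Λ ^ 104) = E.N + 3 * (E.N * (1 / Λ ^ 104)) := by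
      generalize Λ ^ 104 = T
      ring
    rw [e]
    linarith
  · rw [xc, ← f1, pow_two, ← Matrix.mul_assoc]
    exact tr_cs _ _ sy
  · rw [xc, ← f2, pow_succ' F 2, ← Matrix.mul_assoc]
    exact tr_cs _ _ (A26.pow_sy sy 2)
  · have := tr_cs F (F ^ 2) (A26.pow_sy sy 2)
    rw [← pow_succ', f1, f2] at this
    have h2 := Real.sq_sqrt (mul_nonneg (tk_even sy 4 (by decide)) (A26.Q0 c.sF))
    have h3 := pow_le_pow_left₀ (abs_nonneg _) this 2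
    rw [sq_abs, h2, mul_comm] at h3
    exact h3

end Crest.Agent.R62
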