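import Crest.Agent.R62.SM2a
import Crest.Agent.R62.Aux26
import Crest.Agent.R62.PLib

/-! Row 62, SM2: small parameters and unfolded bounds in phase 2. -/

set_option autoImplicit false
set_option linter.unusedSectionVars false

namespace Crest.Agent.R62

open Matrix Finset

namespace SM2

theorem le_of_max_sq {y s : ℝ} (hs : 0 < s) (h : (max y 0 / s) ^ 2 ≤ 1) : y ≤ s := by
  have h1 : max y 0 / s ≤ 1 := by
    have h0 : 0 ≤ max y 0 / s := div_nonneg (le_max_right _ _) hs.le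
    nlinarith
  rw [div_le_one hs] at h1
  exact (le_max_left _ _).trans h1

variable {ι : Type} [Fintype ι] [DecidableEq ι]

theorem tk_add {F : Mat ι} (h : Sy F) (a b : ℕ) :
    tk F (a + b) = ∑ q : ι × ι, (F ^ a) q.1 q.2 * (F ^ b) q.1 q.2 := by
  unfold tk
  rw [pow_add, A26.trace_mul_sy _ _ (A26.pow_sy h b), Fintype.sum_prod_type]

theorem tk_even {F : Mat ι} (h : Sy F) (a : ℕ) : 0 ≤ tk F (a + a) := by
  rw [tk_add h]
  exact sum_nonneg fun q _ => mul_self_nonneg _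

theorem tk_cs {F : Mat ι} (h : Sy F) : tk F 3 ^ 2 ≤ tk F 2 * tk F 4 := by
  have e3 := tk_add h 1 2
  have e2 := tk_add h 1 1
  have e4 := tk_add h 2 2
  have := sum_mul_sq_le_sq_mul_sq univ (fun q : ι × ι => (F ^ 1) q.1 q.2)
    (fun q : ι × ι => (F ^ 2) q.1 q.2)
  simp only [sq] at this e4 e3 ⊢
  norm_num at e2 e3 e4 this ⊢
  rw [e2, e3, e4]
  exact this

variable {E : Env ι} {F : Mat ι} {ε : ℝ}

theorem tk1_f2 (hF : Side E F ε) : |tk F 1| ≤ √(E.N * fq F 2) := by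
  refine Real.le_sqrt_of_sq_le ?_
  rw [sq_abs, ← A26.tk1_U hF]
  have h1 := sum_mul_sq_le_sq_mul_sq E.U (fun _ => (1 : ℝ)) (fun x => F x x)
  simp only [one_mul, one_pow, sum_const, nsmul_eq_mul, mul_one] at h1
  exact h1.trans (mul_le_mul_of_nonneg_left (A26.sum_U_le fun _ => sq_nonneg _)
    (Nat.cast_nonneg _))

theorem tk13 (hE : E.Ok) (hF : Side E F ε) {K : ℝ} (hK : 0 ≤ K) (hK1 : ε * tk F 1 ≤ K) :
    tk F 1 * tk F 3 ≤ (K * E.u + √(E.N * E.Tf)) * tk F 2 := by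
  have h1 := PL.tk_one_abs hE hF
  have he : ε * ε = 1 := by rcases hF.sg with h | h <;> rw [h] <;> norm_num
  have ha : |ε| = 1 := by rcases hF.sg with h | h <;> rw [h] <;> norm_num
  have e3 : ε * tk F 3 = ∑ x, ε * (F ^ 3) x x := by
    unfold tk trace; rw [mul_sum]; rfl
  have h3 : -tk F 2 ≤ ε * tk F 3 := by
    rw [e3, ← A26.sum_rr hF, ← sum_neg_distrib]
    refine sum_le_sum fun x _ => ?_
    have := hF.po fun y => F y x
    rwa [PL.col_sq F hF.sy, ← PL.cube_eq F hF.sy] at this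
  have h5 : ε * tk F 3 ≤ E.u * tk F 2 := by
    rw [e3, ← A26.sum_rr hF, mul_sum]
    refine sum_le_sum fun x _ => (le_abs_self _).trans ?_
    rw [abs_mul, ha, one_mul]; exact PL.cube_abs hE hF x
  have h6 : -(ε * tk F 1) ≤ √(E.N * E.Tf) := by
    refine (neg_le_abs _).trans ?_
    rw [abs_mul, ha, one_mul]; exact h1
  have e : tk F 1 * tk F 3 = (ε * tk F 1) * (ε * tk F 3) := by
    calc tk F 1 * tk F 3 = (ε * ε) * (tk F 1 * tk F 3) := by rw [he, one_mul]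
      _ = _ := by ring
  have hQ := A26.Q0 hF
  have hu := hE.u1
  have hs := Real.sqrt_nonneg (E.N * E.Tf)
  rw [e]
  rcases le_total 0 (ε * tk F 1) with a | a
  · have b1 : (ε * tk F 1) * (ε * tk F 3) ≤ (ε * tk F 1) * (E.u * tk F 2) :=
      mul_le_mul_of_nonneg_left h5 a
    have b2 : (ε * tk F 1) * (E.u * tk F 2) ≤ K * (E.u * tk F 2) :=
      mul_le_mul_of_nonneg_right hK1 (by positivity)
    nlinarith [mul_nonneg hs hQ]
  · have b1 : (ε * tk F 1) * (ε * tk F 3) ≤ -(ε * tk F 1) * tk F 2 := by nlinarith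
    have b2 : -(ε * tk F 1) * tk F 2 ≤ √(E.N * E.Tf) * tk F 2 := mul_le_mul_of_nonneg_right h6 hQ
    have : 0 ≤ K * E.u * tk F 2 := by positivity
    nlinarith

theorem rr_sq (hF : Side E F ε) {δ : ℝ} (h0 : 0 < δ) (h1 : δ ≤ 1) (hP : Pq F 2 ≤ δ ^ 2 * E.N) :
    ∑ x, rr F x ^ 2 ≤ min (tk F 2) E.N + 3 * (δ * E.N) := by
  have hN : 0 ≤ E.N := Nat.cast_nonneg _
  have a1 : ∑ x, rr F x ^ 2 ≤ ∑ x, (PL.mm F x + δ * E.one x + (1 / δ + 1) * PL.yy F x ^ 2) := by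
    refine sum_le_sum fun x _ => ?_
    have hr := PL.rr_nonneg F x
    have hy : 0 ≤ (1 / δ + 1) * PL.yy F x ^ 2 := by positivity
    have ho : 0 ≤ E.one x := by unfold Env.one; split_ifs <;> norm_num
    rcases le_total (rr F x) 1 with h | h
    · have : PL.mm F x = rr F x := min_eq_left h
      rw [this]
      nlinarith [mul_nonneg h0.le ho]
    · have e1 : PL.mm F x = 1 := min_eq_right h
      have e2 : PL.yy F x = rr F x - 1 := max_eq_left (by linarith)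
      have hx : x ∈ E.U := by
        by_contra hx
        rw [A26.rr_out hF hx] at h; linarith
      have e3 : E.one x = 1 := if_pos hx
      rw [e1, e2, e3]
      have : 0 ≤ (δ - (rr F x - 1)) ^ 2 / δ := by positivity
      have e4 : (δ - (rr F x - 1)) ^ 2 / δ = δ - 2 * (rr F x - 1) + 1 / δ * (rr F x - 1) ^ 2 := by
        field_simp; ring
      nlinarith
  rw [sum_add_distrib, sum_add_distrib, ← mul_sum, ← mul_sum, ← PL.Pq_eq] at a1
  have e5 : ∑ x, E.one x = E.N := by simp [Env.one, Env.N]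
  have a2 := PL.sum_mm_le hF.toBas0
  have a3 : (1 / δ + 1) * Pq F 2 ≤ (1 / δ + 1) * (δ ^ 2 * E.N) :=
    mul_le_mul_of_nonneg_left hP (by positivity)
  have e6 : (1 / δ + 1) * (δ ^ 2 * E.N) = δ * E.N + δ * (δ * E.N) := by field_simp
  have a4 : δ * (δ * E.N) ≤ 1 * (δ * E.N) := mul_le_mul_of_nonneg_right h1 (by positivity)
  rw [e5] at a1
  change _ ≤ min (tk F 2) E.N at a2
  linarith

theorem rr_be (hE : E.Ok) (hF : Side E F ε) {β μ : ℝ} (h0 : 0 ≤ β) (h1 : β ≤ 1) (hm : β + μ = 1)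
    (hQ : tk F 2 ≤ 2 * β * E.N) : ∑ x ∈ E.U, (rr F x - 1 + μ) ^ 2 ≤ 6 * E.L * β * E.N := by
  have hL := hE.L2
  have hN : 0 ≤ E.N := Nat.cast_nonneg _
  have a1 : ∑ x ∈ E.U, (rr F x - 1 + μ) ^ 2 ≤ ∑ x ∈ E.U, (E.L * rr F x + β) := by
    refine sum_le_sum fun x _ => ?_
    have hr := PL.rr_nonneg F x
    have hr' := hF.ro x
    have e : rr F x - 1 + μ = rr F x - β := by linarith
    rw [e]
    nlinarith [mul_nonneg h0 hr, mul_le_mul_of_nonneg_right hr' hr, mul_le_mul_of_nonneg_left h1 h0]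
  rw [sum_add_distrib, ← mul_sum, A26.sum_rr_U hF, sum_const, nsmul_eq_mul] at a1
  change _ ≤ _ + E.N * β at a1
  have a2 := mul_le_mul_of_nonneg_left hQ (show 0 ≤ E.L by linarith)
  have a3 := mul_nonneg h0 hN
  nlinarith

theorem rho_sq (hE : E.Ok) (hF : Side E F ε) : ∑ x ∈ E.U, (rr F x - 1) ^ 2 ≤ E.L ^ 2 * E.N := by
  refine (sum_le_sum fun x _ => (sq_le_sq' (abs_le.1 (A26.rho_le hE hF x)).1
    (abs_le.1 (A26.rho_le hE hF x)).2)).trans (le_of_eq ?_)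
  simp [Env.N, mul_comm]

end SM2

open SM2 in
theorem SM2_proof (hAvg : AvgStmt) : SM2Stmt := by
  intro ι _ _ d p L Λ N₀ τ E F F' ε c
  have hE := c.ok
  have hF := c.sF
  have hΛ : 10 ^ 20 ≤ Λ := by
    have h3 : (3 : ℝ) ≤ d := by exact_mod_cast c.big.hd
    have : (1 : ℝ) ≤ (d : ℝ) ^ 10 := one_le_pow₀ (by linarith)
    have := c.big.hΛ
    nlinarith
  have h : R Λ E.N := ⟨hΛ, by linarith [c.lo], c.hi⟩
  have h0 := h.Λ0
  have hN := h.N0
  have hu2 : E.u ^ 2 = Λ ^ 16024 * ww Λ E.N := by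
    rw [c.hu, Real.sq_sqrt (by have := h.ww0; positivity)]
  have hu := hE.u1
  have hT := c.hT
  have hT0 := h.Tf0
  -- square roots
  set s := √E.N with hs
  have s0 : 0 < s := Real.sqrt_pos.2 hN
  have ss : s * s = E.N := Real.mul_self_sqrt hN.le
  have sl : Λ ^ 6310 ≤ s := by
    refine Real.le_sqrt_of_sq_le (le_trans (le_of_eq ?_) ((pw hΛ 12620 12621).trans h.lo'))
    ring
  have us : E.u / s ≤ 1 / Λ ^ 3811 := by
    refine le_of_sq_le_sq ?_ (by positivity)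
    have e1 : (E.u / s) ^ 2 = E.u ^ 2 / E.N := by rw [div_pow, sq s, ss]
    have e2 : (1 / Λ ^ 3811) ^ 2 = 1 / Λ ^ 7622 := by field_simp
    rw [e1, e2, hu2]; exact h.u2_le
  have Ds : E.D ≤ s := by rw [c.hD]; exact (pw hΛ _ _).trans sl
  have Ts : E.Tf ≤ s := by rw [hT]; exact Real.le_sqrt_of_sq_le h.Tf_sq
  have su : s * E.u / E.N = E.u / s := by rw [← ss]; field_simp
  have sN : s / E.N ≤ 1 / Λ ^ 6310 := by
    have : s / E.N = 1 / s := by rw [← ss]; field_simp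
    rw [this]; exact one_div_le_one_div_of_le (by positivity) sl
  have nt : √(E.N * E.Tf) / E.N ≤ 1 / Λ ^ 6305 := by
    rw [div_le_iff₀ hN]
    refine Real.sqrt_le_iff.2 ⟨by positivity, ?_⟩
    have a := h.Tf_N'
    rw [← hT] at a
    have b : E.N / Λ ^ 12611 ≤ E.N / Λ ^ 12610 :=
      div_le_div_of_nonneg_left hN.le (by positivity) (pw hΛ _ _)
    calc E.N * E.Tf ≤ E.N * (E.N / Λ ^ 12610) := mul_le_mul_of_nonneg_left (a.trans b) hN.le
      _ = _ := by field_simp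
  have e3s : 3 * (s * E.u / E.N) ≤ 3 * (1 / Λ ^ 3811) := by rw [su]; linarith
  have eta : E.eta ≤ 1 / Λ ^ 3800 := by
    unfold Env.eta
    rw [c.hth]
    calc _ ≤ (3 * s) * E.u / E.N := by gcongr; linarith
      _ = 3 * (s * E.u / E.N) := by ring
      _ ≤ _ := e3s.trans (cinv hΛ 3 _ _)
  have eta3 : E.eta3 ≤ 1 / Λ ^ 3800 := by
    unfold Env.eta3
    have : E.D ≤ s * E.u := Ds.trans (le_mul_of_one_le_right s0.le hu)
    calc _ ≤ (3 * (s * E.u)) / E.N := by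
          gcongr
          have : 0 ≤ s * E.u := by positivity
          linarith
      _ = 3 * (s * E.u / E.N) := by ring
      _ ≤ _ := e3s.trans (cinv hΛ 3 _ _)
  have eta4 : E.eta4 ≤ 1 / Λ ^ 3800 := by
    unfold Env.eta4
    rw [c.hth]
    have b := inv_le hΛ 3811 6305
    calc _ ≤ ((3 * s) * E.u + √(E.N * E.Tf)) / E.N := by gcongr; linarith
      _ = 3 * (s * E.u / E.N) + √(E.N * E.Tf) / E.N := by ring
      _ ≤ 4 * (1 / Λ ^ 3811) := by linarith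
      _ ≤ _ := cinv hΛ 4 _ _
  have etaf : E.etaf ≤ 1 / Λ ^ 6300 := by
    unfold Env.etaf
    rw [c.hth]
    have b := inv_le hΛ 6305 6310
    calc _ ≤ (2 * s + √(E.N * E.Tf)) / E.N := by gcongr; linarith
      _ = 2 * (s / E.N) + √(E.N * E.Tf) / E.N := by ring
      _ ≤ 3 * (1 / Λ ^ 6305) := by linarith
      _ ≤ _ := cinv hΛ 3 _ _
  have K0 := h.K0
  have ksq : (K12 Λ E.N * E.u / E.N) ^ 2 = xx Λ E.N * sg Λ E.N ^ 6 / (4 * Λ ^ 400) := by
    rw [div_pow, mul_pow, hu2, h.k_eq]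
  have kmu : K12 Λ E.N * E.u / E.N ≤ mu Λ E.N / Λ ^ 5 := by
    refine le_of_sq_le_sq ?_ (div_pos h.mu0 (pow_pos h0 5)).le
    rw [ksq]; exact h.k_mu
  have kTP : 2 * Λ ^ 3 * (K12 Λ E.N * E.u / E.N) ≤ √(TP2 Λ E.N / E.N) := by
    refine Real.le_sqrt_of_sq_le ?_
    rw [mul_pow, ksq]; exact h.k_TP
  have eTP : 2 * Λ ^ 3 * E.eta4 ≤ √(TP2 Λ E.N / E.N) := by
    have a : 1 / Λ ^ 105 ≤ √(TP2 Λ E.N / E.N) := by
      refine Real.le_sqrt_of_sq_le (le_trans ?_ h.TP_ge)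
      have e2 : (1 / Λ ^ 105) ^ 2 = 1 / Λ ^ 210 := by field_simp
      rw [e2]; exact inv_le hΛ _ _
    calc _ ≤ 2 * Λ ^ 3 * (1 / Λ ^ 3800) := mul_le_mul_of_nonneg_left eta4 (by positivity)
      _ = 2 * (1 / Λ ^ 3797) := by field_simp
      _ ≤ _ := (cinv hΛ 2 _ _).trans a
  have hp := c.big.hp
  have i1 : 1 / Λ ≤ 1 := by rw [div_le_one h0]; exact h.Λ1
  have zp : E.z ^ p * E.N ^ 3 ≤ 1 := by
    rw [c.hz]
    have z1 : 1 / Λ ^ 330 ≤ 1 := by simpa using inv_le hΛ 0 330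
    have a1 : (1 / Λ ^ 330) ^ p ≤ (1 / Λ ^ 330) ^ 218 :=
      pow_le_pow_of_le_one (by positivity) z1 (by omega)
    have a2 : E.N ^ 3 ≤ (Λ ^ 23907) ^ 3 := pow_le_pow_left₀ hN.le h.hi' 3
    calc _ ≤ (1 / Λ ^ 330) ^ 218 * (Λ ^ 23907) ^ 3 := by gcongr
      _ = 1 / Λ ^ 219 := by field_simp
      _ ≤ 1 := by simpa using inv_le hΛ 0 219
  have lp : (1 / Λ) ^ (p - 1) * E.N ≤ 1 := by
    have a1 : (1 / Λ) ^ (p - 1) ≤ (1 / Λ) ^ 23907 :=
      pow_le_pow_of_le_one (by positivity) i1 (by omega)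
    calc _ ≤ (1 / Λ) ^ 23907 * Λ ^ 23907 := mul_le_mul a1 h.hi' hN.le (by positivity)
      _ = 1 := by rw [← mul_pow, one_div_mul_cancel h0.ne', one_pow]
  have hw := h.ww0
  have hx := h.xx0
  have hσ := h.sg0
  have hβ := h.be0
  have hμ := h.mu0
  have o0 : tk F 4 ≤ T42 Λ E.N := by
    have a : tk F 4 / T42 Λ E.N ≤ 1 := c.oF 0
    rwa [div_le_one (by unfold T42; positivity)] at a
  have o1 : tk F KK ≤ TK2 Λ E.N := by
    have a : tk F KK / TK2 Λ E.N ≤ 1 := c.oF 1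
    rwa [div_le_one (by unfold TK2; positivity)] at a
  have o2 : tk F 2 - TQ2 Λ E.N ≤ sQ2 Λ E.N :=
    le_of_max_sq (div_pos (mul_pos (mul_pos hN hβ) hμ) (pow_pos h0 2)) (c.oF 2)
  have o3 : ε * tk F 1 ≤ K12 Λ E.N := le_of_max_sq K0 (c.oF 3)
  have o4 : Pq F 2 ≤ TP2 Λ E.N := by
    have a : Pq F 2 / TP2 Λ E.N ≤ 1 := c.oF 4
    rwa [div_le_one (by unfold TP2; positivity)] at a
  have o5 : Pq F p ≤ Tp2 Λ E.N := by
    have a : Pq F p / Tp2 Λ E.N ≤ 1 := c.oF 5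
    rwa [div_le_one (by unfold Tp2; positivity)] at a
  have o7 : fq F 8 ≤ 1 / Λ ^ 2640 := by
    have a : fq F 8 / (1 / Λ ^ 2640) ≤ 1 := c.oF 7
    rwa [div_le_one (by positivity)] at a
  have l2 : 1 ≤ Λ ^ 2 := one_le_pow₀ h.Λ1
  have q1 : sQ2 Λ E.N ≤ E.N / Λ ^ 2 := by
    unfold sQ2
    refine div_le_div_of_nonneg_right ?_ (by positivity)
    exact (mul_le_of_le_one_right (mul_pos hN hβ).le h.mu1).trans
      (mul_le_of_le_one_right hN.le h.be1)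
  have q2 : sQ2 Λ E.N ≤ be Λ E.N * E.N := by
    unfold sQ2
    calc _ ≤ E.N * be Λ E.N * mu Λ E.N := div_le_self (mul_pos (mul_pos hN hβ) hμ).le l2
      _ ≤ E.N * be Λ E.N := mul_le_of_le_one_right (mul_pos hN hβ).le h.mu1
      _ = _ := mul_comm _ _
  have eQ : TQ2 Λ E.N = be Λ E.N * E.N := by unfold TQ2; ring
  have Q2 : tk F 2 ≤ 2 * be Λ E.N * E.N := by linarith
  have hP : Pq F 2 ≤ (1 / Λ ^ 6) ^ 2 * E.N := by
    have a := h.TP_le
    rw [div_le_iff₀ hN] at a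
    exact o4.trans a
  refine ⟨hΛ, h.lo', ?_, h.rate, h.sg1, h.sg_le, h.xx_ge, h.xx_le, h.be_le, h.xs_le, h.be_mu,
    h.be_ge, h.mu_ge, h.Nbm, hu2, hu2 ▸ h.u2_le, hT ▸ h.Tf_ge, hT ▸ h.Tf_N, hT ▸ h.Tf_le,
    by rw [hu2, hT]; exact h.Tf_u, eta, eta3, eta4, etaf, kmu, by linarith,
    Real.sqrt_le_iff.2 ⟨by positivity, h.TP_le⟩, h.TP_ge, h.K_ge, ?_, hT ▸ h.K_Tf, zp, lp,
    tk_even hF.sy 2, o0, tk_even hF.sy 15955, o1, o2, by linarith, Q2, o3, o4, o5, o7,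
    tk1_f2 hF, tk_cs hF.sy, tk13 hE hF K0.le o3, ?_, c.hL ▸ rr_be hE hF hβ.le h.be1 h.be_mu Q2,
    c.hL ▸ rho_sq hE hF⟩
  · refine (hAvg ι E hE).1.trans ?_
    rw [c.hth, c.hD, le_div_iff₀ (by positivity)]
    have a := mul_le_mul_of_nonneg_left ((pw hΛ 1323 12621).trans h.lo') hN.le
    refine le_trans (le_of_eq ?_) (a.trans (le_of_eq ?_)) <;> ring
  · refine le_of_sq_le_sq ?_ K0.le
    rw [mul_pow, hu2]; exact h.K_u
  · have a := rr_sq hF (δ := 1 / Λ ^ 6) (by positivity) (by simpa using inv_le hΛ 0 6) hP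
    refine a.trans (le_of_eq ?_); ring

end Crest.Agent.R62
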