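import Crest.Agent.R62.SM1

set_option autoImplicit false

namespace Crest.Agent.R62

open Matrix Finset

namespace STEP1
open Lg SM1
variable {ι : Type} [Fintype ι] [DecidableEq ι]

omit [DecidableEq ι] in
theorem av_sum (E : Env ι) (n : ℕ) (X : ℕ → ι → ι → ℝ) :
    E.av (fun i j => ∑ k ∈ range n, X k i j) = ∑ k ∈ range n, E.av (X k) := by
  simp only [Env.av, Finset.mul_sum]
  rw [Finset.sum_congr rfl fun i _ => Finset.sum_comm, Finset.sum_comm]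

omit [DecidableEq ι] in
theorem Pq_nonneg (F : Mat ι) (q : ℕ) : 0 ≤ Pq F q :=
  Finset.sum_nonneg fun _ _ => pow_nonneg (le_max_right _ _) _

omit [DecidableEq ι] in
theorem fq_nonneg (F : Mat ι) (q : ℕ) (hq : Even q) : 0 ≤ fq F q :=
  Finset.sum_nonneg fun _ _ => hq.pow_nonneg _

omit [DecidableEq ι] in
theorem rr_le (F : Mat ι) (p : ℕ) (hp : p ≠ 0) (L : ℝ) (hL : 2 ≤ L) (h : Pq F p ≤ (L - 1) ^ p)
    (x : ι) : rr F x ≤ L := by
  have h1 : max (rr F x - 1) 0 ^ p ≤ Pq F p :=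
    Finset.single_le_sum (f := fun x => max (rr F x - 1) 0 ^ p)
      (fun _ _ => pow_nonneg (le_max_right _ _) _) (Finset.mem_univ x)
  have h2 := (pow_le_pow_iff_left₀ (le_max_right _ _) (by linarith) hp).1 (h1.trans h)
  have := le_max_left (rr F x - 1) 0
  linarith

omit [DecidableEq ι] in
theorem dg_le (F : Mat ι) (z : ℝ) (hz : 0 ≤ z) (h : fq F 8 ≤ z ^ 8) (x : ι) : |F x x| ≤ z := by
  have h1 : F x x ^ 8 ≤ fq F 8 :=
    Finset.single_le_sum (f := fun x => F x x ^ 8)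
      (fun _ _ => (by decide : Even 8).pow_nonneg _) (Finset.mem_univ x)
  have h2 : |F x x| ^ 8 ≤ z ^ 8 := by
    rw [(by decide : Even 8).pow_abs]; exact h1.trans h
  exact (pow_le_pow_iff_left₀ (abs_nonneg _) hz (by norm_num)).1 h2

theorem Dl_ge {E : Env ι} {F : Mat ι} {ε : ℝ} (h : E.Ok) (hF : Side E F ε) {i j : ι}
    (hp : E.p i j ≠ 0) : 1 / 2 ≤ Dl F i j := by
  obtain ⟨ha, hb, hc, -⟩ := A26.pt h hF hp
  have h1 : |F i i * F j j| ≤ 1 / 20 * (1 / 20) := by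
    rw [abs_mul]; exact mul_le_mul ha hb (abs_nonneg _) (by norm_num)
  have h2 := (abs_le.mp h1).2
  have h3 := abs_le.mp hc
  unfold Dl
  nlinarith

omit [DecidableEq ι] in
theorem Om_comm (A B : Mat ι) : Om B A = Om A B := Matrix.trace_mul_comm _ _

omit [DecidableEq ι] in
theorem Xc_comm (A B : Mat ι) : Xc B A = Xc A B := by
  unfold Xc
  rw [Matrix.mul_assoc (B * B), Matrix.trace_mul_comm, Matrix.mul_assoc (A * A)]

theorem le_one_of_sum {n : ℕ} {f : ℕ → ℝ} (h0 : ∀ k, 0 ≤ f k) (hz : ∀ k, n ≤ k → f k = 0)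
    (h : ∑ k ∈ range n, f k ≤ 1) (k : ℕ) : f k ≤ 1 := by
  by_cases hk : k < n
  · exact (Finset.single_le_sum (fun k _ => h0 k) (Finset.mem_range.mpr hk)).trans h
  · rw [hz k (not_lt.mp hk)]; norm_num

theorem c1_nonneg {F : Mat ι} (hF : Sy F) (p : ℕ) {Λ N₀ τ N ε : ℝ} (h0 : 0 < Λ) (hN : 0 < N)
    (hN₀ : 0 < N₀) (k : ℕ) : 0 ≤ c1 Λ N₀ τ N ε (obsR p F) k := by
  have hy : 0 < N₀ / N := div_pos hN₀ hN
  match k with
  | 0 =>
    exact div_nonneg (tk_even hF 4 (by decide))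
      (mul_pos (mul_pos hN (pow_pos h0 _)) (pow_pos hy _)).le
  | 1 =>
    exact div_nonneg (tk_even hF KK ⟨15955, rfl⟩)
      (mul_pos hN (pow_pos (mul_pos (pow_pos h0 _) hy) _)).le
  | 2 => exact sq_nonneg _
  | 3 => exact sq_nonneg _
  | 4 => exact sq_nonneg _
  | 5 => exact sq_nonneg _
  | 6 => exact sq_nonneg _
  | 7 => exact div_nonneg (Pq_nonneg F 2) (mul_pos (pow_pos hy _) (pow_pos h0 _)).le
  | 8 => exact div_nonneg (Pq_nonneg F p) (mul_pos (pow_pos hy _) (pow_pos h0 _)).le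
  | 9 =>
    exact div_nonneg (fq_nonneg F 2 (by decide))
      (add_pos (pow_pos h0 _) (div_pos (pow_pos hy _) (pow_pos h0 _))).le
  | 10 => exact div_nonneg (fq_nonneg F 8 (by decide)) (one_div_pos.2 (pow_pos h0 _)).le
  | k + 11 => exact le_rfl

theorem c1_zero (Λ N₀ τ N ε : ℝ) (o : Obs ℝ) (k : ℕ) (hk : 11 ≤ k) : c1 Λ N₀ τ N ε o k = 0 := by
  obtain ⟨m, rfl⟩ := Nat.exists_eq_add_of_le' hk
  rfl

/-- Common parameter facts. -/
theorem common {d p : ℕ} {L Λ N₀ τ : ℝ} (b : Big d p L Λ N₀ τ) :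
    0 < 1 / Λ ^ 660 ∧ 1 / Λ ^ 660 ≤ 1 / Λ ^ 330 ∧ 1 / Λ ^ 330 * L ≤ 1 / 10 ∧
    (∀ th : ℝ, 2 + 2 * (2 * (d : ℝ) ^ 2) + 100 * L ^ 2 * (1 / (1 / Λ ^ 660) ^ 2 + th ^ 2) ≤
      Λ * (Λ ^ 1320 + th ^ 2)) ∧ 1 / Λ ^ 2640 = (1 / Λ ^ 330) ^ 8 := by
  have h := big20 b
  have h0 := pos h
  have h1 := (one_lt h).le
  have hL := b.L2
  have hL2 : L ^ 2 ≤ L ^ 10 := pow_le_pow_right₀ (by linarith) (by norm_num)
  have hL1 : L ≤ L ^ 2 := by nlinarith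
  have hLΛ := b.LΛ
  have hd1 : (1 : ℝ) ≤ d := by exact_mod_cast le_trans (by norm_num) b.hd
  have hd2 : (d : ℝ) ^ 2 ≤ (d : ℝ) ^ 10 := pow_le_pow_right₀ hd1 (by norm_num)
  have hdΛ := b.hΛ
  refine ⟨one_div_pos.2 (pow_pos h0 _), ?_, ?_, ?_, ?_⟩
  · exact one_div_le_one_div_of_le (pow_pos h0 _) (pow_le_pow_right₀ h1 (by norm_num))
  · have h2 : Λ ≤ Λ ^ 330 := le_self_pow₀ h1 (by norm_num)
    rw [div_mul_eq_mul_div, one_mul, div_le_iff₀ (pow_pos h0 _)]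
    linarith
  · intro th
    have e : 1 / (1 / Λ ^ 660) ^ 2 = Λ ^ 1320 := by
      rw [_root_.one_div_pow, one_div_one_div, ← pow_mul]
    rw [e]
    have h2 : 1 ≤ Λ ^ 1320 := one_le_pow₀ h1
    have h3 : 0 ≤ th ^ 2 := sq_nonneg _
    generalize Λ ^ 1320 = W at h2 ⊢
    have h4 : 100 * L ^ 2 * (W + th ^ 2) ≤ Λ / 10 * (W + th ^ 2) :=
      mul_le_mul_of_nonneg_right (by linarith) (by linarith)
    have h5 : Λ ≤ Λ * (W + th ^ 2) := le_mul_of_one_le_right h0.le (by linarith)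
    nlinarith
  · rw [_root_.one_div_pow, ← pow_mul]

theorem side1 (hSpec : SpecStmt) {d p : ℕ} {L Λ N₀ τ N ε : ℝ} (b : Big d p L Λ N₀ τ)
    {F : Mat ι} (hF : Sy F) (lo : 2 * Λ ^ 23906 + 2 ≤ N) (hi : N ≤ N₀)
    (o : ∀ k, c1 Λ N₀ τ N ε (obsR p F) k ≤ 1) :
    (∀ x, rr F x ≤ L) ∧ Op F (u1 Λ N₀ N) ∧ (∀ x, |F x x| ≤ 1 / Λ ^ 330) ∧
      fq F 2 ≤ Tf1 Λ N₀ N := by
  have h := big20 b
  have h0 := pos h
  have h1 := (one_lt h).le
  obtain ⟨p1, p2, p3, -⟩ := par h b.hi b.hp rfl rfl rfl rfl rfl lo hi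
  have hN0 : 0 < N := (pow_pos h0 _).trans_le p3
  have hy : 0 < N₀ / N := zero_lt_one.trans_le p1
  have pTK : 0 < TK1 Λ N₀ N := mul_pos hN0 (pow_pos (mul_pos (pow_pos h0 _) hy) _)
  have o1 : tk F KK ≤ TK1 Λ N₀ N := (div_le_one pTK).1 (o 1)
  have o8 : Pq F p ≤ Tp1 Λ N₀ N :=
    (div_le_one (mul_pos (pow_pos hy _) (pow_pos h0 _))).1 (o 8)
  have o9 : fq F 2 ≤ Tf1 Λ N₀ N :=
    (div_le_one (add_pos (pow_pos h0 _) (div_pos (pow_pos hy _) (pow_pos h0 _)))).1 (o 9)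
  have o10 : fq F 8 ≤ 1 / Λ ^ 2641 := (div_le_one (one_div_pos.2 (pow_pos h0 _))).1 (o 10)
  obtain ⟨a, uy, ly⟩ := ex h hy
  have a0 : 0 ≤ a := exp_le h (lo_one p1) uy
  have a1 : a ≤ 8002 := by
    exact_mod_cast exp_le h ly ((upN h 8002).of_le hy.le p2)
  have uN : Up Λ N (31908 : ℕ) := (upN h _).of_le hN0.le (hi.trans b.hi)
  have hp := b.hp
  refine ⟨rr_le F p (by omega) L b.L2 (o8.trans (le_trans ?_ b.Lp)), ?_, ?_, o9⟩
  · exact ((uy.pow h 2).mul h (upN h 22)).le h (loN Λ 31908)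
  · refine (hSpec ι F hF).2.1 KK _ ⟨15955, rfl⟩ (by norm_num [KK])
      (mul_pos (pow_pos h0 _) hy).le (o1.trans ?_)
    have k1 : ((KK - 2 : ℕ) : ℝ) = 31908 := by norm_num [KK]
    have k2 : ((KK : ℕ) : ℝ) = 31910 := by norm_num [KK]
    exact (uN.mul h (((upN h 8).mul h uy).pow h (KK - 2))).le h
      (((loN Λ 9).mul h ly).pow h KK) (by rw [k1, k2]; push_cast; linarith)
  · refine dg_le F _ (one_div_pos.2 (pow_pos h0 _)).le (o10.trans ?_)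
    rw [← (common b).2.2.2.2]
    exact one_div_le_one_div_of_le (pow_pos h0 _) (pow_le_pow_right₀ h1 (by norm_num))

end STEP1

open STEP1 Lg SM1 in
theorem STEP1_proof (hEnv : EnvStmt) (hSpec : SpecStmt) (hO : ∀ k, k < 11 → O1Stmt k)
    (hX : O1XStmt) (hAvg : AvgStmt) (hPot : PotStmt) : Step1Stmt := by
  intro ι _ _ d p L Λ N₀ τ U A B bad b hA hB hsym hbad lo hi hpot
  have h := big20 b
  have h0 := pos h
  have h1 := (one_lt h).le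
  obtain ⟨p1, p2, p3, p4, -, -, -, -, -, -, -, -, -, p14, -⟩ :=
    par h b.hi b.hp rfl rfl rfl rfl rfl lo hi
  have hN0 : (0 : ℝ) < U.card := (pow_pos h0 _).trans_le p3
  have hy : 0 < N₀ / U.card := zero_lt_one.trans_le p1
  have hN₀ : 0 < N₀ := hN0.trans_le hi
  have nA := c1_nonneg (τ := τ) (ε := 1) hA.sy p h0 hN0 hN₀
  have nB := c1_nonneg (τ := τ) (ε := -1) hB.sy p h0 hN0 hN₀
  have sA : 0 ≤ ∑ k ∈ range 11, c1 Λ N₀ τ U.card 1 (obsR p A) k :=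
    Finset.sum_nonneg fun k _ => nA k
  have sB : 0 ≤ ∑ k ∈ range 11, c1 Λ N₀ τ U.card (-1) (obsR p B) k :=
    Finset.sum_nonneg fun k _ => nB k
  have sO : 0 ≤ com Λ (U.card : ℝ) (Om A B) := sq_nonneg _
  have xc0 : 0 ≤ Xc A B := by rw [xc_eq hA.sy hB.sy]; exact fro_nonneg _
  have sX : 0 ≤ cxc Λ (Xc A B) := div_nonneg xc0 (pow_pos h0 _).le
  have hpot' := hpot
  unfold pot1R pot1 at hpot'
  have oA := le_one_of_sum nA (c1_zero _ _ _ _ _ _) (by linarith)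
  have oB := le_one_of_sum nB (c1_zero _ _ _ _ _ _) (by linarith)
  have oO : Om A B ≤ U.card / Λ ^ 2 :=
    le_of_max (div_pos hN0 (pow_pos h0 _)) (show com Λ (U.card : ℝ) (Om A B) ≤ 1 by linarith)
  have oX : Xc A B ≤ Λ ^ 39602 :=
    (div_le_one (pow_pos h0 _)).1 (show cxc Λ (Xc A B) ≤ 1 by linarith)
  obtain ⟨a1, a2, a3, a4⟩ := side1 hSpec b hA.sy lo hi oA
  obtain ⟨b1, b2, b3, b4⟩ := side1 hSpec b hB.sy lo hi oB
  obtain ⟨c1', c2', c3', c4', -⟩ := common b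
  have uy : Up Λ (N₀ / U.card) (8002 : ℕ) := (upN h 8002).of_le hy.le p2
  have hth0 : 0 ≤ th1 Λ N₀ (U.card : ℝ) := (div_pos hy (pow_pos h0 _)).le
  have hN2 : (U.card : ℝ) / Λ ^ 2 ≤ U.card := div_le_self hN0.le (one_le_pow₀ h1)
  obtain ⟨E, hU, hC, hth, hD, hL, hu, hz, hz', hT, ok, sFA, sFB, nb⟩ :=
    hEnv ι U A B bad (2 * (d : ℝ) ^ 2) (th1 Λ N₀ U.card)
      (Λ * (Λ ^ 1320 + th1 Λ N₀ (U.card : ℝ) ^ 2)) L (u1 Λ N₀ U.card) (1 / Λ ^ 330) (1 / Λ ^ 660)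
      (Tf1 Λ N₀ U.card) hA hB hsym (fun i hi => by exact_mod_cast hbad i hi)
      (fun x => ⟨a1 x, b1 x⟩) a2 b2 (fun x => ⟨a3 x, b3 x⟩) a4 b4 b.L2 hth0
      ((div_le_self hy.le (one_le_pow₀ h1)).trans (le_mul_of_one_le_left hy.le (one_le_pow₀ h1)))
      (one_le_mul_of_one_le_of_one_le (one_le_pow₀ h1) p1)
      ((((upN h 9).mul h uy).pow h 2).le h ((loN Λ 23906).of_le p3))
      c1' c2' c3'
      (le_add_of_le_of_nonneg (one_le_pow₀ h1) (div_pos (pow_pos hy _) (pow_pos h0 _)).le)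
      (p14.trans ((pow_le_pow_right₀ h1 (by norm_num)).trans p3)) (by positivity) (c4' _)
      (by linarith)
  have hN : E.N = U.card := by rw [Env.N, hU]
  rw [← hN] at hth hD hu hT lo hi oA oB oO hpot p3 hN0 ⊢
  rw [← hth] at hD
  have cA : Ctx1 d p L Λ N₀ τ E A B 1 :=
    ⟨b, ok, sFA, sFB, hC, hth, hu, hL, hz, hz', hD, hT, lo, hi, oA, oB, oO, oX⟩
  have cB : Ctx1 d p L Λ N₀ τ E B A (-1) :=
    ⟨b, ok, sFB, by rw [neg_neg]; exact sFA, by rw [hC, add_comm], hth, hu, hL, hz, hz', hD, hT,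
      lo, hi, oB, by rw [neg_neg]; exact oA, by rw [Om_comm]; exact oO,
      by rw [Xc_comm]; exact oX⟩
  have hZ := (SM1_proof hAvg ι d p L Λ N₀ τ E A B 1 cA).2.2.2.2.1
  have hΛN : Λ ^ 2 ≤ E.N := (pow_le_pow_right₀ h1 (by norm_num)).trans p3
  have key : E.av (fun i j => pot1R p Λ N₀ τ (E.N - 2) (step A i j) (step B i j)) ≤
      E.Z * (pot1R p Λ N₀ τ E.N A B + 720 / (Λ * E.N)) := by
    unfold pot1R pot1
    rw [A26.av_add, A26.av_add, A26.av_add, av_sum, av_sum]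
    have e1 := Finset.sum_le_sum fun k (hk : k ∈ range 11) =>
      hO k (Finset.mem_range.mp hk) ι d p L Λ N₀ τ E A B 1 cA
    have e2 := Finset.sum_le_sum fun k (hk : k ∈ range 11) =>
      hO k (Finset.mem_range.mp hk) ι d p L Λ N₀ τ E B A (-1) cB
    obtain ⟨e3, e4⟩ := hX ι d p L Λ N₀ τ E A B 1 cA
    rw [← Finset.mul_sum, Finset.sum_add_distrib, Finset.sum_const, Finset.card_range,
      nsmul_eq_mul] at e1 e2
    have e5 : 720 / (Λ * E.N) = 24 * (30 / (Λ * E.N)) := by ring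
    rw [e5]
    push_cast at e1 e2
    linarith
  obtain ⟨i, j, hp, hle⟩ := (hPot ι E Λ ok (by linarith) hΛN hZ).2.2.2 _ _ key
  obtain ⟨hi', hj', hij⟩ := AVG.p_supp ok hp
  exact ⟨i, hU ▸ hi', j, hU ▸ hj', hij, nb i j hp, Dl_ge ok sFA hp, Dl_ge ok sFB hp, hle⟩

end Crest.Agent.R62
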