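import Crest.Agent.R62.STEP1

set_option autoImplicit false

namespace Crest.Agent.R62

open Matrix Finset

namespace STEP2
open Lg SM1 STEP1
variable {ι : Type} [Fintype ι] [DecidableEq ι]

theorem par2 {Λ N : ℝ} (h : 10 ^ 20 ≤ Λ) (lo : 2 * Λ ^ 12621 + 2 ≤ N) (hi : N ≤ 2 * Λ ^ 23906) :
    Λ ^ 12621 ≤ N ∧ 0 < xx Λ N ∧ 0 < sg Λ N ∧ 0 < ww Λ N ∧ 0 < be Λ N ∧ 0 < mu Λ N ∧
    1 ≤ Λ ^ 16024 * ww Λ N ∧ Λ ^ 16024 * ww Λ N ≤ N ∧ 1 ≤ Tf2 Λ N ∧ Tf2 Λ N ≤ N ∧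
    Tp2 Λ N ≤ Λ ^ 31908 ∧ TK2 Λ N ≤ √(Λ ^ 16024 * ww Λ N) ^ KK := by
  have h0 := pos h
  have h1 := (one_lt h).le
  have hN1 : Λ ^ 12621 ≤ N := by
    have := pow_pos h0 12621
    linarith
  have hN0 : 0 < N := (pow_pos h0 _).trans_le hN1
  have hC := pow_pos h0 23842
  have hC' := pow_pos h0 23836
  have hM := pow_pos h0 23906
  have px : 0 < xx Λ N := div_pos hN0 (by linarith)
  have ps : 0 < sg Λ N := div_pos (by linarith) (by linarith)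
  have pw : 0 < ww Λ N := mul_pos px (pow_pos ps _)
  have s1 : 1 ≤ sg Λ N := (one_le_div (by linarith)).2 (by linarith)
  obtain ⟨n, uN, lN⟩ := ex h hN0
  have n0 : 12621 ≤ n := by exact_mod_cast exp_le h ((loN Λ 12621).of_le hN1) uN
  have u2M : Up Λ (2 * Λ ^ 23906) (23906 + 1 / 20) :=
    ((upC h 2).mul h (upN h 23906)).mono h (by push_cast; linarith)
  have n1 : n ≤ 23906 + 1 / 20 := exp_le h lN (u2M.of_le hN0.le hi)
  have l2M : Lo Λ (2 * Λ ^ 23906) (23906 : ℕ) := (loN Λ 23906).of_le (by linarith)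
  have ux : Up Λ (xx Λ N) (n - 23906) := (uN.div h l2M).mono h (by push_cast; linarith)
  have lx : Lo Λ (xx Λ N) (n - 23907) := (lN.div h u2M (by linarith)).mono h (by linarith)
  have us : Up Λ (sg Λ N) 65 :=
    ((u2M.add h (upN h 23842) 23907).div h ((loN Λ 23842).of_le (by linarith))).mono h
      (by push_cast; linarith)
  have uw : Up Λ (ww Λ N) (n - 23646) := (ux.mul h (us.pow h 4)).mono h (by push_cast; linarith)
  have lw : Lo Λ (ww Λ N) (n - 23907) :=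
    (lx.mul h ((lo_one s1).pow h 4)).mono h (by push_cast; linarith)
  have q1 : 1 ≤ Λ ^ 16024 * ww Λ N := (up_one Λ).le h ((loN Λ 16024).mul h lw)
  have l2 : Lo Λ (2 * Λ ^ 12621) (12621 : ℕ) := (loN Λ 12621).of_le (by
    have := pow_pos h0 12621; linarith)
  have u2 : Up Λ (2 * Λ ^ 12621) (12621 + 1 / 20) :=
    ((upC h 2).mul h (upN h 12621)).mono h (by push_cast; linarith)
  refine ⟨hN1, px, ps, pw, div_pos hN0 (by linarith), div_pos hC (by linarith), q1,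
    ((upN h 16024).mul h uw).le h lN, ?_, ?_, ?_, ?_⟩
  · have hx1 : 1 ≤ N / (2 * Λ ^ 12621) := (one_le_div (by
      have := pow_pos h0 12621; linarith)).2 (by linarith)
    rcases le_total n 23836 with hn | hn
    · have r : Lo Λ (Λ ^ 23836 / (N + Λ ^ 23836)) (-1) :=
        ((loN Λ 23836).div h (uN.add h (upN h 23836) 23837) (by linarith)).mono h
          (by push_cast; linarith)
      exact (up_one Λ).le h (((loN Λ 10).mul h (lo_one hx1)).mul h (r.pow h 6))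
    · have r : Lo Λ (Λ ^ 23836 / (N + Λ ^ 23836)) (23835 - n) :=
        ((loN Λ 23836).div h (uN.add h (upN h 23836) (n + 1)) (by linarith)).mono h
          (by push_cast; linarith)
      exact (up_one Λ).le h (((loN Λ 10).mul h (lN.div h u2 (by
        have := pow_pos h0 12621; linarith))).mul h (r.pow h 6))
  · have r : Up Λ (Λ ^ 23836 / (N + Λ ^ 23836)) 0 :=
      (up_one Λ).of_le (div_pos hC' (by linarith)).le ((div_le_one (by linarith)).2 (by linarith))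
    exact (((upN h 10).mul h (uN.div h l2)).mul h (r.pow h 6)).le h lN
  · exact ((upN h 16028).mul h uw).le h (loN Λ 31908)
  · obtain ⟨w, uw', lw'⟩ := ex h pw
    have w0 : n - 23907 ≤ w := exp_le h lw uw'
    have k1 : (((KK - 2) / 2 : ℕ) : ℝ) = 15954 := by norm_num [KK]
    have k2 : ((KK : ℕ) : ℝ) = 31910 := by norm_num [KK]
    exact (uN.mul h (((upN h 16022).mul h uw').pow h ((KK - 2) / 2))).le h
      ((((loN Λ 16024).mul h lw').sqrt h).pow h KK) (by rw [k1, k2]; push_cast; linarith)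

theorem c2_nonneg {F : Mat ι} (hF : Sy F) (p : ℕ) {Λ N ε : ℝ} (h : 10 ^ 20 ≤ Λ)
    (lo : 2 * Λ ^ 12621 + 2 ≤ N) (hi : N ≤ 2 * Λ ^ 23906) (k : ℕ) :
    0 ≤ c2 Λ N ε (obsR p F) k := by
  have h0 := pos h
  obtain ⟨hN1, px, ps, pw, pb, pm, -, -, pT, -⟩ := par2 h lo hi
  have hN : 0 < N := (pow_pos h0 _).trans_le hN1
  match k with
  | 0 =>
    exact div_nonneg (tk_even hF 4 (by decide)) (mul_pos (mul_pos hN (pow_pos h0 _)) pw).le
  | 1 =>
    exact div_nonneg (tk_even hF KK ⟨15955, rfl⟩)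
      (mul_pos hN (pow_pos (mul_pos (pow_pos h0 _) pw) _)).le
  | 2 => exact sq_nonneg _
  | 3 => exact sq_nonneg _
  | 4 =>
    exact div_nonneg (Pq_nonneg F 2) (mul_pos (pow_pos h0 _) (mul_pos px (pow_pos ps _))).le
  | 5 => exact div_nonneg (Pq_nonneg F p) (mul_pos (pow_pos h0 _) pw).le
  | 6 => exact div_nonneg (fq_nonneg F 2 (by decide)) (zero_le_one.trans pT)
  | 7 => exact div_nonneg (fq_nonneg F 8 (by decide)) (one_div_pos.2 (pow_pos h0 _)).le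
  | k + 8 => exact le_rfl

theorem c2_zero (Λ N ε : ℝ) (o : Obs ℝ) (k : ℕ) (hk : 8 ≤ k) : c2 Λ N ε o k = 0 := by
  obtain ⟨m, rfl⟩ := Nat.exists_eq_add_of_le' hk
  rfl

theorem side2 (hSpec : SpecStmt) {d p : ℕ} {L Λ N₀ τ N ε : ℝ} (b : Big d p L Λ N₀ τ)
    {F : Mat ι} (hF : Sy F) (lo : 2 * Λ ^ 12621 + 2 ≤ N) (hi : N ≤ 2 * Λ ^ 23906)
    (o : ∀ k, c2 Λ N ε (obsR p F) k ≤ 1) :
    (∀ x, rr F x ≤ L) ∧ Op F √(Λ ^ 16024 * ww Λ N) ∧ (∀ x, |F x x| ≤ 1 / Λ ^ 330) ∧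
      fq F 2 ≤ Tf2 Λ N := by
  have h := big20 b
  have h0 := pos h
  obtain ⟨hN1, px, ps, pw, pb, pm, -, -, pT, -, pP, pK⟩ := par2 h lo hi
  have hN : 0 < N := (pow_pos h0 _).trans_le hN1
  have o1 : tk F KK ≤ TK2 Λ N :=
    (div_le_one (mul_pos hN (pow_pos (mul_pos (pow_pos h0 _) pw) _))).1 (o 1)
  have o5 : Pq F p ≤ Tp2 Λ N := (div_le_one (mul_pos (pow_pos h0 _) pw)).1 (o 5)
  have o6 : fq F 2 ≤ Tf2 Λ N := (div_le_one (zero_lt_one.trans_le pT)).1 (o 6)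
  have o7 : fq F 8 ≤ 1 / Λ ^ 2640 := (div_le_one (one_div_pos.2 (pow_pos h0 _))).1 (o 7)
  have hp := b.hp
  refine ⟨rr_le F p (by omega) L b.L2 (o5.trans (pP.trans b.Lp)), ?_, ?_, o6⟩
  · exact (hSpec ι F hF).2.1 KK _ ⟨15955, rfl⟩ (by norm_num [KK]) (Real.sqrt_nonneg _)
      (o1.trans pK)
  · refine dg_le F _ (one_div_pos.2 (pow_pos h0 _)).le ?_
    rw [← (common b).2.2.2.2]
    exact o7

end STEP2

open STEP1 STEP2 Lg SM1 in
theorem STEP2_proof (hEnv : EnvStmt) (hSpec : SpecStmt) (hO : ∀ k, k < 8 → O2Stmt k)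
    (hAvg : AvgStmt) (hPot : PotStmt) : Step2Stmt := by
  intro ι _ _ d p L Λ N₀ τ U A B bad b hA hB hsym hbad lo hi hpot
  have h := big20 b
  have h0 := pos h
  have h1 := (one_lt h).le
  obtain ⟨p3, -, -, pw, -, -, q1, q2, q3, q4, -⟩ := par2 h lo hi
  have hN0 : (0 : ℝ) < U.card := (pow_pos h0 _).trans_le p3
  have nA := c2_nonneg (ε := 1) hA.sy p h lo hi
  have nB := c2_nonneg (ε := -1) hB.sy p h lo hi
  have sA : 0 ≤ ∑ k ∈ range 8, c2 Λ U.card 1 (obsR p A) k := Finset.sum_nonneg fun k _ => nA k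
  have sB : 0 ≤ ∑ k ∈ range 8, c2 Λ U.card (-1) (obsR p B) k :=
    Finset.sum_nonneg fun k _ => nB k
  have hpot' := hpot
  unfold pot2R pot2 at hpot'
  have oA := le_one_of_sum nA (c2_zero _ _ _ _) (by linarith)
  have oB := le_one_of_sum nB (c2_zero _ _ _ _) (by linarith)
  obtain ⟨a1, a2, a3, a4⟩ := side2 hSpec b hA.sy lo hi oA
  obtain ⟨b1, b2, b3, b4⟩ := side2 hSpec b hB.sy lo hi oB
  obtain ⟨c1', c2', c3', c4', -⟩ := common b
  have hu1 : 1 ≤ √(Λ ^ 16024 * ww Λ (U.card : ℝ)) := Real.one_le_sqrt.2 q1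
  have hD0 : Λ * (Λ ^ 1320 + 0 ^ 2) = Λ ^ 1321 := by
    rw [zero_pow (by norm_num), add_zero, ← pow_succ']
  have hDN : Λ ^ 2 * Λ ^ 1321 ≤ U.card := by
    rw [← pow_add]; exact (pow_le_pow_right₀ h1 (by norm_num)).trans p3
  obtain ⟨E, hU, hC, hth, hD, hL, hu, hz, hz', hT, ok, sFA, sFB, nb⟩ :=
    hEnv ι U A B bad (2 * (d : ℝ) ^ 2) 0 (Λ ^ 1321) L √(Λ ^ 16024 * ww Λ (U.card : ℝ))
      (1 / Λ ^ 330) (1 / Λ ^ 660) (Tf2 Λ U.card) hA hB hsym
      (fun i hi => by exact_mod_cast hbad i hi)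
      (fun x => ⟨a1 x, b1 x⟩) a2 b2 (fun x => ⟨a3 x, b3 x⟩) a4 b4 b.L2 le_rfl
      (Real.sqrt_nonneg _) hu1 (by rw [Real.sq_sqrt (zero_le_one.trans q1)]; exact q2)
      c1' c2' c3' q3 q4 (by positivity) (hD0 ▸ c4' 0)
      ((pow_le_pow_right₀ h1 (by norm_num)).trans p3)
  have hN : E.N = U.card := by rw [Env.N, hU]
  rw [← hN] at hu hT lo hi oA oB hpot p3 hN0 hDN ⊢
  have cA : Ctx2 d p L Λ N₀ τ E A B 1 :=
    ⟨b, ok, sFA, sFB, hC, hth, hu, hL, hz, hz', hD, hT, lo, hi, oA⟩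
  have cB : Ctx2 d p L Λ N₀ τ E B A (-1) :=
    ⟨b, ok, sFB, by rw [neg_neg]; exact sFA, by rw [hC, add_comm], hth, hu, hL, hz, hz', hD, hT,
      lo, hi, oB⟩
  have hZ : |E.Z - E.N ^ 2| ≤ E.N ^ 2 / Λ ^ 2 := by
    refine (hAvg ι E ok).1.trans ?_
    rw [hth, hD, mul_zero, zero_add, sq E.N, mul_div_assoc]
    refine mul_le_mul_of_nonneg_left ?_ hN0.le
    rw [le_div_iff₀ (pow_pos h0 _), mul_comm]
    exact hDN
  have hΛN : Λ ^ 2 ≤ E.N := (pow_le_pow_right₀ h1 (by norm_num)).trans p3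
  have key : E.av (fun i j => pot2R p Λ (E.N - 2) (step A i j) (step B i j)) ≤
      E.Z * (pot2R p Λ E.N A B + 720 / (Λ * E.N)) := by
    unfold pot2R pot2
    rw [A26.av_add, av_sum, av_sum]
    have e1 := Finset.sum_le_sum fun k (hk : k ∈ range 8) =>
      hO k (Finset.mem_range.mp hk) ι d p L Λ N₀ τ E A B 1 cA
    have e2 := Finset.sum_le_sum fun k (hk : k ∈ range 8) =>
      hO k (Finset.mem_range.mp hk) ι d p L Λ N₀ τ E B A (-1) cB
    rw [← Finset.mul_sum, Finset.sum_add_distrib, Finset.sum_const, Finset.card_range,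
      nsmul_eq_mul] at e1 e2
    have e5 : 720 / (Λ * E.N) = 24 * (30 / (Λ * E.N)) := by ring
    have hZ0 : 0 ≤ E.Z := Finset.sum_nonneg fun i _ => Finset.sum_nonneg fun j _ =>
      mul_nonneg (ok.p0 i j) zero_le_one
    have e6 : 0 ≤ E.Z * (30 / (Λ * E.N)) := mul_nonneg hZ0 (by positivity)
    rw [e5]
    push_cast at e1 e2
    linarith
  obtain ⟨i, j, hp, hle⟩ := (hPot ι E Λ ok (by linarith) hΛN hZ).2.2.2 _ _ key
  obtain ⟨hi', hj', hij⟩ := AVG.p_supp ok hp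
  exact ⟨i, hU ▸ hi', j, hU ▸ hj', hij, nb i j hp, Dl_ge ok sFA hp, Dl_ge ok sFB hp, hle⟩

end Crest.Agent.R62
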