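import Crest.Agent.R62.DefsB

/-! Row 62, task STEP3: one step of phase 3. -/

set_option autoImplicit false

namespace Crest.Agent.R62

open Matrix Finset

namespace STEP3

variable {ι : Type} [Fintype ι] [DecidableEq ι]

theorem tk2 {F : Mat ι} (h : Sy F) : tk F 2 = ∑ x, ∑ y, F x y ^ 2 := by
  simp only [tk, trace, Matrix.diag, pow_two, Matrix.mul_apply]
  exact sum_congr rfl fun x _ => sum_congr rfl fun y _ => by rw [h y x]

theorem row_le {F : Mat ι} (h : Sy F) (x : ι) : ∑ y, F x y ^ 2 ≤ tk F 2 := by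
  rw [tk2 h]
  exact single_le_sum (f := fun x => ∑ y, F x y ^ 2)
    (fun _ _ => sum_nonneg fun _ _ => sq_nonneg _) (mem_univ x)

theorem diag_le {F : Mat ι} (h : Sy F) : ∑ x, F x x ^ 2 ≤ tk F 2 := by
  rw [tk2 h]
  exact sum_le_sum fun x _ =>
    single_le_sum (f := fun y => F x y ^ 2) (fun _ _ => sq_nonneg _) (mem_univ x)

theorem one_le {U : Finset ι} {F : Mat ι} (h : Bas0 U F) (hU : 0 < (U.card : ℝ)) :
    1 ≤ tk F 2 := by
  have h1 : ∀ x ∈ U, 1 ≤ (U.card : ℝ) * ∑ y, F x y ^ 2 := by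
    intro x hx
    have e : ∑ y ∈ U, F x y = 1 := by
      rw [← h.on x hx]
      refine sum_subset (subset_univ _) fun y _ hy => ?_
      rw [h.sy x y, h.su y x hy]
    have := sq_sum_le_card_mul_sum_sq (s := U) (f := fun y => F x y)
    rw [e, one_pow] at this
    exact this.trans (mul_le_mul_of_nonneg_left
      (sum_le_sum_of_subset_of_nonneg (subset_univ _) fun _ _ _ => sq_nonneg _) hU.le)
  have h2 : (U.card : ℝ) * 1 ≤ U.card * tk F 2 := by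
    calc (U.card : ℝ) * 1 = ∑ _x ∈ U, (1 : ℝ) := by simp
      _ ≤ ∑ x ∈ U, (U.card : ℝ) * ∑ y, F x y ^ 2 := sum_le_sum h1
      _ = U.card * ∑ x ∈ U, ∑ y, F x y ^ 2 := by rw [mul_sum]
      _ ≤ _ := by
        rw [tk2 h.sy]
        exact mul_le_mul_of_nonneg_left (sum_le_sum_of_subset_of_nonneg (subset_univ _)
          fun _ _ _ => sum_nonneg fun _ _ => sq_nonneg _) hU.le
  exact le_of_mul_le_mul_left h2 hU

omit [DecidableEq ι] in
theorem markov (U : Finset ι) (g : ι → ℝ) :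
    (((U.filter fun j => ¬ |g j| ≤ 1 / 10).card : ℕ) : ℝ) ≤ 100 * ∑ j, g j ^ 2 := by
  calc (((U.filter fun j => ¬ |g j| ≤ 1 / 10).card : ℕ) : ℝ)
      = ∑ _j ∈ U.filter fun j => ¬ |g j| ≤ 1 / 10, (1 : ℝ) := by simp
    _ ≤ ∑ j ∈ U.filter fun j => ¬ |g j| ≤ 1 / 10, 100 * g j ^ 2 := by
        refine sum_le_sum fun j hj => ?_
        have h := not_le.1 (mem_filter.1 hj).2
        rw [← sq_abs]
        nlinarith
    _ ≤ ∑ j, 100 * g j ^ 2 :=
        sum_le_sum_of_subset_of_nonneg (subset_univ _) fun _ _ _ => by positivity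
    _ = _ := by rw [mul_sum]

theorem cnt {F : Mat ι} (h : Sy F) (U : Finset ι) {Qb : ℝ} (hQ : tk F 2 ≤ Qb) (h1 : 1 ≤ Qb)
    (i : ι) :
    (((U.filter fun j => ¬ |F i j| ≤ 1 / 10).card : ℕ) : ℝ) ≤ 100 * Qb ^ 2 ∧
    (((U.filter fun j => ¬ |F i i * F j j| ≤ 1 / 10).card : ℕ) : ℝ) ≤ 100 * Qb ^ 2 := by
  constructor
  · refine (markov U fun j => F i j).trans ?_
    have := (row_le h i).trans hQ
    nlinarith
  · refine (markov U fun j => F i i * F j j).trans ?_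
    have h2 : F i i ^ 2 ≤ Qb :=
      (single_le_sum (f := fun y => F i y ^ 2) (fun _ _ => sq_nonneg _) (mem_univ i)).trans
        ((row_le h i).trans hQ)
    have h3 := (diag_le h).trans hQ
    have e : ∑ j, (F i i * F j j) ^ 2 = F i i ^ 2 * ∑ j, F j j ^ 2 := by
      rw [mul_sum]; exact sum_congr rfl fun j _ => by ring
    rw [e]
    have := mul_le_mul h2 h3 (sum_nonneg fun _ _ => sq_nonneg _) (by linarith)
    nlinarith

omit [Fintype ι] [DecidableEq ι] in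
theorem Dl_ge {F : Mat ι} {i j : ι} (h1 : |F i j| ≤ 1 / 10) (h2 : |F i i * F j j| ≤ 1 / 10) :
    1 / 2 ≤ Dl F i j := by
  unfold Dl
  rw [abs_le] at h1 h2
  nlinarith [h1.1, h1.2, h2.2]

/-- The scalar inequality. -/
theorem scal {N m Ψ a b c err : ℝ} (hN : 2 < N) (hm1 : N ^ 2 / 2 ≤ m) (hm2 : m ≤ N ^ 2)
    (hΨ : 0 ≤ Ψ) (hb : 0 ≤ b) (hT : Ψ ≤ N * (a + (c - N) * b))
    (herr : 2 * err ≤ N ^ 2 * (N - 2) * b) :
    -2 * N * Ψ + 2 * err ≤ m * ((N - 2) * (a + (c - (N - 2)) * b) - Ψ) := by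
  have hN0 : 0 < N := by linarith
  have h1 : Ψ / N ≤ a + (c - N) * b := by rw [div_le_iff₀ hN0]; linarith
  have h2 : -2 * (Ψ / N) + 2 * (N - 2) * b ≤ (N - 2) * (a + (c - (N - 2)) * b) - Ψ := by
    have h3 : (N - 2) * (Ψ / N) ≤ (N - 2) * (a + (c - N) * b) :=
      mul_le_mul_of_nonneg_left h1 (by linarith)
    have e : (N - 2) * (Ψ / N) = Ψ - 2 * (Ψ / N) := by field_simp
    nlinarith
  have hm0 : 0 ≤ m := le_trans (by positivity) hm1
  refine le_trans ?_ (mul_le_mul_of_nonneg_left h2 hm0)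
  have h4 : m * (Ψ / N) ≤ N ^ 2 * (Ψ / N) := mul_le_mul_of_nonneg_right hm2 (by positivity)
  have e : N ^ 2 * (Ψ / N) = N * Ψ := by field_simp
  have h5 : N ^ 2 / 2 * ((N - 2) * b) ≤ m * ((N - 2) * b) :=
    mul_le_mul_of_nonneg_right hm1 (mul_nonneg (by linarith) hb)
  nlinarith

theorem errle {Λ N : ℝ} (hΛ : 1 ≤ Λ) (hN : 2 * Λ ^ 11218 + 2 ≤ N) :
    2 * (Λ * ((Λ ^ 1402) ^ 2 * √N + Λ ^ 2805 * (Λ ^ 1402) ^ 2)) ≤
      N ^ 2 * (N - 2) * (1 / Λ ^ 25230) := by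
  have hΛ0 : 0 < Λ := by linarith
  have hp : 0 < Λ ^ 11218 := by positivity
  have hN0 : 0 ≤ N := by linarith
  have h1 : Λ ^ 5609 ≤ √N := by
    refine Real.le_sqrt_of_sq_le ?_
    rw [← pow_mul, show 5609 * 2 = 11218 by norm_num]
    linarith
  have h2 : Λ ^ 2805 ≤ √N := (pow_le_pow_right₀ hΛ (by norm_num)).trans h1
  have hs : 0 ≤ √N := Real.sqrt_nonneg N
  rw [mul_one_div, le_div_iff₀ (by positivity)]
  have e1 : N ^ 2 * (N - 2) = √N * (√N * N * (N - 2)) := by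
    rw [← mul_assoc, ← mul_assoc, Real.mul_self_sqrt hN0, pow_two]
  have h3 : Λ ^ 5609 * (2 * Λ ^ 11218) * (2 * Λ ^ 11218) ≤ √N * N * (N - 2) :=
    mul_le_mul (mul_le_mul h1 (by linarith) (by positivity) hs) (by linarith) (by positivity)
      (by positivity)
  have h4 : Λ * (Λ ^ 1402) ^ 2 * Λ ^ 25230 ≤ Λ ^ 5609 * Λ ^ 11218 * Λ ^ 11218 := by
    rw [← pow_mul, ← pow_succ', ← pow_add, ← pow_add, ← pow_add]
    exact pow_le_pow_right₀ hΛ (by norm_num)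
  rw [e1]
  have hA : 0 ≤ Λ * (Λ ^ 1402) ^ 2 * Λ ^ 25230 := by positivity
  generalize Λ ^ 1402 = q at *
  generalize Λ ^ 25230 = r at *
  generalize Λ ^ 2805 = D at *
  generalize Λ ^ 5609 = s at *
  generalize Λ ^ 11218 = t at *
  calc 2 * (Λ * (q ^ 2 * √N + D * q ^ 2)) * r = 2 * (√N + D) * (Λ * q ^ 2 * r) := by ring
    _ ≤ 2 * (√N + √N) * (Λ * q ^ 2 * r) := mul_le_mul_of_nonneg_right (by linarith) hA
    _ ≤ 2 * (√N + √N) * (s * t * t) := mul_le_mul_of_nonneg_left h4 (by positivity)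
    _ = √N * (s * (2 * t) * (2 * t)) := by ring
    _ ≤ _ := mul_le_mul_of_nonneg_left h3 hs

theorem T3b_le {Λ N : ℝ} (hΛ : 10 ≤ Λ) (hN0 : 0 ≤ N) (hN : N ≤ 2 * Λ ^ 12621) :
    T3b Λ N + 1 ≤ Λ ^ 1402 := by
  have hΛ0 : 0 < Λ := by linarith
  have hΛ1 : 1 ≤ Λ := by linarith
  have h1 : N * (1 / Λ ^ 11220) ≤ 2 * Λ ^ 1401 := by
    rw [mul_one_div, div_le_iff₀ (by positivity), mul_assoc, ← pow_add]
    exact hN
  have h2 : N * ((2 * Λ ^ 12621 - N) / Λ ^ 25230) ≤ 4 * Λ ^ 1401 := by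
    rw [← mul_div_assoc, div_le_iff₀ (by positivity), mul_assoc, ← pow_add]
    have h3 : Λ ^ 12621 * Λ ^ 12621 ≤ Λ ^ (1401 + 25230) := by
      rw [← pow_add]; exact pow_le_pow_right₀ hΛ1 (by norm_num)
    have h4 : 0 ≤ Λ ^ 12621 := by positivity
    generalize Λ ^ 12621 = t at *
    generalize Λ ^ (1401 + 25230) = r at *
    nlinarith
  have h3 : 1 ≤ Λ ^ 1401 := one_le_pow₀ hΛ1
  have e : Λ ^ 1402 = Λ * Λ ^ 1401 := pow_succ' Λ 1401
  unfold T3b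
  rw [mul_add, e]
  generalize Λ ^ 1401 = t at *
  nlinarith

end STEP3

open STEP3

theorem STEP3_proof : Step3Stmt := by
  intro ι _ _ d p L Λ N₀ τ U A B bad big hA hB hbs hbad hlo hhi hT
  have hd : (3 : ℝ) ≤ d := by exact_mod_cast big.hd
  have hd2 : (d : ℝ) ^ 2 ≤ (d : ℝ) ^ 10 := pow_le_pow_right₀ (by linarith) (by norm_num)
  have hd3 : (1 : ℝ) ≤ (d : ℝ) ^ 2 := one_le_pow₀ (by linarith)
  have hΛd := big.hΛ
  have hΛ : 1000 ≤ Λ := by linarith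
  have hΛ1 : 1 ≤ Λ := by linarith
  have hΛ0 : 0 < Λ := by linarith
  have hp : 0 < Λ ^ 11218 := by positivity
  have hN2 : (2 : ℝ) < U.card := by linarith
  have hA1 := one_le hA (by linarith)
  have hB1 := one_le hB (by linarith)
  have hT3 := T3b_le (by linarith : 10 ≤ Λ) (by linarith) hhi
  have hQA : tk A 2 ≤ Λ ^ 1402 := by linarith
  have hQB : tk B 2 ≤ Λ ^ 1402 := by linarith
  have hq1 : 1 ≤ Λ ^ 1402 := one_le_pow₀ hΛ1
  have hqΛ : Λ ≤ Λ ^ 1402 := le_self_pow₀ hΛ1 (by norm_num)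
  have hqD : Λ ^ 1402 ≤ Λ ^ 2805 := pow_le_pow_right₀ hΛ1 (by norm_num)
  have hD : Λ ^ 2805 = Λ * (Λ ^ 1402) ^ 2 := by rw [← pow_mul, ← pow_succ']
  have hDN : Λ ^ 2805 ≤ Λ ^ 11218 := pow_le_pow_right₀ hΛ1 (by norm_num)
  have herr := errle hΛ1 hlo
  obtain ⟨Adm, hAdm⟩ : ∃ Adm : Finset (ι × ι), ∀ i j, (i, j) ∈ Adm ↔
      i ∈ U ∧ j ∈ U ∧ i ≠ j ∧ (i, j) ∉ bad ∧ |A i j| ≤ 1 / 10 ∧ |A i i * A j j| ≤ 1 / 10 ∧
        |B i j| ≤ 1 / 10 ∧ |B i i * B j j| ≤ 1 / 10 :=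
    ⟨univ.filter fun q => q.1 ∈ U ∧ q.2 ∈ U ∧ q.1 ≠ q.2 ∧ (q.1, q.2) ∉ bad ∧
      |A q.1 q.2| ≤ 1 / 10 ∧ |A q.1 q.1 * A q.2 q.2| ≤ 1 / 10 ∧ |B q.1 q.2| ≤ 1 / 10 ∧
      |B q.1 q.1 * B q.2 q.2| ≤ 1 / 10, fun i j => by simp only [mem_filter, mem_univ, true_and]⟩
  have hsym : ∀ i j, (i, j) ∈ Adm → (j, i) ∈ Adm := by
    intro i j h
    obtain ⟨h1, h2, h3, h4, h5, h6, h7, h8⟩ := (hAdm i j).1 h
    refine (hAdm j i).2 ⟨h2, h1, h3.symm, fun h => h4 (hbs _ _ h), ?_, ?_, ?_, ?_⟩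
    · rwa [hA.sy j i]
    · rwa [mul_comm]
    · rwa [hB.sy j i]
    · rwa [mul_comm]
  have hex : ∀ i ∈ U, (((U.filter fun j => (i, j) ∉ Adm).card : ℕ) : ℝ) ≤ Λ ^ 2805 := by
    intro i hi
    have hsub : (U.filter fun j => (i, j) ∉ Adm) ⊆
        {i} ∪ (U.filter fun j => (i, j) ∈ bad) ∪ (U.filter fun j => ¬ |A i j| ≤ 1 / 10) ∪
          (U.filter fun j => ¬ |A i i * A j j| ≤ 1 / 10) ∪
          (U.filter fun j => ¬ |B i j| ≤ 1 / 10) ∪
          (U.filter fun j => ¬ |B i i * B j j| ≤ 1 / 10) := by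
      intro j hj
      obtain ⟨hjU, hj⟩ := mem_filter.1 hj
      rw [hAdm] at hj
      simp only [mem_union, mem_singleton, mem_filter]
      by_contra hc
      simp only [not_or, not_and, not_not] at hc
      obtain ⟨⟨⟨⟨⟨c1, c2⟩, c3⟩, c4⟩, c5⟩, c6⟩ := hc
      exact hj ⟨hi, hjU, fun h => c1 h.symm, c2 hjU, c3 hjU, c4 hjU, c5 hjU, c6 hjU⟩
    have h1 := (card_le_card hsub).trans ((card_union_le _ _).trans (Nat.add_le_add_right
      ((card_union_le _ _).trans (Nat.add_le_add_right ((card_union_le _ _).trans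
        (Nat.add_le_add_right ((card_union_le _ _).trans (Nat.add_le_add_right
          (card_union_le _ _) _)) _)) _)) _))
    have h2 : (((U.filter fun j => (i, j) ∉ Adm).card : ℕ) : ℝ) ≤ _ := Nat.cast_le.2 h1
    simp only [Nat.cast_add, card_singleton, Nat.cast_one] at h2
    have h3 : (((U.filter fun j => (i, j) ∈ bad).card : ℕ) : ℝ) ≤ 2 * (d : ℝ) ^ 2 := by
      exact_mod_cast hbad i hi
    obtain ⟨a1, a2⟩ := cnt hA.sy U hQA hq1 i
    obtain ⟨b1, b2⟩ := cnt hB.sy U hQB hq1 i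
    rw [hD]
    generalize Λ ^ 1402 = q at *
    have h4 : q ≤ q ^ 2 := by nlinarith
    have h5 : 1000 * q ^ 2 ≤ Λ * q ^ 2 := mul_le_mul_of_nonneg_right hΛ (by positivity)
    linarith
  have t := big.all.2.2.2.2.2.2.2.2.2.2.2.2
  have hU1 : 1 ≤ U.card := by
    have : (1 : ℝ) ≤ U.card := by linarith
    exact_mod_cast this
  have tA := t ι U A Adm (Λ ^ 2805) (Λ ^ 1402) hA hU1 hq1 hqD hQA (fun i j h => by
    obtain ⟨h1, h2, h3, h4, h5, h6, h7, h8⟩ := (hAdm i j).1 h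
    exact ⟨hsym i j h, h1, h2, h3, h5, h6⟩) hex
  have tB := t ι U B Adm (Λ ^ 2805) (Λ ^ 1402) hB hU1 hq1 hqD hQB (fun i j h => by
    obtain ⟨h1, h2, h3, h4, h5, h6, h7, h8⟩ := (hAdm i j).1 h
    exact ⟨hsym i j h, h1, h2, h3, h7, h8⟩) hex
  have hsub : Adm ⊆ U ×ˢ U := by
    rintro ⟨i, j⟩ h
    obtain ⟨h1, h2, -⟩ := (hAdm i j).1 h
    exact mem_product.2 ⟨h1, h2⟩
  have hm2 : (Adm.card : ℝ) ≤ (U.card : ℝ) ^ 2 := by
    have := card_le_card hsub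
    rw [card_product] at this
    rw [pow_two]
    exact_mod_cast this
  have hm1 : (U.card : ℝ) ^ 2 / 2 ≤ Adm.card := by
    have e : (Adm.card : ℝ) = ∑ i ∈ U, (((U.filter fun j => (i, j) ∈ Adm).card : ℕ) : ℝ) := by
      have e1 : Adm = (U ×ˢ U).filter fun q => q ∈ Adm := by
        ext q
        simp only [mem_filter]
        exact ⟨fun h => ⟨hsub h, h⟩, fun h => h.2⟩
      rw [e1, card_filter, sum_product]
      push_cast
      refine sum_congr rfl fun i _ => ?_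
      rw [← e1, card_filter]
      push_cast
      rfl
    rw [e]
    calc (U.card : ℝ) ^ 2 / 2 = ∑ _i ∈ U, (U.card : ℝ) / 2 := by
          rw [sum_const, nsmul_eq_mul]; ring
      _ ≤ _ := by
          refine sum_le_sum fun i hi => ?_
          have h1 := card_filter_add_card_filter_not (s := U) (fun j => (i, j) ∈ Adm)
          have h2 : (((U.filter fun j => (i, j) ∈ Adm).card : ℕ) : ℝ) +
              (((U.filter fun j => (i, j) ∉ Adm).card : ℕ) : ℝ) = U.card := by exact_mod_cast h1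
          have h3 := hex i hi
          linarith
  have hne : Adm.Nonempty := by
    rw [← card_pos]
    have h0 : (0 : ℝ) < (U.card : ℝ) ^ 2 / 2 :=
      div_pos (pow_pos (by linarith) 2) (by norm_num)
    have : (0 : ℝ) < Adm.card := lt_of_lt_of_le h0 hm1
    exact_mod_cast this
  have hs := scal (a := 1 / Λ ^ 11220) (b := 1 / Λ ^ 25230) (c := 2 * Λ ^ 12621)
    (Ψ := tk A 2 + tk B 2 - 2) hN2 hm1 hm2 (by linarith) (by positivity)
    (by rw [mul_one_div]; exact hT) herr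
  obtain ⟨⟨i, j⟩, hq, hle⟩ := exists_le_of_sum_le (s := Adm)
    (f := fun q => (tk (step A q.1 q.2) 2 - tk A 2) + (tk (step B q.1 q.2) 2 - tk B 2))
    (g := fun _ => T3b Λ (U.card - 2) - (tk A 2 + tk B 2 - 2)) hne (by
      rw [sum_add_distrib, sum_const, nsmul_eq_mul]
      unfold T3b
      rw [mul_one_div] at hs
      refine le_trans ?_ hs
      linarith)
  obtain ⟨h1, h2, h3, h4, h5, h6, h7, h8⟩ := (hAdm i j).1 hq
  refine ⟨i, h1, j, h2, h3, h4, Dl_ge h5 h6, Dl_ge h7 h8, ?_⟩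
  simp only at hle
  linarith

end Crest.Agent.R62
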