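import Crest.Agent.R62.DefsB

/-! Row 62: scalar facts about the phase-2 schedule (used by SM2, STEP2). -/

set_option autoImplicit false

namespace Crest.Agent.R62

namespace SM2

structure R (Λ N : ℝ) : Prop where
  big : 10 ^ 20 ≤ Λ
  lo : 2 * Λ ^ 12621 ≤ N
  hi : N ≤ 2 * Λ ^ 23906

theorem pw {Λ : ℝ} (h : 10 ^ 20 ≤ Λ) (a b : ℕ) (hab : a ≤ b := by norm_num) : Λ ^ a ≤ Λ ^ b :=
  pow_le_pow_right₀ (by linarith [show (1 : ℝ) ≤ 10 ^ 20 by norm_num]) hab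

theorem cpw {Λ : ℝ} (h : 10 ^ 20 ≤ Λ) (c : ℝ) (a b : ℕ) (hab : a + 1 ≤ b := by norm_num)
    (hc : c ≤ 10 ^ 20 := by norm_num) : c * Λ ^ a ≤ Λ ^ b := by
  have h0 : 0 < Λ := by linarith [show (0 : ℝ) < 10 ^ 20 by norm_num]
  calc c * Λ ^ a ≤ Λ * Λ ^ a := mul_le_mul_of_nonneg_right (hc.trans h) (by positivity)
    _ = Λ ^ (a + 1) := by ring
    _ ≤ Λ ^ b := pw h _ _ hab

/-- `c / Λ^b ≤ 1 / Λ^a` when `a < b` -/
theorem cinv {Λ : ℝ} (h : 10 ^ 20 ≤ Λ) (c : ℝ) (a b : ℕ) (hab : a + 1 ≤ b := by norm_num)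
    (hc : c ≤ 10 ^ 20 := by norm_num) : c * (1 / Λ ^ b) ≤ 1 / Λ ^ a := by
  have h0 : 0 < Λ := by linarith [show (0 : ℝ) < 10 ^ 20 by norm_num]
  rw [mul_one_div, div_le_div_iff₀ (by positivity) (by positivity), one_mul]
  exact cpw h c a b hab hc

theorem inv_le {Λ : ℝ} (h : 10 ^ 20 ≤ Λ) (a b : ℕ) (hab : a ≤ b := by norm_num) :
    1 / Λ ^ b ≤ 1 / Λ ^ a := by
  have h0 : 0 < Λ := by linarith [show (0 : ℝ) < 10 ^ 20 by norm_num]
  exact one_div_le_one_div_of_le (by positivity) (pw h a b hab)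

variable {Λ N : ℝ}

theorem R.Λ0 (h : R Λ N) : 0 < Λ := by linarith [h.big, show (0 : ℝ) < 10 ^ 20 by norm_num]
theorem R.Λ1 (h : R Λ N) : 1 ≤ Λ := by linarith [h.big, show (1 : ℝ) ≤ 10 ^ 20 by norm_num]
theorem R.lo' (h : R Λ N) : Λ ^ 12621 ≤ N := by
  have := h.Λ0; have := h.lo; have : 0 < Λ ^ 12621 := by positivity
  linarith
theorem R.N0 (h : R Λ N) : 0 < N := by
  have := h.Λ0; exact lt_of_lt_of_le (by positivity) h.lo'
theorem R.hi' (h : R Λ N) : N ≤ Λ ^ 23907 := h.hi.trans (cpw h.big 2 _ _)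

theorem R.rate (h : R Λ N) (a b : ℕ) (c : ℝ) (ha : a ≤ 10 ^ 6) (hb : b ≤ 10 ^ 6) (hc : 0 ≤ c) :
    1 + (-2 * a + 2 * b * (N / (N + c))) / N - 1 / (Λ * N) ≤
      ((N - 2) / N) ^ a * ((N + c) / (N - 2 + c)) ^ b := by
  have h0 := h.Λ0
  have hN := h.N0
  have hb' : (b : ℝ) ≤ 10 ^ 6 := by exact_mod_cast hb
  have ha' : (a : ℝ) ≤ 10 ^ 6 := by exact_mod_cast ha
  have a0 : (0 : ℝ) ≤ a := Nat.cast_nonneg a
  have b0 : (0 : ℝ) ≤ b := Nat.cast_nonneg b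
  have hN2 : Λ * Λ ≤ N := by
    have := (pw h.big 2 12621).trans h.lo'
    nlinarith
  have hNl : 10 ^ 20 ≤ N := by have := h.big; nlinarith
  have e1 : (N - 2) / N = 1 + -(2 / N) := by field_simp; ring
  have e2 : (N + c) / (N - 2 + c) = 1 + 2 / (N - 2 + c) := by
    have : N - 2 + c ≠ 0 := by linarith
    field_simp; ring
  have h2 : 2 / N ≤ 1 := by rw [div_le_one hN]; linarith
  have B1 : 1 + a * -(2 / N) ≤ (1 + -(2 / N)) ^ a := one_add_mul_le_pow (by linarith) a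
  have p2 : 0 < 2 / (N - 2 + c) := div_pos two_pos (by linarith)
  have B2 : 1 + b * (2 / (N - 2 + c)) ≤ (1 + 2 / (N - 2 + c)) ^ b :=
    one_add_mul_le_pow (by linarith) b
  have B3 : 2 / (N + c) ≤ 2 / (N - 2 + c) :=
    div_le_div_of_nonneg_left two_pos.le (by linarith) (by linarith)
  have B4 : 1 + b * (2 / (N + c)) ≤ (1 + 2 / (N - 2 + c)) ^ b :=
    le_trans (by nlinarith) B2
  have p1 : 0 ≤ 1 + a * -(2 / N) := by
    have : a * (2 / N) ≤ 1 := by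
      rw [← mul_div_assoc, div_le_one hN]; linarith
    linarith
  have p3 : 0 ≤ 1 + b * (2 / (N + c)) := by positivity
  rw [e1, e2]
  refine le_trans ?_ (mul_le_mul B1 B4 p3 (p1.trans B1))
  have key : a * (2 / N) * (b * (2 / (N + c))) ≤ 1 / (Λ * N) := by
    have : a * (2 / N) * (b * (2 / (N + c))) = 4 * (a * b) / (N * (N + c)) := by field_simp; ring
    rw [this, div_le_div_iff₀ (by positivity) (by positivity)]
    have hab : a * b ≤ (10 : ℝ) ^ 6 * 10 ^ 6 := mul_le_mul ha' hb' b0 (by norm_num)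
    have h4 : 4 * (a * b) * Λ ≤ N + c := by
      have : 4 * (a * b) * Λ ≤ Λ * Λ :=
        mul_le_mul_of_nonneg_right (by linarith [h.big]) h0.le
      linarith
    nlinarith
  have e3 : (-2 * a + 2 * b * (N / (N + c))) / N = a * -(2 / N) + b * (2 / (N + c)) := by
    field_simp
  rw [e3]
  nlinarith

theorem R.sg1 (h : R Λ N) : 1 ≤ sg Λ N := by
  have := h.Λ0; have := h.N0
  unfold sg
  rw [le_div_iff₀ (by positivity)]; linarith [h.hi]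

theorem R.NC (h : R Λ N) : 2 * Λ ^ 23906 + Λ ^ 23842 ≤ Λ ^ 23907 := by
  have := cpw h.big 3 23906 23907
  have := pw h.big 23842 23906
  linarith

theorem R.sg_le (h : R Λ N) : sg Λ N ≤ Λ ^ 65 := by
  have := h.Λ0; have := h.N0
  unfold sg
  rw [div_le_iff₀ (by positivity)]
  have e : Λ ^ 65 * (N + Λ ^ 23842) = Λ ^ 65 * N + Λ ^ 23907 := by ring
  have : 0 ≤ Λ ^ 65 * N := by positivity
  linarith [h.NC]

theorem R.xx_ge (h : R Λ N) : 1 / Λ ^ 11285 ≤ xx Λ N := by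
  have := h.Λ0
  unfold xx
  rw [div_le_div_iff₀ (by positivity) (by positivity)]
  have := mul_le_mul_of_nonneg_right h.lo (show 0 ≤ Λ ^ 11285 by positivity)
  refine le_trans (le_of_eq ?_) this
  ring

theorem R.xx0 (h : R Λ N) : 0 < xx Λ N := by
  have := h.Λ0; exact lt_of_lt_of_le (by positivity) h.xx_ge

theorem R.xx_le (h : R Λ N) : xx Λ N ≤ 1 := by
  have := h.Λ0
  unfold xx
  rw [div_le_one (by positivity)]; exact h.hi

theorem R.N_eq (h : R Λ N) : N = 2 * Λ ^ 23906 * xx Λ N := by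
  have := h.Λ0
  unfold xx; field_simp

theorem R.be0 (h : R Λ N) : 0 < be Λ N := by
  have := h.Λ0; have := h.N0
  unfold be; positivity

theorem R.mu0 (h : R Λ N) : 0 < mu Λ N := by
  have := h.Λ0; have := h.N0
  unfold mu; positivity

theorem R.xs_eq (h : R Λ N) : xx Λ N * sg Λ N = be Λ N * (1 + 1 / (2 * Λ ^ 64)) := by
  have := h.Λ0; have := h.N0
  unfold xx sg be; field_simp

theorem R.be_le (h : R Λ N) : be Λ N ≤ xx Λ N * sg Λ N := by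
  have := h.Λ0; have := h.be0
  rw [h.xs_eq]
  exact le_mul_of_one_le_right this.le (by
    have : 0 < 1 / (2 * Λ ^ 64) := by positivity
    linarith)

theorem R.xs_le (h : R Λ N) : xx Λ N * sg Λ N ≤ 2 * be Λ N := by
  have := h.Λ0; have := h.be0
  rw [h.xs_eq, mul_comm]
  refine mul_le_mul_of_nonneg_right ?_ this.le
  have h1 : 1 ≤ Λ ^ 64 := one_le_pow₀ h.Λ1
  have : 1 / (2 * Λ ^ 64) ≤ 1 := by rw [div_le_one (by positivity)]; linarith
  linarith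

theorem R.be_mu (h : R Λ N) : be Λ N + mu Λ N = 1 := by
  have := h.Λ0; have := h.N0
  unfold be mu; field_simp

theorem R.be1 (h : R Λ N) : be Λ N ≤ 1 := by have := h.be_mu; have := h.mu0; linarith
theorem R.mu1 (h : R Λ N) : mu Λ N ≤ 1 := by have := h.be_mu; have := h.be0; linarith

theorem R.be_ge (h : R Λ N) : 1 / Λ ^ 11221 ≤ be Λ N := by
  have := h.Λ0; have hN := h.N0
  unfold be
  rw [div_le_div_iff₀ (by positivity) (by positivity)]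
  have a1 := mul_le_mul_of_nonneg_right h.lo (show 0 ≤ Λ ^ 11221 by positivity)
  have e : 2 * Λ ^ 12621 * Λ ^ 11221 = 2 * Λ ^ 23842 := by ring
  have a2 : 2 ≤ Λ ^ 11221 := by simpa using cpw h.big 2 0 11221
  have a3 := mul_le_mul_of_nonneg_left a2 hN.le
  linarith

theorem R.mu_sg (h : R Λ N) : sg Λ N / Λ ^ 65 ≤ mu Λ N := by
  have := h.Λ0; have hN := h.N0
  unfold mu sg
  rw [div_div, div_le_div_iff₀ (by positivity) (by positivity)]
  have := mul_le_mul_of_nonneg_right h.NC (show 0 ≤ N + Λ ^ 23842 by positivity)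
  refine this.trans (le_of_eq ?_)
  ring

theorem R.mu_ge (h : R Λ N) : 1 / Λ ^ 65 ≤ mu Λ N := by
  have := h.Λ0
  exact le_trans (div_le_div_of_nonneg_right h.sg1 (by positivity)) h.mu_sg

theorem R.Nbm (h : R Λ N) : Λ ^ 1400 ≤ N * be Λ N * mu Λ N := by
  have := h.Λ0; have hN := h.N0
  have e : N * be Λ N * mu Λ N = N ^ 2 * Λ ^ 23842 / (N + Λ ^ 23842) ^ 2 := by
    unfold be mu; field_simp
  rw [e, le_div_iff₀ (by positivity)]
  rcases le_total N (Λ ^ 23842) with h1 | h1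
  · have a1 : (N + Λ ^ 23842) ^ 2 ≤ (2 * Λ ^ 23842) ^ 2 :=
      pow_le_pow_left₀ (by positivity) (by linarith) 2
    have a2 : (2 * Λ ^ 12621) ^ 2 ≤ N ^ 2 := pow_le_pow_left₀ (by positivity) h.lo 2
    calc _ ≤ Λ ^ 1400 * (2 * Λ ^ 23842) ^ 2 := mul_le_mul_of_nonneg_left a1 (by positivity)
      _ = (2 * Λ ^ 12621) ^ 2 * Λ ^ 23842 := by ring
      _ ≤ _ := mul_le_mul_of_nonneg_right a2 (by positivity)
  · have a1 : (N + Λ ^ 23842) ^ 2 ≤ (2 * N) ^ 2 :=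
      pow_le_pow_left₀ (by positivity) (by linarith) 2
    calc _ ≤ Λ ^ 1400 * (2 * N) ^ 2 := mul_le_mul_of_nonneg_left a1 (by positivity)
      _ = N ^ 2 * (4 * Λ ^ 1400) := by ring
      _ ≤ _ := mul_le_mul_of_nonneg_left (cpw h.big 4 _ _) (by positivity)

theorem R.sg0 (h : R Λ N) : 0 < sg Λ N := lt_of_lt_of_le one_pos h.sg1

theorem R.sg_pow (h : R Λ N) (k : ℕ) : sg Λ N ^ k ≤ Λ ^ (65 * k) := by
  rw [pow_mul]; exact pow_le_pow_left₀ h.sg0.le h.sg_le k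

theorem R.sg_pow1 (h : R Λ N) (k : ℕ) : 1 ≤ sg Λ N ^ k := one_le_pow₀ h.sg1

theorem R.ww0 (h : R Λ N) : 0 < ww Λ N := by
  have := h.xx0; have := h.sg0
  unfold ww; positivity

theorem R.u2_eq (h : R Λ N) : Λ ^ 16024 * ww Λ N / N = sg Λ N ^ 4 / (2 * Λ ^ 7882) := by
  have := h.Λ0; have := h.N0
  unfold ww xx; field_simp

theorem R.u2_le (h : R Λ N) : Λ ^ 16024 * ww Λ N / N ≤ 1 / Λ ^ 7622 := by
  have := h.Λ0
  rw [h.u2_eq, div_le_div_iff₀ (by positivity) (by positivity)]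
  have a := mul_le_mul_of_nonneg_right (h.sg_pow 4) (show 0 ≤ Λ ^ 7622 by positivity)
  have e : Λ ^ (65 * 4) * Λ ^ 7622 = Λ ^ 7882 := by ring
  have : 0 < Λ ^ 7882 := by positivity
  linarith

theorem R.u2_ge (h : R Λ N) : N / (2 * Λ ^ 7882) ≤ Λ ^ 16024 * ww Λ N := by
  have := h.Λ0; have hN := h.N0
  have a : 1 / (2 * Λ ^ 7882) ≤ Λ ^ 16024 * ww Λ N / N := by
    rw [h.u2_eq]; exact div_le_div_of_nonneg_right (h.sg_pow1 4) (by positivity)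
  rw [le_div_iff₀ hN] at a
  refine le_trans (le_of_eq ?_) a
  ring

theorem R.Tf_ge (h : R Λ N) : Λ ^ 9 ≤ Tf2 Λ N := by
  have := h.Λ0; have hN := h.N0
  unfold Tf2
  rcases le_total N (Λ ^ 23836) with h1 | h1
  · have a1 : 1 / 2 ≤ Λ ^ 23836 / (N + Λ ^ 23836) := by
      rw [div_le_div_iff₀ (by positivity) (by positivity)]; linarith
    have a2 : 1 ≤ N / (2 * Λ ^ 12621) := by rw [le_div_iff₀ (by positivity)]; linarith [h.lo]
    have a3 : (1 / 2 : ℝ) ^ 6 ≤ (Λ ^ 23836 / (N + Λ ^ 23836)) ^ 6 :=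
      pow_le_pow_left₀ (by norm_num) a1 6
    have a4 := cpw h.big 64 9 10
    calc Λ ^ 9 ≤ Λ ^ 10 * 1 * (1 / 2) ^ 6 := by linarith
      _ ≤ _ := by gcongr
  · have a0 : N + Λ ^ 23836 ≤ Λ ^ 23907 := by
      have := cpw h.big 3 23906 23907
      have := pw h.big 23836 23906
      linarith [h.hi]
    have a1 : 1 / Λ ^ 71 ≤ Λ ^ 23836 / (N + Λ ^ 23836) := by
      rw [div_le_div_iff₀ (by positivity) (by positivity), one_mul]
      refine a0.trans (le_of_eq ?_); ring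
    have a2 : Λ ^ 11215 / 2 ≤ N / (2 * Λ ^ 12621) := by
      rw [div_le_div_iff₀ (by positivity) (by positivity)]
      have e : Λ ^ 11215 * (2 * Λ ^ 12621) = Λ ^ 23836 * 2 := by ring
      linarith
    have a3 : (1 / Λ ^ 71) ^ 6 ≤ (Λ ^ 23836 / (N + Λ ^ 23836)) ^ 6 :=
      pow_le_pow_left₀ (by positivity) a1 6
    have a4 := cpw h.big 2 9 10799
    calc Λ ^ 9 ≤ Λ ^ 10799 / 2 := by linarith
      _ = Λ ^ 10 * (Λ ^ 11215 / 2) * (1 / Λ ^ 71) ^ 6 := by field_simp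
      _ ≤ _ := by gcongr

theorem R.Tf_N (h : R Λ N) : Tf2 Λ N / N ≤ 1 / Λ ^ 12611 := by
  have := h.Λ0; have hN := h.N0
  have a1 : Λ ^ 23836 / (N + Λ ^ 23836) ≤ 1 := by rw [div_le_one (by positivity)]; linarith
  have a2 : (Λ ^ 23836 / (N + Λ ^ 23836)) ^ 6 ≤ 1 := pow_le_one₀ (by positivity) a1
  rw [div_le_iff₀ hN]
  unfold Tf2
  calc _ ≤ Λ ^ 10 * (N / (2 * Λ ^ 12621)) * 1 := by gcongr
    _ = 1 / Λ ^ 12611 * N / 2 := by field_simp
    _ ≤ _ := by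
      have : 0 ≤ 1 / Λ ^ 12611 * N := by positivity
      linarith

theorem R.Tf_le (h : R Λ N) : Tf2 Λ N ≤ Λ ^ 11225 := by
  have := h.Λ0; have hN := h.N0
  have a1 : Λ ^ 23836 / (N + Λ ^ 23836) ≤ 1 := by rw [div_le_one (by positivity)]; linarith
  have a2 : (Λ ^ 23836 / (N + Λ ^ 23836)) ^ 6 ≤ (Λ ^ 23836 / (N + Λ ^ 23836)) ^ 1 :=
    pow_le_pow_of_le_one (by positivity) a1 (by norm_num)
  have a3 : Λ ^ 23836 / (N + Λ ^ 23836) ≤ Λ ^ 23836 / N :=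
    div_le_div_of_nonneg_left (by positivity) hN (by
      have : 0 < Λ ^ 23836 := by positivity
      linarith)
  rw [pow_one] at a2
  unfold Tf2
  calc _ ≤ Λ ^ 10 * (N / (2 * Λ ^ 12621)) * (Λ ^ 23836 / N) :=
        mul_le_mul_of_nonneg_left (a2.trans a3) (by positivity)
    _ = Λ ^ 11225 / 2 := by field_simp
    _ ≤ _ := by
      have : 0 ≤ Λ ^ 11225 := by positivity
      linarith

theorem R.Tf_N' (h : R Λ N) : Tf2 Λ N ≤ N / Λ ^ 12611 := by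
  have a := h.Tf_N
  rw [div_le_iff₀ h.N0] at a
  refine a.trans (le_of_eq ?_); ring

theorem R.Tf_u (h : R Λ N) : Tf2 Λ N ≤ Λ ^ 16024 * ww Λ N := by
  have := h.Λ0
  exact h.Tf_N'.trans ((div_le_div_of_nonneg_left h.N0.le (by positivity)
    (cpw h.big 2 _ _)).trans h.u2_ge)

theorem R.Tf0 (h : R Λ N) : 0 < Tf2 Λ N := by
  have := h.Λ0; exact lt_of_lt_of_le (by positivity) h.Tf_ge

theorem R.Tf1 (h : R Λ N) : 1 ≤ Tf2 Λ N := (one_le_pow₀ h.Λ1).trans h.Tf_ge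

theorem R.TfN (h : R Λ N) : Tf2 Λ N ≤ N :=
  h.Tf_N'.trans (div_le_self h.N0.le (one_le_pow₀ h.Λ1))

theorem R.u2_one (h : R Λ N) : 1 ≤ Λ ^ 16024 * ww Λ N := h.Tf1.trans h.Tf_u

theorem R.u2N (h : R Λ N) : Λ ^ 16024 * ww Λ N ≤ N := by
  have a := h.u2_le
  rw [div_le_iff₀ h.N0] at a
  have : 1 / Λ ^ 7622 ≤ 1 := by simpa using inv_le h.big 0 7622
  have := mul_le_mul_of_nonneg_right this h.N0.le
  linarith

theorem R.Tf_sq (h : R Λ N) : Tf2 Λ N ^ 2 ≤ N := by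
  have := h.Λ0; have hN := h.N0
  calc Tf2 Λ N ^ 2 = Tf2 Λ N * Tf2 Λ N := sq _
    _ ≤ N / Λ ^ 12611 * Λ ^ 11225 := mul_le_mul h.Tf_N' h.Tf_le h.Tf0.le (by positivity)
    _ ≤ N / Λ ^ 12611 * Λ ^ 12611 := mul_le_mul_of_nonneg_left (pw h.big _ _) (by positivity)
    _ = N := by field_simp

theorem R.TP_eq (h : R Λ N) : TP2 Λ N / N = sg Λ N ^ 3 / (2 * Λ ^ 208) := by
  have := h.Λ0; have := h.N0
  unfold TP2 xx; field_simp

theorem R.TP_ge (h : R Λ N) : 1 / Λ ^ 209 ≤ TP2 Λ N / N := by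
  have := h.Λ0
  rw [h.TP_eq]
  exact div_le_div₀ (by have := h.sg0; positivity) (h.sg_pow1 3) (by positivity) (cpw h.big 2 _ _)

theorem R.TP_le (h : R Λ N) : TP2 Λ N / N ≤ (1 / Λ ^ 6) ^ 2 := by
  have := h.Λ0
  rw [h.TP_eq, div_pow, one_pow, div_le_div_iff₀ (by positivity) (by positivity)]
  have a := mul_le_mul_of_nonneg_right (h.sg_pow 3) (show 0 ≤ (Λ ^ 6) ^ 2 by positivity)
  have e : Λ ^ (65 * 3) * (Λ ^ 6) ^ 2 = Λ ^ 207 := by ring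
  have := pw h.big 207 208
  have : 0 < Λ ^ 208 := by positivity
  linarith

theorem R.K0 (h : R Λ N) : 0 < K12 Λ N := by
  have := h.Λ0; have := h.xx0; have := h.sg0
  unfold K12; positivity

theorem R.K_ge (h : R Λ N) : Λ ^ 4473 ≤ K12 Λ N := by
  have := h.Λ0
  unfold K12
  calc Λ ^ 4473 = Λ ^ 15694 * (1 / Λ ^ 11221) := by field_simp
    _ ≤ _ := mul_le_mul_of_nonneg_left (h.be_ge.trans h.be_le) (by positivity)

theorem R.K_u (h : R Λ N) : (Λ ^ 3) ^ 2 * (Λ ^ 16024 * ww Λ N) ≤ K12 Λ N ^ 2 := by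
  have := h.Λ0; have := h.xx0; have := h.sg0
  have a : sg Λ N ^ 2 ≤ Λ ^ 15358 * xx Λ N := by
    calc sg Λ N ^ 2 ≤ Λ ^ (65 * 2) := h.sg_pow 2
      _ ≤ Λ ^ 4073 := pw h.big _ _
      _ = Λ ^ 15358 * (1 / Λ ^ 11285) := by field_simp
      _ ≤ _ := mul_le_mul_of_nonneg_left h.xx_ge (by positivity)
  unfold K12 ww
  calc _ = Λ ^ 16030 * xx Λ N * sg Λ N ^ 2 * sg Λ N ^ 2 := by ring
    _ ≤ Λ ^ 16030 * xx Λ N * sg Λ N ^ 2 * (Λ ^ 15358 * xx Λ N) :=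
        mul_le_mul_of_nonneg_left a (by positivity)
    _ = _ := by ring

theorem R.K_Tf (h : R Λ N) : Λ ^ 3 * Tf2 Λ N ≤ K12 Λ N := by
  have := h.Λ0; have := h.xx0; have hN := h.N0
  unfold K12
  calc _ ≤ Λ ^ 3 * (N / Λ ^ 12611) := mul_le_mul_of_nonneg_left h.Tf_N' (by positivity)
    _ = N / Λ ^ 12608 := by field_simp
    _ ≤ N / (2 * Λ ^ 8212) := div_le_div_of_nonneg_left hN.le (by positivity) (cpw h.big 2 _ _)
    _ = Λ ^ 15694 * (xx Λ N * 1) := by unfold xx; field_simp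
    _ ≤ _ := by gcongr; exact h.sg1

theorem R.k_eq (h : R Λ N) : K12 Λ N ^ 2 * (Λ ^ 16024 * ww Λ N) / N ^ 2 =
    xx Λ N * sg Λ N ^ 6 / (4 * Λ ^ 400) := by
  have := h.Λ0; have := h.N0
  unfold K12 ww xx; field_simp; ring

theorem R.k_mu (h : R Λ N) : xx Λ N * sg Λ N ^ 6 / (4 * Λ ^ 400) ≤ (mu Λ N / Λ ^ 5) ^ 2 := by
  have := h.Λ0; have := h.xx0; have := h.sg0
  have a1 : (sg Λ N / Λ ^ 65 / Λ ^ 5) ^ 2 ≤ (mu Λ N / Λ ^ 5) ^ 2 :=
    pow_le_pow_left₀ (by positivity) (div_le_div_of_nonneg_right h.mu_sg (by positivity)) 2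
  refine le_trans ?_ a1
  have a2 : xx Λ N * sg Λ N ^ 4 ≤ 1 * Λ ^ (65 * 4) :=
    mul_le_mul h.xx_le (h.sg_pow 4) (by positivity) zero_le_one
  calc _ = xx Λ N * sg Λ N ^ 4 * (sg Λ N ^ 2 / (4 * Λ ^ 400)) := by ring
    _ ≤ 1 * Λ ^ (65 * 4) * (sg Λ N ^ 2 / (4 * Λ ^ 400)) :=
        mul_le_mul_of_nonneg_right a2 (by positivity)
    _ = (sg Λ N / Λ ^ 65 / Λ ^ 5) ^ 2 / 4 := by field_simp
    _ ≤ _ := by
      have : 0 ≤ (sg Λ N / Λ ^ 65 / Λ ^ 5) ^ 2 := by positivity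
      linarith

theorem R.k_TP (h : R Λ N) :
    (2 * Λ ^ 3) ^ 2 * (xx Λ N * sg Λ N ^ 6 / (4 * Λ ^ 400)) ≤ TP2 Λ N / N := by
  have := h.Λ0; have := h.xx0; have := h.sg0
  have a1 : xx Λ N * sg Λ N ≤ 2 := by have := h.xs_le; have := h.be1; linarith
  have a2 : xx Λ N * sg Λ N * sg Λ N ^ 2 ≤ 2 * Λ ^ (65 * 2) :=
    mul_le_mul a1 (h.sg_pow 2) (by positivity) (by norm_num)
  have a3 := cpw h.big 4 (65 * 2) 186
  rw [h.TP_eq]
  calc _ = xx Λ N * sg Λ N * sg Λ N ^ 2 * (sg Λ N ^ 3 / Λ ^ 394) := by field_simp; norm_num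
    _ ≤ Λ ^ 186 / 2 * (sg Λ N ^ 3 / Λ ^ 394) :=
        mul_le_mul_of_nonneg_right (by linarith) (by positivity)
    _ = _ := by field_simp

end SM2

end Crest.Agent.R62
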