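import Crest.Agent.R62.SM1
import Crest.Agent.R62.SM2a

set_option autoImplicit false

namespace Crest.Agent.R62
open Matrix Finset
namespace SW
open SM2

structure Pos (o : Obs ℝ) : Prop where
  t4 : 0 ≤ o.t4
  tK : 0 ≤ o.tK
  P2 : 0 ≤ o.P2
  Pp : 0 ≤ o.Pp
  f2 : 0 ≤ o.f2
  f8 : 0 ≤ o.f8

theorem pos_obs {ι : Type} [Fintype ι] [DecidableEq ι] {F : Mat ι} (h : Sy F) (p : ℕ) :
    Pos (obsR p F) :=
  ⟨SM1.tk_even h 4 (by decide), SM1.tk_even h KK ⟨15955, rfl⟩,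
    sum_nonneg fun _ _ => pow_nonneg (le_max_right _ _) _,
    sum_nonneg fun _ _ => pow_nonneg (le_max_right _ _) _,
    sum_nonneg fun _ _ => Even.pow_nonneg (by decide) _,
    sum_nonneg fun _ _ => Even.pow_nonneg (by decide) _⟩

theorem c1_nonneg {Λ N₀ τ N ε : ℝ} (h0 : 0 < Λ) (hN₀ : 0 < N₀) (hN : 0 < N) {o : Obs ℝ}
    (ho : Pos o) (k : ℕ) : 0 ≤ c1 Λ N₀ τ N ε o k := by
  obtain ⟨a, b, c, d, e, f⟩ := ho
  unfold c1
  split
  · unfold T41; positivity
  · unfold TK1; positivity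
  · positivity
  · positivity
  · positivity
  · positivity
  · positivity
  · unfold TP1; positivity
  · unfold Tp1; positivity
  · unfold Tf1; positivity
  · positivity
  · exact le_rfl

theorem c2_nonneg {Λ N ε : ℝ} (h0 : 0 < Λ) (hN : 0 < N) {o : Obs ℝ}
    (ho : Pos o) (k : ℕ) : 0 ≤ c2 Λ N ε o k := by
  obtain ⟨a, b, c, d, e, f⟩ := ho
  unfold c2
  split
  · unfold T42 ww xx sg; positivity
  · unfold TK2 ww xx sg; positivity
  · positivity
  · positivity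
  · unfold TP2 xx sg; positivity
  · unfold Tp2 ww xx sg; positivity
  · unfold Tf2; positivity
  · positivity
  · exact le_rfl

theorem rat {x s t : ℝ} (hs : 0 < s) (h : x / s ≤ 1) (hst : 64 * s ≤ t) : x / t ≤ 1 / 64 := by
  rw [div_le_one hs] at h
  rw [div_le_div_iff₀ (by linarith) (by norm_num)]
  linarith

theorem one_side {Λ y τ ε : ℝ} (h : 10 ^ 20 ≤ Λ) (y1 : Λ ^ 8001 ≤ 2 * y) (y2 : y ≤ Λ ^ 8002)
    {o : Obs ℝ} (hc : ∀ k, c1 Λ (y * (2 * Λ ^ 23906)) τ (2 * Λ ^ 23906) ε o k ≤ 1) :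
    ∑ k ∈ range 8, c2 Λ (2 * Λ ^ 23906) ε o k ≤ 1 / 8 := by
  have h0 : 0 < Λ := by linarith [show (0 : ℝ) < 10 ^ 20 by norm_num]
  have hy0 : 0 < y := by have : 0 < Λ ^ 8001 := by positivity
                         linarith
  have hN : (0 : ℝ) < 2 * Λ ^ 23906 := by positivity
  have ey : y * (2 * Λ ^ 23906) / (2 * Λ ^ 23906) = y := mul_div_cancel_right₀ _ hN.ne'
  have ex : xx Λ (2 * Λ ^ 23906) = 1 := div_self hN.ne'
  have es : sg Λ (2 * Λ ^ 23906) = 1 := div_self (by positivity)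
  have ew : ww Λ (2 * Λ ^ 23906) = 1 := by rw [ww, ex, es, one_pow, one_mul]
  have yy : y ^ 2 ≤ Λ ^ 16004 := by
    rw [show 16004 = 8002 * 2 from rfl, pow_mul]; exact pow_le_pow_left₀ hy0.le y2 2
  have y3 : y ^ 3 ≤ Λ ^ 24006 := by
    rw [show 24006 = 8002 * 3 from rfl, pow_mul]; exact pow_le_pow_left₀ hy0.le y2 3
  have mon : ∀ a b : ℕ, 16004 + a + 1 ≤ b → 64 * (y ^ 2 * Λ ^ a) ≤ Λ ^ b := fun a b hab => by
    refine le_trans ?_ (cpw h 64 (16004 + a) b hab)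
    rw [pow_add]
    exact mul_le_mul_of_nonneg_left (mul_le_mul_of_nonneg_right yy (by positivity)) (by norm_num)
  have k0 : c2 Λ (2 * Λ ^ 23906) ε o 0 ≤ 1 / 64 := by
    refine rat (s := T41 Λ _ _) (by unfold T41; positivity) (hc 0) ?_
    rw [T41, T42, ey, ew, mul_one]
    have := mul_le_mul_of_nonneg_left (mon 8 16013 (by norm_num)) hN.le
    calc _ = 2 * Λ ^ 23906 * (64 * (y ^ 2 * Λ ^ 8)) := by
          generalize Λ ^ 23906 = a; generalize Λ ^ 8 = b; ring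
      _ ≤ _ := this
  have k1 : c2 Λ (2 * Λ ^ 23906) ε o 1 ≤ 1 / 64 := by
    refine rat (s := TK1 Λ _ _) (by unfold TK1; positivity) (hc 1) ?_
    rw [TK1, TK2, ey, ew, mul_one]
    have e1 : KK - 2 = 2 * (15953 + 1) := rfl
    have e2 : (KK - 2) / 2 = 15953 + 1 := rfl
    rw [e2, e1, pow_mul]
    generalize 15953 = m
    have a1 : 64 * (Λ ^ 8 * y) ^ 2 ≤ Λ ^ 16022 := by
      have := mon 16 16022 (by norm_num)
      rw [mul_pow, ← pow_mul, mul_comm (Λ ^ (8 * 2))]; exact this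
    have a0 : 0 ≤ (Λ ^ 8 * y) ^ 2 := sq_nonneg _
    have a2 : ((Λ ^ 8 * y) ^ 2) ^ m ≤ (Λ ^ 16022) ^ m := pow_le_pow_left₀ a0 (by linarith) m
    have a3 := mul_le_mul a2 a1 (by positivity) (by positivity)
    have := mul_le_mul_of_nonneg_left a3 hN.le
    rw [pow_succ ((Λ ^ 8 * y) ^ 2) m, pow_succ (Λ ^ 16022) m]
    revert this
    generalize 2 * Λ ^ 23906 = a; generalize ((Λ ^ 8 * y) ^ 2) ^ m = b
    generalize (Λ ^ 8 * y) ^ 2 = c; generalize (Λ ^ 16022) ^ m * Λ ^ 16022 = e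
    intro this; linarith
  have k2 : c2 Λ (2 * Λ ^ 23906) ε o 2 ≤ 1 / 64 := by
    have o3 := SM1.le_of_max (s := sQ1 Λ _ _) (by unfold sQ1; positivity) (hc 3)
    rw [G1, sQ1, ey] at o3
    have b1 : 2 * (y ^ 2 * Λ ^ 7840) ≤ y ^ 3 / (10 * Λ ^ 160) := by
      rw [le_div_iff₀ (by positivity)]
      have e : Λ ^ 7840 * Λ ^ 160 = Λ ^ 8000 := by rw [← pow_add]
      have := cpw h 40 8000 8001
      calc _ = y ^ 2 * (20 * (Λ ^ 7840 * Λ ^ 160)) := by
            generalize Λ ^ 7840 = a; generalize Λ ^ 160 = b; ring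
        _ ≤ y ^ 2 * y := mul_le_mul_of_nonneg_left (by rw [e]; linarith) (sq_nonneg y)
        _ = _ := by ring
    have b2 : Λ ^ 23842 ≤ y ^ 2 * Λ ^ 7840 + y ^ 2 * Λ ^ 7840 * 3 := by
      have e : Λ ^ 23842 = (Λ ^ 8001) ^ 2 * Λ ^ 7840 := by rw [← pow_mul, ← pow_add]
      have := pow_le_pow_left₀ (by positivity) y1 2
      have := mul_le_mul_of_nonneg_right this (show 0 ≤ Λ ^ 7840 by positivity)
      rw [e]
      calc _ ≤ (2 * y) ^ 2 * Λ ^ 7840 := this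
        _ = _ := by generalize Λ ^ 7840 = a; ring
    have b1' : 5 * (y ^ 2 * Λ ^ 7840) ≤ y ^ 3 / (10 * Λ ^ 160) := by
      rw [le_div_iff₀ (by positivity)]
      have e : Λ ^ 7840 * Λ ^ 160 = Λ ^ 8000 := by rw [← pow_add]
      have := cpw h 100 8000 8001
      calc _ = y ^ 2 * (50 * (Λ ^ 7840 * Λ ^ 160)) := by
            generalize Λ ^ 7840 = a; generalize Λ ^ 160 = b; ring
        _ ≤ y ^ 2 * y := mul_le_mul_of_nonneg_left (by rw [e]; linarith) (sq_nonneg y)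
        _ = _ := by ring
    have b3 : 2 * Λ ^ 23906 - Λ ^ 23842 ≤ TQ2 Λ (2 * Λ ^ 23906) := by
      rw [TQ2, be, ← mul_div_assoc, le_div_iff₀ (by positivity)]
      generalize Λ ^ 23906 = a; generalize Λ ^ 23842 = b
      nlinarith [sq_nonneg b]
    have : o.t2 - TQ2 Λ (2 * Λ ^ 23906) ≤ 0 := by linarith
    show (max (o.t2 - TQ2 Λ (2 * Λ ^ 23906)) 0 / sQ2 Λ (2 * Λ ^ 23906)) ^ 2 ≤ 1 / 64
    rw [max_eq_right this, zero_div]; norm_num
  have k3 : c2 Λ (2 * Λ ^ 23906) ε o 3 ≤ 1 / 64 := by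
    have o5 := SM1.abs_of_sq (s := K11 Λ _ _) (by unfold K11; positivity) (hc 5)
    rw [K11, ey, abs_of_nonneg (le_max_right _ _)] at o5
    show (max (ε * o.t1) 0 / K12 Λ (2 * Λ ^ 23906)) ^ 2 ≤ 1 / 64
    rw [K12, ex, es, mul_one, mul_one]
    have b1 : 64 * (y * Λ ^ 7691) ≤ Λ ^ 15694 := by
      refine le_trans ?_ (cpw h 64 (8002 + 7691) 15694)
      rw [pow_add]
      exact mul_le_mul_of_nonneg_left (mul_le_mul_of_nonneg_right y2 (by positivity)) (by norm_num)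
    have b2 : max (ε * o.t1) 0 / Λ ^ 15694 ≤ 1 / 64 := by
      rw [div_le_div_iff₀ (by positivity) (by norm_num)]; linarith
    have b3 : 0 ≤ max (ε * o.t1) 0 / Λ ^ 15694 := div_nonneg (le_max_right _ _) (by positivity)
    nlinarith
  have k4 : c2 Λ (2 * Λ ^ 23906) ε o 4 ≤ 1 / 64 := by
    refine rat (s := TP1 Λ _ _) (by unfold TP1; positivity) (hc 7) ?_
    rw [TP1, TP2, ey, ex, es, one_pow, mul_one, mul_one]
    exact mon _ _ (by norm_num)
  have k5 : c2 Λ (2 * Λ ^ 23906) ε o 5 ≤ 1 / 64 := by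
    refine rat (s := Tp1 Λ _ _) (by unfold Tp1; positivity) (hc 8) ?_
    rw [Tp1, Tp2, ey, ew, mul_one]
    exact mon _ _ (by norm_num)
  have k6 : c2 Λ (2 * Λ ^ 23906) ε o 6 ≤ 1 / 64 := by
    refine rat (s := Tf1 Λ _ _) (by unfold Tf1; positivity) (hc 9) ?_
    rw [Tf1, Tf2, ey]
    have b1 : y ^ 3 / Λ ^ 16191 ≤ Λ ^ 7815 := by
      rw [div_le_iff₀ (by positivity), ← pow_add]; exact y3
    have b2 := pw h 8 7815
    have b3 : 2 * Λ ^ 23906 / (2 * Λ ^ 12621) = Λ ^ 11285 := by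
      rw [div_eq_iff (by positivity), show 23906 = 11285 + 12621 from rfl, pow_add]
      generalize Λ ^ 11285 = a; generalize Λ ^ 12621 = b; ring
    have b4 : 1 / Λ ^ 71 ≤ Λ ^ 23836 / (2 * Λ ^ 23906 + Λ ^ 23836) := by
      rw [div_le_div_iff₀ (by positivity) (by positivity), ← pow_add]
      have := cpw h 3 23906 (23836 + 71)
      have := pw h 23836 23906
      linarith
    have b5 := pow_le_pow_left₀ (by positivity) b4 6
    have b6 : Λ ^ 10 * Λ ^ 11285 * (1 / Λ ^ 71) ^ 6 = Λ ^ 10869 := by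
      rw [one_div, inv_pow, ← pow_mul, ← pow_add, ← div_eq_mul_inv, div_eq_iff (by positivity),
        ← pow_add]
    have b7 := cpw h 128 7815 10869
    rw [b3]
    calc _ ≤ Λ ^ 10869 := by linarith
      _ = _ := b6.symm
      _ ≤ _ := mul_le_mul_of_nonneg_left b5 (by positivity)
  have k7 : c2 Λ (2 * Λ ^ 23906) ε o 7 ≤ 1 / 64 :=
    rat (s := 1 / Λ ^ 2641) (by positivity) (hc 10) (cinv h 64 2640 2641)
  simp only [sum_range_succ, sum_range_zero]
  linarith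

theorem t2_le {Λ ε : ℝ} (h : 10 ^ 20 ≤ Λ) {o : Obs ℝ} (hc : c2 Λ (2 * Λ ^ 12621) ε o 2 ≤ 1) :
    o.t2 ≤ Λ ^ 1401 := by
  have h0 : 0 < Λ := by linarith [show (0 : ℝ) < 10 ^ 20 by norm_num]
  have hN : (0 : ℝ) < 2 * Λ ^ 12621 := by positivity
  have o2 := SM1.le_of_max (s := sQ2 Λ _) (by unfold sQ2 be mu; positivity) hc
  have hT : 0 ≤ TQ2 Λ (2 * Λ ^ 12621) := by unfold TQ2 be; positivity
  have b1 : sQ2 Λ (2 * Λ ^ 12621) ≤ TQ2 Λ (2 * Λ ^ 12621) := by
    have m1 : mu Λ (2 * Λ ^ 12621) ≤ 1 := by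
      rw [mu, div_le_one (by positivity)]; linarith
    have m2 : 1 ≤ Λ ^ 2 := by simpa using pw h 0 2
    rw [sQ2, ← TQ2, div_le_iff₀ (by positivity)]
    exact mul_le_mul_of_nonneg_left (m1.trans m2) hT
  have b2 : TQ2 Λ (2 * Λ ^ 12621) ≤ 4 * Λ ^ 1400 := by
    rw [TQ2, be, ← mul_div_assoc, div_le_iff₀ (by positivity)]
    have e : Λ ^ 12621 * Λ ^ 12621 = Λ ^ 1400 * Λ ^ 23842 := by rw [← pow_add, ← pow_add]
    have p1 : 0 ≤ Λ ^ 1400 * Λ ^ 12621 := by positivity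
    revert e p1
    generalize Λ ^ 12621 = a; generalize Λ ^ 1400 = b; generalize Λ ^ 23842 = c
    intro e p1; nlinarith
  have := cpw h 8 1400 1401
  linarith

theorem one_le_tk {ι : Type} [Fintype ι] [DecidableEq ι] {U : Finset ι} {F : Mat ι}
    (h : Bas0 U F) (hU : U.Nonempty) : 1 ≤ tk F 2 := by
  have hc : (0 : ℝ) < U.card := by exact_mod_cast hU.card_pos
  have e : tk F 2 = ∑ x, ∑ y, F x y ^ 2 := by
    simp only [tk, trace, Matrix.diag, pow_two, Matrix.mul_apply]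
    exact sum_congr rfl fun x _ => sum_congr rfl fun y _ => by rw [h.sy y x]
  have row : ∀ x ∈ U, 1 / (U.card : ℝ) ≤ ∑ y, F x y ^ 2 := fun x hx => by
    have e1 : ∑ y ∈ U, F x y = 1 := by
      rw [← h.on x hx]
      exact sum_subset (subset_univ U) fun y _ hy => by rw [h.sy x y, h.su y x hy]
    have := sq_sum_le_card_mul_sum_sq (s := U) (f := fun y => F x y)
    rw [e1] at this
    have h2 : ∑ y ∈ U, F x y ^ 2 ≤ ∑ y, F x y ^ 2 :=
      sum_le_sum_of_subset_of_nonneg (subset_univ U) fun _ _ _ => sq_nonneg _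
    rw [div_le_iff₀ hc]; nlinarith
  rw [e]
  calc (1 : ℝ) = ∑ _x ∈ U, 1 / (U.card : ℝ) := by
        rw [sum_const, nsmul_eq_mul]; field_simp
    _ ≤ ∑ x ∈ U, ∑ y, F x y ^ 2 := sum_le_sum row
    _ ≤ _ := sum_le_sum_of_subset_of_nonneg (subset_univ U) fun _ _ _ =>
        sum_nonneg fun _ _ => sq_nonneg _

end SW

open SW SM2 in
theorem SW_proof : SwStmt := by
  intro ι _ _ d p L Λ N₀ τ U A B hb hA hB
  have h := SM1.big20 hb
  have h0 : 0 < Λ := by linarith [show (0 : ℝ) < 10 ^ 20 by norm_num]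
  have pA := pos_obs hA.sy p
  have pB := pos_obs hB.sy p
  refine ⟨fun hp => ?_, fun hp => ?_, fun hU hp => ?_⟩
  · have hN : (0 : ℝ) < 2 * Λ ^ 23906 := by positivity
    have hN₀ : 0 < N₀ := lt_of_lt_of_le (by positivity) hb.lo
    obtain ⟨y, hy⟩ : ∃ y, N₀ = y * (2 * Λ ^ 23906) := ⟨N₀ / (2 * Λ ^ 23906), by field_simp⟩
    have y1 : Λ ^ 8001 ≤ 2 * y := by
      have := hb.lo
      rw [hy, show 31907 = 8001 + 23906 from rfl, pow_add] at this
      refine le_of_mul_le_mul_right (a := Λ ^ 23906) ?_ (by positivity)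
      linarith
    have y2 : y ≤ Λ ^ 8002 := by
      have := hb.hi
      rw [hy, show 31908 = 8002 + 23906 from rfl, pow_add] at this
      refine le_of_mul_le_mul_right (a := 2 * Λ ^ 23906) ?_ hN
      have : 0 ≤ Λ ^ 8002 * Λ ^ 23906 := by positivity
      linarith
    have sA : 0 ≤ ∑ k ∈ range 11, c1 Λ N₀ τ (2 * Λ ^ 23906) 1 (obsR p A) k :=
      sum_nonneg fun k _ => c1_nonneg h0 hN₀ hN pA k
    have sB : 0 ≤ ∑ k ∈ range 11, c1 Λ N₀ τ (2 * Λ ^ 23906) (-1) (obsR p B) k :=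
      sum_nonneg fun k _ => c1_nonneg h0 hN₀ hN pB k
    have s3 : 0 ≤ com Λ (2 * Λ ^ 23906) (Om A B) := sq_nonneg _
    have s4 : 0 ≤ cxc Λ (Xc A B) := by
      rw [cxc, SM1.xc_eq hA.sy hB.sy]
      exact div_nonneg (sum_nonneg fun _ _ => sum_nonneg fun _ _ => sq_nonneg _) (by positivity)
    rw [pot1R, pot1] at hp
    have all : ∀ (ε : ℝ) (o : Obs ℝ), Pos o →
        ∑ k ∈ range 11, c1 Λ N₀ τ (2 * Λ ^ 23906) ε o k ≤ 1 →
        ∀ k, c1 Λ N₀ τ (2 * Λ ^ 23906) ε o k ≤ 1 := fun ε o ho hs k => by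
      by_cases hk : k < 11
      · exact (single_le_sum (fun k _ => c1_nonneg h0 hN₀ hN ho k) (mem_range.2 hk)).trans hs
      · obtain ⟨m, rfl⟩ : ∃ m, k = m + 11 := ⟨k - 11, by omega⟩
        exact zero_le_one
    have a1 := all 1 _ pA (by linarith)
    have a2 := all (-1) _ pB (by linarith)
    rw [hy] at a1 a2
    have := one_side h y1 y2 a1
    have := one_side h y1 y2 a2
    rw [pot2R, pot2]
    linarith
  · have hN : (0 : ℝ) < 2 * Λ ^ 12621 := by positivity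
    have sA : 0 ≤ ∑ k ∈ range 8, c2 Λ (2 * Λ ^ 12621) 1 (obsR p A) k :=
      sum_nonneg fun k _ => c2_nonneg h0 hN pA k
    have sB : 0 ≤ ∑ k ∈ range 8, c2 Λ (2 * Λ ^ 12621) (-1) (obsR p B) k :=
      sum_nonneg fun k _ => c2_nonneg h0 hN pB k
    rw [pot2R, pot2] at hp
    have a1 : tk A 2 ≤ Λ ^ 1401 := t2_le (o := obsR p A) h
      ((single_le_sum (fun k _ => c2_nonneg h0 hN pA k) (mem_range.2 (show 2 < 8 by norm_num))).trans
        (by linarith))
    have a2 : tk B 2 ≤ Λ ^ 1401 := t2_le (o := obsR p B) h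
      ((single_le_sum (fun k _ => c2_nonneg h0 hN pB k) (mem_range.2 (show 2 < 8 by norm_num))).trans
        (by linarith))
    have e : T3b Λ (2 * Λ ^ 12621) = 2 * Λ ^ 1401 := by
      rw [T3b, sub_self, zero_div, add_zero, mul_one_div, div_eq_iff (by positivity), mul_assoc,
        ← pow_add]
    rw [e]; linarith
  · have a1 := one_le_tk hA hU
    have a2 := one_le_tk hB hU
    have b : T3b Λ (2 * Λ ^ 11218) < 1 := by
      have b1 : 2 * Λ ^ 11218 * (1 / Λ ^ 11220) ≤ 1 / 4 := by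
        rw [mul_one_div, div_le_div_iff₀ (by positivity) (by norm_num)]
        have := cpw h 8 11218 11220
        linarith
      have b2 : 2 * Λ ^ 11218 * ((2 * Λ ^ 12621 - 2 * Λ ^ 11218) / Λ ^ 25230) ≤ 1 / 4 := by
        rw [← mul_div_assoc, div_le_div_iff₀ (by positivity) (by norm_num)]
        have := cpw h 16 (11218 + 12621) 25230
        rw [pow_add] at this
        have p1 : 0 ≤ Λ ^ 11218 * Λ ^ 11218 := by positivity
        revert this p1
        generalize Λ ^ 11218 = a; generalize Λ ^ 12621 = b; generalize Λ ^ 25230 = c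
        intro this p1; nlinarith
      rw [T3b, mul_add]; linarith
    constructor <;> linarith

end Crest.Agent.R62
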