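import Crest.Agent.R62.Aux26

/-! Row 62: drift of the trace. -/

set_option autoImplicit false
set_option linter.unusedSectionVars false

namespace Crest.Agent.R62

open Matrix Finset A26

namespace T1

theorem rem {a b c g p q α ι L u : ℝ} (hL : 2 ≤ L) (hu : 1 ≤ u) (ha : |a| ≤ 1 / 20)
    (hb : |b| ≤ 1 / 20) (hp : |p| ≤ L) (hq : |q| ≤ L) (hg : |g| ≤ L)
    (hα : |α - 1| ≤ 2 * (|c| + |a| * |b|)) (hι : |ι - 1| ≤ 3 * (|c| + |a| * |b|)) :
    |(b * p + a * q) * (ι - 1) + 2 * ((α - 1) * g)| ≤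
      (3 * L + 2 * u) * c ^ 2 + 7 * L * a ^ 2 + 7 * L * b ^ 2 + 2 / u * g ^ 2 := by
  have h1 := abs_mul_le (abs_add_le' (abs_mul_le (le_refl |b|) hp) (abs_mul_le (le_refl |a|) hq)) hι
  have h2 := abs_mul_le hα (le_refl |g|)
  have h3 : |2 * ((α - 1) * g)| ≤ 2 * (2 * (|c| + |a| * |b|) * |g|) :=
    abs_mul_le (by norm_num) h2
  have h4 := abs_add_le' h1 h3
  have m1 := amgm1 c a
  have m2 := amgm1 c b
  have m3 := amgm c g u (by linarith)
  have m4 := amgm1 a b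
  have ha0 := abs_nonneg a
  have hb0 := abs_nonneg b
  have hab : 0 ≤ |a| * |b| := by positivity
  have m5 : |a| * |b| * |g| ≤ |a| * |b| * L := mul_le_mul_of_nonneg_left hg hab
  have m6 : |a| * |b| * (|a| + |b|) ≤ |a| * |b| * 1 := mul_le_mul_of_nonneg_left (by linarith) hab
  have hL0 : 0 ≤ L := by linarith
  have m7 := mul_le_mul_of_nonneg_left
    (show |c| * |a| + |c| * |b| + |a| * |b| * (|a| + |b|) ≤ c ^ 2 + a ^ 2 + b ^ 2 by linarith) hL0
  have m8 := mul_le_mul_of_nonneg_left m4 hL0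
  have e : 2 / u * g ^ 2 = 2 * (g ^ 2 / u) := by ring
  have := mul_nonneg hL0 (sq_nonneg a)
  have := mul_nonneg hL0 (sq_nonneg b)
  rw [e]
  nlinarith

theorem sq_bd {a b g p q α ι L : ℝ} (hp : |p| ≤ L) (hq : |q| ≤ L) (hα : |α| ≤ 2) (hι : |ι| ≤ 2) :
    ((b * p + a * q) * ι + 2 * α * g) ^ 2 ≤ 12 * L ^ 2 * a ^ 2 + 12 * L ^ 2 * b ^ 2 + 48 * g ^ 2 := by
  have h1 := abs_mul_le (abs_add_le' (abs_mul_le (le_refl |b|) hp) (abs_mul_le (le_refl |a|) hq)) hι
  have h2 := abs_mul_le (abs_mul_le (show |(2 : ℝ)| ≤ 2 by norm_num) hα) (le_refl |g|)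
  have h3 := abs_add_le' h1 h2
  have h4 := pow_le_pow_left₀ (abs_nonneg _) h3 2
  rw [sq_abs] at h4
  rw [← sq_abs a, ← sq_abs b, ← sq_abs g]
  nlinarith [sq_nonneg (|a| * L - |b| * L), sq_nonneg (|a| * L - 2 * |g|),
    sq_nonneg (|b| * L - 2 * |g|)]

end T1

theorem T1_proof (hAlg : AlgStmt) (hAvg : AvgStmt) : T1Stmt := by
  refine ⟨10, fun L Λ hΛ ι _ _ E F ε hL h hF => ?_⟩
  subst hL
  have hL := h.L2
  have hu := h.u1
  have hN := N1 h
  have hT := h.Tf1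
  have hD := h.D1'
  have hth := h.th0
  have hQ := Q_le hF
  have hQ0 := Q0 hF
  have hΛ' : 256 * E.L ^ 2 ≤ Λ := by
    have := pow_ge hL 8 2
    norm_num at this
    linarith
  have form : ∀ i j, E.p i j ≠ 0 → tk (step F i j) 1 - tk F 1 =
      (F j j * (rr F i - 1) + F i i * (rr F j - 1)) * (1 / Dl F i j) +
        2 * al F i j * (F ^ 2) i j := by
    intro i j hp
    rw [(hAlg ι F i j hF.sy (AVG.p_supp h hp).2.2 (pt h hF hp).2.2.2.1).2.2.1, mul_one_div]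
  have scc := S2_cc hF
  have saa := S2_aa h hF
  have sbb := S2_bb h hF
  have sgg := S2_gg hF
  constructor
  · let R : ι → ι → ℝ := fun i j =>
      (F j j * (rr F i - 1) + F i i * (rr F j - 1)) * (1 / Dl F i j - 1) +
        2 * ((al F i j - 1) * (F ^ 2) i j)
    have e1 : E.av (fun i j => tk (step F i j) 1 - tk F 1) =
        E.av (fun i j => rho E F i * F j j) + E.av (fun i j => rho E F j * F i i) +
          2 * E.av (fun i j => (F ^ 2) i j) + E.av R := by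
      rw [← av_mul, ← av_add, ← av_add, ← av_add]
      refine av_congr fun i j hp => ?_
      obtain ⟨hi, hj, -⟩ := AVG.p_supp h hp
      rw [form i j hp]
      simp only [R, rho, if_pos hi, if_pos hj]
      ring
    rw [av_swap h (fun i j => rho E F i * F j j)] at e1
    have h1 := (hAvg ι E h).2.2.2.1 (rho E F) (fun x => F x x)
    rw [sum_rho hF, tk1_U hF] at h1
    have h1a : √(∑ x, rho E F x ^ 2) ≤ E.L * √E.N := by
      refine (Real.sqrt_le_sqrt (sum_rho_sq h hF)).trans (le_of_eq ?_)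
      rw [Real.sqrt_mul (sq_nonneg _), Real.sqrt_sq (by linarith)]
    have h1b : √(∑ x, F x x ^ 2) ≤ √E.Tf := Real.sqrt_le_sqrt hF.f2
    set s := √(E.Tf / E.N) with hs
    have hs0 : 0 ≤ s := Real.sqrt_nonneg _
    have hthu : 0 ≤ E.th * E.u := by positivity
    have h1c : (2 * E.th * E.u + E.D) * √(∑ x, rho E F x ^ 2) * √(∑ x, F x x ^ 2) ≤
        2 * E.L * (E.N * ((E.th * E.u + E.D) * s)) := by
      calc _ ≤ (2 * (E.th * E.u + E.D)) * (E.L * √E.N) * √E.Tf := by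
            gcongr
            linarith
        _ = 2 * E.L * (E.th * E.u + E.D) * (√E.N * √E.Tf) := by ring
        _ = _ := by rw [sqrt_div h]; ring
    have h2 := av_pow h hF 0
    simp only [zero_add, pow_zero, one_mul] at h2
    have h3 := av_abs h (X := R) (Y := fun i j => (3 * E.L + 2 * E.u) * F i j ^ 2 +
      7 * E.L * F i i ^ 2 + 7 * E.L * F j j ^ 2 + 2 / E.u * (F ^ 2) i j ^ 2)
      (fun i j => by positivity) (fun i j hp => by
        obtain ⟨ha, hb, -, -, d1, d2, -⟩ := pt h hF hp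
        exact T1.rem hL hu ha hb (rho_le h hF i) (rho_le h hF j) (g_le h hF i j) d1 d2)
    simp only [S2_add, S2_mul] at h3
    have b1 : (3 * E.L + 2 * E.u) * S2 E (fun i j => F i j ^ 2) ≤
        (3 * E.L + 2 * E.u) * (E.L * E.N) := by gcongr; linarith
    have b2 : 7 * E.L * S2 E (fun i _ => F i i ^ 2) ≤ 7 * E.L * (E.N * E.Tf) := by gcongr
    have b3 : 7 * E.L * S2 E (fun _ j => F j j ^ 2) ≤ 7 * E.L * (E.N * E.Tf) := by gcongr
    have b4 : 2 / E.u * S2 E (fun i j => (F ^ 2) i j ^ 2) ≤ 2 * E.u * (E.L * E.N) := by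
      calc _ ≤ 2 / E.u * (E.u ^ 2 * (E.L * E.N)) := by
            gcongr
            exact sgg.trans (by gcongr)
        _ = _ := by field_simp
    have b5 : E.D * tk F 2 ≤ E.D * (E.L * E.N) := by gcongr
    have hL2 : E.L ≤ E.L ^ 2 := by nlinarith
    set X1 := E.N * ((E.th * E.u + E.D) * s) with hX1
    have hX10 : 0 ≤ X1 := by positivity
    have c1 : E.L * X1 ≤ E.L ^ 2 * X1 := by gcongr
    have c2 : E.L * (E.N * E.Tf) ≤ E.L ^ 2 * (E.N * E.Tf) := by gcongr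
    have c3 : E.L * (E.N * E.u) ≤ E.L ^ 2 * (E.N * E.u) := by gcongr
    have c4 : E.L * (E.N * E.D) ≤ E.L ^ 2 * (E.N * E.D) := by gcongr
    have c5 : E.L ^ 2 * (E.N * 1) ≤ E.L ^ 2 * (E.N * E.Tf) := by gcongr
    have c6 : 256 * E.L ^ 2 * (X1 + E.N * E.Tf + E.N * E.D + E.N * E.u) ≤
        Λ * (X1 + E.N * E.Tf + E.N * E.D + E.N * E.u) := by gcongr
    have p1 : 0 ≤ E.L ^ 2 * X1 := by positivity
    have p2 : 0 ≤ E.L ^ 2 * (E.N * E.Tf) := by positivity
    have p3 : 0 ≤ E.L ^ 2 * (E.N * E.u) := by positivity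
    have p4 : 0 ≤ E.L ^ 2 * (E.N * E.D) := by positivity
    have e2 : Λ * E.N * ((E.th * E.u + E.D) * s + E.Tf + E.D + E.u) =
        Λ * (X1 + E.N * E.Tf + E.N * E.D + E.N * E.u) := by rw [hX1]; ring
    obtain ⟨x1, x2⟩ := abs_le.1 (h1.trans h1c)
    obtain ⟨y1, y2⟩ := abs_le.1 h2
    obtain ⟨z1, z2⟩ := abs_le.1 h3
    rw [e1, e2, abs_le]
    constructor <;> linarith
  · have h3 := av_le h (X := fun i j => (tk (step F i j) 1 - tk F 1) ^ 2)
      (Y := fun i j => 12 * E.L ^ 2 * F i i ^ 2 + 12 * E.L ^ 2 * F j j ^ 2 + 48 * (F ^ 2) i j ^ 2)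
      (fun i j => by positivity) (fun i j hp => by
        obtain ⟨-, -, -, -, -, -, -, d4, d5⟩ := pt h hF hp
        rw [form i j hp]
        exact T1.sq_bd (rho_le h hF i) (rho_le h hF j) d4 d5)
    simp only [S2_add, S2_mul] at h3
    have b2 : 12 * E.L ^ 2 * S2 E (fun i _ => F i i ^ 2) ≤ 12 * E.L ^ 2 * (E.N * E.Tf) := by gcongr
    have b3 : 12 * E.L ^ 2 * S2 E (fun _ j => F j j ^ 2) ≤ 12 * E.L ^ 2 * (E.N * E.Tf) := by gcongr
    have hL2 : E.L ≤ E.L ^ 2 := by nlinarith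
    have b4 : E.u ^ 2 * tk F 2 ≤ E.u ^ 2 * (E.L ^ 2 * E.N) := by
      gcongr
      exact hQ.trans (by gcongr)
    have c6 : 256 * E.L ^ 2 * (E.N * (E.Tf + E.u ^ 2)) ≤ Λ * (E.N * (E.Tf + E.u ^ 2)) := by gcongr
    have p2 : 0 ≤ E.L ^ 2 * (E.N * E.Tf) := by positivity
    have p3 : 0 ≤ E.u ^ 2 * (E.L ^ 2 * E.N) := by positivity
    linarith

end Crest.Agent.R62
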