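import Crest.Agent.R62.T2B

/-! Row 62: mean of `rest`. -/

set_option autoImplicit false
set_option linter.unusedSectionVars false

namespace Crest.Agent.R62

open Matrix Finset A26

namespace T2

theorem rem {a b c g h hi hj p q α ι L u ri rj : ℝ} (hL : 2 ≤ L) (hu : 1 ≤ u) (ha : |a| ≤ 1 / 20)
    (hb : |b| ≤ 1 / 20) (hc : |c| ≤ 1 / 20) (hp : |p| ≤ L) (hq : |q| ≤ L)
    (hri : 0 ≤ ri) (hrj : 0 ≤ rj) (hri' : ri ≤ L) (hrj' : rj ≤ L)
    (hh : h ^ 2 ≤ u ^ 2 * (ri * rj)) (hhi : |hi| ≤ u * ri) (hhj : |hj| ≤ u * rj)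
    (hα : |α - 1| ≤ 2 * (|c| + |a| * |b|)) (hι1 : |ι - 1| ≤ 3 * (|c| + |a| * |b|))
    (hα3 : |α ^ 2 - 1 - 2 * c| ≤ 10 * (c ^ 2 + |a| * |b|)) (hα2 : |α| ≤ 2) (hι : |ι| ≤ 2) :
    |T2B.ex a b c g h hi hj p q α ι - (4 * h - 4 * c + 2 * (hi * b) + 2 * (hj * a) + 4 * (c * p * q))|
      ≤ 30 * L ^ 2 * u ^ 2 * c ^ 2 + 4 / u ^ 2 * h ^ 2 + 13 * u * (a ^ 2 * rj) +
        13 * u * (b ^ 2 * ri) + 20 * L ^ 2 * a ^ 2 + 20 * L ^ 2 * b ^ 2 + 11 * L ^ 2 * g ^ 2 := by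
  have e : T2B.ex a b c g h hi hj p q α ι -
      (4 * h - 4 * c + 2 * (hi * b) + 2 * (hj * a) + 4 * (c * p * q)) =
      4 * ((α - 1) * (h - c)) + 2 * ((b * hi + a * hj) * (ι - 1)) - 4 * (a * b * ι)
      + 2 * ((α ^ 2 - 1 - 2 * c) * (p * q)) + 2 * (α * α * g ^ 2) + 4 * α * g * (b * p + a * q) * ι
      + (b ^ 2 * p ^ 2 + a ^ 2 * q ^ 2 + 2 * a * b * g ^ 2) * ι ^ 2 := by
    unfold T2B.ex
    ring
  have n2 : |(2 : ℝ)| ≤ 2 := by norm_num
  have n4 : |(4 : ℝ)| ≤ 4 := by norm_num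
  have ha0 := abs_nonneg a
  have hb0 := abs_nonneg b
  have hc0 := abs_nonneg c
  have hg0 := abs_nonneg g
  have hh0 := abs_nonneg h
  have hu0 : 0 < u := by linarith
  have hab0 : 0 ≤ |a| * |b| := by positivity
  have m0 := amgm1 a b
  -- first term
  have t1 : |4 * ((α - 1) * (h - c))| ≤ 4 * u ^ 2 * c ^ 2 + 4 / u ^ 2 * h ^ 2 + 8 * c ^ 2 +
      4 * u * (a ^ 2 * rj) + 4 * u * (b ^ 2 * ri) + 4 * a ^ 2 + 4 * b ^ 2 := by
    have t := abs_mul_le n4 (abs_mul_le hα (abs_sub h c))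
    have m1 := amgm c h (u ^ 2) (by positivity)
    have m2 : |a| * |b| * |h| ≤ u * (a ^ 2 * rj + b ^ 2 * ri) / 2 := by
      refine abs_le_of_sq_le_sq' ?_ (by positivity) |>.2
      have : (|a| * |b| * |h|) ^ 2 = a ^ 2 * b ^ 2 * h ^ 2 := by
        rw [mul_pow, mul_pow, sq_abs, sq_abs, sq_abs]
      rw [this]
      have h1 : a ^ 2 * b ^ 2 * h ^ 2 ≤ a ^ 2 * b ^ 2 * (u ^ 2 * (ri * rj)) := by gcongr
      have h2 : 0 ≤ u ^ 2 * (a ^ 2 * rj - b ^ 2 * ri) ^ 2 := by positivity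
      nlinarith
    have m3 : |a| * |b| * |c| ≤ |a| * |b| * 1 := mul_le_mul_of_nonneg_left (by linarith) hab0
    have m4 : |c| * |c| = c ^ 2 := by rw [← sq, sq_abs]
    have e1 : 4 / u ^ 2 * h ^ 2 = 4 * (h ^ 2 / u ^ 2) := by ring
    rw [e1]
    linarith
  have t2 : |2 * ((b * hi + a * hj) * (ι - 1))| ≤ 6 * u * L * c ^ 2 + 9 * u * (a ^ 2 * rj) +
      9 * u * (b ^ 2 * ri) := by
    have t := abs_mul_le n2 (abs_mul_le (abs_add_le' (abs_mul_le (le_refl |b|) hhi)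
      (abs_mul_le (le_refl |a|) hhj)) hι1)
    have m1 := amgm1 c a
    have m2 := amgm1 c b
    have m3 : |b| * (|c| + |a| * |b|) ≤ c ^ 2 / 2 + 3 / 2 * b ^ 2 := by
      have : |a| * (|b| * |b|) ≤ 1 * (|b| * |b|) :=
        mul_le_mul_of_nonneg_right (by linarith) (by positivity)
      have m4 : |b| * |b| = b ^ 2 := by rw [← sq, sq_abs]
      rw [m4] at this
      have m5 : |b| * (|a| * |b|) = |a| * b ^ 2 := by rw [← m4]; ring
      linarith
    have m4 : |a| * (|c| + |a| * |b|) ≤ c ^ 2 / 2 + 3 / 2 * a ^ 2 := by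
      have : |b| * (|a| * |a|) ≤ 1 * (|a| * |a|) :=
        mul_le_mul_of_nonneg_right (by linarith) (by positivity)
      have m4 : |a| * |a| = a ^ 2 := by rw [← sq, sq_abs]
      rw [m4] at this
      have m5 : |a| * (|a| * |b|) = |b| * a ^ 2 := by rw [← m4]; ring
      linarith
    have m5 := mul_le_mul_of_nonneg_left m3 (show 0 ≤ u * ri by positivity)
    have m6 := mul_le_mul_of_nonneg_left m4 (show 0 ≤ u * rj by positivity)
    have m7 : u * c ^ 2 * ri ≤ u * c ^ 2 * L := by gcongr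
    have m8 : u * c ^ 2 * rj ≤ u * c ^ 2 * L := by gcongr
    linarith
  have t3 := abs_mul_le n4 (abs_mul_le (abs_mul a b).le hι)
  have t4 : |2 * ((α ^ 2 - 1 - 2 * c) * (p * q))| ≤
      20 * L ^ 2 * c ^ 2 + 10 * L ^ 2 * a ^ 2 + 10 * L ^ 2 * b ^ 2 := by
    have t := abs_mul_le n2 (abs_mul_le hα3 (abs_mul_le hp hq))
    have m1 := mul_le_mul_of_nonneg_left m0 (sq_nonneg L)
    linarith
  have t5 := abs_mul_le n2 (abs_mul_le (abs_mul_le hα2 hα2)
    (le_of_eq (abs_of_nonneg (sq_nonneg g))))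
  have t6 : |4 * α * g * (b * p + a * q) * ι| ≤ 16 * L * g ^ 2 + 8 * L * a ^ 2 + 8 * L * b ^ 2 := by
    have t := abs_mul_le (abs_mul_le (abs_mul_le (abs_mul_le n4 hα2) (le_refl |g|))
      (abs_add_le' (abs_mul_le (le_refl |b|) hp) (abs_mul_le (le_refl |a|) hq))) hι
    have m1 := mul_le_mul_of_nonneg_left (amgm1 g a) (show 0 ≤ L by linarith)
    have m2 := mul_le_mul_of_nonneg_left (amgm1 g b) (show 0 ≤ L by linarith)
    linarith
  have t7 := T2B.last_bd (g := g) hL ha hb hp hq hι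
  have t := abs_add_le' (abs_add_le' (abs_add_le' (abs_add_le' (abs_sub_le' (abs_add_le' t1 t2) t3)
    t4) t5) t6) t7
  rw [← e] at t
  have hL2 : 4 ≤ L ^ 2 := by nlinarith
  have hLL : 2 * L ≤ L ^ 2 := by nlinarith
  have hu2 : 1 ≤ u ^ 2 := one_le_pow₀ hu
  have huu : u ≤ u ^ 2 := by nlinarith
  have k1 : 4 * u ^ 2 + 8 + 6 * u * L + 20 * L ^ 2 ≤ 30 * L ^ 2 * u ^ 2 := by
    have j1 : 4 * u ^ 2 ≤ L ^ 2 * u ^ 2 := by gcongr
    have j2 : L ^ 2 * 1 ≤ L ^ 2 * u ^ 2 := by gcongr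
    have j3 : (2 * L) * u ≤ L ^ 2 * u ^ 2 := by gcongr
    linarith
  have k2 := mul_le_mul_of_nonneg_right k1 (sq_nonneg c)
  have k3 := mul_le_mul_of_nonneg_right (show 8 + 8 * L + 14 * L ^ 2 ≤ 20 * L ^ 2 by linarith)
    (sq_nonneg a)
  have k4 := mul_le_mul_of_nonneg_right (show 8 + 8 * L + 14 * L ^ 2 ≤ 20 * L ^ 2 by linarith)
    (sq_nonneg b)
  have k5 := mul_le_mul_of_nonneg_right (show 12 + 16 * L ≤ 11 * L ^ 2 by linarith) (sq_nonneg g)
  linarith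

variable {ι : Type} [Fintype ι] [DecidableEq ι] {E : Env ι} {F : Mat ι} {ε : ℝ}

theorem av_c (h : E.Ok) (hF : Side E F ε) :
    |E.av (fun i j => F i j)| ≤ E.N + 3 * E.L * (E.th * E.N) + E.L * (E.D * E.N) := by
  have hL := L1 h
  have hN := N1 h
  have hone : ∀ x, 0 ≤ E.L * E.one x := fun x => by
    unfold Env.one
    split_ifs <;> linarith
  have h9 := (AVG_proof ι E h).2.2.2.2.2.2.2.2.1 (fun i j => F i j)
    (fun x => E.L * E.one x) (fun x => E.L * E.one x) hone hone (fun i j => by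
      by_cases hi : i ∈ E.U
      · by_cases hj : j ∈ E.U
        · simp only [Env.one, if_pos hi, if_pos hj, mul_one]
          have := (sq_le_rr F i j).trans (hF.ro i)
          nlinarith
        · rw [hF.sy i j, hF.su j i hj]
          simp [Env.one, hj]
      · rw [hF.su i j hi]
        simp [Env.one, hi])
  have e1 : ∑ x, E.L * E.one x = E.L * E.N := by
    rw [← mul_sum]
    simp [Env.one, Env.N]
  have e2 := pow_tot hF.toBas0 1
  simp only [pow_one] at e2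
  rw [e1, e2, mul_assoc, Real.mul_self_sqrt (by positivity)] at h9
  have h2 : |∑ i, ∑ j, E.C i j * F i j| ≤ 3 * E.L * E.N := by
    have a1 : |∑ i, ∑ j, E.C i j * F i j| ≤ ∑ i, (rr E.C i + rr F i) / 2 := by
      refine (abs_sum_le_sum_abs _ _).trans (sum_le_sum fun i _ => ?_)
      unfold rr
      rw [← sum_add_distrib, sum_div]
      refine (abs_sum_le_sum_abs _ _).trans (sum_le_sum fun j _ => ?_)
      rw [abs_mul]
      exact amgm1 _ _
    have a2 : ∑ i, rr E.C i ≤ 4 * E.L * E.N := by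
      have e3 : ∑ x ∈ E.U, rr E.C x = ∑ x, rr E.C x :=
        sum_subset (subset_univ _) fun x _ hx => sum_eq_zero fun y _ => by rw [h.C0 x y hx]; simp
      rw [← e3]
      refine (sum_le_sum fun x _ => h.Cr x).trans (le_of_eq ?_)
      simp [Env.N, mul_comm]
    rw [← sum_div, sum_add_distrib, sum_rr hF] at a1
    have := Q_le hF
    have : 0 ≤ E.L * E.N := by positivity
    linarith
  have h3 := abs_mul_le (le_of_eq (abs_of_nonneg h.th0)) h2
  obtain ⟨x1, x2⟩ := abs_le.1 h9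
  obtain ⟨y1, y2⟩ := abs_le.1 h3
  change _ ≤ _ - (E.N - _) at x1
  change _ - (E.N - _) ≤ _ at x2
  rw [abs_le]
  constructor <;> linarith

theorem av_crr (h : E.Ok) (hF : Side E F ε) {V : ℝ}
    (hV : ∑ x ∈ E.U, (rr F x - 1) ^ 2 ≤ V ∨ tk F 2 ≤ V) :
    |E.av (fun i j => F i j * (rr F i - 1) * (rr F j - 1))| ≤
      |E.av (fun i j => F i j)| + 4 * E.L ^ 2 * (√E.N * V) := by
  have hL := h.L2
  have hs := sqrt1 h
  rcases hV with hV | hV
  · have hV0 : 0 ≤ V := (sum_nonneg fun _ _ => sq_nonneg _).trans hV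
    have h1 := av_abs h (X := fun i j => F i j * (rr F i - 1) * (rr F j - 1))
      (Y := fun i j => 1 / 2 * (|F i j| * (rr F i - 1) ^ 2) + 1 / 2 * (|F i j| * (rr F j - 1) ^ 2))
      (fun i j => by positivity) (fun i j _ => by
        rw [abs_mul, abs_mul, mul_assoc]
        have := mul_le_mul_of_nonneg_left (amgm1 (rr F i - 1) (rr F j - 1)) (abs_nonneg (F i j))
        linarith)
    simp only [S2_add, S2_mul] at h1
    have s1 := S2_cw h hF (fun x => (rr F x - 1) ^ 2) fun _ => sq_nonneg _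
    have s2 := S2_cw' h hF (fun x => (rr F x - 1) ^ 2) fun _ => sq_nonneg _
    have s3 : E.L * √E.N * ∑ x ∈ E.U, (rr F x - 1) ^ 2 ≤ E.L * √E.N * V := by gcongr
    have s4 : E.L * (√E.N * V) ≤ E.L ^ 2 * (√E.N * V) := by
      gcongr
      nlinarith
    have := abs_nonneg (E.av fun i j => F i j)
    have : 0 ≤ E.L ^ 2 * (√E.N * V) := by positivity
    linarith
  · have hV0 : 0 ≤ V := (Q0 hF).trans hV
    have h1 := av_abs h (X := fun i j => F i j * (rr F i - 1) * (rr F j - 1) - F i j)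
      (Y := fun i j => (1 + E.L) * (|F i j| * rr F i) + |F i j| * rr F j)
      (fun i j => by have := rr_nonneg F i; have := rr_nonneg F j; positivity) (fun i j _ => by
        have e : F i j * (rr F i - 1) * (rr F j - 1) - F i j =
            F i j * (rr F i * rr F j - rr F i - rr F j) := by ring
        have h1 := rr_nonneg F i
        have h2 := rr_nonneg F j
        have h3 : rr F i * rr F j ≤ rr F i * E.L := by gcongr; exact hF.ro j
        have h4 : 0 ≤ rr F i * rr F j := by positivity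
        have h5 : |rr F i * rr F j - rr F i - rr F j| ≤ (1 + E.L) * rr F i + rr F j := by
          rw [abs_le]
          constructor <;> linarith
        rw [e]
        refine (abs_mul_le (le_refl _) h5).trans (le_of_eq (by ring)))
    simp only [S2_add, S2_mul] at h1
    rw [av_sub] at h1
    have s1 := S2_cw h hF (rr F) (rr_nonneg F)
    have s2 := S2_cw' h hF (rr F) (rr_nonneg F)
    rw [sum_rr_U hF] at s1 s2
    have s3 : E.L * √E.N * tk F 2 ≤ E.L * √E.N * V := by gcongr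
    have s4 := mul_le_mul_of_nonneg_left (s1.trans s3) (show 0 ≤ 1 + E.L by linarith)
    have s5 : (2 * E.L) * (√E.N * V) ≤ E.L ^ 2 * (√E.N * V) := by
      gcongr
      nlinarith
    have := abs_sub_abs_le_abs_sub (E.av fun i j => F i j * (rr F i - 1) * (rr F j - 1))
      (E.av fun i j => F i j)
    linarith

end T2

theorem T2_proof (hAlg : AlgStmt) (hAvg : AvgStmt) : T2Stmt := by
  refine ⟨10, fun L Λ hΛ ι _ _ E F ε V hL h hF hV => ?_⟩
  subst hL
  have hL := h.L2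
  have hu := h.u1
  have hN := N1 h
  have hT := h.Tf1
  have hD := h.D1'
  have hth := h.th0
  have hQ0 := Q0 hF
  have hV0 : 0 ≤ V := hV.elim (fun hV => (sum_nonneg fun _ _ => sq_nonneg _).trans hV)
    fun hV => hQ0.trans hV
  have hΛ' : 256 * E.L ^ 2 ≤ Λ := by
    have := pow_ge hL 8 2
    norm_num at this
    linarith
  let M : ι → ι → ℝ := fun i j => 4 * (F ^ 3) i j - 4 * F i j + 2 * ((F ^ 3) i i * F j j) +
    2 * ((F ^ 3) j j * F i i) + 4 * (F i j * (rr F i - 1) * (rr F j - 1))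
  have e1 : E.av (rest F) = 4 * E.av (fun i j => (F ^ 3) i j) - 4 * E.av (fun i j => F i j) +
      2 * E.av (fun i j => (F ^ 3) i i * F j j) + 2 * E.av (fun i j => (F ^ 3) j j * F i i) +
      4 * E.av (fun i j => F i j * (rr F i - 1) * (rr F j - 1)) +
      E.av (fun i j => rest F i j - M i j) := by
    rw [av_sub]
    simp only [M, av_add, av_sub, av_mul]
    ring
  rw [av_swap h (fun i j => (F ^ 3) i i * F j j)] at e1
  have h1 := av_pow h hF 1
  simp only [pow_one, Nat.reduceAdd] at h1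
  have h2 := T2.av_c h hF
  have h3 := T2.av_crr h hF hV
  have h4 := (hAvg ι E h).2.2.2.2.1 (fun x => (F ^ 3) x x) (fun x => F x x) 1
    (fun j => (hF.dg j).trans ((z20 h).trans (by norm_num)))
  rw [tk_U hF.toBas0 2, tk1_U hF] at h4
  have h4a : ∑ x, |(F ^ 3) x x| ≤ E.u * tk F 2 := by simpa using sum_abs_diag h hF 1
  have h4b : √(∑ x, F x x ^ 2) ≤ √E.Tf := Real.sqrt_le_sqrt hF.f2
  have h4c : √(4 * E.L) ≤ 2 * E.L := by
    refine Real.sqrt_le_iff.2 ⟨by linarith, by nlinarith⟩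
  have h4d : (∑ x, |(F ^ 3) x x|) * (E.th * √(4 * E.L) * √(∑ x, F x x ^ 2) + E.D * 1) ≤
      (E.u * tk F 2) * (E.th * (2 * E.L) * √E.Tf + E.D * 1) := by gcongr
  have h5 := av_abs h (X := fun i j => rest F i j - M i j)
    (Y := fun i j => 30 * E.L ^ 2 * E.u ^ 2 * F i j ^ 2 + 4 / E.u ^ 2 * (F ^ 3) i j ^ 2 +
      13 * E.u * (F i i ^ 2 * rr F j) + 13 * E.u * (F j j ^ 2 * rr F i) +
      20 * E.L ^ 2 * F i i ^ 2 + 20 * E.L ^ 2 * F j j ^ 2 + 11 * E.L ^ 2 * (F ^ 2) i j ^ 2)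
    (fun i j => by have := rr_nonneg F i; have := rr_nonneg F j; positivity) (fun i j hp => by
      obtain ⟨ha, hb, hc, -, d1, d2, d3, d4, d5⟩ := pt h hF hp
      rw [T2B.rest_eq hAlg h hF hp]
      exact T2.rem hL hu ha hb hc (rho_le h hF i) (rho_le h hF j) (rr_nonneg F i) (rr_nonneg F j)
        (hF.ro i) (hF.ro j) (by simpa using ent_sq hF.sy hF.op 1 i j)
        (by simpa using ent_diag h hF 1 i) (by simpa using ent_diag h hF 1 j) d1 d2 d3 d4 d5)
  simp only [S2_add, S2_mul] at h5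
  have s1 := mul_le_mul_of_nonneg_left (S2_cc hF) (show 0 ≤ 30 * E.L ^ 2 * E.u ^ 2 by positivity)
  have s2 : 4 / E.u ^ 2 * S2 E (fun i j => (F ^ 3) i j ^ 2) ≤ 4 * (E.u ^ 2 * tk F 2) := by
    calc _ ≤ 4 / E.u ^ 2 * (E.u ^ 4 * tk F 2) := by
          gcongr
          exact S2_hh hF
      _ = _ := by field_simp
  have s3 := mul_le_mul_of_nonneg_left (S2_ar hF) (show 0 ≤ 13 * E.u by positivity)
  have s4 := mul_le_mul_of_nonneg_left (S2_br hF) (show 0 ≤ 13 * E.u by positivity)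
  have s5 := mul_le_mul_of_nonneg_left (S2_aa h hF) (show 0 ≤ 20 * E.L ^ 2 by positivity)
  have s6 := mul_le_mul_of_nonneg_left (S2_bb h hF) (show 0 ≤ 20 * E.L ^ 2 by positivity)
  have s7 := mul_le_mul_of_nonneg_left (S2_gg hF) (show 0 ≤ 11 * E.L ^ 2 by positivity)
  have hL2 : 4 ≤ E.L ^ 2 := by nlinarith
  have hLL : E.L ≤ E.L ^ 2 := by nlinarith
  set s := √E.Tf with hs
  have hs0 : 0 ≤ s := Real.sqrt_nonneg _
  set n := √E.N with hn
  have hn0 : 0 ≤ n := Real.sqrt_nonneg _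
  have c0 : 1 * E.N ≤ E.D * E.N := by gcongr
  have c1 : E.L * (E.th * E.N) ≤ E.L ^ 2 * (E.th * E.N) := by gcongr
  have c2 : E.L * (E.D * E.N) ≤ E.L ^ 2 * (E.D * E.N) := by gcongr
  have c3 : 4 * (E.D * E.N) ≤ E.L ^ 2 * (E.D * E.N) := by gcongr
  have c4 : 4 * (E.u ^ 2 * tk F 2) ≤ E.L ^ 2 * (E.u ^ 2 * tk F 2) := by gcongr
  have c5 : 4 * (E.D * E.u * tk F 2) ≤ E.L ^ 2 * (E.D * E.u * tk F 2) := by gcongr
  have c6 : 4 * (E.Tf * E.u * tk F 2) ≤ E.L ^ 2 * (E.Tf * E.u * tk F 2) := by gcongr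
  have c7 : E.L * (E.th * s * E.u * tk F 2) ≤ E.L ^ 2 * (E.th * s * E.u * tk F 2) := by gcongr
  have p1 : 0 ≤ E.L ^ 2 * (E.th * E.N) := by positivity
  have p2 : 0 ≤ E.L ^ 2 * (E.D * E.N) := by positivity
  have p3 : 0 ≤ E.L ^ 2 * (E.Tf * E.N) := by positivity
  have p4 : 0 ≤ E.L ^ 2 * (E.u ^ 2 * tk F 2) := by positivity
  have p5 : 0 ≤ E.L ^ 2 * (E.D * E.u * tk F 2) := by positivity
  have p6 : 0 ≤ E.L ^ 2 * (E.Tf * E.u * tk F 2) := by positivity
  have p7 : 0 ≤ E.L ^ 2 * (E.th * s * E.u * tk F 2) := by positivity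
  have p8 : 0 ≤ E.L ^ 2 * (n * V) := by positivity
  have c8 : 256 * E.L ^ 2 * ((E.th + E.D + E.Tf) * E.N
        + (E.u ^ 2 + (E.D + E.Tf + E.th * s) * E.u) * tk F 2 + n * V) ≤
      Λ * ((E.th + E.D + E.Tf) * E.N
        + (E.u ^ 2 + (E.D + E.Tf + E.th * s) * E.u) * tk F 2 + n * V) := by gcongr
  obtain ⟨x1, x2⟩ := abs_le.1 h1
  obtain ⟨y1, y2⟩ := abs_le.1 h2
  obtain ⟨z1, z2⟩ := abs_le.1 (h3.trans (add_le_add_left h2 _))
  obtain ⟨v1, v2⟩ := abs_le.1 (h4.trans h4d)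
  obtain ⟨w1, w2⟩ := abs_le.1 h5
  rw [e1, abs_le]
  constructor <;> linarith

end Crest.Agent.R62
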