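import Crest.Agent.R62.Aux26

/-! Row 62: second moment of `rest`. -/

set_option autoImplicit false
set_option linter.unusedSectionVars false

namespace Crest.Agent.R62

open Matrix Finset A26

namespace T2B

/-- the ALG expression for `rest` -/
def ex (a b c g h hi hj p q α ι : ℝ) : ℝ :=
  4 * α * (h - c) + 2 * (b * (hi - a) + a * (hj - b)) * ι + α ^ 2 * (2 * p * q + 2 * g ^ 2)
    + 4 * α * g * (b * p + a * q) * ι + (b ^ 2 * p ^ 2 + a ^ 2 * q ^ 2 + 2 * a * b * g ^ 2) * ι ^ 2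
    - 2 * (p * q)

theorem rest_eq (hAlg : AlgStmt) {ι : Type} [Fintype ι] [DecidableEq ι] {E : Env ι} {F : Mat ι}
    {ε : ℝ} (h : E.Ok) (hF : Side E F ε) {i j : ι} (hp : E.p i j ≠ 0) :
    rest F i j = ex (F i i) (F j j) (F i j) ((F ^ 2) i j) ((F ^ 3) i j) ((F ^ 3) i i) ((F ^ 3) j j)
      (rr F i - 1) (rr F j - 1) (al F i j) (1 / Dl F i j) := by
  unfold rest ex
  rw [(hAlg ι F i j hF.sy (AVG.p_supp h hp).2.2 (pt h hF hp).2.2.2.1).2.2.2.1]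
  ring

theorem last_bd {a b g p q ι L : ℝ} (hL : 2 ≤ L) (ha : |a| ≤ 1 / 20) (hb : |b| ≤ 1 / 20)
    (hp : |p| ≤ L) (hq : |q| ≤ L) (hι : |ι| ≤ 2) :
    |(b ^ 2 * p ^ 2 + a ^ 2 * q ^ 2 + 2 * a * b * g ^ 2) * ι ^ 2| ≤
      4 * (L ^ 2 * b ^ 2 + L ^ 2 * a ^ 2 + g ^ 2) := by
  have hp2 : p ^ 2 ≤ L ^ 2 := by rw [← sq_abs p]; gcongr
  have hq2 : q ^ 2 ≤ L ^ 2 := by rw [← sq_abs q]; gcongr
  have hι2 : |ι ^ 2| ≤ 4 := by
    rw [abs_pow]
    nlinarith [abs_nonneg ι]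
  have h1 : |b ^ 2 * p ^ 2| ≤ L ^ 2 * b ^ 2 := by
    rw [abs_of_nonneg (by positivity), mul_comm]
    gcongr
  have h2 : |a ^ 2 * q ^ 2| ≤ L ^ 2 * a ^ 2 := by
    rw [abs_of_nonneg (by positivity), mul_comm]
    gcongr
  have h3 := abs_mul_le (abs_mul_le (abs_mul_le (show |(2 : ℝ)| ≤ 2 by norm_num) ha) hb)
    (le_of_eq (abs_of_nonneg (sq_nonneg g)))
  have h4 := abs_mul_le (abs_add_le' (abs_add_le' h1 h2) h3) hι2
  have := sq_nonneg g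
  linarith

theorem abs_bd {a b c g h hi hj p q α ι L : ℝ} (hL : 2 ≤ L) (ha : |a| ≤ 1 / 20)
    (hb : |b| ≤ 1 / 20) (hp : |p| ≤ L) (hq : |q| ≤ L) (hg : |g| ≤ L)
    (hα : |α - 1| ≤ 2 * (|c| + |a| * |b|)) (hα2 : |α| ≤ 2) (hι : |ι| ≤ 2) :
    |ex a b c g h hi hj p q α ι| ≤
      20 * L ^ 2 * (|h| + |c| + |b| * |hi| + |a| * |hj| + |a| + |b| + |g|) := by
  have e : ex a b c g h hi hj p q α ι = 4 * α * (h - c) + 2 * (b * hi + a * hj - 2 * (a * b)) * ι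
      + 2 * ((α - 1) * (α + 1) * (p * q)) + 2 * (α * α * (g * g)) + 4 * α * g * (b * p + a * q) * ι
      + (b ^ 2 * p ^ 2 + a ^ 2 * q ^ 2 + 2 * a * b * g ^ 2) * ι ^ 2 := by
    unfold ex
    ring
  have n2 : |(2 : ℝ)| ≤ 2 := by norm_num
  have n4 : |(4 : ℝ)| ≤ 4 := by norm_num
  have n1 : |(1 : ℝ)| ≤ 1 := by norm_num
  have t1 := abs_mul_le (abs_mul_le n4 hα2) (abs_sub h c)
  have t2 := abs_mul_le (abs_mul_le n2 (abs_sub_le' (abs_add_le' (abs_mul b hi).le (abs_mul a hj).le)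
    (abs_mul_le n2 (abs_mul_le (le_refl |a|) hb)))) hι
  have t3 := abs_mul_le n2 (abs_mul_le (abs_mul_le hα (abs_add_le' hα2 n1)) (abs_mul_le hp hq))
  have t4 := abs_mul_le n2 (abs_mul_le (abs_mul_le hα2 hα2) (abs_mul_le (le_refl |g|) hg))
  have t5 := abs_mul_le (abs_mul_le (abs_mul_le (abs_mul_le n4 hα2) (le_refl |g|))
    (abs_add_le' (abs_mul_le hb hp) (abs_mul_le ha hq))) hι
  have t6 := last_bd (g := g) hL ha hb hp hq hι
  have t := abs_add_le' (abs_add_le' (abs_add_le' (abs_add_le' (abs_add_le' t1 t2) t3) t4) t5) t6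
  rw [← e] at t
  have ha0 := abs_nonneg a
  have hb0 := abs_nonneg b
  have hc0 := abs_nonneg c
  have hg0 := abs_nonneg g
  have hh0 := abs_nonneg h
  have hi0 : 0 ≤ |b| * |hi| := by positivity
  have hj0 : 0 ≤ |a| * |hj| := by positivity
  have hL2 : 4 ≤ L ^ 2 := by nlinarith
  have hLL : L ≤ L ^ 2 := by nlinarith
  have u1 : a ^ 2 ≤ |a| := by rw [← sq_abs]; nlinarith
  have u2 : b ^ 2 ≤ |b| := by rw [← sq_abs]; nlinarith
  have u3 : g ^ 2 ≤ L * |g| := by rw [← sq_abs]; nlinarith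
  have u4 : |a| * |b| ≤ |a| := by nlinarith
  have v1 : L ^ 2 * a ^ 2 ≤ L ^ 2 * |a| := by gcongr
  have v2 : L ^ 2 * b ^ 2 ≤ L ^ 2 * |b| := by gcongr
  have v3 : L * |g| ≤ L ^ 2 * |g| := by gcongr
  have v4 : L ^ 2 * (|a| * |b|) ≤ L ^ 2 * |a| := by gcongr
  have w1 : 4 * |h| ≤ L ^ 2 * |h| := by gcongr
  have w2 : 4 * |c| ≤ L ^ 2 * |c| := by gcongr
  have w3 : 4 * (|b| * |hi|) ≤ L ^ 2 * (|b| * |hi|) := by gcongr
  have w4 : 4 * (|a| * |hj|) ≤ L ^ 2 * (|a| * |hj|) := by gcongr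
  have w5 : 4 * |a| ≤ L ^ 2 * |a| := by gcongr
  have w6 : 0 ≤ L ^ 2 * |b| := by positivity
  have w7 : 0 ≤ L * |g| := by positivity
  linarith

theorem sq7 (x1 x2 x3 x4 x5 x6 x7 : ℝ) : (x1 + x2 + x3 + x4 + x5 + x6 + x7) ^ 2 ≤
    7 * (x1 ^ 2 + x2 ^ 2 + x3 ^ 2 + x4 ^ 2 + x5 ^ 2 + x6 ^ 2 + x7 ^ 2) := by
  have := sq_sum_le_card_mul_sum_sq (s := (univ : Finset (Fin 7))) (f := ![x1, x2, x3, x4, x5, x6, x7])
  simp [Fin.sum_univ_succ] at this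
  linarith

end T2B

theorem T2B_proof (hAlg : AlgStmt) (_hAvg : AvgStmt) : T2BStmt := by
  refine ⟨20, fun L Λ hΛ ι _ _ E F ε hL h hF => ?_⟩
  subst hL
  have hL := h.L2
  have hu := h.u1
  have hN := N1 h
  have hT := h.Tf1
  have hQ0 := Q0 hF
  have hΛ' : 32768 * E.L ^ 5 ≤ Λ := by
    have := pow_ge hL 15 5
    norm_num at this
    linarith
  have h3 := av_le h (X := fun i j => rest F i j ^ 2)
    (Y := fun i j => 2800 * E.L ^ 4 * ((F ^ 3) i j ^ 2 + F i j ^ 2 +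
      E.u ^ 2 * E.L * (F j j ^ 2 * rr F i) + E.u ^ 2 * E.L * (F i i ^ 2 * rr F j) + F i i ^ 2 +
      F j j ^ 2 + (F ^ 2) i j ^ 2))
    (fun i j => by have := rr_nonneg F i; have := rr_nonneg F j; positivity) (fun i j hp => by
      obtain ⟨ha, hb, -, -, d1, -, -, d4, d5⟩ := pt h hF hp
      have h1 := T2B.abs_bd (h := (F ^ 3) i j) (hi := (F ^ 3) i i) (hj := (F ^ 3) j j) hL ha hb
        (rho_le h hF i) (rho_le h hF j) (g_le h hF i j) d1 d4 d5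
      rw [← T2B.rest_eq hAlg h hF hp] at h1
      have h2 := pow_le_pow_left₀ (abs_nonneg _) h1 2
      rw [sq_abs, mul_pow] at h2
      have h4 := T2B.sq7 |(F ^ 3) i j| |F i j| (|F j j| * |(F ^ 3) i i|) (|F i i| * |(F ^ 3) j j|)
        |F i i| |F j j| |(F ^ 2) i j|
      simp only [mul_pow, sq_abs] at h4
      have k : ∀ x, (F ^ 3) x x ^ 2 ≤ E.u ^ 2 * E.L * rr F x := by
        intro x
        have h5 := ent_sq hF.sy hF.op 1 x x
        have h6 : rr F x * rr F x ≤ E.L * rr F x :=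
          mul_le_mul_of_nonneg_right (hF.ro x) (rr_nonneg F x)
        calc _ ≤ E.u ^ (2 * 1) * (rr F x * rr F x) := h5
          _ ≤ E.u ^ (2 * 1) * (E.L * rr F x) := by gcongr
          _ = _ := by ring
      have k1 := mul_le_mul_of_nonneg_left (k i) (sq_nonneg (F j j))
      have k2 := mul_le_mul_of_nonneg_left (k j) (sq_nonneg (F i i))
      refine h2.trans ?_
      calc _ ≤ (20 * E.L ^ 2) ^ 2 * (7 * ((F ^ 3) i j ^ 2 + F i j ^ 2 +
            E.u ^ 2 * E.L * (F j j ^ 2 * rr F i) + E.u ^ 2 * E.L * (F i i ^ 2 * rr F j) +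
            F i i ^ 2 + F j j ^ 2 + (F ^ 2) i j ^ 2)) := by
            gcongr
            linarith
        _ = _ := by ring)
  simp only [S2_add, S2_mul] at h3
  have s1 := S2_hh hF
  have s2 := S2_cc hF
  have s3 := mul_le_mul_of_nonneg_left (S2_br hF) (show 0 ≤ E.u ^ 2 * E.L by positivity)
  have s4 := mul_le_mul_of_nonneg_left (S2_ar hF) (show 0 ≤ E.u ^ 2 * E.L by positivity)
  have s5 := S2_aa h hF
  have s6 := S2_bb h hF
  have s7 := S2_gg hF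
  have hu2 : 1 ≤ E.u ^ 2 := one_le_pow₀ hu
  have hu4 : E.u ^ 2 ≤ E.u ^ 4 := pow_le_pow_right₀ hu (by norm_num)
  have a1 : E.u ^ 2 * tk F 2 ≤ E.u ^ 4 * tk F 2 := by gcongr
  have a2 : 1 * tk F 2 ≤ E.u ^ 2 * tk F 2 := by gcongr
  have a3 : 2 * (E.u ^ 4 * tk F 2) ≤ E.L * (E.u ^ 4 * tk F 2) := by gcongr
  have a4 : 2 * (E.N * E.Tf) ≤ E.L * (E.N * E.Tf) := by gcongr
  have a5 : 0 ≤ E.u ^ 4 * tk F 2 := by positivity
  have a6 : 0 ≤ E.N * E.Tf := by positivity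
  set B := (E.u ^ 4 + E.Tf * E.u ^ 2) * tk F 2 + E.N * E.Tf with hB
  have hB0 : 0 ≤ B := by positivity
  refine h3.trans ?_
  calc _ ≤ 2 * (2800 * E.L ^ 4 * (2 * E.L * B)) := by
        gcongr
        rw [hB]
        linarith
    _ = 11200 * E.L ^ 5 * B := by ring
    _ ≤ Λ * B := by
        gcongr
        have : 0 ≤ E.L ^ 5 := by positivity
        linarith

end Crest.Agent.R62
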