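import Crest.Agent.R62.DefsA

set_option autoImplicit false

namespace Crest.Agent.R62

open Matrix Finset

namespace T2C

theorem dl_facts (m c : ℝ) (hm : |m| ≤ 1 / 10) (hc : |c| ≤ 1 / 10) :
    0 < (1 - c) ^ 2 - m ∧ |(1 - c) / ((1 - c) ^ 2 - m) - 1| ≤ 2 * (|c| + |m|) ∧
      |1 / ((1 - c) ^ 2 - m) - 1| ≤ 3 * (|c| + |m|) := by
  obtain ⟨c1, c2⟩ := abs_le.1 hc
  obtain ⟨m1, m2⟩ := abs_le.1 hm
  have hD : 71 / 100 ≤ (1 - c) ^ 2 - m := by nlinarith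
  have hD0 : 0 < (1 - c) ^ 2 - m := by linarith
  have c3 := le_abs_self c
  have c4 := neg_abs_le c
  have m3 := le_abs_self m
  have m4 := neg_abs_le m
  have c5 := abs_nonneg c
  have m5 := abs_nonneg m
  have c6 : c ^ 2 ≤ |c| / 10 := by rw [← sq_abs]; nlinarith
  have c7 := sq_nonneg c
  have k := mul_le_mul_of_nonneg_left hD (add_nonneg c5 m5)
  refine ⟨hD0, ?_, ?_⟩
  · rw [div_sub_one hD0.ne', abs_div, abs_of_pos hD0, div_le_iff₀ hD0, abs_le]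
    constructor <;> nlinarith
  · rw [div_sub_one hD0.ne', abs_div, abs_of_pos hD0, div_le_iff₀ hD0, abs_le]
    constructor <;> nlinarith

/-- the terms attached to `i` -/
theorem half (α w c a b g hi ri rj s : ℝ) (hα : |α| ≤ 2) (hw : |w| ≤ 2)
    (h1 : |α ^ 2 - 1| ≤ 5 * (|c| + |a * b|)) (h2 : |w ^ 2 - 1| ≤ 8 * (|c| + |a * b|))
    (s0 : 0 ≤ s) (ri0 : 0 ≤ ri) (rj0 : 0 ≤ rj) (ha : a ^ 2 ≤ ri) (hb : b ^ 2 ≤ rj) (hri : ri ≤ s ^ 2)
    (hg : g ^ 2 ≤ ri * rj) (hh : |hi| ≤ s * ri) :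
    2 * w * b * hi + 4 * α * w * g * b * ri + w ^ 2 * (b ^ 2 * ri ^ 2) - 2 * α ^ 2 * ri
        - 4 * α * w * g * b - 2 * (w ^ 2 * (b ^ 2 * ri)) + w ^ 2 * a ^ 2 ≤
      -2 * ri + a ^ 2 + (16 * (s * (ri * rj)) + 4 * (s ^ 2 * (ri * rj)) + 22 * (s * (|b| * ri))
        + 18 * (|c| * ri) + 16 * (|g| * |b|)) := by
  have a1 : w * b * hi ≤ 2 * |b| * (s * ri) := by
    refine (le_abs_self _).trans ?_
    rw [abs_mul, abs_mul]; gcongr
  have gb : |g| * |b| ≤ s * rj := by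
    refine (abs_le_of_sq_le_sq' ?_ (by positivity)).2
    rw [mul_pow, sq_abs, sq_abs]
    calc g ^ 2 * b ^ 2 ≤ ri * rj * rj := by gcongr
      _ ≤ s ^ 2 * rj * rj := by gcongr
      _ = _ := by ring
  have a0 : |α * w * g * b| ≤ 2 * 2 * |g| * |b| := by
    rw [abs_mul, abs_mul, abs_mul]; gcongr
  obtain ⟨a01, a02⟩ := abs_le.1 a0
  have a2 : α * w * g * b * ri ≤ 4 * (s * rj) * ri :=
    mul_le_mul_of_nonneg_right (by linarith) ri0
  have w2 : w ^ 2 ≤ 4 := by rw [← sq_abs]; nlinarith [abs_nonneg w]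
  have a3 : w ^ 2 * (b ^ 2 * ri ^ 2) ≤ 4 * (rj * (s ^ 2 * ri)) := by
    rw [pow_two ri]; gcongr
  have as : |a| ≤ s := abs_le.2 (abs_le_of_sq_le_sq' (ha.trans hri) s0)
  have t1 : |a * b| * ri ≤ s * |b| * ri := by rw [abs_mul]; gcongr
  have a4 := mul_le_mul_of_nonneg_right (abs_le.1 h1).1 ri0
  have a5 := mul_le_mul_of_nonneg_right (abs_le.1 h2).2 (sq_nonneg a)
  have a6 : (|c| + |a * b|) * a ^ 2 ≤ (|c| + |a * b|) * ri := by gcongr
  have a7 : 0 ≤ w ^ 2 * (b ^ 2 * ri) := by positivity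
  nlinarith

theorem ptw (α w c a b g h hi hj ri rj s X : ℝ) (d1 : |α - 1| ≤ 2 * (|c| + |a * b|))
    (d2 : |w - 1| ≤ 3 * (|c| + |a * b|)) (hm : |a * b| ≤ 1 / 10) (hc : |c| ≤ 1 / 10)
    (s1 : 1 ≤ s) (ri0 : 0 ≤ ri) (rj0 : 0 ≤ rj) (ha : a ^ 2 ≤ ri) (hb : b ^ 2 ≤ rj)
    (hri : ri ≤ s ^ 2) (hrj : rj ≤ s ^ 2) (hg : g ^ 2 ≤ ri * rj) (hh : h ^ 2 ≤ s ^ 2 * (ri * rj))
    (hhi : |hi| ≤ s * ri) (hhj : |hj| ≤ s * rj) (hid : α * (1 - c) - a * b * w = 1)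
    (hX : X + 2 = 4 * α * (h - c) + 2 * (b * (hi - a) + a * (hj - b)) * w
      + α ^ 2 * (2 * (ri - 1) * (rj - 1) + 2 * g ^ 2) + 4 * α * g * (b * (ri - 1) + a * (rj - 1)) * w
      + (b ^ 2 * (ri - 1) ^ 2 + a ^ 2 * (rj - 1) ^ 2 + 2 * a * b * g ^ 2) * w ^ 2) :
    X ≤ (4 * h - 2 * (ri + rj)) + (a ^ 2 + b ^ 2) + (8 * (|c| * |h|) + 81 * (s ^ 2 * (ri * rj))
      + 16 * c ^ 2) + (22 * (s * (|b| * ri)) + 18 * (|c| * ri) + 16 * (|g| * |b|))
      + (22 * (s * (|a| * rj)) + 18 * (|c| * rj) + 16 * (|g| * |a|)) := by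
  have s0 : 0 ≤ s := by linarith
  have hα : |α| ≤ 2 := by rw [abs_le] at d1 ⊢; constructor <;> linarith
  have hw : |w| ≤ 2 := by rw [abs_le] at d2 ⊢; constructor <;> linarith
  have hα1 : |α + 1| ≤ 5 / 2 := by rw [abs_le] at d1 ⊢; constructor <;> linarith
  have hw1 : |w + 1| ≤ 8 / 3 := by rw [abs_le] at d2 ⊢; constructor <;> linarith
  have t0 : 0 ≤ |c| + |a * b| := by positivity
  have h1 : |α ^ 2 - 1| ≤ 5 * (|c| + |a * b|) := by
    rw [show α ^ 2 - 1 = (α - 1) * (α + 1) by ring, abs_mul]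
    exact (mul_le_mul d1 hα1 (abs_nonneg _) (by positivity)).trans (le_of_eq (by ring))
  have h2 : |w ^ 2 - 1| ≤ 8 * (|c| + |a * b|) := by
    rw [show w ^ 2 - 1 = (w - 1) * (w + 1) by ring, abs_mul]
    exact (mul_le_mul d2 hw1 (abs_nonneg _) (by positivity)).trans (le_of_eq (by ring))
  have k1 := half α w c a b g hi ri rj s hα hw h1 h2 s0 ri0 rj0 ha hb hri hg hhi
  have k2 := half α w c b a g hj rj ri s hα hw (by rwa [mul_comm b a]) (by rwa [mul_comm b a])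
    s0 rj0 ri0 hb ha hrj (by rwa [mul_comm rj ri]) hhj
  have rr0 : 0 ≤ ri * rj := mul_nonneg ri0 rj0
  have ab2 : (a * b) ^ 2 ≤ ri * rj := by rw [mul_pow]; gcongr
  have b1 : (α - 1) * h ≤ 2 * (|c| + |a * b|) * |h| := by
    refine (le_abs_self _).trans ?_
    rw [abs_mul]; gcongr
  have b2 : |a * b| * |h| ≤ s * (ri * rj) := by
    refine (abs_le_of_sq_le_sq' ?_ (by positivity)).2
    rw [mul_pow, sq_abs, sq_abs]
    calc (a * b) ^ 2 * h ^ 2 ≤ ri * rj * (s ^ 2 * (ri * rj)) := by gcongr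
      _ = _ := by ring
  have α2 : α ^ 2 ≤ 4 := by rw [← sq_abs]; nlinarith [abs_nonneg α]
  have w2 : w ^ 2 ≤ 4 := by rw [← sq_abs]; nlinarith [abs_nonneg w]
  have b3 : α ^ 2 * (ri * rj + g ^ 2) ≤ 4 * (ri * rj + ri * rj) := by gcongr
  have b4 : a * b * (w ^ 2 * g ^ 2) ≤ 1 / 10 * (4 * (ri * rj)) :=
    (mul_le_mul_of_nonneg_right (abs_le.1 hm).2 (by positivity)).trans (by gcongr)
  have b5 : (α - 1) ^ 2 ≤ 8 * (c ^ 2 + (a * b) ^ 2) := by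
    have e := sq_le_sq' (abs_le.1 d1).1 (abs_le.1 d1).2
    rw [← sq_abs c, ← sq_abs (a * b)]
    nlinarith [sq_nonneg (|c| - |a * b|)]
  have b6 : s * (ri * rj) ≤ s ^ 2 * (ri * rj) := mul_le_mul_of_nonneg_right (by nlinarith) rr0
  have b7 : ri * rj ≤ s ^ 2 * (ri * rj) := le_mul_of_one_le_left rr0 (by nlinarith)
  have e : X = 4 * h + 4 * ((α - 1) * h) + 2 * (α ^ 2 * (ri * rj + g ^ 2))
      + 2 * (a * b * (w ^ 2 * g ^ 2)) + 2 * (α - 1) ^ 2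
      + (2 * w * b * hi + 4 * α * w * g * b * ri + w ^ 2 * (b ^ 2 * ri ^ 2) - 2 * α ^ 2 * ri
        - 4 * α * w * g * b - 2 * (w ^ 2 * (b ^ 2 * ri)) + w ^ 2 * a ^ 2)
      + (2 * w * a * hj + 4 * α * w * g * a * rj + w ^ 2 * (a ^ 2 * rj ^ 2) - 2 * α ^ 2 * rj
        - 4 * α * w * g * a - 2 * (w ^ 2 * (a ^ 2 * rj)) + w ^ 2 * b ^ 2) := by
    linear_combination hX + 4 * hid
  rw [e]
  rw [mul_comm rj ri] at k2
  nlinarith

theorem cs {κ : Type} (S : Finset κ) (f g : κ → ℝ) (A B : ℝ) (hA : 0 ≤ A) (hB : 0 ≤ B)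
    (h1 : ∑ x ∈ S, f x ^ 2 ≤ A ^ 2) (h2 : ∑ x ∈ S, g x ^ 2 ≤ B ^ 2) :
    ∑ x ∈ S, |f x| * |g x| ≤ A * B := by
  have h := sum_mul_sq_le_sq_mul_sq S (fun x => |f x|) (fun x => |g x|)
  simp only [sq_abs] at h
  refine abs_le_of_sq_le_sq' (h.trans ?_) (mul_nonneg hA hB) |>.2
  rw [mul_pow]
  exact mul_le_mul h1 h2 (sum_nonneg fun _ _ => sq_nonneg _) (sq_nonneg _)

theorem cs1 {κ : Type} (S : Finset κ) (f : κ → ℝ) (A : ℝ) (hA : 0 ≤ A)
    (h1 : ∑ x ∈ S, f x ^ 2 ≤ A ^ 2) : ∑ x ∈ S, |f x| ≤ A * √(S.card : ℝ) := by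
  have h := cs S f (fun _ => 1) A _ hA (Real.sqrt_nonneg (S.card : ℝ)) h1 (by
    rw [Real.sq_sqrt (Nat.cast_nonneg _)]; simp)
  simpa using h

variable {ι : Type} [Fintype ι] [DecidableEq ι]

theorem sy_pow {F : Mat ι} (h : Sy F) (k : ℕ) : Sy (F ^ k) := by
  have h1 : Fᵀ = F := by ext x y; exact h y x
  intro x y
  have : (F ^ k)ᵀ = F ^ k := by rw [transpose_pow, h1]
  rw [← this, transpose_apply, this]

theorem tk2 {F : Mat ι} (h : Sy F) : tk F 2 = ∑ i, rr F i := by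
  unfold tk rr trace
  refine sum_congr rfl fun i _ => ?_
  rw [diag_apply, pow_two, mul_apply]
  exact sum_congr rfl fun k _ => by rw [h k i, pow_two]

theorem g_sq {F : Mat ι} (h : Sy F) (i j : ι) : (F ^ 2) i j ^ 2 ≤ rr F i * rr F j := by
  rw [pow_two F, mul_apply]
  simp only [fun k => h k j]
  exact sum_mul_sq_le_sq_mul_sq _ _ _

theorem h_sq {F : Mat ι} (h : Sy F) (i j : ι) : (F ^ 3) i j ^ 2 ≤ tk F 2 * (rr F i * rr F j) := by
  rw [pow_succ F 2, mul_apply, tk2 h]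
  simp only [fun k => h k j]
  refine (sum_mul_sq_le_sq_mul_sq _ _ _).trans ?_
  have : ∑ k, (F ^ 2) i k ^ 2 ≤ rr F i * ∑ k, rr F k := by
    rw [mul_sum]; exact sum_le_sum fun k _ => g_sq h i k
  refine (mul_le_mul_of_nonneg_right this (sum_nonneg fun _ _ => sq_nonneg _)).trans (le_of_eq ?_)
  unfold rr; ring

theorem row_pow {U : Finset ι} {F : Mat ι} (h : Bas0 U F) (k : ℕ) :
    ∀ i ∈ U, ∑ j ∈ U, (F ^ k) i j = 1 := by
  induction k with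
  | zero => intro i hi; simp [one_apply, hi]
  | succ k ih =>
    intro i hi
    rw [pow_succ']
    simp only [mul_apply]
    rw [sum_comm, ← h.on i hi]
    refine sum_congr rfl fun l _ => ?_
    rw [← mul_sum]
    by_cases hl : l ∈ U
    · rw [ih l hl, mul_one]
    · rw [h.sy i l, h.su l i hl, zero_mul]

end T2C

open T2C in
theorem T2C_proof (hAlg : AlgStmt) : T2CStmt := by
  refine ⟨300, fun Λ hΛ ι _ _ U F Adm D Qb hF hU hQ1 hQD hQ hAdm hD => ?_⟩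
  have hs := hF.sy
  obtain ⟨s, s0, hs2⟩ : ∃ s, 0 ≤ s ∧ s ^ 2 = Qb := ⟨√Qb, Real.sqrt_nonneg _, Real.sq_sqrt (by linarith)⟩
  have s1 : 1 ≤ s := by nlinarith
  have sQ : s ≤ Qb := by nlinarith
  set N : ℝ := (U.card : ℝ) with hN
  have N1 : 1 ≤ N := by rw [hN]; exact_mod_cast hU
  set sN := √N with hsN
  have sN0 : 0 ≤ sN := Real.sqrt_nonneg _
  have hsN2 : sN ^ 2 = N := Real.sq_sqrt (by linarith)
  set Q := tk F 2 with hQdef
  have r0 : ∀ i, 0 ≤ rr F i := fun i => sum_nonneg fun _ _ => sq_nonneg _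
  have sr : ∑ i ∈ U, rr F i = Q := by
    rw [hQdef, tk2 hs]
    exact sum_subset (subset_univ _) fun i _ hi => sum_eq_zero fun y _ => by simp [hF.su i y hi]
  have Q0 : 0 ≤ Q := sr ▸ sum_nonneg fun i _ => r0 i
  have rQ : ∀ i, rr F i ≤ s ^ 2 := fun i => by
    rw [hs2]
    refine le_trans ?_ hQ
    rw [hQdef, tk2 hs]
    exact single_le_sum (fun i _ => r0 i) (mem_univ i)
  have ent : ∀ i j, F i j ^ 2 ≤ rr F i := fun i j =>
    single_le_sum (f := fun y => F i y ^ 2) (fun _ _ => sq_nonneg _) (mem_univ j)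
  have rowU : ∀ i, ∑ j ∈ U, F i j ^ 2 = rr F i := fun i =>
    sum_subset (subset_univ _) fun y _ hy => by rw [hs i y, hF.su y i hy]; simp
  have hh : ∀ i j, (F ^ 3) i j ^ 2 ≤ s ^ 2 * (rr F i * rr F j) := fun i j =>
    (h_sq hs i j).trans (mul_le_mul_of_nonneg_right (by rw [hs2]; exact hQ) (mul_nonneg (r0 i) (r0 j)))
  have hhi : ∀ i, |(F ^ 3) i i| ≤ s * rr F i := fun i =>
    abs_le.2 (abs_le_of_sq_le_sq' ((hh i i).trans (le_of_eq (by ring))) (mul_nonneg s0 (r0 i)))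
  set M : ι × ι → ℝ := fun q => 4 * (F ^ 3) q.1 q.2 - 2 * (rr F q.1 + rr F q.2) with hM
  set A : ι × ι → ℝ := fun q => F q.1 q.1 ^ 2 + F q.2 q.2 ^ 2 with hA
  set B : ι × ι → ℝ := fun q => 8 * (|F q.1 q.2| * |(F ^ 3) q.1 q.2|)
    + 81 * (s ^ 2 * (rr F q.1 * rr F q.2)) + 16 * F q.1 q.2 ^ 2 with hB
  set Z : ι × ι → ℝ := fun q => 22 * (s * (|F q.2 q.2| * rr F q.1)) + 18 * (|F q.1 q.2| * rr F q.1)
    + 16 * (|(F ^ 2) q.1 q.2| * |F q.2 q.2|) with hZ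
  have pt : ∀ q ∈ Adm, tk (step F q.1 q.2) 2 - Q ≤ M q + A q + B q + Z q + Z q.swap := by
    rintro ⟨i, j⟩ hq
    obtain ⟨-, -, -, hij, hc, hm⟩ := hAdm i j hq
    obtain ⟨d0, d1, d2⟩ := dl_facts _ _ hm hc
    have hx := (hAlg ι F i j hs hij d0.ne').2.2.2.1
    have := ptw (al F i j) (1 / Dl F i j) (F i j) (F i i) (F j j) ((F ^ 2) i j) ((F ^ 3) i j)
      ((F ^ 3) i i) ((F ^ 3) j j) (rr F i) (rr F j) s (tk (step F i j) 2 - Q) d1 d2 hm hc s1 (r0 i)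
      (r0 j) (ent i i) (ent j j) (rQ i) (rQ j) (g_sq hs i j) (hh i j) (hhi i) (hhi j)
      (by unfold al Dl; field_simp) (by rw [hx]; ring)
    simp only [hM, hA, hB, hZ, Prod.swap_prod_mk]
    rw [hs j i, sy_pow hs 2 j i]
    exact this
  have sub : Adm ⊆ U ×ˢ U := fun q hq =>
    mem_product.2 ⟨(hAdm q.1 q.2 hq).2.1, (hAdm q.1 q.2 hq).2.2.1⟩
  have ext : ∀ f : ι × ι → ℝ, (∀ q, 0 ≤ f q) → ∑ q ∈ Adm, f q ≤ ∑ q ∈ U ×ˢ U, f q := fun f hf =>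
    sum_le_sum_of_subset_of_nonneg sub fun q _ _ => hf q
  have h1 := sum_le_sum pt
  simp only [sum_add_distrib] at h1
  have srr : ∑ q ∈ U ×ˢ U, rr F q.1 * rr F q.2 ≤ Qb ^ 2 := by
    rw [sum_product' U U (fun i j => rr F i * rr F j), ← sum_mul_sum, sr, pow_two]; gcongr
  have scc : ∑ q ∈ U ×ˢ U, F q.1 q.2 ^ 2 = Q := by
    rw [sum_product' U U (fun i j => F i j ^ 2), ← sr]; exact sum_congr rfl fun i _ => rowU i
  have sff : ∑ i ∈ U, F i i ^ 2 ≤ s ^ 2 := by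
    rw [hs2]; exact (sum_le_sum fun i _ => ent i i).trans (sr.le.trans hQ)
  have l1f : ∑ i ∈ U, |F i i| ≤ s * sN := cs1 U _ s s0 sff
  -- main part
  have hex : ∑ q ∈ (U ×ˢ U) \ Adm, rr F q.1 ≤ D * Q := by
    have e : (U ×ˢ U) \ Adm = (U ×ˢ U).filter fun q => q ∉ Adm := by ext q; simp
    rw [e, sum_filter, sum_product, ← sr, mul_sum]
    refine sum_le_sum fun i hi => ?_
    rw [← sum_filter]
    simp only [sum_const, nsmul_eq_mul]
    exact mul_le_mul_of_nonneg_right (hD i hi) (r0 i)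
  have hex' : ∑ q ∈ (U ×ˢ U) \ Adm, rr F q.2 = ∑ q ∈ (U ×ˢ U) \ Adm, rr F q.1 := by
    refine sum_nbij' Prod.swap Prod.swap (fun q hq => ?_) (fun q hq => ?_) (by simp) (by simp)
      (by simp) <;>
    · obtain ⟨a, b⟩ := mem_sdiff.1 hq
      obtain ⟨a1, a2⟩ := mem_product.1 a
      exact mem_sdiff.2 ⟨mem_product.2 ⟨a2, a1⟩, fun h => b (hAdm _ _ h).1⟩
  have m1 : ∑ q ∈ Adm, M q ≤ 4 * N - 4 * N * Q + (2 * s + 2) * (2 * (D * Q)) := by
    have e1 := sum_sdiff (f := M) sub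
    have e2 : ∑ q ∈ U ×ˢ U, M q = 4 * N - 4 * N * Q := by
      rw [sum_product]
      simp only [hM, sum_sub_distrib, ← mul_sum, sum_add_distrib, sum_const, nsmul_eq_mul, sr]
      rw [sum_congr rfl (row_pow hF 3), sum_const, nsmul_eq_mul]
      ring
    have e3 : ∑ q ∈ (U ×ˢ U) \ Adm, -M q ≤
        ∑ q ∈ (U ×ˢ U) \ Adm, (2 * s + 2) * (rr F q.1 + rr F q.2) := by
      refine sum_le_sum fun q _ => ?_
      have := (abs_le_of_sq_le_sq' (b := s * (rr F q.1 + rr F q.2) / 2) ((hh q.1 q.2).trans (by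
        nlinarith [mul_nonneg (sq_nonneg s) (sq_nonneg (rr F q.1 - rr F q.2))]))
        (by have := r0 q.1; have := r0 q.2; positivity)).1
      simp only [hM]
      linarith
    rw [sum_neg_distrib, ← mul_sum, sum_add_distrib, hex'] at e3
    have e4 := mul_le_mul_of_nonneg_left hex (by linarith : 0 ≤ 2 * s + 2)
    linarith
  have m2 : ∑ q ∈ Adm, A q ≤ 2 * (N * (Q - 1) + 2 * (s * sN)) := by
    refine (ext A fun q => by positivity).trans ?_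
    have e1 : ∑ q ∈ U ×ˢ U, A q = 2 * (N * ∑ i ∈ U, F i i ^ 2) := by
      rw [sum_product]
      simp only [hA, sum_add_distrib, sum_const, nsmul_eq_mul, ← mul_sum]
      ring
    have e2 : ∑ i ∈ U, (N * F i i - 1) ^ 2 ≤ ∑ i ∈ U, ∑ j ∈ U, (N * F i j - 1) ^ 2 :=
      sum_le_sum fun i hi =>
        single_le_sum (f := fun j => (N * F i j - 1) ^ 2) (fun _ _ => sq_nonneg _) hi
    have e3 : ∑ i ∈ U, ∑ j ∈ U, (N * F i j - 1) ^ 2 = N ^ 2 * Q - N ^ 2 := by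
      have : ∀ i ∈ U, ∑ j ∈ U, (N * F i j - 1) ^ 2 = N ^ 2 * rr F i - N := fun i hi => by
        have a1 := row_pow hF 1 i hi
        rw [pow_one] at a1
        rw [sum_congr rfl (fun j _ => show (N * F i j - 1) ^ 2 =
          N ^ 2 * F i j ^ 2 - 2 * N * F i j + 1 by ring), sum_add_distrib, sum_sub_distrib,
          ← mul_sum, ← mul_sum, rowU, a1, sum_const, nsmul_eq_mul]
        ring
      rw [sum_congr rfl this, sum_sub_distrib, ← mul_sum, sr, sum_const, nsmul_eq_mul]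
      ring
    have e4 : ∑ i ∈ U, (N * F i i - 1) ^ 2 =
        N ^ 2 * ∑ i ∈ U, F i i ^ 2 - 2 * N * ∑ i ∈ U, F i i + N := by
      rw [sum_congr rfl (fun j _ => show (N * F j j - 1) ^ 2 =
          N ^ 2 * F j j ^ 2 - 2 * N * F j j + 1 by ring), sum_add_distrib, sum_sub_distrib,
          ← mul_sum, ← mul_sum, sum_const, nsmul_eq_mul]
      ring
    have e5 : ∑ i ∈ U, F i i ≤ s * sN := (sum_le_sum fun i _ => le_abs_self _).trans l1f
    have e6 : N * (N * ∑ i ∈ U, F i i ^ 2) ≤ N * (N * (Q - 1) + 2 * (s * sN)) := by nlinarith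
    rw [e1]
    have := le_of_mul_le_mul_left e6 (by linarith)
    linarith
  have m3 : ∑ q ∈ Adm, B q ≤ 8 * (s * (s * Qb)) + 81 * (s ^ 2 * Qb ^ 2) + 16 * Qb := by
    refine (ext B fun q => by have := r0 q.1; have := r0 q.2; positivity).trans ?_
    simp only [hB, sum_add_distrib, ← mul_sum]
    have a1 := cs (U ×ˢ U) (fun q => F q.1 q.2) (fun q => (F ^ 3) q.1 q.2) s (s * Qb) s0
      (by positivity) (by rw [scc, hs2]; exact hQ) (by
        refine (sum_le_sum fun q _ => hh q.1 q.2).trans ?_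
        rw [← mul_sum, mul_pow]; gcongr)
    rw [scc]
    gcongr
  have Z0 : ∀ q, 0 ≤ Z q := fun q => by have := r0 q.1; positivity
  have m4 : ∑ q ∈ U ×ˢ U, Z q ≤ 22 * (s * (Qb * (s * sN))) + 18 * (s * sN * Qb) +
      16 * (Qb * (sN * s)) := by
    simp only [hZ, sum_add_distrib, ← mul_sum]
    have a1 : ∑ q ∈ U ×ˢ U, |F q.2 q.2| * rr F q.1 ≤ Qb * (s * sN) := by
      rw [sum_product' U U (fun i j => |F j j| * rr F i)]
      simp only [mul_comm |F _ _| (rr F _)]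
      rw [← sum_mul_sum, sr]; gcongr
    have a2 : ∑ q ∈ U ×ˢ U, |F q.1 q.2| * rr F q.1 ≤ s * sN * Qb := by
      rw [sum_product' U U (fun i j => |F i j| * rr F i)]
      refine le_trans (sum_le_sum fun i _ => ?_) ((mul_sum _ _ _).ge.trans
        (mul_le_mul_of_nonneg_left (sr.le.trans hQ) (by positivity)))
      rw [← sum_mul]
      exact mul_le_mul_of_nonneg_right (cs1 U _ s s0 ((rowU i).le.trans (rQ i))) (r0 i)
    have a3 := cs (U ×ˢ U) (fun q => (F ^ 2) q.1 q.2) (fun q => F q.2 q.2) Qb (sN * s)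
      (by linarith) (by positivity) ((sum_le_sum fun q _ => g_sq hs q.1 q.2).trans srr) (by
        rw [sum_product' U U (fun _ j => F j j ^ 2), sum_const, nsmul_eq_mul, mul_pow, hsN2]
        gcongr)
    gcongr
  have m5 := (ext Z Z0).trans m4
  have m6 : ∑ q ∈ Adm, Z q.swap ≤ ∑ q ∈ U ×ˢ U, Z q := by
    refine (ext (fun q => Z q.swap) fun q => Z0 _).trans (le_of_eq ?_)
    rw [sum_product, sum_product, sum_comm]
    rfl
  have D1 : 1 ≤ D := by linarith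
  have f1 : s * (s * Qb) = Qb ^ 2 := by rw [← mul_assoc, ← pow_two, hs2, pow_two]
  have f2 : s * (Qb * (s * sN)) = Qb ^ 2 * sN := by rw [← hs2]; ring
  have f3 : s * sN * Qb ≤ Qb ^ 2 * sN := by
    rw [show Qb ^ 2 * sN = Qb * sN * Qb by ring]; gcongr
  have f4 : s * sN ≤ s * sN * Qb := le_mul_of_one_le_right (by positivity) hQ1
  have f5 : Qb ^ 2 ≤ D * Qb ^ 2 := le_mul_of_one_le_left (sq_nonneg _) D1
  have f6 : s ^ 2 * Qb ^ 2 ≤ D * Qb ^ 2 := by rw [hs2]; gcongr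
  have f7 : Qb ≤ Qb ^ 2 := by nlinarith
  have f8 : (2 * s + 2) * (2 * (D * Q)) ≤ (2 * Qb + 2 * Qb) * (2 * (D * Qb)) := by
    gcongr; linarith
  have f9 : 0 ≤ Qb ^ 2 * sN := by positivity
  have f10 := mul_le_mul_of_nonneg_right hΛ (by positivity : 0 ≤ Qb ^ 2 * sN + D * Qb ^ 2)
  rw [f1] at m3
  rw [f2] at m4 m5
  nlinarith

end Crest.Agent.R62
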