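import Crest.Agent.R62.XA
import Crest.Agent.R62.M4
import Crest.Agent.R62.SPEC

/-! Row 62: drift of the third moment. -/

set_option autoImplicit false
set_option linter.unusedSectionVars false

namespace Crest.Agent.R62

open Matrix Finset

namespace T3

open M1 XA A26

variable {ι : Type} [Fintype ι] [DecidableEq ι]

theorem expand (A : Mat ι) (U : Matrix ι (Fin 2) ℝ) (V : Matrix (Fin 2) ι ℝ) (W : M2) :
    trace ((A + U * W * V) * ((A + U * W * V) * (A + U * W * V))) =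
      trace (A ^ 3) + 3 * trace (W * (V * A ^ 2 * U))
      + 3 * trace (W * (V * A ^ 0 * U) * W * (V * A ^ 1 * U))
      + trace (W * (V * A ^ 0 * U) * W * (V * A ^ 0 * U) * W * (V * A ^ 0 * U)) := by
  set P := U * W * V with hP
  have e0 : trace (A * (A * A)) = trace (A ^ 3) := by rw [pow_three]
  have e1 : trace (P * (A * A)) = trace (W * (V * A ^ 2 * U)) := by
    rw [hP, sq]
    simp only [Matrix.mul_assoc]
    rw [trace_mul_comm]
    simp only [Matrix.mul_assoc]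
  have e2 : trace (A * (P * A)) = trace (P * (A * A)) := by
    rw [trace_mul_comm, Matrix.mul_assoc]
  have e3 : trace (A * (A * P)) = trace (P * (A * A)) := by
    rw [← Matrix.mul_assoc, trace_mul_comm]
  have e4 : trace (P * (P * A)) = trace (W * (V * A ^ 0 * U) * W * (V * A ^ 1 * U)) := by
    rw [hP, pow_zero, pow_one, Matrix.mul_one]
    simp only [Matrix.mul_assoc]
    rw [trace_mul_comm]
    simp only [Matrix.mul_assoc]
  have e5 : trace (P * (A * P)) = trace (P * (P * A)) := by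
    rw [← Matrix.mul_assoc, trace_mul_comm]
  have e6 : trace (A * (P * P)) = trace (P * (P * A)) := by
    rw [trace_mul_comm, Matrix.mul_assoc]
  have e7 : trace (P * (P * P)) =
      trace (W * (V * A ^ 0 * U) * W * (V * A ^ 0 * U) * W * (V * A ^ 0 * U)) := by
    rw [hP, pow_zero, Matrix.mul_one]
    simp only [Matrix.mul_assoc]
    rw [trace_mul_comm]
    simp only [Matrix.mul_assoc]
  simp only [Matrix.mul_add, Matrix.add_mul, trace_add, e0, e1, e2, e3, e4, e5, e6, e7]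
  ring

theorem three' {W X : M2} {z r : ℝ} (h1 : Bd (W - sg) (2 * z)) (h3 : Bd W 2) (h4 : Bd sg 1)
    (hX : Bd X r) :
    |trace (W * X * W * X * W * X) - trace (sg * X * sg * X * sg * X)| ≤ 896 * z * r ^ 3 := by
  have e : trace (W * X * W * X * W * X) - trace (sg * X * sg * X * sg * X) =
      trace ((W - sg) * X * W * X * W * X) + trace (sg * X * (W - sg) * X * W * X) +
        trace (sg * X * sg * X * (W - sg) * X) := by
    simp only [Matrix.sub_mul, Matrix.mul_sub, trace_sub]; ring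
  rw [e]
  have a := (((((h1.mul hX).mul h3).mul hX).mul h3).mul hX).trace
  have b := (((((h4.mul hX).mul h1).mul hX).mul h3).mul hX).trace
  have c := (((((h4.mul hX).mul h4).mul hX).mul h1).mul hX).trace
  refine (abs_add_le' (abs_add_le' a b) c).trans (le_of_eq (by ring))

theorem tr_s3 (X : Mat ι) (i j : ι) (h : X j i = X i j) :
    trace (sg * rs X i j * sg * rs X i j * sg * rs X i j) =
      X i j * (2 * (X i j * X i j) + 6 * (X i i * X j j)) := by
  simp only [Matrix.trace_fin_two, Matrix.mul_apply, Fin.sum_univ_two, sg, rs,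
    Matrix.of_apply, Matrix.cons_val_zero, Matrix.cons_val_one, Matrix.cons_val',
    Matrix.cons_val_fin_one, h]
  ring

variable {E : Env ι} {F : Mat ι} {ε : ℝ}

theorem Nt_bd (h : E.Ok) (hF : Side E F ε) (s : ℕ) (x y : ι) :
    |Nt F s x y| ≤ 4 * E.L * E.u ^ s := by
  have hu := h.u1
  have ho : ∀ s : ℕ, Op (F ^ s) (E.u ^ s) := by
    intro s
    induction s with
    | zero => simpa using op_one
    | succ s ih => rw [pow_succ, pow_succ]; exact op_mul ih hF.op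
  rw [← Nt_eq]
  exact ent (rowB_sub hF.ro (L1 h)) (colB_add hF.sy hF.ro (L1 h)) (ho s) (by positivity) x y

theorem point (hFlat : FlatStmt) (h : E.Ok) (hF : Side E F ε) {i j : ι} (hp : E.p i j ≠ 0) :
    |tk (step F i j) 3 - tk F 3 - 3 * wtr F i j (Nt F 2) - 3 * s2 (Nt F 0) (Nt F 1) i j| ≤
      30000 * E.L ^ 3 * (E.z * E.u) * 2 + 128 * E.L ^ 2 * |(F ^ 2) i j| ∧
    |tk (step F i j) 3 - tk F 3| ≤ 40000 * E.L ^ 3 * E.u ^ 2 := by
  have hij : i ≠ j := ((AVG_proof ι E h).2.2.2.2.2.2.2.2.2.2.2.2.2.1 i j hp).2.2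
  have hL := h.L2
  have hu := h.u1
  have hz := z0 h
  obtain ⟨dA, wA, hsg, wA2⟩ := W_bd F i j E.z (hF.dg i) (hF.dg j) (hF.ad i j hp).1 (z20 h)
  have hfl := hFlat ι i j [F, F, F] hij (by simp) (by
    intro G hG
    simp only [List.mem_cons, List.not_mem_nil, or_false, or_self] at hG
    subst hG
    exact ⟨hF.sy, by linarith⟩)
  simp only [List.map_cons, List.map_nil, List.prod_cons, List.prod_nil, mul_one, List.length_cons,
    List.length_nil, flat_eq] at hfl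
  rw [expand, ← pow_three] at hfl
  simp only [VXU, Nt_eq] at hfl
  have b0 := bd_rs (Nt_bd h hF 0) i j
  have b1 := bd_rs (Nt_bd h hF 1) i j
  have b2 := bd_rs (Nt_bd h hF 2) i j
  simp only [pow_zero, mul_one, pow_one] at b0 b1
  have e : tk (step F i j) 3 - tk F 3 = 3 * trace (Wm F i j * rs (Nt F 2) i j) +
      3 * trace (Wm F i j * rs (Nt F 0) i j * Wm F i j * rs (Nt F 1) i j) +
      trace (Wm F i j * rs (Nt F 0) i j * Wm F i j * rs (Nt F 0) i j * Wm F i j *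
        rs (Nt F 0) i j) := by
    unfold tk
    rw [hfl]
    ring
  have hL3 : 2 * E.L ^ 2 ≤ E.L ^ 3 := by nlinarith
  have hL3' : 4 * E.L ≤ E.L ^ 3 := by nlinarith
  have huu : E.u ≤ E.u ^ 2 := by nlinarith
  constructor
  · have t1 := two wA wA wA2 hsg b0 b1
    have t2 := three' wA wA2 hsg b0
    have hg : Nt F 0 i j = (F ^ 2) i j := by simp [Nt, one_apply_ne hij]
    have hs : Nt F 0 j i = Nt F 0 i j := by
      rw [hg, pow_sy hF.sy 2 i j]
      simp [Nt, one_apply_ne hij.symm]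
    rw [tr_s] at t1
    rw [tr_s3 _ _ _ hs] at t2
    have b := Nt_bd h hF 0
    simp only [pow_zero, mul_one] at b
    have t3 := abs_mul_le (le_refl |Nt F 0 i j|) (abs_add_le'
      (abs_mul_le (show |(2 : ℝ)| ≤ 2 by norm_num) (abs_mul_le (b i j) (b i j)))
      (abs_mul_le (show |(6 : ℝ)| ≤ 6 by norm_num) (abs_mul_le (b i i) (b j j))))
    rw [e, tr_W, ← hg]
    have k1 : 2 * E.L ^ 2 * (E.z * E.u) ≤ E.L ^ 3 * (E.z * E.u) := by gcongr
    have k2 : E.L ^ 3 * (E.z * 1) ≤ E.L ^ 3 * (E.z * E.u) := by gcongr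
    have k3 : 0 ≤ E.L ^ 3 * (E.z * E.u) := by positivity
    obtain ⟨x1, x2⟩ := abs_le.1 t1
    obtain ⟨y1, y2⟩ := abs_le.1 t2
    obtain ⟨w1, w2⟩ := abs_le.1 t3
    rw [abs_le]
    constructor <;> linarith
  · have t1 := (wA2.mul b2).trace
    have t2 := (((wA2.mul b0).mul wA2).mul b1).trace
    have t3 := three wA2 wA2 wA2 b0 b0 b0
    have k1 : 4 * E.L * E.u ^ 2 ≤ E.L ^ 3 * E.u ^ 2 := by gcongr
    have k2 : 2 * E.L ^ 2 * E.u ≤ E.L ^ 3 * E.u ^ 2 := by gcongr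
    have k3 : E.L ^ 3 * 1 ≤ E.L ^ 3 * E.u ^ 2 := by gcongr; linarith
    have k4 : 0 ≤ E.L ^ 3 * E.u ^ 2 := by positivity
    obtain ⟨x1, x2⟩ := abs_le.1 t1
    obtain ⟨y1, y2⟩ := abs_le.1 t2
    obtain ⟨w1, w2⟩ := abs_le.1 t3
    rw [e, abs_le]
    constructor <;> linarith

theorem S2_g (h : E.Ok) (hF : Side E F ε) :
    S2 E (fun i j => |(F ^ 2) i j|) ≤ E.L * (E.eta * E.u * E.N ^ 2) := by
  have hN := N1 h
  have hs := sqrt1 h
  have hss := sqrt_sq h
  have hu := h.u1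
  have hL := L1 h
  have h1 : S2 E (fun i j => |(F ^ 2) i j|) ≤
      S2 E (fun i j => √E.N / 2 * (F ^ 2) i j ^ 2 + 1 / (2 * √E.N)) :=
    S2_mono fun i _ j _ => by
      have := amgm ((F ^ 2) i j) 1 (√E.N) (by linarith)
      rw [abs_one, mul_one] at this
      refine this.trans (le_of_eq ?_)
      field_simp
  rw [S2_add, S2_mul, S2_const] at h1
  have h2 : S2 E (fun i j => (F ^ 2) i j ^ 2) ≤ E.u ^ 2 * (E.L * E.N) :=
    (S2_gg hF).trans (by gcongr; exact Q_le hF)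
  have h3 := mul_le_mul_of_nonneg_left h2 (show 0 ≤ √E.N / 2 by positivity)
  have h4 : 1 / (2 * √E.N) * E.N ^ 2 = √E.N * E.N / 2 := by
    field_simp
    rw [sq, hss]
  have h5 : E.eta * E.u * E.N ^ 2 = (E.th * E.u + E.D + √E.N + E.Tf) * (E.u ^ 2 * E.N) := by
    unfold Env.eta
    field_simp
  have h6 : √E.N * (E.u ^ 2 * E.N) ≤ (E.th * E.u + E.D + √E.N + E.Tf) * (E.u ^ 2 * E.N) := by
    have := h.th0; have := h.D1'; have := h.Tf1
    have : 0 ≤ E.th * E.u := by positivity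
    gcongr
    linarith
  have h7 : 1 * (√E.N * (1 * E.N)) ≤ E.L * (√E.N * (E.u ^ 2 * E.N)) := by
    gcongr
    exact one_le_pow₀ hu
  have h8 := mul_le_mul_of_nonneg_left h6 (show 0 ≤ E.L by linarith)
  rw [h5]
  rw [h4] at h1
  linarith

end T3

open T3 A26 in
theorem T3_proof (hFlat : FlatStmt) (hAvg : AvgStmt) : T3Stmt := by
  obtain ⟨c1, hc1⟩ := M3_proof SPEC_proof hAvg 3 le_rfl
  obtain ⟨c2, hc2⟩ := M4_proof SPEC_proof hAvg 3 le_rfl
  refine ⟨c1 + c2 + 21, fun L Λ hΛ ι _ _ E F ε hL h hF => ?_⟩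
  subst hL
  have hL := h.L2
  have hL1 := L1 h
  have hu := h.u1
  have hN := N1 h
  have hz := z0 h
  have hQ0 := Q0 hF
  have hQ := Q_le hF
  set M := E.L ^ (c1 + c2) with hM
  have hM1 : 1 ≤ M := one_le_pow₀ hL1
  have hΛ' : 262144 * (M * E.L ^ 3) ≤ Λ := by
    have h1 := pow_ge hL 18 3
    have h2 := mul_le_mul_of_nonneg_left h1 (show 0 ≤ M by linarith)
    rw [pow_add] at hΛ
    norm_num at h2
    linarith
  have hL4 : 4 * E.L ≤ E.L ^ 3 := by
    have := pow_ge hL 2 1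
    norm_num at this
    exact this
  have hML : E.L ^ 3 ≤ M * E.L ^ 3 := le_mul_of_one_le_left (by positivity) hM1
  refine ⟨?_, fun i j hp => (point hFlat h hF hp).2.trans ?_⟩
  swap
  · gcongr
    have : 0 ≤ E.L ^ 3 := by positivity
    linarith
  obtain ⟨⟨lam, O, hsp⟩, -, hS⟩ := SPEC_proof ι F hF.sy
  obtain ⟨-, s2', -, -, -, -, -, -, -, -, s11, -⟩ := hS lam O hsp
  have ham : am lam 3 ≤ E.u * (E.L * E.N) := by
    refine (s11 E.u (by linarith) hF.op 2).trans ?_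
    rw [s2' 2 (by norm_num)]
    gcongr
  have heta : 0 ≤ E.eta := by
    have := h.th0; have := h.D1'; have := h.Tf1
    unfold Env.eta
    positivity
  have heta2 : 0 ≤ E.eta2 := by
    unfold Env.eta2
    positivity
  have key : ∀ c : ℕ, c ≤ c1 + c2 → E.L ^ c * E.eta * E.N * (E.N + am lam 3) ≤
      M * E.L ^ 3 * (E.eta * E.u * E.N ^ 2) := by
    intro c hc
    have a1 : E.L ^ c ≤ M := pow_le_pow_right₀ hL1 hc
    have a2 : E.N + am lam 3 ≤ E.L ^ 3 * (E.u * E.N) := by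
      have b1 : 1 * (1 * E.N) ≤ E.L * (E.u * E.N) := by gcongr
      have b2 : (2 * E.L) * (E.u * E.N) ≤ E.L ^ 3 * (E.u * E.N) := by
        gcongr
        linarith
      linarith
    have a3 : 0 ≤ E.N + am lam 3 := by
      have := M3.am_nonneg lam 3
      linarith
    calc _ ≤ M * E.eta * E.N * (E.L ^ 3 * (E.u * E.N)) := by gcongr
      _ = _ := by ring
  have h1 := (hc1 ι E F ε lam O h hF hsp).trans (key c1 (by omega))
  have h2 := (hc2 ι E F ε lam O h hF hsp 0 1 rfl).trans (key c2 (by omega))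
  have e0 : ∑ x ∈ E.U, Nt F 0 x x = tk F 2 - E.N := by
    simp only [Nt, Matrix.sub_apply, sum_sub_distrib]
    rw [tk_U hF.toBas0 1]
    simp [Env.N]
  have e1 : ∑ x ∈ E.U, Nt F 1 x x = tk F 3 - tk F 1 := by
    simp only [Nt, Matrix.sub_apply, sum_sub_distrib]
    rw [tk_U hF.toBas0 2, tk_U hF.toBas0 0]
  rw [e0, e1] at h2
  have h3 := av_abs h (X := fun i j => tk (step F i j) 3 - tk F 3 - 3 * wtr F i j (Nt F 2) -
      3 * s2 (Nt F 0) (Nt F 1) i j)
    (Y := fun i j => 30000 * E.L ^ 3 * (E.z * E.u) * 2 + 128 * E.L ^ 2 * |(F ^ 2) i j|)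
    (fun i j => by positivity) (fun i j hp => (point hFlat h hF hp).1)
  rw [S2_add, S2_const, S2_mul, av_sub, av_sub, av_mul, av_mul] at h3
  have h4 := mul_le_mul_of_nonneg_left (S2_g h hF) (show 0 ≤ 128 * E.L ^ 2 by positivity)
  have t1 : |tk F 1| ≤ E.N * √(E.Tf / E.N) := by
    rw [← tk1_U hF, ← sqrt_div h, ← Real.sqrt_mul (by linarith)]
    exact (abs_sum_le_sum_abs _ _).trans (sum_abs_f hF)
  have t1' : |tk F 1| ≤ E.z * E.N := by
    rw [← tk1_U hF]
    refine (abs_sum_le_sum_abs _ _).trans ((sum_le_sum fun x _ => hF.dg x).trans (le_of_eq ?_))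
    simp [Env.N, mul_comm]
  have t2 : |trace (Nt F 2)| ≤ 2 * (E.u ^ 2 * (E.L * E.N)) := by
    have a1 : |trace (F ^ 4)| ≤ E.u ^ 2 * (E.L * E.N) :=
      (abs_sum_le_sum_abs _ _).trans ((sum_abs_diag h hF 2).trans (by gcongr))
    have a2 : |trace (F ^ 2)| ≤ E.u ^ 2 * (E.L * E.N) := by
      change |tk F 2| ≤ _
      rw [abs_of_nonneg hQ0]
      exact hQ.trans (le_mul_of_one_le_left (by positivity) (one_le_pow₀ hu))
    rw [Nt, trace_sub]
    exact (abs_sub_le' a1 a2).trans (le_of_eq (by ring))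
  have t3 : |tk F 2 - E.N| ≤ E.L * E.N := by
    have : 1 * E.N ≤ E.L * E.N := by gcongr
    rw [abs_le]
    constructor <;> linarith
  have h5 := abs_mul_le t1 t2
  have h6 := abs_mul_le t3 t1'
  have hL3 : E.L ≤ M * E.L ^ 3 := le_trans (by linarith) hML
  have k1 : E.L * (E.eta2 * E.u * E.N ^ 2) ≤ M * E.L ^ 3 * (E.eta2 * E.u * E.N ^ 2) := by gcongr
  have k1' : E.L * (E.eta2 * E.u * E.N ^ 2) =
      E.N * √(E.Tf / E.N) * (E.u ^ 2 * (E.L * E.N)) := by
    unfold Env.eta2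
    ring
  have k2 : E.L * (E.z * 1 * E.N ^ 2) ≤ M * E.L ^ 3 * (E.z * E.u * E.N ^ 2) := by gcongr
  have k3 : E.L ^ 3 * (E.z * E.u * E.N ^ 2) ≤ M * E.L ^ 3 * (E.z * E.u * E.N ^ 2) := by gcongr
  have k4 : E.L ^ 3 * (E.eta * E.u * E.N ^ 2) ≤ M * E.L ^ 3 * (E.eta * E.u * E.N ^ 2) := by gcongr
  have p1 : 0 ≤ M * E.L ^ 3 * (E.eta * E.u * E.N ^ 2) := by positivity
  have p2 : 0 ≤ M * E.L ^ 3 * (E.eta2 * E.u * E.N ^ 2) := by positivity
  have p3 : 0 ≤ M * E.L ^ 3 * (E.z * E.u * E.N ^ 2) := by positivity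
  have k5 : 262144 * (M * E.L ^ 3) * (E.eta + E.eta2 + E.z) * E.u * E.N ^ 2 ≤
      Λ * (E.eta + E.eta2 + E.z) * E.u * E.N ^ 2 := by gcongr
  simp only [Nat.reduceSub] at h1
  change |E.av (fun i j => s2 (Nt F 0) (Nt F 1) i j) - _| ≤ _ at h2
  obtain ⟨x1, x2⟩ := abs_le.1 h1
  obtain ⟨y1, y2⟩ := abs_le.1 h2
  obtain ⟨z1, z2⟩ := abs_le.1 h3
  obtain ⟨v1, v2⟩ := abs_le.1 h5
  obtain ⟨w1, w2⟩ := abs_le.1 h6
  rw [abs_le]
  constructor <;> linarith

end Crest.Agent.R62
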