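import Crest.Agent.R62.XB

/-! Row 62: drift of `tr (A A B B)`. -/

set_option autoImplicit false
set_option linter.unusedSectionVars false

namespace Crest.Agent.R62

open Matrix Finset

namespace X

open XA WS XB

variable {ι : Type} [Fintype ι] [DecidableEq ι]

theorem tr_cs (M N : Mat ι) : |trace (Mᵀ * N)| ≤ √(fro M) * √(fro N) := by
  refine le_trans ?_ (cs2 (fun i j => M i j) fun i j => N i j)
  have : trace (Mᵀ * N) = ∑ i, ∑ j, M i j * N i j := by
    simp only [trace, Matrix.diag, Matrix.mul_apply, transpose_apply]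
    exact sum_comm
  rw [this]
  refine (abs_sum_le_sum_abs _ _).trans (sum_le_sum fun i _ => ?_)
  refine (abs_sum_le_sum_abs _ _).trans (sum_le_sum fun j _ => (abs_mul _ _).le)

theorem tk_fro {A : Mat ι} (hA : Sy A) : tk A 2 = fro A := by
  rw [fro_eq, Sy.tr hA, tk, sq]

theorem cross {A B : Mat ι} (hA : Sy A) (hB : Sy B) :
    2 * (trace (A * A * B) * trace (A * B * B)) ≤ (tk A 2 + tk B 2) * Xc A B := by
  have h1 := tr_cs A (A * B)
  have h2 := tr_cs B (B * A)
  rw [Sy.tr hA, ← Xc_eq hB hA, Xc_comm B A, ← Matrix.mul_assoc] at h1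
  rw [Sy.tr hB, ← Xc_eq hA hB, ← Matrix.mul_assoc, trace_mul_comm, ← Matrix.mul_assoc] at h2
  rw [tk_fro hA, tk_fro hB]
  have X0 : 0 ≤ Xc A B := Xc_eq hA hB ▸ fro_nonneg _
  have h3 : trace (A * A * B) * trace (A * B * B) ≤
      (√(fro A) * √(Xc A B)) * (√(fro B) * √(Xc A B)) := by
    refine (le_abs_self _).trans ?_
    rw [abs_mul]
    exact mul_le_mul h1 h2 (abs_nonneg _) (by positivity)
  have a := Real.mul_self_sqrt (fro_nonneg A)
  have b := Real.mul_self_sqrt (fro_nonneg B)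
  have c := Real.mul_self_sqrt X0
  have d : 2 * (√(fro A) * √(fro B)) ≤ fro A + fro B := by
    nlinarith [sq_nonneg (√(fro A) - √(fro B))]
  have := mul_le_mul_of_nonneg_right d X0
  have e : (√(fro A) * √(Xc A B)) * (√(fro B) * √(Xc A B)) = √(fro A) * √(fro B) * Xc A B := by
    nth_rewrite 3 [← c]; ring
  linarith

end X

open XA WS XB X in
theorem X_proof (hXA : XAStmt) (hXB : XBStmt) (hXC : XCStmt) (_hAvg : AvgStmt) : XStmt := by
  obtain ⟨a, ha⟩ := hXA
  obtain ⟨b, hb⟩ := hXB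
  obtain ⟨c, hc⟩ := hXC
  refine ⟨a + b + c + 4, ?_⟩
  intro L Λ hΛ ι _ _ E A B ε ε' hEL hE hA hB
  subst hEL
  have hL := hE.L2
  have hL1 : 1 ≤ E.L := by linarith
  have hu := hE.u1
  have hN := N1 hE
  obtain ⟨z0, hz⟩ := z20 hE
  set M := E.L ^ (a + b + c) with hM
  have M1 : 1 ≤ M := one_le_pow₀ hL1
  have pa : E.L ^ a ≤ M := pow_le_pow_right₀ hL1 (by omega)
  have pb : E.L ^ b ≤ M := pow_le_pow_right₀ hL1 (by omega)
  have pc : E.L ^ c ≤ M := pow_le_pow_right₀ hL1 (by omega)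
  have p : 16 * M ≤ Λ := by
    refine le_trans ?_ hΛ
    have : (2 : ℝ) ^ 4 ≤ E.L ^ 4 := pow_le_pow_left₀ (by norm_num) hL 4
    rw [pow_add E.L (a + b + c) 4, ← hM]
    nlinarith
  have f1 := av_abs_const hE _ (E.L ^ a * (E.z * E.u ^ 2 + E.u)) (by positivity)
    (ha ι E A B ε ε' hE hA hB)
  have f2 := hb ι E A B ε ε' hE hA hB
  have f3 := hb ι E B A ε' ε hE hB hA
  have f4 := hc ι E A B ε ε' hE hA hB
  have f5 := hc ι E B A ε' ε hE hB hA
  have cr := cross hA.sy hB.sy
  have c1 : trace (B * B * A) = trace (A * B * B) := by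
    rw [trace_mul_comm]; simp only [Matrix.mul_assoc]
  have c2 : trace (B * A * A) = trace (A * A * B) := by
    rw [Matrix.mul_assoc, trace_mul_comm]
  have c3 : Om B A = Om A B := trace_mul_comm _ _
  rw [Xc_comm B A] at f3 f5
  rw [c1, c2, c3] at f5
  have X0 : 0 ≤ Xc A B := Xc_eq hA.sy hB.sy ▸ fro_nonneg _
  have e : E.av (fun i j => Xc (step A i j) (step B i j) - Xc A B) =
      E.av (fun i j => Xc (step A i j) (step B i j) - Xc A B + 2 - wtr A i j (xY A B)
        - wtr B i j (xY B A) - xS A B i j - xS B A i j) + -2 * E.Z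
        + E.av (fun i j => wtr A i j (xY A B)) + E.av (fun i j => wtr B i j (xY B A))
        + E.av (xS A B) + E.av (xS B A) := by
    rw [← av_const, ← av_add, ← av_add, ← av_add, ← av_add, ← av_add]
    congr 1
    funext i j
    ring
  have Z0 : 0 ≤ E.Z := sum_nonneg fun i _ => sum_nonneg fun j _ => by
    simpa using hE.p0 i j
  have k0 : 0 ≤ (E.eta + E.eta2) * E.N := by
    rw [← kap_u hE]
    unfold kap
    have := hE.th0
    have := hE.D1'
    have := hE.Tf1
    positivity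
  have e3 : 0 ≤ E.eta3 := by
    unfold Env.eta3
    have := hE.D1'
    positivity
  set r := (E.eta + E.eta2) * E.N * (Xc A B + E.N) with hr
  set s := E.eta3 * E.u ^ 2 * E.N ^ 2 with hs
  set t := E.z * E.u ^ 2 * E.N ^ 2 with ht
  set v := E.u * E.N ^ 2 with hv
  have r0 : 0 ≤ r := by positivity
  have s0 : 0 ≤ s := by positivity
  have t0 : 0 ≤ t := by positivity
  have v0 : 0 ≤ v := by positivity
  have h1 : 2 * (E.L ^ a * (E.z * E.u ^ 2 + E.u)) * E.N ^ 2 = 2 * (E.L ^ a * (t + v)) := by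
    rw [ht, hv]; ring
  have h2 : E.L ^ b * (E.eta + E.eta2) * E.N * (Xc A B + E.N) = E.L ^ b * r := by rw [hr]; ring
  have h3 : (E.eta3 + E.z) * E.u ^ 2 * E.N ^ 2 = s + t := by rw [hs, ht]; ring
  rw [h1] at f1
  rw [h2] at f2 f3
  rw [h3] at f4 f5 ⊢
  have m1 := mul_le_mul_of_nonneg_right pa (show 0 ≤ t + v by positivity)
  have m2 := mul_le_mul_of_nonneg_right pb r0
  have m3 := mul_le_mul_of_nonneg_right pc (show 0 ≤ s + t + v by positivity)
  have m4 := mul_le_mul_of_nonneg_right p (show 0 ≤ r + (s + t) + v by positivity)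
  have m5 : 0 ≤ M * r := by positivity
  have m6 : 0 ≤ M * s := by positivity
  have m7 : 0 ≤ M * t := by positivity
  have m8 : 0 ≤ M * v := by positivity
  rw [e]
  linarith [(abs_le.1 f1).2, (abs_le.1 f2).2, (abs_le.1 f3).2, (abs_le.1 f4).2, (abs_le.1 f5).2]

end Crest.Agent.R62
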