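import Crest.Agent.R62.M1

/-! Row 62: pointwise expansion of `tr (A A B B)` under one matching step. -/

set_option autoImplicit false
set_option linter.unusedSectionVars false

namespace Crest.Agent.R62

open Matrix Finset

namespace XA

open M1

variable {ι : Type} [Fintype ι] [DecidableEq ι]

/-- Squared row norms at most `R`. -/
def RowB (X : Mat ι) (R : ℝ) : Prop := ∀ x, ∑ y, X x y ^ 2 ≤ R
/-- Squared column norms at most `R`. -/
def ColB (X : Mat ι) (R : ℝ) : Prop := ∀ y, ∑ x, X x y ^ 2 ≤ R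

theorem op_one : Op (1 : Mat ι) 1 := by
  intro v; simp

theorem op_mul {A B : Mat ι} {u w : ℝ} (hA : Op A u) (hB : Op B w) : Op (A * B) (u * w) := by
  intro v
  rw [← Matrix.mulVec_mulVec]
  refine (hA _).trans ?_
  rw [mul_pow, mul_assoc]
  exact mul_le_mul_of_nonneg_left (hB v) (sq_nonneg _)

theorem ent {X M Y : Mat ι} {R m : ℝ} (hX : RowB X R) (hY : ColB Y R) (hM : Op M m) (hm : 0 ≤ m)
    (x y : ι) : |(X * M * Y) x y| ≤ R * m := by
  have hR : 0 ≤ R := (sum_nonneg fun _ _ => sq_nonneg _).trans (hX x)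
  have e : (X * M * Y) x y = ∑ k, X x k * (M *ᵥ fun l => Y l y) k := by
    rw [Matrix.mul_assoc, Matrix.mul_apply]
    rfl
  rw [e]
  refine abs_le_of_sq_le_sq' ?_ (mul_nonneg hR hm) |> abs_le.2
  refine (sum_mul_sq_le_sq_mul_sq _ _ _).trans ?_
  have h1 := (hM fun l => Y l y).trans (mul_le_mul_of_nonneg_left (hY y) (sq_nonneg _))
  calc _ ≤ R * (m ^ 2 * R) := mul_le_mul (hX x) h1 (sum_nonneg fun _ _ => sq_nonneg _) hR
    _ = _ := by ring

theorem ent1 {X Y : Mat ι} {R : ℝ} (hX : RowB X R) (hY : ColB Y R) (x y : ι) :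
    |(X * Y) x y| ≤ R := by
  simpa using ent hX hY op_one zero_le_one x y

theorem RowB.col {X : Mat ι} {R : ℝ} (h : RowB X R) (hs : ∀ x y, X x y = X y x) : ColB X R := by
  intro y
  simpa only [hs _ y] using h y

theorem rowB_shift {F : Mat ι} {L : ℝ} (h : ∀ x, rr F x ≤ L) (hL : 1 ≤ L) (s : ℝ) (hs : s ^ 2 = 1) :
    RowB (F + s • (1 : Mat ι)) (4 * L) := by
  intro x
  have h1 : ∑ y, (F + s • (1 : Mat ι)) x y ^ 2 ≤
      ∑ y, (2 * F x y ^ 2 + 2 * if x = y then 1 else 0) := by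
    refine sum_le_sum fun y _ => ?_
    simp only [Matrix.add_apply, Matrix.smul_apply, one_apply, smul_eq_mul]
    split_ifs
    · nlinarith [sq_nonneg (F x y - s)]
    · nlinarith [sq_nonneg (F x y)]
  rw [sum_add_distrib, ← mul_sum, ← mul_sum] at h1
  simp only [sum_ite_eq, mem_univ, if_true] at h1
  have := h x
  unfold rr at this
  linarith

theorem rowB_add {F : Mat ι} {L : ℝ} (h : ∀ x, rr F x ≤ L) (hL : 1 ≤ L) : RowB (F + 1) (4 * L) := by
  simpa using rowB_shift h hL 1 (by norm_num)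

theorem rowB_sub {F : Mat ι} {L : ℝ} (h : ∀ x, rr F x ≤ L) (hL : 1 ≤ L) : RowB (F - 1) (4 * L) := by
  simpa [sub_eq_add_neg] using rowB_shift h hL (-1) (by norm_num)

theorem colB_add {F : Mat ι} {L : ℝ} (hs : Sy F) (h : ∀ x, rr F x ≤ L) (hL : 1 ≤ L) :
    ColB (F + 1) (4 * L) :=
  (rowB_add h hL).col fun x y => by
    simp only [Matrix.add_apply, hs x y, one_apply, eq_comm]

theorem colB_sub {F : Mat ι} {L : ℝ} (hs : Sy F) (h : ∀ x, rr F x ≤ L) (hL : 1 ≤ L) :
    ColB (F - 1) (4 * L) :=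
  (rowB_sub h hL).col fun x y => by
    simp only [Matrix.sub_apply, hs x y, one_apply, eq_comm]

theorem VXU2 (F G X : Mat ι) (i j : ι) :
    Vm F i j * X * Um G i j = rs ((F - 1) * X * (G + 1)) i j := by
  ext a b
  simp only [rs, Vm, Um, Matrix.mul_apply, Matrix.of_apply]

theorem VU2 (F G : Mat ι) (i j : ι) : Vm F i j * Um G i j = rs ((F - 1) * (G + 1)) i j := by
  ext a b
  simp only [rs, Vm, Um, Matrix.mul_apply, Matrix.of_apply]

theorem bd_rs {X : Mat ι} {r : ℝ} (h : ∀ x y, |X x y| ≤ r) (i j : ι) : Bd (rs X i j) r :=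
  fun _ _ => h _ _

theorem two {W W' X Y : M2} {z r s : ℝ} (h1 : Bd (W - sg) (2 * z)) (h2 : Bd (W' - sg) (2 * z))
    (h3 : Bd W' 2) (h4 : Bd sg 1) (hX : Bd X r) (hY : Bd Y s) :
    |trace (W * X * W' * Y) - trace (sg * X * sg * Y)| ≤ 96 * z * r * s := by
  have e : trace (W * X * W' * Y) - trace (sg * X * sg * Y) =
      trace ((W - sg) * X * W' * Y) + trace (sg * X * (W' - sg) * Y) := by
    simp only [Matrix.sub_mul, Matrix.mul_sub, trace_sub]; ring
  rw [e]
  have a := (((h1.mul hX).mul h3).mul hY).trace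
  have b := (((h4.mul hX).mul h2).mul hY).trace
  refine (abs_add_le _ _).trans ?_
  linarith

theorem three {W₁ W₂ W₃ X Y Z : M2} {r s t : ℝ} (h1 : Bd W₁ 2) (h2 : Bd W₂ 2) (h3 : Bd W₃ 2)
    (hX : Bd X r) (hY : Bd Y s) (hZ : Bd Z t) :
    |trace (W₁ * X * W₂ * Y * W₃ * Z)| ≤ 512 * r * s * t := by
  have a := (((((h1.mul hX).mul h2).mul hY).mul h3).mul hZ).trace
  linarith

theorem four {W₁ W₂ W₃ W₄ X Y Z T : M2} {r : ℝ} (h1 : Bd W₁ 2) (h2 : Bd W₂ 2) (h3 : Bd W₃ 2)
    (h4 : Bd W₄ 2) (hX : Bd X r) (hY : Bd Y r) (hZ : Bd Z r) (hT : Bd T r) :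
    |trace (W₁ * X * W₂ * Y * W₃ * Z * W₄ * T)| ≤ 4096 * r ^ 4 := by
  have a := (((((((h1.mul hX).mul h2).mul hY).mul h3).mul hZ).mul h4).mul hT).trace
  linarith

theorem s2_bd {X Y : Mat ι} {r s : ℝ} (hX : ∀ x y, |X x y| ≤ r) (hY : ∀ x y, |Y x y| ≤ s)
    (i j : ι) : |s2 X Y i j| ≤ 4 * r * s := by
  have hr : 0 ≤ r := (abs_nonneg _).trans (hX i i)
  have t : ∀ a b c d, |X a b * Y c d| ≤ r * s := fun a b c d => by
    rw [abs_mul]; exact mul_le_mul (hX _ _) (hY _ _) (abs_nonneg _) hr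
  have t1 := abs_le.1 (t i i j j)
  have t2 := abs_le.1 (t j j i i)
  have t3 := abs_le.1 (t i j i j)
  have t4 := abs_le.1 (t j i j i)
  unfold s2
  rw [abs_le]
  constructor <;> linarith [t1.1, t1.2, t2.1, t2.2, t3.1, t3.2, t4.1, t4.2]

theorem s2_tr (X Y : Mat ι) (i j : ι) : s2 Xᵀ Yᵀ i j = s2 X Y i j := by
  simp only [s2, transpose_apply]; ring

theorem s2_comm (X Y : Mat ι) (i j : ι) : s2 X Y i j = s2 Y X i j := by
  simp only [s2]; ring

theorem Sy.tr {F : Mat ι} (h : Sy F) : Fᵀ = F := by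
  ext x y; exact h y x

local macro "rot" : tactic =>
  `(tactic| (simp only [Matrix.mul_assoc]
             first
             | done
             | (rw [trace_mul_comm]; simp only [Matrix.mul_assoc]; done)
             | (rw [trace_mul_comm]; simp only [Matrix.mul_assoc]
                rw [trace_mul_comm]; simp only [Matrix.mul_assoc]; done)
             | (rw [trace_mul_comm]; simp only [Matrix.mul_assoc]
                rw [trace_mul_comm]; simp only [Matrix.mul_assoc]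
                rw [trace_mul_comm]; simp only [Matrix.mul_assoc]; done)
             | (rw [trace_mul_comm]; simp only [Matrix.mul_assoc]
                rw [trace_mul_comm]; simp only [Matrix.mul_assoc]
                rw [trace_mul_comm]; simp only [Matrix.mul_assoc]
                rw [trace_mul_comm]; simp only [Matrix.mul_assoc]; done)))

theorem expand (A B : Mat ι) (U U' : Matrix ι (Fin 2) ℝ) (V V' : Matrix (Fin 2) ι ℝ) (W W' : M2) :
    trace ((A + U * W * V) * ((A + U * W * V) * ((B + U' * W' * V') * (B + U' * W' * V')))) =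
      trace (A * A * B * B)
      + trace (W * (V * (A * B * B + B * B * A) * U))
      + trace (W' * (V' * (B * A * A + A * A * B) * U'))
      + trace (W * (V * U) * W * (V * (B * B) * U))
      + trace (W * (V * U') * W' * (V' * (B * A) * U))
      + trace (W * (V * A * U') * W' * (V' * B * U))
      + trace (W' * (V' * U') * W' * (V' * (A * A) * U'))
      + trace (W' * (V' * U) * W * (V * (A * B) * U'))
      + trace (W * (V * B * U') * W' * (V' * A * U))
      + trace (W * (V * U) * W * (V * U') * W' * (V' * B * U))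
      + trace (W * (V * U) * W * (V * B * U') * W' * (V' * U))
      + trace (W * (V * A * U') * W' * (V' * U') * W' * (V' * U))
      + trace (W * (V * U') * W' * (V' * U') * W' * (V' * A * U))
      + trace (W * (V * U) * W * (V * U') * W' * (V' * U') * W' * (V' * U)) := by
  set P := U * W * V with hP
  set Q := U' * W' * V' with hQ
  have e1 : trace (P * (A * (B * B))) = trace (W * (V * (A * B * B) * U)) := by rw [hP]; rot
  have e2 : trace (A * (P * (B * B))) = trace (W * (V * (B * B * A) * U)) := by rw [hP]; rot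
  have e3 : trace (A * (A * (Q * B))) = trace (W' * (V' * (B * A * A) * U')) := by rw [hQ]; rot
  have e4 : trace (A * (A * (B * Q))) = trace (W' * (V' * (A * A * B) * U')) := by rw [hQ]; rot
  have e5 : trace (P * (P * (B * B))) = trace (W * (V * U) * W * (V * (B * B) * U)) := by
    rw [hP]; rot
  have e6 : trace (A * (P * (Q * B))) = trace (W * (V * U') * W' * (V' * (B * A) * U)) := by
    rw [hP, hQ]; rot
  have e7 : trace (P * (A * (Q * B))) = trace (W * (V * A * U') * W' * (V' * B * U)) := by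
    rw [hP, hQ]; rot
  have e8 : trace (A * (A * (Q * Q))) = trace (W' * (V' * U') * W' * (V' * (A * A) * U')) := by
    rw [hQ]; rot
  have e9 : trace (P * (A * (B * Q))) = trace (W' * (V' * U) * W * (V * (A * B) * U')) := by
    rw [trace_mul_comm (W' * (V' * U) * W), hP, hQ]
    simp only [Matrix.mul_assoc]
    rw [trace_mul_comm U]
    simp only [Matrix.mul_assoc]
    rw [trace_mul_comm W]
    simp only [Matrix.mul_assoc]
  have e10 : trace (A * (P * (B * Q))) = trace (W * (V * B * U') * W' * (V' * A * U)) := by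
    rw [hP, hQ]; rot
  have e11 : trace (P * (P * (Q * B))) =
      trace (W * (V * U) * W * (V * U') * W' * (V' * B * U)) := by rw [hP, hQ]; rot
  have e12 : trace (P * (P * (B * Q))) =
      trace (W * (V * U) * W * (V * B * U') * W' * (V' * U)) := by rw [hP, hQ]; rot
  have e13 : trace (P * (A * (Q * Q))) =
      trace (W * (V * A * U') * W' * (V' * U') * W' * (V' * U)) := by rw [hP, hQ]; rot
  have e14 : trace (A * (P * (Q * Q))) =
      trace (W * (V * U') * W' * (V' * U') * W' * (V' * A * U)) := by rw [hP, hQ]; rot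
  have e15 : trace (P * (P * (Q * Q))) =
      trace (W * (V * U) * W * (V * U') * W' * (V' * U') * W' * (V' * U)) := by rw [hP, hQ]; rot
  have e0 : trace (A * (A * (B * B))) = trace (A * A * B * B) := by simp only [Matrix.mul_assoc]
  simp only [Matrix.mul_add, Matrix.add_mul, trace_add, e0, e1, e2, e3, e4, e5, e6, e7, e8, e9, e10,
    e11, e12, e13, e14, e15]
  ring

end XA

open XA M1 in
theorem XA_proof (hF : FlatStmt) (hAvg : AvgStmt) : XAStmt := by
  refine ⟨30, ?_⟩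
  intro ι _ _ E A B ε ε' hE hA hB i j hp
  have hij : i ≠ j := ((hAvg ι E hE).2.2.2.2.2.2.2.2.2.2.2.2.2.1 i j hp).2.2
  have hL := hE.L2
  have hL1 : 1 ≤ E.L := by linarith
  have hu := hE.u1
  have hu0 : 0 ≤ E.u := by linarith
  have z0 : 0 ≤ E.z := hE.z0.trans hE.zz
  have hz : E.z ≤ 1 / 20 := by nlinarith [hE.zL]
  obtain ⟨dA, wA, hsg, wA2⟩ := W_bd A i j E.z (hA.dg i) (hA.dg j) (hA.ad i j hp).1 hz
  obtain ⟨dB, wB, -, wB2⟩ := W_bd B i j E.z (hB.dg i) (hB.dg j) (hB.ad i j hp).1 hz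
  have hfl := hF ι i j [A, A, B, B] hij (by simp) (by
    intro G hG
    simp only [List.mem_cons, List.not_mem_nil, or_false] at hG
    rcases hG with rfl | rfl | rfl | rfl
    · exact ⟨hA.sy, by linarith⟩
    · exact ⟨hA.sy, by linarith⟩
    · exact ⟨hB.sy, by linarith⟩
    · exact ⟨hB.sy, by linarith⟩)
  simp only [List.map_cons, List.map_nil, List.prod_cons, List.prod_nil, mul_one, List.length_cons,
    List.length_nil, flat_eq] at hfl
  rw [expand] at hfl
  simp only [VXU2, VU2, tr_W] at hfl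
  have rA := rowB_sub hA.ro hL1
  have rB := rowB_sub hB.ro hL1
  have cA := colB_add hA.sy hA.ro hL1
  have cB := colB_add hB.sy hB.ro hL1
  have oA := hA.op
  have oB := hB.op
  have huu : 0 ≤ E.u * E.u := mul_nonneg hu0 hu0
  have t1 := two wA wA wA2 hsg (bd_rs (ent1 rA cA) i j) (bd_rs (ent rA cA (op_mul oB oB) huu) i j)
  have t2 := two wA wB wB2 hsg (bd_rs (ent1 rA cB) i j) (bd_rs (ent rB cA (op_mul oB oA) huu) i j)
  have t3 := two wA wB wB2 hsg (bd_rs (ent rA cB oA hu0) i j) (bd_rs (ent rB cA oB hu0) i j)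
  have t4 := two wB wB wB2 hsg (bd_rs (ent1 rB cB) i j) (bd_rs (ent rB cB (op_mul oA oA) huu) i j)
  have t5 := two wB wA wA2 hsg (bd_rs (ent1 rB cA) i j) (bd_rs (ent rA cB (op_mul oA oB) huu) i j)
  have t6 := two wA wB wB2 hsg (bd_rs (ent rA cB oB hu0) i j) (bd_rs (ent rB cA oA hu0) i j)
  have t7 := three wA2 wA2 wB2 (bd_rs (ent1 rA cA) i j) (bd_rs (ent1 rA cB) i j)
    (bd_rs (ent rB cA oB hu0) i j)
  have t8 := three wA2 wA2 wB2 (bd_rs (ent1 rA cA) i j) (bd_rs (ent rA cB oB hu0) i j)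
    (bd_rs (ent1 rB cA) i j)
  have t9 := three wA2 wB2 wB2 (bd_rs (ent rA cB oA hu0) i j) (bd_rs (ent1 rB cB) i j)
    (bd_rs (ent1 rB cA) i j)
  have t10 := three wA2 wB2 wB2 (bd_rs (ent1 rA cB) i j) (bd_rs (ent1 rB cB) i j)
    (bd_rs (ent rB cA oA hu0) i j)
  have t11 := four wA2 wA2 wB2 wB2 (bd_rs (ent1 rA cA) i j) (bd_rs (ent1 rA cB) i j)
    (bd_rs (ent1 rB cB) i j) (bd_rs (ent1 rB cA) i j)
  simp only [tr_s] at t1 t2 t3 t4 t5 t6
  -- the swapped pair
  have sw : |s2 ((A - 1) * B * (B + 1)) ((B - 1) * A * (A + 1)) i j -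
      s2 ((B - 1) * B * (A + 1)) ((A - 1) * A * (B + 1)) i j| ≤ 128 * E.L ^ 2 * E.u := by
    rw [← s2_tr ((B - 1) * B * (A + 1))]
    simp only [transpose_mul, transpose_add, transpose_sub, transpose_one, XA.Sy.tr hA.sy,
      XA.Sy.tr hB.sy, ← Matrix.mul_assoc]
    have a1 : (A - 1) * B * (B + 1) - (A + 1) * B * (B - 1) = (A * B + A * B) - (B * B + B * B) := by
      noncomm_ring
    have a2 : (B - 1) * A * (A + 1) - (B + 1) * A * (A - 1) = (B * A + B * A) - (A * A + A * A) := by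
      noncomm_ring
    have e : s2 ((A - 1) * B * (B + 1)) ((B - 1) * A * (A + 1)) i j -
        s2 ((A + 1) * B * (B - 1)) ((B + 1) * A * (A - 1)) i j =
        s2 ((A - 1) * B * (B + 1) - (A + 1) * B * (B - 1)) ((B - 1) * A * (A + 1)) i j +
        s2 ((A + 1) * B * (B - 1)) ((B - 1) * A * (A + 1) - (B + 1) * A * (A - 1)) i j := by
      simp only [s2, Matrix.sub_apply]; ring
    rw [e, a1, a2]
    have r0A : RowB A E.L := hA.ro
    have r0B : RowB B E.L := hB.ro
    have c0A := r0A.col hA.sy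
    have c0B := r0B.col hB.sy
    have d : ∀ X Y : Mat ι, (∀ x y, |X x y| ≤ E.L) → (∀ x y, |Y x y| ≤ E.L) →
        ∀ x y, |((X + X) - (Y + Y)) x y| ≤ 4 * E.L := by
      intro X Y hX hY x y
      have := abs_le.1 (hX x y)
      have := abs_le.1 (hY x y)
      simp only [Matrix.sub_apply, Matrix.add_apply]
      rw [abs_le]; constructor <;> linarith
    have b1 := s2_bd (d _ _ (ent1 r0A c0B) (ent1 r0B c0B)) (ent rB cA oA hu0) i j
    have b2 := s2_bd (ent (rowB_add hA.ro hL1) (colB_sub hB.sy hB.ro hL1) oB hu0)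
      (d _ _ (ent1 r0B c0A) (ent1 r0A c0A)) i j
    refine (abs_add_le _ _).trans ?_
    linarith
  have hX : Xc (step A i j) (step B i j) =
      trace (step A i j * (step A i j * (step B i j * step B i j))) := by
    simp only [Xc, Matrix.mul_assoc]
  have p2 : (2 : ℝ) ^ 26 ≤ E.L ^ 26 := pow_le_pow_left₀ (by norm_num) hL 26
  have q2 : E.L ^ 2 ≤ E.L ^ 4 := pow_le_pow_right₀ hL1 (by norm_num)
  have q3 : E.L ^ 3 ≤ E.L ^ 4 := pow_le_pow_right₀ hL1 (by norm_num)
  have q4 : 0 ≤ E.L ^ 4 := by positivity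
  have q5 : 2 ^ 26 * E.L ^ 4 ≤ E.L ^ 30 := by
    rw [show E.L ^ 30 = E.L ^ 26 * E.L ^ 4 by ring]
    exact mul_le_mul_of_nonneg_right p2 q4
  have zu : 0 ≤ E.z * E.u ^ 2 := by positivity
  have m1 : E.L ^ 2 * (E.z * E.u ^ 2) ≤ E.L ^ 4 * (E.z * E.u ^ 2) :=
    mul_le_mul_of_nonneg_right q2 zu
  have m2 : E.L ^ 2 * E.u ≤ E.L ^ 4 * E.u := mul_le_mul_of_nonneg_right q2 hu0
  have m3 : E.L ^ 3 * E.u ≤ E.L ^ 4 * E.u := mul_le_mul_of_nonneg_right q3 hu0
  have m4 : E.L ^ 4 ≤ E.L ^ 4 * E.u := le_mul_of_one_le_right q4 hu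
  have m5 : 2 ^ 26 * E.L ^ 4 * (E.z * E.u ^ 2 + E.u) ≤ E.L ^ 30 * (E.z * E.u ^ 2 + E.u) :=
    mul_le_mul_of_nonneg_right q5 (by positivity)
  have m6 : 0 ≤ E.L ^ 4 * (E.z * E.u ^ 2) := by positivity
  have m7 : 0 ≤ E.L ^ 4 * E.u := by positivity
  rw [hX, hfl]
  simp only [Xc, xY, xS]
  rw [abs_le] at t1 t2 t3 t4 t5 t6 t7 t8 t9 t10 t11 sw ⊢
  norm_num only
  constructor <;> linarith [t1.1, t1.2, t2.1, t2.2, t3.1, t3.2, t4.1, t4.2, t5.1, t5.2, t6.1, t6.2,
    t7.1, t7.2, t8.1, t8.2, t9.1, t9.2, t10.1, t10.2, t11.1, t11.2, sw.1, sw.2]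

end Crest.Agent.R62
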