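import Crest.Agent.R62.WS

/-! Row 62: first-order term of `tr (A A B B)`. -/

set_option autoImplicit false
set_option linter.unusedSectionVars false

namespace Crest.Agent.R62

open Matrix Finset

namespace XB

open XA WS

variable {ι : Type} [Fintype ι] [DecidableEq ι]

theorem fro_eq (X : Mat ι) : fro X = trace (Xᵀ * X) := by
  simp only [fro, trace, Matrix.diag, Matrix.mul_apply, transpose_apply, sq]
  exact sum_comm

theorem Xc_eq {A B : Mat ι} (hA : Sy A) (hB : Sy B) : Xc A B = fro (B * A) := by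
  rw [fro_eq, transpose_mul, Sy.tr hA, Sy.tr hB, Xc]
  simp only [Matrix.mul_assoc]
  rw [trace_mul_comm A (B * (B * A)), trace_mul_comm A (A * (B * B))]
  simp only [Matrix.mul_assoc]
  rw [trace_mul_comm A (B * (B * A))]
  simp only [Matrix.mul_assoc]

theorem Xc_comm (A B : Mat ι) : Xc A B = Xc B A := by
  simp only [Xc]
  rw [Matrix.mul_assoc (A * A), trace_mul_comm, ← Matrix.mul_assoc]

theorem fro_shift (A B : Mat ι) (s : ℝ) (hs : s ^ 2 = 1) :
    fro (B * (A + s • (1 : Mat ι))) ≤ 2 * fro (B * A) + 2 * fro B := by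
  simp only [fro, mul_sum, ← sum_add_distrib]
  refine sum_le_sum fun x _ => sum_le_sum fun y _ => ?_
  rw [Matrix.mul_add, Matrix.mul_smul, Matrix.mul_one, Matrix.add_apply, Matrix.smul_apply,
    smul_eq_mul]
  nlinarith [sq_nonneg ((B * A) x y - s * B x y)]

end XB

open XA WS XB in
theorem XB_proof (_hAvg : AvgStmt) : XBStmt := by
  refine ⟨7, ?_⟩
  intro ι _ _ E A B ε ε' hE hA hB
  have hL := hE.L2
  have hu := hE.u1
  have hN := N1 hE
  have tA := Sy.tr hA.sy
  have tB := Sy.tr hB.sy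
  have hX := Xc_eq hA.sy hB.sy
  set X := Xc A B
  have X0 : 0 ≤ X := hX ▸ fro_nonneg _
  have fB : fro B ≤ E.L * E.N := fro_le (U := E.U) hB.su (R := E.L) hB.ro
  have oa : Op (A + 1)ᵀ (2 * E.u) := by
    rw [transpose_add, transpose_one, tA]; exact op_add hA.op hu
  have os : Op (A - 1)ᵀ (2 * E.u) := by
    rw [transpose_sub, transpose_one, tA]; exact op_sub hA.op hu
  have s1 : ∀ M : Mat ι, Op Mᵀ (2 * E.u) → √(fro (B * A * M)) ≤ 2 * E.u * √(X + E.N) := by
    intro M hM
    refine Real.sqrt_le_iff.2 ⟨by positivity, (fro_mul _ _ hM).trans ?_⟩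
    rw [mul_pow (2 * E.u), Real.sq_sqrt (by linarith), ← hX]
    exact mul_le_mul_of_nonneg_left (by linarith) (sq_nonneg _)
  have s2 : ∀ s : ℝ, s ^ 2 = 1 → √(fro (B * (A + s • (1 : Mat ι)))) ≤ E.L * √(X + E.N) := by
    intro s hs
    refine Real.sqrt_le_iff.2 ⟨by positivity, (fro_shift A B s hs).trans ?_⟩
    rw [mul_pow, Real.sq_sqrt (by linarith), ← hX]
    have : 2 * E.L ≤ E.L ^ 2 := by nlinarith
    nlinarith
  have s2a : √(fro (B * (A + 1))) ≤ E.L * √(X + E.N) := by simpa using s2 1 (by norm_num)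
  have s2b : √(fro (B * (A - 1))) ≤ E.L * √(X + E.N) := by
    simpa [sub_eq_add_neg] using s2 (-1) (by norm_num)
  have e1 : (B * A * (A - 1))ᵀ * (B * (A + 1)) = (A - 1) * (A * B * B * (A + 1)) := by
    simp only [transpose_mul, transpose_sub, transpose_one, tA, tB, Matrix.mul_assoc]
  have e2 : (B * (A - 1))ᵀ * (B * A * (A + 1)) = (A - 1) * (B * B * A * (A + 1)) := by
    simp only [transpose_mul, transpose_sub, transpose_one, tA, tB, Matrix.mul_assoc]
  have w1 := wtr_av hE hA _ _ _ _ (s1 _ os) s2a (by rw [e1]; exact sum_zero hA.toBas0 _)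
  have w2 := wtr_av hE hA _ _ _ _ s2b (s1 _ oa) (by rw [e2]; exact sum_zero hA.toBas0 _)
  rw [e1] at w1
  rw [e2] at w2
  have e : (E.av fun i j => wtr A i j (xY A B)) =
      (E.av fun i j => wtr A i j ((A - 1) * (A * B * B * (A + 1)))) +
      E.av fun i j => wtr A i j ((A - 1) * (B * B * A * (A + 1))) := by
    rw [← av_add]
    congr 1
    funext i j
    have : xY A B = (A - 1) * (A * B * B * (A + 1)) + (A - 1) * (B * B * A * (A + 1)) := by
      simp only [xY, Matrix.mul_add (A - 1), Matrix.add_mul _ _ (A + 1), Matrix.mul_assoc]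
    rw [this]
    simp only [wtr, Matrix.add_apply]
    ring
  rw [e]
  refine (abs_add_le _ _).trans ((add_le_add w1 w2).trans ?_)
  have q : √(X + E.N) * √(X + E.N) = X + E.N := Real.mul_self_sqrt (by linarith)
  have k := kap_u hE
  have k0 : 0 ≤ (E.eta + E.eta2) * E.N := by
    rw [← k]
    unfold kap
    have := hE.th0
    have := hE.D1'
    have := hE.Tf1
    positivity
  have p : 32 * E.L ^ 2 ≤ E.L ^ 7 := by
    have : (2 : ℝ) ^ 5 ≤ E.L ^ 5 := pow_le_pow_left₀ (by norm_num) hL 5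
    nlinarith [sq_nonneg E.L]
  calc _ = 32 * E.L ^ 2 * (kap E * E.u) * (√(X + E.N) * √(X + E.N)) := by ring
    _ = 32 * E.L ^ 2 * (((E.eta + E.eta2) * E.N) * (X + E.N)) := by rw [k, q]; ring
    _ ≤ E.L ^ 7 * (((E.eta + E.eta2) * E.N) * (X + E.N)) :=
      mul_le_mul_of_nonneg_right p (by positivity)
    _ = _ := by ring

end Crest.Agent.R62
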