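import Crest.Agent.R62.ALG
import Crest.Agent.R62.AVG
import Crest.Agent.R62.FLAT
import Crest.Agent.R62.SPEC
import Crest.Agent.R62.M1
import Crest.Agent.R62.XA
import Crest.Agent.R62.P2
import Crest.Agent.R62.PP
import Crest.Agent.R62.T2
import Crest.Agent.R62.T3
import Crest.Agent.R62.F8
import Crest.Agent.R62.BP
import Crest.Agent.R62.B1
import Crest.Agent.R62.MOM
import Crest.Agent.R62.T2C
import Crest.Agent.R62.OM
import Crest.Agent.R62.F2
import Crest.Agent.R62.M3
import Crest.Agent.R62.M4
import Crest.Agent.R62.XC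
import Crest.Agent.R62.XB
import Crest.Agent.R62.X
import Crest.Agent.R62.B2
import Crest.Agent.R62.T1
import Crest.Agent.R62.T2B
import Crest.Agent.R62.POT
import Crest.Agent.R62.ENV
import Crest.Agent.R62.SM1
import Crest.Agent.R62.SM2
import Crest.Agent.R62.LAS
import Crest.Agent.R62.LAP
import Crest.Agent.R62.LAF
import Crest.Agent.R62.INIT
import Crest.Agent.R62.O1A
import Crest.Agent.R62.O1B
import Crest.Agent.R62.O1C
import Crest.Agent.R62.O1D
import Crest.Agent.R62.O1E
import Crest.Agent.R62.O1X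
import Crest.Agent.R62.O2A
import Crest.Agent.R62.O2B
import Crest.Agent.R62.O2C
import Crest.Agent.R62.O2D
import Crest.Agent.R62.STEP1
import Crest.Agent.R62.STEP2
import Crest.Agent.R62.STEP3
import Crest.Agent.R62.SW
import Crest.Agent.R62.CONST
import Crest.Agent.R62.PH
import Crest.Agent.R62.BR
import Crest.Agent.R62.COMB
import Crest.Agent.R62.OUT
import Crest.Agent.R62.P4
import Crest.Agent.R62.RUN4
import Crest.Agent.R62.PAR
import Crest.Agent.R62.HT
import Crest.Agent.R62.RUN
import Crest.Agent.R62.PT1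
import Crest.Agent.R62.PT2
import Crest.Agent.R62.PT3
import Crest.Agent.R62.FIN

/-! Row 62: assembly. -/

set_option autoImplicit false

namespace Crest.Agent.R62

open Finset Matrix
open Classical

theorem const_all : ConstStmt :=
  have hB1 := B1_proof AVG_proof
  have hB2 := B2_proof AVG_proof
  CONST_proof (T1_proof ALG_proof AVG_proof) (T2_proof ALG_proof AVG_proof)
    (T2B_proof ALG_proof AVG_proof) (T3_proof FLAT_proof AVG_proof)
    (MOM_proof (M1_proof FLAT_proof SPEC_proof) (M3_proof SPEC_proof AVG_proof)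
      (M4_proof SPEC_proof AVG_proof) SPEC_proof AVG_proof)
    (OM_proof FLAT_proof AVG_proof)
    (X_proof (XA_proof FLAT_proof AVG_proof) (XB_proof AVG_proof) (XC_proof AVG_proof) AVG_proof)
    (F2_proof AVG_proof) (F8_proof AVG_proof) (P2_proof ALG_proof AVG_proof hB1 hB2)
    (PP_proof ALG_proof AVG_proof hB1 hB2 (BP_proof AVG_proof)) (T2C_proof ALG_proof)

theorem o1_all (k : ℕ) (hk : k < 11) : O1Stmt k := by
  have hS := SM1_proof AVG_proof
  have hC := CROSS_proof SPEC_proof
  interval_cases k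
  · exact O1_0_proof hS AVG_proof POT_proof hC
  · exact O1_1_proof hS AVG_proof POT_proof hC
  · exact O1_2_proof hS AVG_proof POT_proof
  · exact O1_3_proof hS AVG_proof POT_proof
  · exact O1_4_proof hS AVG_proof POT_proof
  · exact O1_5_proof hS AVG_proof POT_proof
  · exact O1_6_proof hS AVG_proof POT_proof
  · exact O1_7_proof hS AVG_proof POT_proof
  · exact O1_8_proof hS AVG_proof POT_proof
  · exact O1_9_proof hS AVG_proof POT_proof
  · exact O1_10_proof hS AVG_proof POT_proof

theorem o2_all (k : ℕ) (hk : k < 8) : O2Stmt k := by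
  have hS := SM2_proof AVG_proof
  have hC := CROSS_proof SPEC_proof
  interval_cases k
  · exact O2_0_proof hS AVG_proof POT_proof hC
  · exact O2_1_proof hS AVG_proof POT_proof hC
  · exact O2_2_proof hS AVG_proof POT_proof
  · exact O2_3_proof hS AVG_proof POT_proof
  · exact O2_4_proof hS AVG_proof POT_proof
  · exact O2_5_proof hS AVG_proof POT_proof
  · exact O2_6_proof hS AVG_proof POT_proof
  · exact O2_7_proof hS AVG_proof POT_proof

theorem all_proof (d : ℕ) (hd : 3 ≤ d) :
    ∃ n₀ : ℕ, ∃ F : List Bool → List Bool, Crest.Complexity.PolyTime F ∧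
      ∀ n : ℕ, n₀ ≤ n → Even n →
        (Crest.CombinatoricsR.GraphCode.adjGraph n
            (F (Crest.CombinatoricsR.GraphCode.unary n))).IsRegularOfDegree d ∧
        ∀ x : Fin n → ℝ, ∑ i, x i = 0 → x ≠ 0 →
          |x ⬝ᵥ ((Crest.CombinatoricsR.GraphCode.adjGraph n
              (F (Crest.CombinatoricsR.GraphCode.unary n))).adjMatrix ℝ *ᵥ x)| <
            2 * Real.sqrt ((d : ℝ) - 1) * (x ⬝ᵥ x) :=
  have hP := PAR_proof const_all INIT_proof COMB_proof
  have h1 := STEP1_proof ENV_proof SPEC_proof o1_all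
    (O1X_proof (SM1_proof AVG_proof) AVG_proof POT_proof) AVG_proof POT_proof
  have h2 := STEP2_proof ENV_proof SPEC_proof o2_all AVG_proof POT_proof
  FIN_proof hP
    (RUN_proof (PH_proof h1 h2 STEP3_proof SW_proof) BR_proof COMB_proof SEL_proof hP
      (HT_proof LAP_proof COMB_proof hP) (LAS_proof ALG_proof) LAP_proof)
    (RUN4_proof COMB_proof SEL_proof (P4_proof COMB_proof)) SW_proof LAF_proof COMB_proof OUT_proof
    (PT3_proof (PT2_proof PT1_proof)) d hd

end Crest.Agent.R62
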