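import Mathlib

/-!
Row 62 (S0084): deterministic non-bipartite Ramanujan graphs. Analysis layer.

Half-edges `ι`, free half-edges `U`, `N = |U|`. For each sign `ε = ±1` a symmetric matrix `F`
supported on `U × U` with `F 1_U = 1_U`. Matching `i, j` replaces `F` by the Schur complement
`step F i j = F_RR + F_RS W F_SR`, `W = (σ - F_SS)⁻¹ = [[b, 1-c],[1-c, a]] / Δ`, where
`a = F i i`, `b = F j j`, `c = F i j`, `Δ = Dl F i j`, `α = (1-c)/Δ`, `σ` = swap.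
Notation in the sketches: `r_x = rr F x`, `ρ = r - 1`, `rb = max r 1`, `g = (F^2) i j`,
`h = (F^3) i j`, `h_i = (F^3) i i`, `Q = tk F 2`, `φ_i = F x i`, `ψ_i = (F^2) x i`,
`D₁ = E.D1`. On the support of `p`: `|a|,|b|,|c| ≤ z ≤ 1/20`, so `Δ ∈ [0.9,1.11]`,
`|α-1| ≤ 2(|c|+|ab|)`, `|1/Δ-1| ≤ 3(|c|+|ab|)`, `|α²-1-2c| ≤ 10(c²+|ab|)`.
Numeric constants are absorbed in `L^c` (`2 ≤ L`).
-/

set_option autoImplicit false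

namespace Crest.Agent.R62

open Matrix Finset

abbrev Mat (ι : Type) := Matrix ι ι ℝ

section
variable {ι : Type} [Fintype ι] [DecidableEq ι]

/-- `Δ = -det (σ - F_SS)`. -/
def Dl (F : Mat ι) (i j : ι) : ℝ := (1 - F i j) ^ 2 - F i i * F j j

/-- The bilinear form `(p₁,p₂) W (q₁,q₂)ᵀ`. -/
noncomputable def wf (F : Mat ι) (i j : ι) (p₁ p₂ q₁ q₂ : ℝ) : ℝ :=
  (F j j * p₁ * q₁ + F i i * p₂ * q₂ + (1 - F i j) * (p₁ * q₂ + p₂ * q₁)) / Dl F i j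

/-- Schur complement after matching `i` with `j` (rows and columns `i, j` are set to zero). -/
noncomputable def step (F : Mat ι) (i j : ι) : Mat ι := Matrix.of fun x y =>
  if x = i ∨ x = j ∨ y = i ∨ y = j then 0 else F x y + wf F i j (F x i) (F x j) (F y i) (F y j)

/-- The rank-two update `F + (F+1) E W Eᵀ (F-1)`, block triangular with blocks `-1, step, 1`. -/
noncomputable def flat (F : Mat ι) (i j : ι) : Mat ι := Matrix.of fun x y =>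
  F x y + wf F i j ((F + 1) x i) ((F + 1) x j) ((F - 1) i y) ((F - 1) j y)

/-- `tr (W X_SS)`. -/
noncomputable def wtr (F : Mat ι) (i j : ι) (X : Mat ι) : ℝ :=
  (F j j * X i i + F i i * X j j + (1 - F i j) * (X i j + X j i)) / Dl F i j

/-- `tr (σ X_SS σ Y_SS)`. -/
def s2 (X Y : Mat ι) (i j : ι) : ℝ :=
  X i i * Y j j + X j j * Y i i + X i j * Y i j + X j i * Y j i

noncomputable def al (F : Mat ι) (i j : ι) : ℝ := (1 - F i j) / Dl F i j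
def tk (F : Mat ι) (k : ℕ) : ℝ := trace (F ^ k)
def rr (F : Mat ι) (x : ι) : ℝ := ∑ y, F x y ^ 2
def fro (F : Mat ι) : ℝ := ∑ x, ∑ y, F x y ^ 2
def Pq (F : Mat ι) (q : ℕ) : ℝ := ∑ x, max (rr F x - 1) 0 ^ q
def fq (F : Mat ι) (q : ℕ) : ℝ := ∑ x, F x x ^ q
def Om (A B : Mat ι) : ℝ := trace (A * B)
def Xc (A B : Mat ι) : ℝ := trace (A * A * B * B)
def Nt (F : Mat ι) (s : ℕ) : Mat ι := F ^ (s + 2) - F ^ s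
def Sy (F : Mat ι) : Prop := ∀ x y, F x y = F y x
/-- Operator norm at most `u`. -/
def Op (F : Mat ι) (u : ℝ) : Prop := ∀ v : ι → ℝ, ∑ x, (F *ᵥ v) x ^ 2 ≤ u ^ 2 * ∑ x, v x ^ 2

noncomputable def ch1 (F : Mat ι) (i j x : ι) : ℝ := al F i j * F x j + F j j * F x i / Dl F i j
noncomputable def ch2 (F : Mat ι) (i j x : ι) : ℝ := al F i j * F x i + F i i * F x j / Dl F i j
/-- The formula for the new squared row norm (valid for `x ∉ {i,j}`). -/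
noncomputable def rnew (F : Mat ι) (i j x : ι) : ℝ :=
  rr F x + 2 * (ch1 F i j x * (F ^ 2) x i + ch2 F i j x * (F ^ 2) x j)
    + ch1 F i j x ^ 2 * (rr F i - 1) + ch2 F i j x ^ 2 * (rr F j - 1)
    + 2 * (F ^ 2) i j * ch1 F i j x * ch2 F i j x
noncomputable def bx (F : Mat ι) (i j x : ι) : ℝ :=
  rnew F i j x - rr F x - F x i ^ 2 * (rr F j - 1) - F x j ^ 2 * (rr F i - 1)
noncomputable def rest (F : Mat ι) (i j : ι) : ℝ :=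
  tk (step F i j) 2 - tk F 2 + 2 - 2 * ((rr F i - 1) * (rr F j - 1))

/-- Spectral decomposition. -/
def Spec (F : Mat ι) (lam : ι → ℝ) (O : Mat ι) : Prop :=
  (∀ k x y, (F ^ k) x y = ∑ a, lam a ^ k * O x a * O y a) ∧
    ∀ a b, ∑ x, O x a * O x b = if a = b then 1 else 0
def ns (lam : ι → ℝ) (O : Mat ι) (s : ℕ) (x : ι) : ℝ := ∑ a, O x a ^ 2 * (1 + |lam a|) ^ (s + 2)
def am (lam : ι → ℝ) (k : ℕ) : ℝ := ∑ a, |lam a| ^ k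

end

/-- Pair weights `p = 1 - th C - e` and the parameters of one step. -/
structure Env (ι : Type) where
  U : Finset ι
  C : Mat ι
  p : Mat ι
  e : Mat ι
  th : ℝ
  D : ℝ
  L : ℝ
  u : ℝ
  z : ℝ
  z' : ℝ
  Tf : ℝ

section
variable {ι : Type} [Fintype ι] [DecidableEq ι]

namespace Env
variable (E : Env ι)
def N : ℝ := E.U.card
def one (x : ι) : ℝ := if x ∈ E.U then 1 else 0
/-- Unnormalised average over ordered pairs. -/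
def av (X : ι → ι → ℝ) : ℝ := ∑ i, ∑ j, E.p i j * X i j
def Z : ℝ := E.av fun _ _ => 1
noncomputable def D1 : ℝ := E.th * √(4 * E.L * E.N) + E.D
noncomputable def eta : ℝ := (E.th * E.u + E.D + √E.N + E.Tf) * E.u / E.N
noncomputable def eta2 : ℝ := E.u * √(E.Tf / E.N)
noncomputable def eta3 : ℝ := (E.u * √E.N + E.D) / E.N
noncomputable def eta4 : ℝ :=
  ((E.D + E.Tf + √E.N + E.th * √E.Tf) * E.u + √(E.N * E.Tf)) / E.N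
noncomputable def etaf : ℝ := (E.th * E.u + E.D + √E.N + √(E.N * E.Tf)) / E.N

structure Ok : Prop where
  hp : ∀ i j, E.p i j = E.one i * E.one j - E.th * E.C i j - E.e i j
  p0 : ∀ i j, 0 ≤ E.p i j
  p2 : ∀ i j, E.p i j ≤ 2 * (E.one i * E.one j)
  pd : ∀ i, E.p i i = 0
  es : Sy E.e
  er : ∀ i, ∑ j, |E.e i j| ≤ E.D
  Cs : Sy E.C
  C0 : ∀ i j, i ∉ E.U → E.C i j = 0
  C1 : ∀ i, ∑ j, E.C i j = 2 * E.one i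
  Cr : ∀ i, rr E.C i ≤ 4 * E.L
  Co : Op E.C (2 * E.u)
  L2 : 2 ≤ E.L
  th0 : 0 ≤ E.th
  thu : E.th ≤ E.u
  u1 : 1 ≤ E.u
  uN : E.u ^ 2 ≤ E.N
  D1' : 1 ≤ E.D
  DN : E.D ≤ E.N
  z0 : 0 ≤ E.z'
  zz : E.z' ≤ E.z
  zL : E.z * E.L ≤ 1 / 10
  Tf1 : 1 ≤ E.Tf
  TfN : E.Tf ≤ E.N
end Env

/-- Symmetric, supported on `U`, `F 1_U = 1_U`. -/
structure Bas0 (U : Finset ι) (F : Mat ι) : Prop where
  sy : Sy F
  su : ∀ x y, x ∉ U → F x y = 0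
  on : ∀ x ∈ U, ∑ y, F x y = 1

/-- Additionally `ε F ⪰ -1`. -/
structure Bas (U : Finset ι) (F : Mat ι) (ε : ℝ) : Prop extends Bas0 U F where
  po : ∀ v : ι → ℝ, -∑ x, v x ^ 2 ≤ ε * (v ⬝ᵥ F *ᵥ v)
  sg : ε = 1 ∨ ε = -1

structure Side (E : Env ι) (F : Mat ι) (ε : ℝ) : Prop extends Bas E.U F ε where
  ro : ∀ x, rr F x ≤ E.L
  op : Op F E.u
  dg : ∀ x, |F x x| ≤ E.z
  f2 : fq F 2 ≤ E.Tf
  ad : ∀ i j, E.p i j ≠ 0 → |F i j| ≤ E.z ∧ ∀ x, |F x i * F x j| ≤ E.z'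

end

/-! ### Exact identities -/

/-- ALG. Direct computation (checked numerically). Sketch: `step = F + Y W Yᵀ - EσEᵀ` entrywise for
all `x y`, `Y = F E - E σ`; expand sums, use `rr F x = (F^2) x x`, then `field_simp; ring`. -/
def AlgStmt : Prop := ∀ (ι : Type) [Fintype ι] [DecidableEq ι] (F : Mat ι) (i j : ι),
  Sy F → i ≠ j → Dl F i j ≠ 0 →
    Sy (step F i j) ∧
    (∀ U, Bas0 U F → i ∈ U → j ∈ U → Bas0 ((U.erase i).erase j) (step F i j)) ∧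
    tk (step F i j) 1 - tk F 1 =
      (F j j * (rr F i - 1) + F i i * (rr F j - 1)) / Dl F i j + 2 * al F i j * (F ^ 2) i j ∧
    tk (step F i j) 2 - tk F 2 + 2 =
      4 * al F i j * ((F ^ 3) i j - F i j)
        + 2 * (F j j * ((F ^ 3) i i - F i i) + F i i * ((F ^ 3) j j - F j j)) / Dl F i j
        + al F i j ^ 2 * (2 * (rr F i - 1) * (rr F j - 1) + 2 * (F ^ 2) i j ^ 2)
        + 4 * al F i j * (F ^ 2) i j * (F j j * (rr F i - 1) + F i i * (rr F j - 1)) / Dl F i j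
        + (F j j ^ 2 * (rr F i - 1) ^ 2 + F i i ^ 2 * (rr F j - 1) ^ 2
            + 2 * F i i * F j j * (F ^ 2) i j ^ 2) / Dl F i j ^ 2 ∧
    (∀ x, x ≠ i → x ≠ j → rr (step F i j) x = rnew F i j x) ∧
    rr (step F i j) i = 0 ∧ rr (step F i j) j = 0

/-- FLAT. With `u = e_i + e_j`, `w = e_i - e_j`: `flat u = -u`, `wᵀ flat = wᵀ`, and for `v`
vanishing at `i, j`, `flat v = step v + (multiple of u)`. So all `flat`s are block upper triangular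
for the filtration `span u ⊂ {v | v i = v j} ⊂ ℝ^ι` with diagonal blocks `-1`, `step`, `1`.
Suggested: with the idempotents `P₁ = uuᵀ/2`, `P₃ = wwᵀ/2`, `P₂ = 1 - P₁ - P₃` prove by induction
on the list that `G = ∏ flat` satisfies `G P₁ = (-1)^k P₁`, `P₃ G = P₃`, `P₂ G P₂ = ∏ step`
(for `k ≥ 1`), then `tr G = tr P₁GP₁ + tr P₂GP₂ + tr P₃GP₃`. -/
def FlatStmt : Prop := ∀ (ι : Type) [Fintype ι] [DecidableEq ι] (i j : ι) (l : List (Mat ι)),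
  i ≠ j → l ≠ [] → (∀ F ∈ l, Sy F ∧ Dl F i j ≠ 0) →
    trace (l.map fun F => step F i j).prod =
      trace (l.map fun F => flat F i j).prod - 1 - (-1) ^ l.length

/-! ### Averaging -/

/-- AVG. `p = 1_U 1_Uᵀ - th C - e`; `e` vanishes outside `U × U` (from `hp, p0, p2, C0`). Schur test
`∑|e_ij||a_i||b_j| ≤ D ‖a‖‖b‖`; row sums `∑_j |C_ij| ≤ √(4LN)`, `|(Cb)_i| ≤ √(4L)‖b‖`. -/
def AvgStmt : Prop := ∀ (ι : Type) [Fintype ι] [DecidableEq ι] (E : Env ι), E.Ok →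
  |E.Z - E.N ^ 2| ≤ E.N * (2 * E.th + E.D) ∧
  (∀ a : ι → ℝ, |E.av (fun i _ => a i) - E.N * ∑ x ∈ E.U, a x| ≤ (2 * E.th + E.D) * ∑ x, |a x|) ∧
  (∀ X : ι → ι → ℝ, E.av X = E.av fun i j => X j i) ∧
  (∀ a b : ι → ℝ, |E.av (fun i j => a i * b j) - (∑ x ∈ E.U, a x) * ∑ x ∈ E.U, b x| ≤
    (2 * E.th * E.u + E.D) * √(∑ x, a x ^ 2) * √(∑ x, b x ^ 2)) ∧
  (∀ (a b : ι → ℝ) (M : ℝ), (∀ j, |b j| ≤ M) →
    |E.av (fun i j => a i * b j) - (∑ x ∈ E.U, a x) * ∑ x ∈ E.U, b x| ≤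
      (∑ x, |a x|) * (E.th * √(4 * E.L) * √(∑ x, b x ^ 2) + E.D * M)) ∧
  (∀ (a b : ι → ℝ) (M : ℝ), (∀ j, |b j| ≤ M) →
    |E.av (fun i j => a i * b j) - (∑ x ∈ E.U, a x) * ∑ x ∈ E.U, b x| ≤
      (∑ x, |a x|) * (E.D1 * M)) ∧
  (∀ a b : ι → ℝ, |E.av (fun i j => a i * b j) - (∑ x ∈ E.U, a x) * ∑ x ∈ E.U, b x| ≤
    E.D1 * √(∑ x, a x ^ 2) * √(∑ x, b x ^ 2)) ∧
  (∀ (X : ι → ι → ℝ) (n : ι → ℝ), (∀ i, 0 ≤ n i) →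
    (∀ i ∈ E.U, ∀ j ∈ E.U, |X i j| ≤ n i + n j) →
    |E.av X - ∑ i ∈ E.U, ∑ j ∈ E.U, X i j| ≤ 2 * E.D1 * ∑ x ∈ E.U, n x) ∧
  (∀ (H : ι → ι → ℝ) (α β : ι → ℝ), (∀ i, 0 ≤ α i) → (∀ i, 0 ≤ β i) →
    (∀ i j, H i j ^ 2 ≤ α i * β j) →
    |E.av H - (∑ i ∈ E.U, ∑ j ∈ E.U, H i j - E.th * ∑ i, ∑ j, E.C i j * H i j)| ≤
      E.D * √(∑ x, α x) * √(∑ x, β x)) ∧
  (∀ H₁ H₂ : Mat ι, |∑ i, ∑ j, E.C i j * (H₁ᵀ * H₂) i j| ≤ 2 * E.u * √(fro H₁) * √(fro H₂)) ∧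
  (∀ X : ι → ι → ℝ, (∀ i j, 0 ≤ X i j) → E.av X ≤ 2 * ∑ i ∈ E.U, ∑ j ∈ E.U, X i j) ∧
  (∀ X Y : ι → ι → ℝ, (∀ i j, E.p i j ≠ 0 → X i j ≤ Y i j) → E.av X ≤ E.av Y) ∧
  (∀ X Y : ι → ι → ℝ, (∀ i j, E.p i j ≠ 0 → |X i j| ≤ Y i j) → |E.av X| ≤ E.av Y) ∧
  (∀ i j, E.p i j ≠ 0 → i ∈ E.U ∧ j ∈ E.U ∧ i ≠ j) ∧
  (∀ (a : ι → ℝ) (m : ℝ), E.av (fun i j => (a i * a j - m ^ 2) ^ 2) ≤
    6 * ((∑ x ∈ E.U, (a x + m) ^ 2) ^ 2 + 2 * m ^ 2 * E.N * ∑ x ∈ E.U, (a x + m) ^ 2))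

/-! ### Spectral facts -/

/-- SPEC. `Matrix.IsHermitian.spectral_theorem`; then finite sums. Chebyshev-type inequalities:
`∑∑ w_a w_b (t_a^m - t_b^m)(t_a^n - t_b^n) ≥ 0`. -/
def SpecStmt : Prop := ∀ (ι : Type) [Fintype ι] [DecidableEq ι] (F : Mat ι), Sy F →
  (∃ lam O, Spec F lam O) ∧
  (∀ (K : ℕ) (u : ℝ), Even K → 0 < K → 0 ≤ u → tk F K ≤ u ^ K → Op F u) ∧
  ∀ lam O, Spec F lam O →
    (∀ k, |tk F k| ≤ am lam k) ∧ (∀ k, Even k → am lam k = tk F k) ∧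
    (∀ k, fro (F ^ k) = am lam (2 * k)) ∧ (∀ k, am lam (2 * k) ≤ am lam k ^ 2) ∧
    (∀ s x y, Nt F s x y ^ 2 ≤ ns lam O s x * ns lam O s y) ∧
    (∀ s x y, |Nt F s x y| ≤ ns lam O s x + ns lam O s y) ∧
    (∀ a b i j, (ns lam O a i + ns lam O a j) * (ns lam O b i + ns lam O b j) ≤
      (ns lam O 0 i + ns lam O 0 j) * (ns lam O (a + b) i + ns lam O (a + b) j)) ∧
    (∀ a x, ns lam O a x ≤ ns lam O (a + 1) x) ∧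
    (∀ x, 1 ≤ ns lam O 0 x ∧ ns lam O 0 x ≤ 2 * (1 + rr F x)) ∧
    (∀ s (U : Finset ι), ∑ x ∈ U, ns lam O s x ≤ 2 ^ (s + 2) * (U.card + am lam (s + 2))) ∧
    (∀ u, 0 ≤ u → Op F u → ∀ k, am lam (k + 1) ≤ u * am lam k) ∧
    (∀ a b c e, a ≤ b → a ≤ c → a + e = b + c → am lam b * am lam c ≤ am lam a * am lam e) ∧
    (∀ k (v : ℝ), 3 ≤ k → 0 < v → am lam (k - 1) ≤ v ^ (k - 3) * tk F 2 + am lam k / v) ∧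
    am lam 3 ≤ √(tk F 2 * tk F 4) ∧
    (∀ (C : Mat ι) (w : ℝ) s, 0 ≤ w → Op C w →
      |∑ i, ∑ j, C i j * Nt F s i j| ≤ w * (am lam (s + 2) + am lam s))

/-- CROSS (from SPEC): `|t_a t_b| ≤ am a am b ≤ am 3 am (k-1)`. -/
def CrossStmt : Prop := ∀ (ι : Type) [Fintype ι] [DecidableEq ι] (F : Mat ι) (k a : ℕ) (v : ℝ),
  Sy F → Even k → 3 ≤ a → a + 1 ≤ k → 0 < v →
    |tk F a * tk F (k + 2 - a)| ≤ √(tk F 2 * tk F 4) * (v ^ (k - 3) * tk F 2 + tk F k / v)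

/-! ### Drift of the observables -/

/-- T1: trace. Uses the ALG formula; `av(bρ_i)`: AVG 4 (‖ρ 1_U‖ ≤ L√N); `av g`: AVG 9 with
`g² ≤ r_i r_j`, `∑_{U×U} g = N`; the rest in absolute value: `∑|c||b| ≤ √Q √(N Tf)`,
`∑|a|b² ≤ N Tf`, `∑|c||g| ≤ √Q ‖F²‖_F ≤ uQ`, `∑|ab||g| ≤ Tf Q`, `Q ≤ LN`. -/
def T1At (L Λ : ℝ) : Prop := ∀ (ι : Type) [Fintype ι] [DecidableEq ι] (E : Env ι) (F : Mat ι)
  (ε : ℝ), E.L = L → E.Ok → Side E F ε →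
    |E.av (fun i j => tk (step F i j) 1 - tk F 1) -
        (2 * tk F 1 * (tk F 2 - E.N) + 2 * E.N - 2 * E.th * trace (E.C * F ^ 2))| ≤
      Λ * E.N * ((E.th * E.u + E.D) * √(E.Tf / E.N) + E.Tf + E.D + E.u) ∧
    E.av (fun i j => (tk (step F i j) 1 - tk F 1) ^ 2) ≤ Λ * E.N * (E.Tf + E.u ^ 2)

/-- T2A: mean of `rest`. Terms of the ALG formula: `av h`, `av c` by AVG 9 (`∑_{U×U} = N`,
`h² ≤ u² r_i r_j`; `∑|e||c| ≤ √L D N`, `|tr CF| ≤ 2LN`), `av(b h_i)` by AVG 5 (`∑|h_i| ≤ uQ`),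
`2(α²-1)ρρ = 4cρρ + O(L²(c²+|ab|))`, and `|av(cρ_iρ_j)| ≤ 2√(LN)∑ρ²`, or, writing
`cρρ = c - c(r_i+r_j) + c r_i r_j`, `≤ |av c| + L^c √N Q`. Others in absolute value, e.g.
`∑|c||h| ≤ u²Q`, `∑|ab||h| ≤ u Tf Q`, `∑|ab| ≤ N Tf`, `∑_j(|c||b|+|a|b²) ≤ L Tf`,
`∑|g||b| ≤ u√Q √(N Tf)`. -/
def T2At (L Λ : ℝ) : Prop := ∀ (ι : Type) [Fintype ι] [DecidableEq ι] (E : Env ι) (F : Mat ι)
  (ε V : ℝ), E.L = L → E.Ok → Side E F ε →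
    (∑ x ∈ E.U, (rr F x - 1) ^ 2 ≤ V ∨ tk F 2 ≤ V) →
    |E.av (rest F) - (4 * tk F 1 * tk F 3 - 4 * E.th * trace (E.C * F ^ 3))| ≤
      Λ * ((E.th + E.D + E.Tf) * E.N
        + (E.u ^ 2 + (E.D + E.Tf + E.th * √E.Tf) * E.u) * tk F 2 + √E.N * V)

/-- T2B: second moment of `rest` (square each term of the ALG formula, `p ≤ 2`, `1 ≤ Q` not needed:
`∑h² ≤ u⁴Q`, `∑_i h_i² ≤ u²LQ`, `∑ g²b² ≤ u²Q`, `a²b² sums to Tf² ≤ N Tf`). -/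
def T2BAt (L Λ : ℝ) : Prop := ∀ (ι : Type) [Fintype ι] [DecidableEq ι] (E : Env ι) (F : Mat ι)
  (ε : ℝ), E.L = L → E.Ok → Side E F ε →
    E.av (fun i j => rest F i j ^ 2) ≤
      Λ * ((E.u ^ 4 + E.Tf * E.u ^ 2) * tk F 2 + E.N * E.Tf)

/-- T3. By FLAT (`k = 3`), with `Ñ_s = (Nt F s)_SS`:
`Δ = 3 tr WÑ₂ + 3 tr(WÑ₀WÑ₁) + tr(WÑ₀)³`. Entries: `|Ñ₀| ≤ L`, `|Ñ₁| ≤ 2uL`, `|Ñ₂| ≤ 2u²L`.
Replace `W` by `σ` in the last two (error `zuL^c`); main term by AVG 8, off-diagonal products by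
Cauchy–Schwarz (`u ≤ √N`), `tr(σÑ₀)³ = 2g³+6gρρ`, `∑|g| ≤ N‖F²‖_F`. First term: AVG 9, 10
(`∑_{U×U} Nt F 2 = 0`), `∑|c||Ñ₂ij| ≤ √Q‖Nt F 2‖_F`, `∑|b||Ñ₂ii| ≤ √(N Tf) u²LN`. -/
def T3At (L Λ : ℝ) : Prop := ∀ (ι : Type) [Fintype ι] [DecidableEq ι] (E : Env ι) (F : Mat ι)
  (ε : ℝ), E.L = L → E.Ok → Side E F ε →
    |E.av (fun i j => tk (step F i j) 3 - tk F 3) - 6 * (tk F 2 - E.N) * tk F 3| ≤
      Λ * (E.eta + E.eta2 + E.z) * E.u * E.N ^ 2 ∧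
    ∀ i j, E.p i j ≠ 0 → |tk (step F i j) 3 - tk F 3| ≤ Λ * E.u ^ 2

/-- M1: pointwise expansion. `G = flat F i j = F + U W Vᵀ`, `U = (F+1)E`, `V = (F-1)E`,
`Vᵀ F^s U = Ñ_s`. `G^k - F^k = ∑_{a+b=k-1} F^a (UWVᵀ) G^b` twice gives
`tr G^k - tr F^k = k tr WÑ_{k-1} + ∑_{c+s=k-2} (s+1) tr(W M_c W Ñ_s)`, `M_c = Vᵀ G^c U =
Ñ_c + ∑_{a+e=c-1} M_a W Ñ_e`; by induction with `ν_s = ns s i + ns s j` (SPEC: entries of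
`Ñ_s ≤ ν_s`, `ν_aν_b ≤ ν_0ν_{a+b}`, monotone, `1 ≤ ν_0`) the entries of `M_c - Ñ_c` are
`≤ C ν_0^c ν_{c-1}`. Entries of `W - σ` are `≤ 4z`. -/
def M1Stmt : Prop := ∀ k : ℕ, 3 ≤ k → ∃ C : ℝ, ∀ (ι : Type) [Fintype ι] [DecidableEq ι]
  (F : Mat ι) (lam : ι → ℝ) (O : Mat ι) (i j : ι) (z : ℝ), Sy F → Spec F lam O → i ≠ j →
    |F i i| ≤ z → |F j j| ≤ z → |F i j| ≤ z → z ≤ 1 / 20 →
    |tk (step F i j) k - tk F k + 1 + (-1) ^ k - k * wtr F i j (Nt F (k - 1))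
        - ∑ s ∈ range (k - 1), (s + 1 : ℝ) * s2 (Nt F (k - 2 - s)) (Nt F s) i j| ≤
      C * (z * (ns lam O 0 i + ns lam O 0 j) * (ns lam O (k - 2) i + ns lam O (k - 2) j)
        + (ns lam O 0 i + ns lam O 0 j) ^ k * (ns lam O (k - 3) i + ns lam O (k - 3) j))

/-- M3: `m = ∑_U ns (k-1) ≤ C u (N + am k) L`. `av Ñij`: AVG 9 + last item of SPEC
(`∑_{U×U} Nt = 0`); `|α-1||Ñij|`: `√Q ‖Nt‖_F + Tf m`, `‖F^s‖_F ≤ am s`; `av(bÑii)`: AVG 5,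
`th√Tf ≤ th u + Tf`; `(|c|+|ab|)|b||Ñii|`: `∑_j ≤ L Tf`. `am (k-1) ≤ Q + am k`. -/
def M3Stmt : Prop := ∀ k : ℕ, 3 ≤ k → ∃ c : ℕ, ∀ (ι : Type) [Fintype ι] [DecidableEq ι]
  (E : Env ι) (F : Mat ι) (ε : ℝ) (lam : ι → ℝ) (O : Mat ι), E.Ok → Side E F ε → Spec F lam O →
    |E.av (fun i j => wtr F i j (Nt F (k - 1))) - 2 * tk F 1 * trace (Nt F (k - 1))| ≤
      E.L ^ c * E.eta * E.N * (E.N + am lam k)

/-- M4: diagonal products by AVG 8 with `n = 16 L ns (k-2)` (`ν_aν_b ≤ ν_0ν_{k-2}`, `ν_0 ≤ 8L`,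
`D₁ ≤ L η N`); off-diagonal products on `U × U`, `i ≠ j`: Cauchy–Schwarz,
`∑_{U×U} (Nt s)² ≤ C (LN + am(2s+4))`, `am(2a+4) am(2b+4) ≤ am 4 am(2k) ≤ u²LN (am k)²`. -/
def M4Stmt : Prop := ∀ k : ℕ, 3 ≤ k → ∃ c : ℕ, ∀ (ι : Type) [Fintype ι] [DecidableEq ι]
  (E : Env ι) (F : Mat ι) (ε : ℝ) (lam : ι → ℝ) (O : Mat ι), E.Ok → Side E F ε → Spec F lam O →
    ∀ a b, a + b + 2 = k →
    |E.av (s2 (Nt F a) (Nt F b)) - 2 * (∑ x ∈ E.U, Nt F a x x) * ∑ x ∈ E.U, Nt F b x x| ≤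
      E.L ^ c * E.eta * E.N * (E.N + am lam k)

/-- MOM (from M1, M3, M4, SPEC, AVG). `t_s = ∑_U Nt s = tk (s+2) - tk s` (`t_0 = Q - N`),
`∑(s+1) 2 t t = k ∑ t_c t_s`. Lower-order pieces (`am c am (s+2) ≤ am 2 am (k-2)`,
for `c = 1` use `|tk 1| ≤ zN`, `|Q-N| am (k-2)`, `am s ≤ am 2 + am (k-1)` for `2 ≤ s < k`) are
`≤ L^c N (N + am (k-1))`. `|tk 1| ≤ zN`,
`-tk k ≤ ε tk (k+1) ≤ u tk k` (from `po` with `v = F^(k/2) e_x`). -/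
def MomAt (k : ℕ) (L Λ : ℝ) : Prop := ∀ (ι : Type) [Fintype ι] [DecidableEq ι] (E : Env ι)
  (F : Mat ι) (ε K v : ℝ), E.L = L → E.Ok → Side E F ε → 1 ≤ v → 0 ≤ K → ε * tk F 1 ≤ K →
    E.av (fun i j => tk (step F i j) k - tk F k) ≤
      2 * k * (tk F 2 - E.N) * tk F k + k * ∑ a ∈ Icc 3 (k - 1), tk F a * tk F (k + 2 - a)
        + Λ * ((E.eta + E.z + K * E.u / E.N) * E.N * (E.N + tk F k)
          + E.N * (E.N * v ^ (k - 3) + tk F k / v))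

/-- OM. FLAT for `[A,B]`: `Δ = -2 + wtr A ((A-1)B(A+1)) + wtr B ((B-1)A(B+1))
+ tr(W_A [(A-1)(B+1)] W_B [(B-1)(A+1)])`; main term `2((AB)ii-1)((AB)jj-1)` by AVG 8, `Z` by AVG 1;
`∑_{U×U} (A-1)B(A+1) = 0`, AVG 9, 10. -/
def OmAt (L Λ : ℝ) : Prop := ∀ (ι : Type) [Fintype ι] [DecidableEq ι] (E : Env ι) (A B : Mat ι)
  (ε ε' : ℝ), E.L = L → E.Ok → Side E A ε → Side E B ε' →
    |E.av (fun i j => Om (step A i j) (step B i j) - Om A B) -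
        (2 * Om A B ^ 2 - 4 * E.N * Om A B)| ≤ Λ * (E.eta + E.eta2 + E.z) * E.N ^ 2 ∧
    ∀ i j, E.p i j ≠ 0 → |Om (step A i j) (step B i j) - Om A B| ≤ Λ * E.u

section
variable {ι : Type} [Fintype ι] [DecidableEq ι]
def xY (A B : Mat ι) : Mat ι := (A - 1) * (A * B * B + B * B * A) * (A + 1)
def xS (A B : Mat ι) (i j : ι) : ℝ :=
  s2 ((A - 1) * (A + 1)) ((A - 1) * (B * B) * (A + 1)) i j
    + s2 ((A - 1) * (B + 1)) ((B - 1) * (B * A) * (A + 1)) i j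
    + s2 ((A - 1) * A * (B + 1)) ((B - 1) * B * (A + 1)) i j
end

/-- XA: FLAT for `[A,A,B,B]`, expand `∏ (F + U W Vᵀ)` (16 terms; each is a trace of products of
`W` and `2×2` blocks `Eᵀ(F-1) word (F'+1)E`, whose entries are `≤ L^c u^(length word)`).
One insertion: the `wtr` terms; two insertions: `xS A B + xS B A` after `W → σ` (error `z u²`);
three or four insertions: `≤ L^c u`. (`xS A B` = pairs (1,2), (2,3), (1,3); `xS B A` = (3,4),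
(4,1) by `s2 X Y = s2 Y X`, and its third term equals the pair (2,4), blocks `(A-1)B(B+1)`,
`(B-1)A(A+1)`, up to `L^c u`: `s2 X Y = s2 Xᵀ Yᵀ` and the transposes differ in degree-2 words.) -/
def XAStmt : Prop := ∃ c : ℕ, ∀ (ι : Type) [Fintype ι] [DecidableEq ι] (E : Env ι) (A B : Mat ι)
  (ε ε' : ℝ), E.Ok → Side E A ε → Side E B ε' → ∀ i j, E.p i j ≠ 0 →
    |Xc (step A i j) (step B i j) - Xc A B + 2 - wtr A i j (xY A B) - wtr B i j (xY B A)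
        - xS A B i j - xS B A i j| ≤ E.L ^ c * (E.z * E.u ^ 2 + E.u)

/-- XB: `xY = H + Hᵀ'` with `H = (A-1)AB · B(A+1) = H₁ᵀH₂`, `fro H₁ ≤ 4u² X`, `fro H₂ ≤ 2X+2LN`,
`X = Xc A B = fro (B*A) = Xc B A`; `∑_{U×U} xY = 0`; AVG 9, 10; `∑|c||Hij| ≤ √Q‖H₁‖‖H₂‖`;
`∑|b||Hii| ≤ √(N Tf) ‖H₁‖‖H₂‖`; `∑|ab||Hij| ≤ Tf‖H₁‖‖H₂‖`. -/
def XBStmt : Prop := ∃ c : ℕ, ∀ (ι : Type) [Fintype ι] [DecidableEq ι] (E : Env ι) (A B : Mat ι)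
  (ε ε' : ℝ), E.Ok → Side E A ε → Side E B ε' →
    |E.av fun i j => wtr A i j (xY A B)| ≤ E.L ^ c * (E.eta + E.eta2) * E.N * (Xc A B + E.N)

/-- XC: diagonal products by AVG 8 with constant `n = L^c u²` (`D₁ ≤ L η₃ N`), off-diagonal products
(`i ≠ j`) by Cauchy–Schwarz `≤ L^c u⁴N ≤ L^c η₃u²N²`; the traces over `U` are the leading words up
to `L^c uN` (resp. `L^c N`): products of the main parts, cross terms `≤ L^c uN²`; note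
`|Om - N + tk A 1 - tk B 1 - (Om - N)| ≤ 2zN` and `X ≤ u²LN`. -/
def XCStmt : Prop := ∃ c : ℕ, ∀ (ι : Type) [Fintype ι] [DecidableEq ι] (E : Env ι) (A B : Mat ι)
  (ε ε' : ℝ), E.Ok → Side E A ε → Side E B ε' →
    |E.av (xS A B) - (2 * (tk A 2 - E.N) * Xc A B + 2 * (Om A B - E.N) * Xc A B
        + 2 * trace (A * A * B) * trace (A * B * B))| ≤
      E.L ^ c * ((E.eta3 + E.z) * E.u ^ 2 * E.N ^ 2 + E.u * E.N ^ 2)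

/-- X (from XA, XB, XC): `|tr A²B| ≤ √(Q_A X)`, `|tr AB²| ≤ √(Q_B X)`, `Z ≤ 2N²`. -/
def XAt (L Λ : ℝ) : Prop := ∀ (ι : Type) [Fintype ι] [DecidableEq ι] (E : Env ι) (A B : Mat ι)
  (ε ε' : ℝ), E.L = L → E.Ok → Side E A ε → Side E B ε' →
    E.av (fun i j => Xc (step A i j) (step B i j) - Xc A B) ≤
      (4 * (tk A 2 - E.N) + 4 * (tk B 2 - E.N) + 4 * Om A B) * Xc A B
        + Λ * ((E.eta + E.eta2) * E.N * (Xc A B + E.N)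
          + (E.eta3 + E.z) * E.u ^ 2 * E.N ^ 2 + E.u * E.N ^ 2)

/-- F2. `f'_x = f_x + δ`, `δ = δ₀+δ₁+δ₂ = 2αφ_iφ_j + bφ_i²/Δ + aφ_j²/Δ` (`x ∉ S`); sum the formula
over all `x` and correct `x ∈ S` (`|δ| ≤ 5z|f_x|` there); removal `-a²-b²` by AVG 2.
`|av δ₀| ≤ L^c (th u + D + √N + Tf)` for each `x` (AVG 4 with `a = b = φ`, `∑φ = one x`);
`av(b ∑_x f_xφ_i²)` and `av(b² ∑_xφ_i⁴)` by AVG 7, 6; `δ² ≤ (1+e)(δ₁+δ₂)² + (1+1/e)δ₀²`,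
`∑F⁴ ≤ ∑r²`, `∑ r² ≤ LQ`. -/
def F2At (L Λ : ℝ) : Prop := ∀ (ι : Type) [Fintype ι] [DecidableEq ι] (E : Env ι) (F : Mat ι)
  (ε e : ℝ), E.L = L → E.Ok → Side E F ε → 0 < e → e ≤ 1 →
    E.av (fun i j => fq (step F i j) 2 - fq F 2) ≤
      (2 * ∑ x, rr F x ^ 2 - 2 * E.N) * fq F 2 + 4 * |tk F 1| * √(fq F 2) * √(∑ x, rr F x ^ 2)
        + Λ * ((e + E.z + E.eta) * E.N * E.Tf + tk F 2 / e
          + √(E.N * E.Tf) * (E.th * E.u + E.D + √E.N + E.Tf))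

/-- F8. `(y+δ)⁸ ≤ y⁸ + 8y⁷δ + C(y⁶δ² + |y||δ|⁷) + δ⁸`; `|av δ₀|, av|δ₁| ≤ L^c η_f N`,
`av δ² ≤ L^c Tf ≤ L^c η_f²N`, `|δ₀|⁷ ≤ C z'⁵φ_i²φ_j²`, `∑_x|f_x| av|δ₁|⁷ ≤ L^c√(N Tf)∑|f|⁷`;
`δ⁸ ≤ (1+e)²(δ₁⁸+δ₂⁸) + C e⁻⁷ z'⁶φ_i²φ_j²`; `av(b⁸∑_xφ_i¹⁶)` by AVG 6, `∑_x r⁸ ≤ N + 8L⁷√(N P₂)`;
removal by AVG 2; finally `|f|⁷ ≤ s⁵f² + f⁸/s`, `f⁶ ≤ s⁴f² + f⁸/s²` with `s = η_f/e`. -/
def F8At (L Λ : ℝ) : Prop := ∀ (ι : Type) [Fintype ι] [DecidableEq ι] (E : Env ι) (F : Mat ι)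
  (ε e : ℝ), E.L = L → E.Ok → Side E F ε → 0 < e → e ≤ 1 →
    E.av (fun i j => fq (step F i j) 8 - fq F 8) ≤
      Λ * ((e + E.z + E.eta3 + √(Pq F 2 / E.N)) * E.N * fq F 8
        + E.N * E.etaf ^ 6 * E.Tf / e ^ 5 + E.N * E.z' ^ 5 / e ^ 7)

/-- B1. `bx = 2(φ_jψ_i+φ_iψ_j) + 2(bφ_iψ_i + aφ_jψ_j) + R`. First: `hp`, `∑φ = ∑ψ = one x`,
`∑|e||ψ||φ| ≤ D u r`. Second: AVG 5 (`∑|φψ| ≤ u r`). `R` in absolute value: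
`∑|c||φ_j||ψ_i| ≤ √(Lr)√N u√r`, `∑|ab||φ_jψ_i| ≤ Tf u r`, `∑|g||φ_iφ_j| ≤ u√Q r`,
`∑|g||b|φ_i² ≤ u√(L Tf) r`, `∑|c|φ_j² ≤ √(NL) r`, `∑|b||φ_i||φ_j| ≤ √(N Tf) r`, ... -/
def B1Stmt : Prop := ∃ c : ℕ, ∀ (ι : Type) [Fintype ι] [DecidableEq ι] (E : Env ι) (F : Mat ι)
  (ε : ℝ), E.Ok → Side E F ε → ∀ x,
    E.av (fun i j => bx F i j x) ≤ -4 * E.th * (F ^ 2 * E.C * F) x x + 4 * tk F 1 * (F ^ 3) x x
      + E.L ^ c * E.eta4 * E.N * max (rr F x) 1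

/-- B2. `bx² ≤ L^c [φ_j²ψ_i² + φ_i²ψ_j² + b²φ_i²ψ_i² + a²φ_j²ψ_j² + φ_i²φ_j² + (b²+c²)φ_i⁴
+ (a²+c²)φ_j⁴]`, `∑ψ² ≤ u²r`, `ψ_i² ≤ L r`. Second part: at `x = i`, `φ = (a,c)`,
`|χ| ≤ 3(|a|+|c|)`, `|ψ| ≤ rb_i + rb_j`. -/
def B2Stmt : Prop := ∃ c : ℕ, ∀ (ι : Type) [Fintype ι] [DecidableEq ι] (E : Env ι) (F : Mat ι)
  (ε : ℝ), E.Ok → Side E F ε →
    (∀ x, E.av (fun i j => bx F i j x ^ 2) ≤ E.L ^ c * (E.u ^ 2 + E.Tf) * max (rr F x) 1 ^ 2) ∧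
    ∀ i j, E.p i j ≠ 0 →
      |rnew F i j i - rr F i| ≤ 100 * (|F i i| + |F i j|) * (max (rr F i) 1 + max (rr F j) 1) ∧
      |rnew F i j j - rr F j| ≤ 100 * (|F j j| + |F i j|) * (max (rr F i) 1 + max (rr F j) 1)

/-- BP. `|bx| ≤ C(|φ_jψ_i| + |φ_iψ_j| + |gφ_iφ_j|) + C z rb_x (rb_i + rb_j)`. The last term gives
`C z^p N (N+P)² ≤ C` (`rb^p ≤ 2^p(1+ρ₊^p)`). GEN: if `M ≥ 0` has row sums `≤ κ rb_x`, column sums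
`≤ κL`, entries `≤ L rb_x` then `∑_{x,i} rb_x^(p-1) M_xi rb_i^p ≤ C L (κ(N+P) + P²)` (split
`r ≤ 2` / `r > 2` for `i`, then `x`). `∑_j|φ_j|^p ≤ r^(p/2)`, `|ψ_i|^p ≤ ψ_i²(r_x r_i)^((p-2)/2)`
(`M = ψ²`, `κ = u²`); `|g|^p ≤ (r_ir_j)^(p/2)` and Cauchy–Schwarz (`M = φ²`, `κ = 1`). `p` is even. -/
def BPStmt : Prop := ∃ c : ℕ, ∀ p : ℕ, 4 ≤ p → Even p → ∃ C : ℝ,
  ∀ (ι : Type) [Fintype ι] [DecidableEq ι] (E : Env ι) (F : Mat ι) (ε : ℝ), E.Ok → Side E F ε →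
    E.z ^ p * E.N ^ 3 ≤ 1 → Pq F p ≤ E.N →
    ∑ x, E.av (fun i j => |bx F i j x| ^ p) ≤ C * E.L ^ c * (E.u ^ 2 * E.N + Pq F p ^ 2)

/-- P2. `G(r) = max(r-1) 0 ^ q` is convex nondecreasing. `θ_i = φ_i²/rb_x`, `θ_i+θ_j ≤ 1`,
`rnew ≤ (1-θ_i-θ_j)(rb+b) + θ_i(rb r_j + b) + θ_j(rb r_i + b)`, `b = bx`. With `y = ρ_x₊`,
`w = ρ_j₊`: `G(rb+b) ≤ y²+2yb+b²`, `-θ 2yb ≤ θ(e y² + b²/e)`, `G(s+b) ≤ (1+e)G(s) + 2b²/e`,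
`G(rb r_j) ≤ min(r_j,1) y² + w² + 2yw + 3L(y²w+yw²)`. Sum over `x`; `γ_i = ∑_xθy²` (sum `P₂`),
`κ_i = ∑_xθ ≤ L` (sum `∑min(r,1) ≤ min Q N`), AVG 6, 7; `(∑ρ₊)² ≤ min Q N · P₂`. First order: B1,
`-(F²CF)xx ≤ u√r ‖F'Fe_x‖`, `∑‖F'Fe_x‖² = Xc F F'`, `-r ≤ ε(F³)xx ≤ ur`, `|tk 1| ≤ √(N Tf)`.
For `x ∈ S` the new value is `0` and `G(rnew) ≥ (1-e)G(r) - (rnew-r)²/e` (B2); AVG 2.
`bx = 0` for `x ∉ U`. -/
def P2At (L Λ : ℝ) : Prop := ∀ (ι : Type) [Fintype ι] [DecidableEq ι] (E : Env ι) (F F' : Mat ι)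
  (ε e K : ℝ), E.L = L → E.Ok → Side E F ε → Sy F' → E.C = F + F' → 0 < e → e ≤ 1 → 0 ≤ K →
    ε * tk F 1 ≤ K →
    E.av (fun i j => Pq (step F i j) 2 - Pq F 2) ≤
      (8 * min (tk F 2) E.N - 4 * E.N) * Pq F 2
        + Λ * ((e + E.eta3 + √(Pq F 2 / E.N)) * E.N * Pq F 2
          + √(E.N * Pq F 2) * E.N * (E.eta4 + K * E.u / E.N)
          + E.th * E.u * √(Xc F F' * Pq F 2) + E.N * (E.u ^ 2 + E.Tf) / e)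

/-- PP. As P2 with `e = 1/20`: `(y+b)₊^p ≤ y^p + p y^(p-1) b + C(y^(p-2)b² + |b|^p)`,
`G(s+b) ≤ (1+e)G(s) + C|b|^p`, `G(rb r_j) ≤ min(r_j,1)y^p + w^p + C(y^(p-1)w + yw^(p-1) + y^pw
+ yw^p + y^pw^p)` (cross terms: just `p ≤ 2`), `|(F²CF)xx| ≤ 2u² r`, `ρ₊^(p-1) ≤ s^(p-1) + ρ₊^p/s`,
`∑ρ₊ ≤ √(N P₂)`. `x ∈ S`: `|rnew - r|^p ≤ C z^p (rb_i+rb_j)^p`. Uses B1, B2, BP. -/
def PPAt (p : ℕ) (L Λ : ℝ) : Prop := ∀ (ι : Type) [Fintype ι] [DecidableEq ι] (E : Env ι)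
  (F : Mat ι) (ε s K : ℝ), E.L = L → E.Ok → Side E F ε → 0 < s → s ≤ 1 → 0 ≤ K →
    ε * tk F 1 ≤ K → E.z ^ p * E.N ^ 3 ≤ 1 → Pq F p ≤ E.N →
    E.av (fun i j => Pq (step F i j) p - Pq F p) ≤
      (4 * min (tk F 2) E.N - 3 * E.N) * Pq F p
        + Λ * ((√(Pq F 2 / E.N) + E.eta4 + (K + E.th * E.u) * E.u / E.N) * E.N
            * (s ^ (p - 1) * E.N + Pq F p / s)
          + (E.u ^ 2 + E.Tf) * E.N + Pq F p ^ 2 + E.eta3 * E.N * Pq F p)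

/-- T2C (crude late phase, uniform weights on `Adm`). Rewrite the ALG formula as
`ΔQ = 2trW N₃ + tr(WR)² - 2tr(W²R) + 2(α-1)² + (a²+b²)/Δ²` (`N₃ = F³_SS`, `R = F²_SS`,
`W² = α² + α(a+b)σ/Δ + diag(b²,a²)/Δ²`). `∑_Adm h = N ± D Qb^(3/2)`, `∑_Adm r_i ≥ (N-D)Q`,
`∑ a² ≤ N ∑f²`, `∑f² ≤ (Q-1) + 2√(Qb/N) + 1/N` (`F - J_U/N` has squared norm `Q-1`), op norm `≤ √Q`,
`∑|f| ≤ √(NQ)`, `∑_j|c| ≤ √(N Qb)`; all the rest `≤ C(Qb²√N + Qb³)`. -/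
def T2CAt (Λ : ℝ) : Prop := ∀ (ι : Type) [Fintype ι] [DecidableEq ι] (U : Finset ι) (F : Mat ι)
  (Adm : Finset (ι × ι)) (D Qb : ℝ), Bas0 U F → 1 ≤ U.card → 1 ≤ Qb → Qb ≤ D → tk F 2 ≤ Qb →
    (∀ i j, (i, j) ∈ Adm → (j, i) ∈ Adm ∧ i ∈ U ∧ j ∈ U ∧ i ≠ j ∧ |F i j| ≤ 1 / 10 ∧
      |F i i * F j j| ≤ 1 / 10) →
    (∀ i ∈ U, (((U.filter fun j => (i, j) ∉ Adm).card : ℕ) : ℝ) ≤ D) →
    ∑ q ∈ Adm, (tk (step F q.1 q.2) 2 - tk F 2) ≤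
      -2 * U.card * (tk F 2 - 1) + Λ * (Qb ^ 2 * √U.card + D * Qb ^ 2)

def T1Stmt : Prop := ∃ c : ℕ, ∀ L Λ : ℝ, L ^ c ≤ Λ → T1At L Λ
def T2Stmt : Prop := ∃ c : ℕ, ∀ L Λ : ℝ, L ^ c ≤ Λ → T2At L Λ
def T2BStmt : Prop := ∃ c : ℕ, ∀ L Λ : ℝ, L ^ c ≤ Λ → T2BAt L Λ
def T3Stmt : Prop := ∃ c : ℕ, ∀ L Λ : ℝ, L ^ c ≤ Λ → T3At L Λ
def MomStmt : Prop := ∀ k, 4 ≤ k → Even k → ∃ c : ℕ, ∀ L Λ : ℝ, L ^ c ≤ Λ → MomAt k L Λ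
def OmStmt : Prop := ∃ c : ℕ, ∀ L Λ : ℝ, L ^ c ≤ Λ → OmAt L Λ
def XStmt : Prop := ∃ c : ℕ, ∀ L Λ : ℝ, L ^ c ≤ Λ → XAt L Λ
def F2Stmt : Prop := ∃ c : ℕ, ∀ L Λ : ℝ, L ^ c ≤ Λ → F2At L Λ
def F8Stmt : Prop := ∃ c : ℕ, ∀ L Λ : ℝ, L ^ c ≤ Λ → F8At L Λ
def P2Stmt : Prop := ∃ c : ℕ, ∀ L Λ : ℝ, L ^ c ≤ Λ → P2At L Λ
def PPStmt : Prop := ∃ c : ℕ, ∀ p : ℕ, 4 ≤ p → Even p → ∃ C : ℝ, ∀ L Λ : ℝ, C * L ^ c ≤ Λ → PPAt p L Λ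
def T2CStmt : Prop := ∃ C : ℝ, ∀ Λ : ℝ, C ≤ Λ → T2CAt Λ

/-! ### Potentials and the weights -/

/-- POT. (1) `O ≥ 0` with linear drift. `|N²/Z - 1| ≤ 2/Λ²`, denominator `≥ 1/2`; gives `20/(ΛN)`.
(2) `(max (y+Δ) 0)² ≤ (max y 0)² + 2 (max y 0) Δ + Δ²`, then (1) with `T = s²`, `2γ`.
(3) `O = y²`. (4) some pair in the support is below the average. -/
def PotStmt : Prop := ∀ (ι : Type) [Fintype ι] [DecidableEq ι] (E : Env ι) (Λ : ℝ), E.Ok →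
  10 ≤ Λ → Λ ^ 2 ≤ E.N → |E.Z - E.N ^ 2| ≤ E.N ^ 2 / Λ ^ 2 →
    (∀ (O T T' γ : ℝ) (O' : ι → ι → ℝ), 0 ≤ O → O ≤ T → 0 < T → |γ| ≤ Λ / 2 →
      T * (1 + γ / E.N - 3 / (Λ * E.N)) ≤ T' →
      E.av (fun i j => O' i j - O) ≤ γ * E.N * O + 3 * E.N * T / Λ →
      E.av (fun i j => O' i j / T') ≤ E.Z * (O / T + 30 / (Λ * E.N))) ∧
    (∀ (y s s' γ : ℝ) (y' : ι → ι → ℝ), y ≤ s → 0 < s → |γ| ≤ Λ / 4 →
      s * (1 + γ / E.N - 1 / (Λ * E.N)) ≤ s' →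
      (0 < y → E.av (fun i j => y' i j - y) ≤ γ * E.N * y + E.N * s / Λ) →
      E.av (fun i j => (y' i j - y) ^ 2) ≤ E.N * s ^ 2 / Λ →
      E.av (fun i j => (max (y' i j) 0 / s') ^ 2) ≤ E.Z * ((max y 0 / s) ^ 2 + 30 / (Λ * E.N))) ∧
    (∀ (y s s' : ℝ) (y' : ι → ι → ℝ), |y| ≤ s → 0 < s → s ≤ s' →
      |E.av (fun i j => y' i j - y)| ≤ E.N * s / Λ →
      E.av (fun i j => (y' i j - y) ^ 2) ≤ E.N * s ^ 2 / Λ →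
      E.av (fun i j => (y' i j / s') ^ 2) ≤ E.Z * ((y / s) ^ 2 + 30 / (Λ * E.N))) ∧
    ∀ (X : ι → ι → ℝ) (m : ℝ), E.av X ≤ E.Z * m → ∃ i j, E.p i j ≠ 0 ∧ X i j ≤ m

/-- ENV. `C = A + B`; `(i,j)` is admissible if `i, j ∈ U`, `i ≠ j`, not `bad`, `|A_ij|,|B_ij| ≤ z`,
`4 th|A_ij|, 4 th|B_ij| ≤ 1`, `∀ x, |A_xi A_xj|, |B_xi B_xj| ≤ z'`; `p = 1 - th C` on admissible
pairs, else `0`; `e = 1_U1_Uᵀ - th C - p`. Excluded `j` per row: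
`deg ≤ 1 + B₀ + 2L(z⁻² + 16th²) + 2L²/z'²` (Markov), `∑|e| ≤ deg + th√(4L deg) ≤ 2deg + th²L`. -/
def EnvStmt : Prop := ∀ (ι : Type) [Fintype ι] [DecidableEq ι] (U : Finset ι) (A B : Mat ι)
  (bad : Finset (ι × ι)) (B₀ th D L u z z' Tf : ℝ), Bas U A 1 → Bas U B (-1) →
    (∀ i j, (i, j) ∈ bad → (j, i) ∈ bad) →
    (∀ i ∈ U, (((U.filter fun j => (i, j) ∈ bad).card : ℕ) : ℝ) ≤ B₀) →
    (∀ x, rr A x ≤ L ∧ rr B x ≤ L) → Op A u → Op B u → (∀ x, |A x x| ≤ z ∧ |B x x| ≤ z) →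
    fq A 2 ≤ Tf → fq B 2 ≤ Tf → 2 ≤ L → 0 ≤ th → th ≤ u → 1 ≤ u → u ^ 2 ≤ U.card →
    0 < z' → z' ≤ z → z * L ≤ 1 / 10 → 1 ≤ Tf → Tf ≤ U.card → 0 ≤ B₀ →
    2 + 2 * B₀ + 100 * L ^ 2 * (1 / z' ^ 2 + th ^ 2) ≤ D → D ≤ U.card →
    ∃ E : Env ι, E.U = U ∧ E.C = A + B ∧ E.th = th ∧ E.D = D ∧ E.L = L ∧ E.u = u ∧ E.z = z ∧
      E.z' = z' ∧ E.Tf = Tf ∧ E.Ok ∧ Side E A 1 ∧ Side E B (-1) ∧
      ∀ i j, E.p i j ≠ 0 → (i, j) ∉ bad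

/-- realises equation lemmas once, here -/
theorem eqnsA : True := by
  have := @Dl.eq_1; have := @Dl.eq_def
  have := @wf.eq_1; have := @wf.eq_def
  have := @step.eq_1; have := @step.eq_def
  have := @flat.eq_1; have := @flat.eq_def
  have := @wtr.eq_1; have := @wtr.eq_def
  have := @s2.eq_1; have := @s2.eq_def
  have := @al.eq_1; have := @al.eq_def
  have := @tk.eq_1; have := @tk.eq_def
  have := @rr.eq_1; have := @rr.eq_def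
  have := @fro.eq_1; have := @fro.eq_def
  have := @Pq.eq_1; have := @Pq.eq_def
  have := @fq.eq_1; have := @fq.eq_def
  have := @Om.eq_1; have := @Om.eq_def
  have := @Xc.eq_1; have := @Xc.eq_def
  have := @Nt.eq_1; have := @Nt.eq_def
  have := @Sy.eq_1; have := @Sy.eq_def
  have := @Op.eq_1; have := @Op.eq_def
  have := @ch1.eq_1; have := @ch1.eq_def
  have := @ch2.eq_1; have := @ch2.eq_def
  have := @rnew.eq_1; have := @rnew.eq_def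
  have := @bx.eq_1; have := @bx.eq_def
  have := @rest.eq_1; have := @rest.eq_def
  have := @Spec.eq_1; have := @Spec.eq_def
  have := @ns.eq_1; have := @ns.eq_def
  have := @am.eq_1; have := @am.eq_def
  have := @Env.N.eq_1; have := @Env.N.eq_def
  have := @Env.one.eq_1; have := @Env.one.eq_def
  have := @Env.av.eq_1; have := @Env.av.eq_def
  have := @Env.Z.eq_1; have := @Env.Z.eq_def
  have := @Env.D1.eq_1; have := @Env.D1.eq_def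
  have := @Env.eta.eq_1; have := @Env.eta.eq_def
  have := @Env.eta2.eq_1; have := @Env.eta2.eq_def
  have := @Env.eta3.eq_1; have := @Env.eta3.eq_def
  have := @Env.eta4.eq_1; have := @Env.eta4.eq_def
  have := @Env.etaf.eq_1; have := @Env.etaf.eq_def
  have := @T1At.eq_1; have := @T1At.eq_def
  have := @T2At.eq_1; have := @T2At.eq_def
  have := @T2BAt.eq_1; have := @T2BAt.eq_def
  have := @T3At.eq_1; have := @T3At.eq_def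
  have := @MomAt.eq_1; have := @MomAt.eq_def
  have := @OmAt.eq_1; have := @OmAt.eq_def
  have := @xY.eq_1; have := @xY.eq_def
  have := @xS.eq_1; have := @xS.eq_def
  have := @XAt.eq_1; have := @XAt.eq_def
  have := @F2At.eq_1; have := @F2At.eq_def
  have := @F8At.eq_1; have := @F8At.eq_def
  have := @P2At.eq_1; have := @P2At.eq_def
  have := @PPAt.eq_1; have := @PPAt.eq_def
  have := @T2CAt.eq_1; have := @T2CAt.eq_def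
  trivial

end Crest.Agent.R62
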