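import Crest.Agent.R62.DefsA

/-!
Row 62: schedule (targets, potentials) and the vertex-level linear algebra.

`Λ` is the large unit, `N₀ ∈ [Λ^31907, Λ^31908]`, `y = N₀/N`. Phase 1 (tilt): `N ≥ N₁ = 2Λ^23906`;
phase 2: `N₁ ≥ N ≥ N₂ = 2Λ^12621`; phase 3: `N₂ ≥ N ≥ N₃ = 2Λ^11218`; phase 4: combinatorial.
Never unfold `KK` or evaluate powers; compare exponents with `pow_le_pow_right₀`, `pow_add`.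
-/

set_option autoImplicit false

namespace Crest.Agent.R62

open Matrix Finset

def KK : ℕ := 31910

structure Obs (K : Type) where
  t1 : K
  t2 : K
  t3 : K
  t4 : K
  tK : K
  P2 : K
  Pp : K
  f2 : K
  f8 : K

section targets
variable {K : Type} [Field K] [LinearOrder K]

def th1 (Λ N₀ N : K) : K := N₀ / N / Λ ^ 160
def u1 (Λ N₀ N : K) : K := Λ ^ 9 * (N₀ / N)
def T41 (Λ N₀ N : K) : K := N * Λ ^ 8 * (N₀ / N) ^ 2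
def TK1 (Λ N₀ N : K) : K := N * (Λ ^ 8 * (N₀ / N)) ^ (KK - 2)
def G1 (Λ N₀ N : K) : K := (N₀ / N) ^ 3 / (10 * Λ ^ 160)
def sQ1 (Λ N₀ N : K) : K := (N₀ / N) ^ 2 * Λ ^ 7840
def SQ1 (Λ N₀ N : K) : K := (N₀ / N) ^ 2 * Λ ^ 7864
def K11 (Λ N₀ N : K) : K := N₀ / N * Λ ^ 7691
def S11 (Λ N₀ N : K) : K := N₀ / N * Λ ^ 7855
def TP1 (Λ N₀ N : K) : K := (N₀ / N) ^ 2 * Λ ^ 7693
def Tp1 (Λ N₀ N : K) : K := (N₀ / N) ^ 2 * Λ ^ 22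
def Tf1 (Λ N₀ N : K) : K := Λ ^ 8 + (N₀ / N) ^ 3 / Λ ^ 16191

def c1 (Λ N₀ τ N ε : K) (o : Obs K) : ℕ → K
  | 0 => o.t4 / T41 Λ N₀ N
  | 1 => o.tK / TK1 Λ N₀ N
  | 2 => ((o.t3 - ε * τ) / (N₀ / 4)) ^ 2
  | 3 => (max (o.t2 - N + G1 Λ N₀ N) 0 / sQ1 Λ N₀ N) ^ 2
  | 4 => ((o.t2 - N) / SQ1 Λ N₀ N) ^ 2
  | 5 => (max (ε * o.t1) 0 / K11 Λ N₀ N) ^ 2
  | 6 => (o.t1 / S11 Λ N₀ N) ^ 2
  | 7 => o.P2 / TP1 Λ N₀ N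
  | 8 => o.Pp / Tp1 Λ N₀ N
  | 9 => o.f2 / Tf1 Λ N₀ N
  | 10 => o.f8 / (1 / Λ ^ 2641)
  | _ => 0

def com (Λ N om : K) : K := (max om 0 / (N / Λ ^ 2)) ^ 2
def cxc (Λ xc : K) : K := xc / Λ ^ 39602

def pot1 (Λ N₀ τ N : K) (a b : Obs K) (om xc : K) : K :=
  ∑ k ∈ range 11, c1 Λ N₀ τ N 1 a k + ∑ k ∈ range 11, c1 Λ N₀ τ N (-1) b k
    + com Λ N om + cxc Λ xc

def xx (Λ N : K) : K := N / (2 * Λ ^ 23906)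
def sg (Λ N : K) : K := (2 * Λ ^ 23906 + Λ ^ 23842) / (N + Λ ^ 23842)
def ww (Λ N : K) : K := xx Λ N * sg Λ N ^ 4
def be (Λ N : K) : K := N / (N + Λ ^ 23842)
def mu (Λ N : K) : K := Λ ^ 23842 / (N + Λ ^ 23842)
def T42 (Λ N : K) : K := N * Λ ^ 16013 * ww Λ N
def TK2 (Λ N : K) : K := N * (Λ ^ 16022 * ww Λ N) ^ ((KK - 2) / 2)
def TQ2 (Λ N : K) : K := N * be Λ N
def sQ2 (Λ N : K) : K := N * be Λ N * mu Λ N / Λ ^ 2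
def K12 (Λ N : K) : K := Λ ^ 15694 * (xx Λ N * sg Λ N)
def TP2 (Λ N : K) : K := Λ ^ 23698 * (xx Λ N * sg Λ N ^ 3)
def Tp2 (Λ N : K) : K := Λ ^ 16028 * ww Λ N
def Tf2 (Λ N : K) : K := Λ ^ 10 * (N / (2 * Λ ^ 12621)) * (Λ ^ 23836 / (N + Λ ^ 23836)) ^ 6

def c2 (Λ N ε : K) (o : Obs K) : ℕ → K
  | 0 => o.t4 / T42 Λ N
  | 1 => o.tK / TK2 Λ N
  | 2 => (max (o.t2 - TQ2 Λ N) 0 / sQ2 Λ N) ^ 2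
  | 3 => (max (ε * o.t1) 0 / K12 Λ N) ^ 2
  | 4 => o.P2 / TP2 Λ N
  | 5 => o.Pp / Tp2 Λ N
  | 6 => o.f2 / Tf2 Λ N
  | 7 => o.f8 / (1 / Λ ^ 2640)
  | _ => 0

def pot2 (Λ N : K) (a b : Obs K) : K :=
  ∑ k ∈ range 8, c2 Λ N 1 a k + ∑ k ∈ range 8, c2 Λ N (-1) b k

end targets

def AllAt (p : ℕ) (L Λ : ℝ) : Prop :=
  T1At L Λ ∧ T2At L Λ ∧ T2BAt L Λ ∧ T3At L Λ ∧ MomAt 4 L Λ ∧ MomAt KK L Λ ∧ OmAt L Λ ∧ XAt L Λ ∧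
    F2At L Λ ∧ F8At L Λ ∧ P2At L Λ ∧ PPAt p L Λ ∧ T2CAt Λ

structure Big (d p : ℕ) (L Λ N₀ τ : ℝ) : Prop where
  hd : 3 ≤ d
  hΛ : 10 ^ 20 * (d : ℝ) ^ 10 ≤ Λ
  lo : Λ ^ 31907 ≤ N₀
  hi : N₀ ≤ Λ ^ 31908
  L2 : 2 ≤ L
  LΛ : 1000 * L ^ 10 ≤ Λ
  Lp : Λ ^ 31908 ≤ (L - 1) ^ p
  hp : 31910 ≤ p
  t0 : 7 / 10 * N₀ ≤ τ
  t1 : τ ≤ (d : ℝ) ^ 2 * N₀
  all : AllAt p L Λ

section
variable {ι : Type} [Fintype ι] [DecidableEq ι]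

noncomputable def obsR (p : ℕ) (F : Mat ι) : Obs ℝ :=
  ⟨tk F 1, tk F 2, tk F 3, tk F 4, tk F KK, Pq F 2, Pq F p, fq F 2, fq F 8⟩
noncomputable def pot1R (p : ℕ) (Λ N₀ τ N : ℝ) (A B : Mat ι) : ℝ :=
  pot1 Λ N₀ τ N (obsR p A) (obsR p B) (Om A B) (Xc A B)
noncomputable def pot2R (p : ℕ) (Λ N : ℝ) (A B : Mat ι) : ℝ := pot2 Λ N (obsR p A) (obsR p B)

structure Ctx1 (d p : ℕ) (L Λ N₀ τ : ℝ) (E : Env ι) (F F' : Mat ι) (ε : ℝ) : Prop where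
  big : Big d p L Λ N₀ τ
  ok : E.Ok
  sF : Side E F ε
  sF' : Side E F' (-ε)
  hC : E.C = F + F'
  hth : E.th = th1 Λ N₀ E.N
  hu : E.u = u1 Λ N₀ E.N
  hL : E.L = L
  hz : E.z = 1 / Λ ^ 330
  hz' : E.z' = 1 / Λ ^ 660
  hD : E.D = Λ * (Λ ^ 1320 + E.th ^ 2)
  hT : E.Tf = Tf1 Λ N₀ E.N
  lo : 2 * Λ ^ 23906 + 2 ≤ E.N
  hi : E.N ≤ N₀
  oF : ∀ k, c1 Λ N₀ τ E.N ε (obsR p F) k ≤ 1
  oF' : ∀ k, c1 Λ N₀ τ E.N (-ε) (obsR p F') k ≤ 1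
  om : Om F F' ≤ E.N / Λ ^ 2
  xc : Xc F F' ≤ Λ ^ 39602

structure Ctx2 (d p : ℕ) (L Λ N₀ τ : ℝ) (E : Env ι) (F F' : Mat ι) (ε : ℝ) : Prop where
  big : Big d p L Λ N₀ τ
  ok : E.Ok
  sF : Side E F ε
  sF' : Side E F' (-ε)
  hC : E.C = F + F'
  hth : E.th = 0
  hu : E.u = √(Λ ^ 16024 * ww Λ E.N)
  hL : E.L = L
  hz : E.z = 1 / Λ ^ 330
  hz' : E.z' = 1 / Λ ^ 660
  hD : E.D = Λ ^ 1321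
  hT : E.Tf = Tf2 Λ E.N
  lo : 2 * Λ ^ 12621 + 2 ≤ E.N
  hi : E.N ≤ 2 * Λ ^ 23906
  oF : ∀ k, c2 Λ E.N ε (obsR p F) k ≤ 1

end

/-- SM1: small parameters and unfolded bounds in phase 1 (monomial inequalities from
`1 ≤ y ≤ Λ^8002`, `Λ^23906 ≤ N`, `Λ^31907 ≤ N₀ = yN`). `∑_U ρ² ≤ P₂ + ∑ρ₋`,
`∑ρ₋ = ∑ρ₊ - (Q-N) ≤ √(N P₂) + |Q-N|`; `∑r² ≤ N + 2√(N P₂) + P₂`. -/
def SM1Stmt : Prop := ∀ (ι : Type) [Fintype ι] [DecidableEq ι] (d p : ℕ) (L Λ N₀ τ : ℝ)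
  (E : Env ι) (F F' : Mat ι) (ε : ℝ), Ctx1 d p L Λ N₀ τ E F F' ε →
    10 ^ 20 ≤ Λ ∧ 1 ≤ N₀ / E.N ∧ N₀ / E.N ≤ Λ ^ 8002 ∧ Λ ^ 23906 ≤ E.N ∧
    |E.Z - E.N ^ 2| ≤ E.N ^ 2 / Λ ^ 2 ∧
    E.eta ≤ 1 / Λ ^ 41 ∧ E.eta2 ≤ 1 / Λ ^ 34 ∧ E.eta3 ≤ 1 / Λ ^ 3900 ∧ E.etaf ≤ 1 / Λ ^ 8000 ∧
    Λ ^ 3 * (E.eta4 + K11 Λ N₀ E.N * E.u / E.N) ≤ √(TP1 Λ N₀ E.N / E.N) ∧
    √(TP1 Λ N₀ E.N / E.N) ≤ 1 / Λ ^ 104 ∧ K11 Λ N₀ E.N * E.u / E.N ≤ 1 / Λ ^ 202 ∧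
    E.th * E.u ^ 2 / E.N ≤ 1 / Λ ^ 42 ∧ SQ1 Λ N₀ E.N ≤ E.N / Λ ^ 38 ∧ E.Tf ≤ Λ ^ 7816 ∧
    E.Tf ≤ E.u ^ 2 ∧ E.z ^ p * E.N ^ 3 ≤ 1 ∧ (1 / Λ) ^ (p - 1) * E.N ≤ 1 ∧
    0 ≤ tk F 4 ∧ tk F 4 ≤ T41 Λ N₀ E.N ∧ 0 ≤ tk F KK ∧ tk F KK ≤ TK1 Λ N₀ E.N ∧
    |tk F 3 - ε * τ| ≤ N₀ / 4 ∧ 9 / 20 * N₀ ≤ ε * tk F 3 ∧ |tk F 3| ≤ 2 * (d : ℝ) ^ 2 * N₀ ∧
    tk F 2 - E.N + G1 Λ N₀ E.N ≤ sQ1 Λ N₀ E.N ∧ |tk F 2 - E.N| ≤ SQ1 Λ N₀ E.N ∧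
    |tk F' 2 - E.N| ≤ SQ1 Λ N₀ E.N ∧ tk F 2 ≤ 101 / 100 * E.N ∧
    ε * tk F 1 ≤ K11 Λ N₀ E.N ∧ |tk F 1| ≤ S11 Λ N₀ E.N ∧
    Pq F 2 ≤ TP1 Λ N₀ E.N ∧ Pq F p ≤ Tp1 Λ N₀ E.N ∧ fq F 8 ≤ 1 / Λ ^ 2641 ∧
    ∑ x ∈ E.U, (rr F x - 1) ^ 2 ≤ 2 * √(E.N * TP1 Λ N₀ E.N) + SQ1 Λ N₀ E.N ∧
    ∑ x, rr F x ^ 2 ≤ E.N * (1 + 3 / Λ ^ 104) ∧ 0 ≤ Xc F F' ∧
    |trace (F' * F ^ 2)| ≤ √(tk F 2 * Xc F F') ∧ |trace (F' * F ^ 3)| ≤ √(tk F 4 * Xc F F') ∧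
    tk F 3 ^ 2 ≤ tk F 2 * tk F 4 ∧ |trace (E.C * F ^ 2)| ≤ 2 * E.u * tk F 2 ∧
    |trace (E.C * F ^ 3)| ≤ 2 * E.u ^ 2 * tk F 2

/-- O1 k: one observable of phase 1 (use SM1, AVG, POT and the matching field of `big.all`).
Each error term is `≤ N·target/Λ²`.
`0`: MOM 4, `v = Λ⁴y`, `γ = 0`. `1`: MOM KK + CROSS, `v = Λ⁸y`, `γ = 0`. `2`: T3, POT 3.
`3`: `y'-y = 2ρ_iρ_j + rest + ΔG`, `ΔG ≤ 6.1G/N`, `ΔG Z ≤ 0.62 y³N/Λ^160 ≤ 4 th tk4`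
(`tk4 ≥ tk3²/tk2`), `tr C F³ = tk 4 + tr F'F³`, AVG 4, 15 (`m = 0`), T2 with the first `V`, T2B,
POT 2, `γ = 0`. `4`: same with POT 3. `5`: T1, `ε tr CF² = ε tk 3 + ε tr F'F² ≥ -√(QX)`, POT 2,
`γ = 0`. `6`: T1, POT 3. `7`: P2, `e = Λ⁻³`, `γ = 4`. `8`: PP, `s = 1/Λ`, `γ = 1`.
`9`: F2, `e = Λ⁻³`, `γ = 0`. `10`: F8, `e = Λ⁻³`, `γ = 0`. -/
def O1Stmt (k : ℕ) : Prop := ∀ (ι : Type) [Fintype ι] [DecidableEq ι] (d p : ℕ) (L Λ N₀ τ : ℝ)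
  (E : Env ι) (F F' : Mat ι) (ε : ℝ), Ctx1 d p L Λ N₀ τ E F F' ε →
    E.av (fun i j => c1 Λ N₀ τ (E.N - 2) ε (obsR p (step F i j)) k) ≤
      E.Z * (c1 Λ N₀ τ E.N ε (obsR p F) k + 30 / (Λ * E.N))

/-- O1X: OM with POT 2 (`γ = -2`, `s = N/Λ²`), X with POT 1 (`γ = 0`). -/
def O1XStmt : Prop := ∀ (ι : Type) [Fintype ι] [DecidableEq ι] (d p : ℕ) (L Λ N₀ τ : ℝ)
  (E : Env ι) (F F' : Mat ι) (ε : ℝ), Ctx1 d p L Λ N₀ τ E F F' ε →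
    E.av (fun i j => com Λ (E.N - 2) (Om (step F i j) (step F' i j))) ≤
      E.Z * (com Λ E.N (Om F F') + 30 / (Λ * E.N)) ∧
    E.av (fun i j => cxc Λ (Xc (step F i j) (step F' i j))) ≤
      E.Z * (cxc Λ (Xc F F') + 30 / (Λ * E.N))

/-- SM2 (`C = Λ^23842`, `β = be`, `μ = mu`, `x = xx`, `σ = sg`). The rate item is Bernoulli:
`((N-2)/N)^a ((N+c)/(N-2+c))^b ≥ (1-2a/N)(1+2b/(N+c))`. `Tf ≥ Λ⁹`: cases `N ≤ C'`, `N ≥ C'`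
(`C' = Λ^23836`); `Tf ≤ Λ^10 min(N,C')/N₂`. `K u/N = Λ^-200 σ³ √x/2`, `TP/N = Λ^-208 σ³/2`. -/
def SM2Stmt : Prop := ∀ (ι : Type) [Fintype ι] [DecidableEq ι] (d p : ℕ) (L Λ N₀ τ : ℝ)
  (E : Env ι) (F F' : Mat ι) (ε : ℝ), Ctx2 d p L Λ N₀ τ E F F' ε →
    10 ^ 20 ≤ Λ ∧ Λ ^ 12621 ≤ E.N ∧ |E.Z - E.N ^ 2| ≤ E.N ^ 2 / Λ ^ 2 ∧
    (∀ (a b : ℕ) (c : ℝ), a ≤ 10 ^ 6 → b ≤ 10 ^ 6 → 0 ≤ c →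
      1 + (-2 * a + 2 * b * (E.N / (E.N + c))) / E.N - 1 / (Λ * E.N) ≤
        ((E.N - 2) / E.N) ^ a * ((E.N + c) / (E.N - 2 + c)) ^ b) ∧
    1 ≤ sg Λ E.N ∧ sg Λ E.N ≤ Λ ^ 65 ∧ 1 / Λ ^ 11285 ≤ xx Λ E.N ∧ xx Λ E.N ≤ 1 ∧
    be Λ E.N ≤ xx Λ E.N * sg Λ E.N ∧ xx Λ E.N * sg Λ E.N ≤ 2 * be Λ E.N ∧
    be Λ E.N + mu Λ E.N = 1 ∧ 1 / Λ ^ 11221 ≤ be Λ E.N ∧ 1 / Λ ^ 65 ≤ mu Λ E.N ∧
    Λ ^ 1400 ≤ E.N * be Λ E.N * mu Λ E.N ∧ E.u ^ 2 = Λ ^ 16024 * ww Λ E.N ∧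
    E.u ^ 2 / E.N ≤ 1 / Λ ^ 7622 ∧ Λ ^ 9 ≤ E.Tf ∧ E.Tf / E.N ≤ 1 / Λ ^ 12611 ∧
    E.Tf ≤ Λ ^ 11225 ∧ E.Tf ≤ E.u ^ 2 ∧
    E.eta ≤ 1 / Λ ^ 3800 ∧ E.eta3 ≤ 1 / Λ ^ 3800 ∧ E.eta4 ≤ 1 / Λ ^ 3800 ∧
    E.etaf ≤ 1 / Λ ^ 6300 ∧ K12 Λ E.N * E.u / E.N ≤ mu Λ E.N / Λ ^ 5 ∧
    Λ ^ 3 * (E.eta4 + K12 Λ E.N * E.u / E.N) ≤ √(TP2 Λ E.N / E.N) ∧
    √(TP2 Λ E.N / E.N) ≤ 1 / Λ ^ 6 ∧ 1 / Λ ^ 209 ≤ TP2 Λ E.N / E.N ∧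
    Λ ^ 4473 ≤ K12 Λ E.N ∧ Λ ^ 3 * E.u ≤ K12 Λ E.N ∧ Λ ^ 3 * E.Tf ≤ K12 Λ E.N ∧
    E.z ^ p * E.N ^ 3 ≤ 1 ∧ (1 / Λ) ^ (p - 1) * E.N ≤ 1 ∧
    0 ≤ tk F 4 ∧ tk F 4 ≤ T42 Λ E.N ∧ 0 ≤ tk F KK ∧ tk F KK ≤ TK2 Λ E.N ∧
    tk F 2 - TQ2 Λ E.N ≤ sQ2 Λ E.N ∧ tk F 2 ≤ be Λ E.N * E.N + E.N / Λ ^ 2 ∧
    tk F 2 ≤ 2 * be Λ E.N * E.N ∧ ε * tk F 1 ≤ K12 Λ E.N ∧
    Pq F 2 ≤ TP2 Λ E.N ∧ Pq F p ≤ Tp2 Λ E.N ∧ fq F 8 ≤ 1 / Λ ^ 2640 ∧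
    |tk F 1| ≤ √(E.N * fq F 2) ∧ tk F 3 ^ 2 ≤ tk F 2 * tk F 4 ∧
    tk F 1 * tk F 3 ≤ (K12 Λ E.N * E.u + √(E.N * E.Tf)) * tk F 2 ∧
    ∑ x, rr F x ^ 2 ≤ min (tk F 2) E.N + 3 * E.N / Λ ^ 6 ∧
    ∑ x ∈ E.U, (rr F x - 1 + mu Λ E.N) ^ 2 ≤ 6 * L * be Λ E.N * E.N ∧
    ∑ x ∈ E.U, (rr F x - 1) ^ 2 ≤ L ^ 2 * E.N

/-- O2 k (use SM2, AVG, POT, `big.all`); a target `∝ N^a (N+C)^-b` has rate `γ = -2a + 2bβ`.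
`0`: MOM 4, `v = √(T42/N)`, `4 tk3² ≤ 4Q tk4`, `(a,b) = (2,4)`. `1`: MOM KK + CROSS,
`v = √(Λ^16022 w)`, `(a,b) = (KK/2, 2(KK-2))`. `2`: `TQ2 N = N - C + C²/(N+C)`, so
`y'-y = 2ρ_iρ_j + rest - γ_Q`, `γ_Q = 2μ²(N+C)/(N+C-2) ∈ [2μ², 2μ²+4/N]`, `N - Q = μN - y`,
`γ = -4μ` (`(a,b) = (2,2)`), T2 with `V = Q`, AVG 4, AVG 15 with `m = μ`, T2B. `3`: T1, `(1,1)`.
`4`: P2, `e = Λ⁻³`, `(1,3)`. `5`: PP, `s = 1/Λ`, `(1,4)`. `6`: F2, `e = Λ⁻³`, `(1,6)` with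
`c = C'`: if `N ≥ C'` the drift rate is `≤ 4 + small ≤ -2+12β'`, else `β ≤ Λ⁻⁶` and it is
`≤ -2 + small`. `7`: F8, `γ = 0`. -/
def O2Stmt (k : ℕ) : Prop := ∀ (ι : Type) [Fintype ι] [DecidableEq ι] (d p : ℕ) (L Λ N₀ τ : ℝ)
  (E : Env ι) (F F' : Mat ι) (ε : ℝ), Ctx2 d p L Λ N₀ τ E F F' ε →
    E.av (fun i j => c2 Λ (E.N - 2) ε (obsR p (step F i j)) k) ≤
      E.Z * (c2 Λ E.N ε (obsR p F) k + 30 / (Λ * E.N))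

/-- STEP1 (from ENV with `B₀ = 2d²`, SPEC (op norm from `tk KK ≤ TK1 ≤ u^KK`), all O1 k, O1X, AVG,
POT 4). All terms of `pot1` are `≥ 0`, so each is `≤ 1`; rows: `ρ₊^p ≤ Tp1 ≤ (L-1)^p`;
diagonal: `f⁸ ≤ z⁸`. Build `Ctx1 E A B 1` and `Ctx1 E B A (-1)` (`Om`, `Xc` are symmetric). -/
def Step1Stmt : Prop := ∀ (ι : Type) [Fintype ι] [DecidableEq ι] (d p : ℕ) (L Λ N₀ τ : ℝ)
  (U : Finset ι) (A B : Mat ι) (bad : Finset (ι × ι)), Big d p L Λ N₀ τ → Bas U A 1 →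
    Bas U B (-1) → (∀ i j, (i, j) ∈ bad → (j, i) ∈ bad) →
    (∀ i ∈ U, (U.filter fun j => (i, j) ∈ bad).card ≤ 2 * d ^ 2) →
    2 * Λ ^ 23906 + 2 ≤ U.card → (U.card : ℝ) ≤ N₀ → pot1R p Λ N₀ τ U.card A B ≤ 1 →
    ∃ i ∈ U, ∃ j ∈ U, i ≠ j ∧ (i, j) ∉ bad ∧ 1 / 2 ≤ Dl A i j ∧ 1 / 2 ≤ Dl B i j ∧
      pot1R p Λ N₀ τ (U.card - 2) (step A i j) (step B i j) ≤
        pot1R p Λ N₀ τ U.card A B + 720 / (Λ * U.card)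

/-- STEP2: same with `th = 0`, `u = √(Λ^16024 w)`, `D = Λ^1321`, `Tf = Tf2` (the facts
`1 ≤ u`, `u² ≤ N`, `1 ≤ Tf ≤ N` are proved as in SM2). -/
def Step2Stmt : Prop := ∀ (ι : Type) [Fintype ι] [DecidableEq ι] (d p : ℕ) (L Λ N₀ τ : ℝ)
  (U : Finset ι) (A B : Mat ι) (bad : Finset (ι × ι)), Big d p L Λ N₀ τ → Bas U A 1 →
    Bas U B (-1) → (∀ i j, (i, j) ∈ bad → (j, i) ∈ bad) →
    (∀ i ∈ U, (U.filter fun j => (i, j) ∈ bad).card ≤ 2 * d ^ 2) →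
    2 * Λ ^ 12621 + 2 ≤ U.card → (U.card : ℝ) ≤ 2 * Λ ^ 23906 → pot2R p Λ U.card A B ≤ 1 →
    ∃ i ∈ U, ∃ j ∈ U, i ≠ j ∧ (i, j) ∉ bad ∧ 1 / 2 ≤ Dl A i j ∧ 1 / 2 ≤ Dl B i j ∧
      pot2R p Λ (U.card - 2) (step A i j) (step B i j) ≤
        pot2R p Λ U.card A B + 720 / (Λ * U.card)

/-- The bound of phase 3. -/
noncomputable def T3b (Λ N : ℝ) : ℝ :=
  N * (1 / Λ ^ 11220 + (2 * Λ ^ 12621 - N) / Λ ^ 25230)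

/-- STEP3: T2C for `A` and `B` with `Qb = Λ^1402`, `D = Λ^2805`; `Adm` = pairs in `U`, `i ≠ j`,
not bad, `|F i j| ≤ 1/10`, `|F i i F j j| ≤ 1/10` for both (Markov: `≤ 1 + 2d² + 200Qb + 200Qb²`
excluded per row), `N²/2 ≤ |Adm| ≤ N²`, `1 ≤ tk F 2`. With `Ψ = Q_A+Q_B-2 ≥ 0` some pair has
`Ψ' ≤ Ψ(1-2/N) + 4Λ(Qb²√N + D Qb²)/N²`. -/
def Step3Stmt : Prop := ∀ (ι : Type) [Fintype ι] [DecidableEq ι] (d p : ℕ) (L Λ N₀ τ : ℝ)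
  (U : Finset ι) (A B : Mat ι) (bad : Finset (ι × ι)), Big d p L Λ N₀ τ → Bas0 U A →
    Bas0 U B → (∀ i j, (i, j) ∈ bad → (j, i) ∈ bad) →
    (∀ i ∈ U, (U.filter fun j => (i, j) ∈ bad).card ≤ 2 * d ^ 2) →
    2 * Λ ^ 11218 + 2 ≤ U.card → (U.card : ℝ) ≤ 2 * Λ ^ 12621 →
    tk A 2 + tk B 2 - 2 ≤ T3b Λ U.card →
    ∃ i ∈ U, ∃ j ∈ U, i ≠ j ∧ (i, j) ∉ bad ∧ 1 / 2 ≤ Dl A i j ∧ 1 / 2 ≤ Dl B i j ∧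
      tk (step A i j) 2 + tk (step B i j) 2 - 2 ≤ T3b Λ (U.card - 2)

/-- SW: phase switches. At `N₁`, `y ∈ [Λ^8001/2, Λ^8002/2]`, `x = σ = w = 1`; every new target is
`≥ Λ ×` the old one, and `Q ≤ N - G + sQ ≤ N - C ≤ TQ2`. At `N₂`: `Q ≤ 2βN ≤ Λ^1401`.
At `N₃`: `T3b < 1` and `1 ≤ tk F 2`. -/
def SwStmt : Prop := ∀ (ι : Type) [Fintype ι] [DecidableEq ι] (d p : ℕ) (L Λ N₀ τ : ℝ)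
  (U : Finset ι) (A B : Mat ι), Big d p L Λ N₀ τ → Bas0 U A → Bas0 U B →
    (pot1R p Λ N₀ τ (2 * Λ ^ 23906) A B ≤ 1 → pot2R p Λ (2 * Λ ^ 23906) A B ≤ 1 / 4) ∧
    (pot2R p Λ (2 * Λ ^ 12621) A B ≤ 1 → tk A 2 + tk B 2 - 2 ≤ T3b Λ (2 * Λ ^ 12621)) ∧
    (U.Nonempty → tk A 2 + tk B 2 - 2 ≤ T3b Λ (2 * Λ ^ 11218) → tk A 2 < 2 ∧ tk B 2 < 2)

/-! ### Vertex level -/

section
variable {ι V : Type} [Fintype ι] [DecidableEq ι] [Fintype V] [DecidableEq V]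

def dfree (vt : ι → V) (U : Finset ι) (v : V) : ℝ := ((U.filter fun x => vt x = v).card : ℕ)

/-- The initial matrix. -/
noncomputable def F0 (vt : ι → V) (d : ℕ) (t h ε : ℝ) : Mat ι := Matrix.of fun x y =>
  ε * ((if vt x = vt y then h else 0) - if x = y then t else 0)
    + (1 + ε * t - ε * h * d) / Fintype.card ι

/-- `M = λ - εA - t D_free + c J` with `λ = td + (1-t²)/h`. -/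
noncomputable def Mm (vt : ι → V) (d : ℕ) (t h ε : ℝ) (U : Finset ι) (Aj : Mat V) : Mat V :=
  Matrix.of fun v w => (if v = w then t * d + (1 - t ^ 2) / h - t * dfree vt U v else 0)
    - ε * Aj v w + ((ε - t) * d - (1 - t ^ 2) / h) / Fintype.card V

def edge (vt : ι → V) (i j : ι) : Mat V := Matrix.of fun v w =>
  (if v = vt i ∧ w = vt j then 1 else 0) + if v = vt j ∧ w = vt i then 1 else 0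

/-- `Γ = (1-t²) M⁻¹ E`, `Eᵀ Γ = εF + t`, `M` positive definite on `D^⊥`. -/
structure LA (vt : ι → V) (t ε : ℝ) (U : Finset ι) (F : Mat ι) (M : Mat V)
    (Γ : Matrix V ι ℝ) : Prop where
  b0 : Bas0 U F
  sM : Sy M
  mg : ∀ v, ∀ y ∈ U, ∑ w, M v w * Γ w y = if vt y = v then 1 - t ^ 2 else 0
  gh : ∀ x ∈ U, ∀ y ∈ U, Γ (vt x) y = ε * F x y + if x = y then t else 0
  g1 : ∀ v, ∑ y ∈ U, Γ v y = ε + t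
  m1 : ∀ v, ∑ w, M v w = (ε - t) * dfree vt U v
  pd : ∀ x : V → ℝ, x ≠ 0 → ∑ v, x v * dfree vt U v = 0 → 0 < x ⬝ᵥ M *ᵥ x

end

/-- LAS. `κ = 1-t²`, `M' = M - E_S(εσ - t)E_Sᵀ`, `Γ' v y = Γ v y + wf F i j (Γ v i) (Γ v j) (F y i)
(F y j)`. For `pd`: for `x : V → ℝ`, `y ∈ ℝ²` put `𝓑(x,y) = M(x) - 2xᵀE_Sy + yᵀ(εσ+t)y/κ`. Then
(a) `𝓑(x, y*+w) = M'(x) + wᵀ(εσ+t)w/κ` with `y* = (εσ-t)E_Sᵀx`; (b) `𝓑(x,y) = M(x - Γ_Sy/κ) +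
ε yᵀ(σ-F_SS)y/κ`. `T = ε(σ-F_SS)` has `det = -Dl < 0` and `T(w₀) < 0` for `w₀ = (1,-ε)`, where
`εσ+t` is negative (for `ε = 1`: `H = F+t ⪰ 0`; for `ε = -1`: LAP-type bound
`1_SᵀF1_S ≤ 2t + 4(1-t)/N < 2`). Choose `w ∥ w₀` with `y*+w` `T`-orthogonal to `w₀`, so
`T(y) ≥ 0` with equality only for `y = 0`. `ε = 1`: `M` is positive definite everywhere (`M1 =
(1-t)D`, `M(1) > 0`). `ε = -1`: replace `x` by `x + a1` (`M'(x+a1) = M'(x) - a²(1+t)(N-2)` for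
`x ⊥ D'`, `y*` moves along `w₀`) with `a` making `x + a1 - Γ_Sy/κ ⊥ D`. -/
def LASStmt : Prop := ∀ (ι V : Type) [Fintype ι] [DecidableEq ι] [Fintype V] [DecidableEq V]
  (vt : ι → V) (d : ℕ) (t h ε : ℝ) (U : Finset ι) (F : Mat ι) (Aj : Mat V) (Γ : Matrix V ι ℝ)
  (i j : ι), 0 < t → t < 1 → (ε = 1 ∨ ε = -1) → LA vt t ε U F (Mm vt d t h ε U Aj) Γ →
    i ∈ U → j ∈ U → i ≠ j → 0 < Dl F i j → 2 < U.card →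
    ∃ Γ', LA vt t ε ((U.erase i).erase j) (step F i j)
      (Mm vt d t h ε ((U.erase i).erase j) (Aj + edge vt i j)) Γ'

/-- LAP: for `v` supported in `U`, `κ vᵀ(εF+t)v = M(Γv)`, and `(Γv)·D = (ε+t)∑v`. LAI: take
`Γ v y = h[vt y = v] + (ε+t-hd)/card ι`. HT: `M` is injective (`Mx = 0` gives `x ⊥ D`), Cramer
for the integer matrix `D₀M` (`Matrix.det_le`, adjugate entries are determinants):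
`F = ε((D₀²-a²) adj - a det [x=y])/(D₀ det)`. -/
def LAPStmt : Prop := ∀ (ι V : Type) [Fintype ι] [DecidableEq ι] [Fintype V] [DecidableEq V]
  (vt : ι → V) (t ε : ℝ), 0 < t → t < 1 → (ε = 1 ∨ ε = -1) →
    (∀ U F M Γ, LA vt t ε U F M Γ → Bas U F ε) ∧
    (∀ (d : ℕ) (h : ℝ), 0 < h → 1 ≤ d → Nonempty V →
      (∀ v, (univ.filter fun x => vt x = v).card = d) →
      ∃ Γ, LA vt t ε univ (F0 vt d t h ε) (Mm vt d t h ε univ 0) Γ) ∧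
    ∀ U F M Γ (D₀ H : ℕ), LA vt t ε U F M Γ → U.Nonempty → 1 ≤ D₀ → 1 ≤ H →
      (∃ a : ℤ, D₀ * t = a) → (∀ v w, ∃ m : ℤ, D₀ * M v w = m ∧ m.natAbs ≤ H) →
      ∀ x y, ∃ a b : ℤ, b ≠ 0 ∧ F x y = a / b ∧
        a.natAbs ≤ 2 * D₀ ^ 2 * ((Fintype.card V).factorial * H ^ Fintype.card V) ∧
        b.natAbs ≤ 2 * D₀ ^ 2 * ((Fintype.card V).factorial * H ^ Fintype.card V)

/-- LAF. As in LAS with `S = U`, `σ = μ`: `𝓑(x,y) = M(x) - 2xᵀEy + yᵀ(εμ+t)y/κ`. `‖F - J_U/N‖ < 1`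
since its squared Frobenius norm is `tk F 2 - 1`. `ε = 1`: take `y` = the `μ`-symmetric part of
`y*`; `M_f(x) ≥ 𝓑 = M(x-Γy/κ) + (|y|² - yᵀFy)/κ ≥ 0`, equality forces `y ∝ 1_U`, `x ∝ Γ1 ∝ 1`.
`ε = -1`: `y` = antisymmetric part of `y*` plus `a 1_U` with `x - Γy/κ ⊥ D`; `(F-μ)1_U = 0`. -/
def LAFStmt : Prop := ∀ (ι V : Type) [Fintype ι] [DecidableEq ι] [Fintype V] [DecidableEq V]
  (vt : ι → V) (d : ℕ) (t h ε : ℝ) (U : Finset ι) (F : Mat ι) (Aj Aj' : Mat V)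
  (Γ : Matrix V ι ℝ) (μ : ι → ι), 0 < t → t < 1 → (ε = 1 ∨ ε = -1) →
    LA vt t ε U F (Mm vt d t h ε U Aj) Γ → U.Nonempty → tk F 2 < 2 →
    (∀ x ∈ U, μ x ∈ U ∧ μ x ≠ x ∧ μ (μ x) = x) →
    (∀ v w, Aj' v w = Aj v w + ∑ x ∈ U, if v = vt x ∧ w = vt (μ x) then 1 else 0) →
    ∀ x : V → ℝ, x ≠ 0 → ∑ v, x v = 0 →
      ε * (x ⬝ᵥ Aj' *ᵥ x) < (t * d + (1 - t ^ 2) / h) * (x ⬝ᵥ x)

/-- INIT. `F0 = ε(h J_b - t) + γJ` with `J_b² = dJ_b`, `J_bJ = dJ`, `J² = N₀J`: idempotents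
`J/N₀`, `J_b/d - J/N₀`, `1 - J_b/d` of ranks `1, n-1, n(d-1)` with eigenvalues `1`, `ε(hd-t)`,
`-εt`; `rr` and the diagonal are constant in `x`. `q = d-1`, `t ≤ 1/√q ≤ h = t + 1/(nq)`:
`√q ≤ hd-t ≤ √q+3/2 ≤ d`, `|Q - N₀|, |tk 1|, |tk 3 - ετ| ≤ 10d³`, `tk k ≤ (2d)^k N₀`, `Om ≤ 1`, `Xc ≤ (2d)⁴N₀`. -/
def InitStmt : Prop := ∀ (ι V : Type) [Fintype ι] [DecidableEq ι] [Fintype V] [DecidableEq V]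
  (vt : ι → V) (d p : ℕ) (t h : ℝ), 3 ≤ d → Nonempty V →
    (∀ v, (univ.filter fun x => vt x = v).card = d) → 0 < t → t ^ 2 * (d - 1) ≤ 1 →
    1 ≤ h ^ 2 * (d - 1) → h = t + 1 / (Fintype.card V * (d - 1)) →
    (7 / 10 * (Fintype.card ι : ℝ) ≤ Fintype.card V * ((h * d - t) ^ 3 - (d - 1) * t ^ 3) ∧
      Fintype.card V * ((h * d - t) ^ 3 - (d - 1) * t ^ 3) ≤ (d : ℝ) ^ 2 * Fintype.card ι ∧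
      t * d + (1 - t ^ 2) / h ≤ 2 * √((d : ℝ) - 1)) ∧
    ∀ L Λ : ℝ, Big d p L Λ (Fintype.card ι)
        (Fintype.card V * ((h * d - t) ^ 3 - (d - 1) * t ^ 3)) →
      pot1R p Λ (Fintype.card ι) (Fintype.card V * ((h * d - t) ^ 3 - (d - 1) * t ^ 3))
        (Fintype.card ι) (F0 vt d t h 1) (F0 vt d t h (-1)) ≤ 1 / 4

/-- CONST (from T1, T2, T2B, T3, MOM, OM, X, F2, F8, P2, PP, T2C): `c* = 11 + ∑ c`,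
`p = 2c*·31910`, `L = Λ^(1/c*)` (`Real.rpow`), `L - 1 ≥ √L` for `L ≥ 3`. -/
def ConstStmt : Prop := ∃ (p : ℕ) (Λ₀ : ℝ), 31910 ≤ p ∧ ∀ Λ : ℝ, Λ₀ ≤ Λ →
  ∃ L : ℝ, 2 ≤ L ∧ 1000 * L ^ 10 ≤ Λ ∧ Λ ^ 31908 ≤ (L - 1) ^ p ∧ AllAt p L Λ

/-- realises equation lemmas once, here -/
theorem eqnsB : True := by
  have := @KK.eq_1; have := @KK.eq_def
  have := @th1.eq_1; have := @th1.eq_def
  have := @u1.eq_1; have := @u1.eq_def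
  have := @T41.eq_1; have := @T41.eq_def
  have := @TK1.eq_1; have := @TK1.eq_def
  have := @G1.eq_1; have := @G1.eq_def
  have := @sQ1.eq_1; have := @sQ1.eq_def
  have := @SQ1.eq_1; have := @SQ1.eq_def
  have := @K11.eq_1; have := @K11.eq_def
  have := @S11.eq_1; have := @S11.eq_def
  have := @TP1.eq_1; have := @TP1.eq_def
  have := @Tp1.eq_1; have := @Tp1.eq_def
  have := @Tf1.eq_1; have := @Tf1.eq_def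
  have := @c1.eq_1; have := @c1.eq_def
  have := @c1.eq_2; have := @c1.eq_3; have := @c1.eq_4; have := @c1.eq_5; have := @c1.eq_6
  have := @c1.eq_7; have := @c1.eq_8; have := @c1.eq_9; have := @c1.eq_10; have := @c1.eq_11; have := @c1.eq_12
  have := @com.eq_1; have := @com.eq_def
  have := @cxc.eq_1; have := @cxc.eq_def
  have := @pot1.eq_1; have := @pot1.eq_def
  have := @xx.eq_1; have := @xx.eq_def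
  have := @sg.eq_1; have := @sg.eq_def
  have := @ww.eq_1; have := @ww.eq_def
  have := @be.eq_1; have := @be.eq_def
  have := @mu.eq_1; have := @mu.eq_def
  have := @T42.eq_1; have := @T42.eq_def
  have := @TK2.eq_1; have := @TK2.eq_def
  have := @TQ2.eq_1; have := @TQ2.eq_def
  have := @sQ2.eq_1; have := @sQ2.eq_def
  have := @K12.eq_1; have := @K12.eq_def
  have := @TP2.eq_1; have := @TP2.eq_def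
  have := @Tp2.eq_1; have := @Tp2.eq_def
  have := @Tf2.eq_1; have := @Tf2.eq_def
  have := @c2.eq_1; have := @c2.eq_def
  have := @c2.eq_2; have := @c2.eq_3; have := @c2.eq_4; have := @c2.eq_5
  have := @c2.eq_6; have := @c2.eq_7; have := @c2.eq_8; have := @c2.eq_9
  have := @pot2.eq_1; have := @pot2.eq_def
  have := @AllAt.eq_1; have := @AllAt.eq_def
  have := @obsR.eq_1; have := @obsR.eq_def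
  have := @pot1R.eq_1; have := @pot1R.eq_def
  have := @pot2R.eq_1; have := @pot2R.eq_def
  have := @T3b.eq_1; have := @T3b.eq_def
  have := @dfree.eq_1; have := @dfree.eq_def
  have := @F0.eq_1; have := @F0.eq_def
  have := @Mm.eq_1; have := @Mm.eq_def
  have := @edge.eq_1; have := @edge.eq_def
  trivial

end Crest.Agent.R62
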