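import Crest.Agent.R62.DefsB
import Crest.Agent.R300U.GPT
import Crest.Prelude.Def_GraphCode

/-!
Row 62: the algorithm. Half-edges `x < N = n d`, vertex of `x` is `x / d`. State: the list `mate`
(`m.getD x N`, a value `≥ N` means free) and the two rational matrices. Each step matches the
admissible pair of smallest value. Real side: `ι = Fin (n*d)`, `V = Fin n`, `vt = Fin.divNat`.
-/

set_option autoImplicit false

namespace Crest.Agent.R62

open Matrix Finset Crest.Agent.PT Crest.Agent.QC Crest.Agent.R317 Crest.Agent.R300U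
open Classical

abbrev QM := List (List ℚ)
abbrev St := List ℕ × QM × QM

def gq (M : QM) (x y : ℕ) : ℚ := (M.getD x []).getD y 0
def mkM (N : ℕ) (f : ℕ → ℕ → ℚ) : QM := mkL N fun x => mkL N fun y => f x y
def mmul (N : ℕ) (A B : QM) : QM := mkM N fun x y => ∑ z ∈ range N, gq A x z * gq B z y
def mpow (N : ℕ) (A : QM) (k : ℕ) : QM :=
  (fun M => mmul N M A)^[k] (mkM N fun x y => if x = y then 1 else 0)
def trq (N : ℕ) (A : QM) : ℚ := ∑ x ∈ range N, gq A x x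
def DlQ (F : QM) (i j : ℕ) : ℚ := (1 - gq F i j) ^ 2 - gq F i i * gq F j j
def stepQ (N : ℕ) (F : QM) (i j : ℕ) : QM := mkM N fun x y =>
  if x = i ∨ x = j ∨ y = i ∨ y = j then 0 else gq F x y +
    (gq F j j * gq F x i * gq F y i + gq F i i * gq F x j * gq F y j
      + (1 - gq F i j) * (gq F x i * gq F y j + gq F x j * gq F y i)) / DlQ F i j
def tkQ (N : ℕ) (F : QM) (k : ℕ) : ℚ := trq N (mpow N F k)
def PqQ (N : ℕ) (F : QM) (q : ℕ) : ℚ :=
  ∑ x ∈ range N, max (∑ y ∈ range N, gq F x y ^ 2 - 1) 0 ^ q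
def fqQ (N : ℕ) (F : QM) (q : ℕ) : ℚ := ∑ x ∈ range N, gq F x x ^ q
def obsQ (N p : ℕ) (F : QM) : Obs ℚ :=
  ⟨tkQ N F 1, tkQ N F 2, tkQ N F 3, tkQ N F 4, tkQ N F KK, PqQ N F 2, PqQ N F p, fqQ N F 2,
    fqQ N F 8⟩
def small (B N : ℕ) (F : QM) : Prop :=
  All N fun x => All N fun y => (gq F x y).num.natAbs ≤ 2 ^ B ∧ (gq F x y).den ≤ 2 ^ B

def La (d n : ℕ) : ℕ := Nat.nthRoot 31907 (n * d)
def sqq (d n : ℕ) : ℕ := Nat.nthRoot 2 ((d - 1) * n ^ 2)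
def tq (d n : ℕ) : ℚ := (sqq d n : ℚ) / ((n : ℚ) * ((d : ℚ) - 1))
def hq (d n : ℕ) : ℚ := ((sqq d n : ℚ) + 1) / ((n : ℚ) * ((d : ℚ) - 1))
def tau (d n : ℕ) : ℚ := (n : ℚ) * ((hq d n * d - tq d n) ^ 3 - ((d : ℚ) - 1) * tq d n ^ 3)
def Bt (d n : ℕ) : ℕ := 10 * (n + d + 1) ^ 2
def N3 (d n : ℕ) : ℕ := 2 * La d n ^ 11218
def F0Q (d n : ℕ) (ε : ℚ) : QM := mkM (n * d) fun x y =>
  ε * ((if x / d = y / d then hq d n else 0) - if x = y then tq d n else 0)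
    + (1 + ε * tq d n - ε * hq d n * d) / ((n * d : ℕ) : ℚ)

/-- The value of the new pair of matrices; the phase is chosen by the old number `c` of free
half-edges. -/
def valM (d p n c : ℕ) (A B : QM) : ℚ :=
  if 2 * La d n ^ 23906 < c then
    pot1 (La d n : ℚ) ((n * d : ℕ) : ℚ) (tau d n) ((c : ℚ) - 2) (obsQ (n * d) p A) (obsQ (n * d) p B)
      (trq (n * d) (mmul (n * d) A B))
      (trq (n * d) (mmul (n * d) (mmul (n * d) (mmul (n * d) A A) B) B))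
  else if 2 * La d n ^ 12621 < c then
    pot2 (La d n : ℚ) ((c : ℚ) - 2) (obsQ (n * d) p A) (obsQ (n * d) p B)
  else tkQ (n * d) A 2 + tkQ (n * d) B 2

def fr (N : ℕ) (m : List ℕ) (x : ℕ) : Prop := N ≤ m.getD x N
noncomputable def cnt (N : ℕ) (m : List ℕ) : ℕ := ∑ x ∈ range N, if fr N m x then 1 else 0
def adjv (d N : ℕ) (m : List ℕ) (v w : ℕ) : Prop :=
  Ex d fun a => m.getD (v * d + a) N < N ∧ m.getD (v * d + a) N / d = w
def bad (d N : ℕ) (m : List ℕ) (x y : ℕ) : Prop := x / d = y / d ∨ adjv d N m (x / d) (y / d)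
def okc (d N : ℕ) (m : List ℕ) (x y : ℕ) : Prop :=
  x < N ∧ y < N ∧ fr N m x ∧ fr N m y ∧ ¬ bad d N m x y
def upd (N : ℕ) (m : List ℕ) (x y : ℕ) : List ℕ :=
  mkL N fun z => if z = x then y else if z = y then x else m.getD z N
noncomputable def Phi (d N : ℕ) (m : List ℕ) : ℕ := ∑ x ∈ range N, ∑ y ∈ range N,
  if fr N m x ∧ fr N m y ∧ x ≠ y then
    (if x / d = y / d then 4 * d else if adjv d N m (x / d) (y / d) then 1 else 0) else 0

def okp (d n : ℕ) (s : St) (x y : ℕ) : Prop :=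
  okc d (n * d) s.1 x y ∧ (cnt (n * d) s.1 ≤ N3 d n ∨
    (1 / 2 ≤ DlQ s.2.1 x y ∧ 1 / 2 ≤ DlQ s.2.2 x y ∧
      small (Bt d n) (n * d) (stepQ (n * d) s.2.1 x y) ∧
      small (Bt d n) (n * d) (stepQ (n * d) s.2.2 x y)))
noncomputable def valQ (d p n : ℕ) (s : St) (x y : ℕ) : ℚ :=
  if cnt (n * d) s.1 ≤ N3 d n then (Phi d (n * d) (upd (n * d) s.1 x y) : ℚ)
  else valM d p n (cnt (n * d) s.1) (stepQ (n * d) s.2.1 x y) (stepQ (n * d) s.2.2 x y)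
noncomputable def mv (d n : ℕ) (s : St) (x y : ℕ) : St :=
  (upd (n * d) s.1 x y,
    if cnt (n * d) s.1 ≤ N3 d n then s.2 else (stepQ (n * d) s.2.1 x y, stepQ (n * d) s.2.2 x y))
noncomputable def sel (d p n : ℕ) (s : St) : ℕ :=
  fnd (n * d * (n * d)) fun k => okp d n s (k / (n * d)) (k % (n * d)) ∧
    All (n * d * (n * d)) fun l => ¬ okp d n s (l / (n * d)) (l % (n * d)) ∨
      valQ d p n s (k / (n * d)) (k % (n * d)) ≤ valQ d p n s (l / (n * d)) (l % (n * d))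
noncomputable def nxt (d p n : ℕ) (s : St) : St :=
  if sel d p n s < n * d * (n * d) then mv d n s (sel d p n s / (n * d)) (sel d p n s % (n * d))
  else s
def st0 (d n : ℕ) : St := ([], F0Q d n 1, F0Q d n (-1))
noncomputable def outp (d n : ℕ) (m : List ℕ) : List Bool :=
  mkL (n * n) fun k => decide (adjv d (n * d) m (k / n) (k % n))
noncomputable def alg (d p : ℕ) (w : List Bool) : List Bool :=
  outp d w.length ((nxt d p w.length)^[w.length * d / 2] (st0 d w.length)).1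

/-! ### Real side -/

def toM (N : ℕ) (F : QM) : Mat (Fin N) := Matrix.of fun x y => (gq F x y : ℝ)
noncomputable def Uof (N : ℕ) (m : List ℕ) : Finset (Fin N) := univ.filter fun x => fr N m x
noncomputable def badS (d N : ℕ) (m : List ℕ) : Finset (Fin N × Fin N) :=
  univ.filter fun q => bad d N m q.1 q.2
noncomputable def AjR (d n : ℕ) (m : List ℕ) : Mat (Fin n) :=
  Matrix.of fun v w => if adjv d (n * d) m v w then 1 else 0

/-- `m` is a partial matching of half-edges giving a simple graph. -/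
def Val (d N : ℕ) (m : List ℕ) : Prop :=
  (∀ x < N, m.getD x N < N → m.getD (m.getD x N) N = x ∧ m.getD x N / d ≠ x / d) ∧
    ∀ x < N, ∀ y < N, m.getD x N < N → m.getD y N < N → x / d = y / d →
      m.getD x N / d = m.getD y N / d → x = y
def Ext (N : ℕ) (m m' : List ℕ) : Prop := ∀ x < N, m.getD x N < N → m'.getD x N = m.getD x N

section
variable {ι : Type} [Fintype ι] [DecidableEq ι]

noncomputable def valR (p Λ c : ℕ) (N₀ τ : ℝ) (A B : Mat ι) : ℝ :=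
  if 2 * Λ ^ 23906 < c then pot1R p Λ N₀ τ ((c : ℝ) - 2) A B
  else if 2 * Λ ^ 12621 < c then pot2R p Λ ((c : ℝ) - 2) A B else tk A 2 + tk B 2

def PInv (p Λ c : ℕ) (N₀ τ : ℝ) (A B : Mat ι) : Prop :=
  (2 * Λ ^ 23906 ≤ c → pot1R p Λ N₀ τ c A B ≤ 1 / 4 + 720 * Real.log (N₀ / c) / Λ) ∧
    (2 * Λ ^ 12621 ≤ c → c ≤ 2 * Λ ^ 23906 →
      pot2R p Λ c A B ≤ 1 / 4 + 720 * Real.log (N₀ / c) / Λ) ∧
    (c ≤ 2 * Λ ^ 12621 → tk A 2 + tk B 2 - 2 ≤ T3b Λ c)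
end

def LAs (d n : ℕ) (ε : ℝ) (m : List ℕ) (F : QM) : Prop :=
  ∃ Γ, LA (Fin.divNat : Fin (n * d) → Fin n) (tq d n) ε (Uof (n * d) m) (toM (n * d) F)
    (Mm Fin.divNat d (tq d n) (hq d n) ε (Uof (n * d) m) (AjR d n m)) Γ

structure Inv (d p n : ℕ) (s : St) : Prop where
  val : Val d (n * d) s.1
  la : LAs d n 1 s.1 s.2.1
  lb : LAs d n (-1) s.1 s.2.2
  pi : PInv p (La d n) (cnt (n * d) s.1) (n * d : ℕ) (tau d n) (toM (n * d) s.2.1)
    (toM (n * d) s.2.2)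

/-- PH (from STEP1, STEP2, STEP3, SW). Parity gives `2Λ^k < c → 2Λ^k + 2 ≤ c`;
`720 log(N₀/c)/Λ ≤ 3/4` (`log N₀ ≤ 31908 log Λ`, `log Λ ≤ 2√Λ`), `1/c ≤ log (c/(c-2))`;
at `c - 2 = 2Λ^23906` resp. `2Λ^12621` use SW. -/
def PhStmt : Prop := ∀ (ι : Type) [Fintype ι] [DecidableEq ι] (d p Λ : ℕ) (L N₀ τ : ℝ)
  (U : Finset ι) (A B : Mat ι) (bd : Finset (ι × ι)), Big d p L Λ N₀ τ → Bas U A 1 →
    Bas U B (-1) → (∀ i j, (i, j) ∈ bd → (j, i) ∈ bd) →
    (∀ i ∈ U, (U.filter fun j => (i, j) ∈ bd).card ≤ 2 * d ^ 2) → Even U.card →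
    2 * Λ ^ 11218 < U.card → (U.card : ℝ) ≤ N₀ → PInv p Λ U.card N₀ τ A B →
    ∃ i ∈ U, ∃ j ∈ U, i ≠ j ∧ (i, j) ∉ bd ∧ 1 / 2 ≤ Dl A i j ∧ 1 / 2 ≤ Dl B i j ∧
      ∀ (U' : Finset ι) (A' B' : Mat ι), Bas0 U' A' → Bas0 U' B' →
        valR p Λ U.card N₀ τ A' B' ≤ valR p Λ U.card N₀ τ (step A i j) (step B i j) →
        PInv p Λ (U.card - 2) N₀ τ A' B'

/-- BR: casts (`getD_mkL`, `Finset.sum_range`, `Function.iterate_succ_apply'`; `push_cast` through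
`c1`, `c2` case by case). -/
def BrStmt : Prop := ∀ d p n : ℕ,
  (∀ (N : ℕ) (F : QM) (i j : Fin N), toM N (stepQ N F i j) = step (toM N F) i j ∧
    (DlQ F i j : ℝ) = Dl (toM N F) i j) ∧
  (∀ (c : ℕ) (A B : QM), (valM d p n c A B : ℝ) =
    valR p (La d n) c (n * d : ℕ) (tau d n) (toM (n * d) A) (toM (n * d) B)) ∧
  ∀ ε : ℚ, toM (n * d) (F0Q d n ε) =
    F0 (Fin.divNat : Fin (n * d) → Fin n) d (tq d n) (hq d n) ε

/-- COMB: combinatorics of partial matchings. -/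
def CombStmt : Prop := ∀ d n : ℕ, 1 ≤ d →
  (Val d (n * d) [] ∧ Uof (n * d) [] = univ ∧ AjR d n [] = 0) ∧
  (∀ v : Fin n, (univ.filter fun x : Fin (n * d) => x.divNat = v).card = d) ∧
  ∀ m, Val d (n * d) m → cnt (n * d) m = (Uof (n * d) m).card ∧
    (∀ i j, (i, j) ∈ badS d (n * d) m → (j, i) ∈ badS d (n * d) m) ∧
    (∀ i, (univ.filter fun j => (i, j) ∈ badS d (n * d) m).card ≤ 2 * d ^ 2) ∧
    ∀ i j : Fin (n * d), okc d (n * d) m i j → i ≠ j ∧ Val d (n * d) (upd (n * d) m i j) ∧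
      Uof (n * d) (upd (n * d) m i j) = ((Uof (n * d) m).erase i).erase j ∧
      AjR d n (upd (n * d) m i j) = AjR d n m + edge Fin.divNat i j ∧
      cnt (n * d) (upd (n * d) m i j) + 2 = cnt (n * d) m ∧ Ext (n * d) m (upd (n * d) m i j)

/-- OUT: `AjR m v w` = number of matched `x` with `x / d = v`, `mate x / d = w`. -/
def OutStmt : Prop := ∀ (d n : ℕ) (m : List ℕ), 1 ≤ d → Val d (n * d) m → cnt (n * d) m = 0 →
  (Crest.CombinatoricsR.GraphCode.adjGraph n (outp d n m)).IsRegularOfDegree d ∧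
  (Crest.CombinatoricsR.GraphCode.adjGraph n (outp d n m)).adjMatrix ℝ = AjR d n m ∧
  ∀ m₀, Val d (n * d) m₀ → Ext (n * d) m₀ m → ∃ μ : Fin (n * d) → Fin (n * d),
    (∀ x ∈ Uof (n * d) m₀, μ x ∈ Uof (n * d) m₀ ∧ μ x ≠ x ∧ μ (μ x) = x) ∧
    ∀ v w, AjR d n m v w = AjR d n m₀ v w +
      ∑ x ∈ Uof (n * d) m₀, if v = x.divNat ∧ w = (μ x).divNat then 1 else 0

/-- SEL (`fnd_spec`, `fnd_lt_iff`; `k = x N + y`). -/
def SelStmt : Prop := ∀ (d p n : ℕ) (s : St) (x y : ℕ), okp d n s x y →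
  ∃ x' y', okp d n s x' y' ∧ valQ d p n s x' y' ≤ valQ d p n s x y ∧ nxt d p n s = mv d n s x' y'

/-- P4 (from COMB). `c = cnt`. `w_x` = row sum of the weights `= 4d s_x + t_x ≤ 5d²`, `s_x` = number
of other free half-edges at the vertex of `x`. For an `okc` pair `Φ' ≤ Φ - 2(w_x+w_y) + 2 s_x s_y`.
Each free `x` has `≥ c - 2d²` partners, `∑ s_x s_y ≤ c d ∑ s_x ≤ cΦ/4`, so for `c ≥ 32d²` some pair
has `4cΦ' ≤ (4c-13)Φ`, and `(1-13/(4c))² ≤ (1-2/c)³`. For `c < 32d²` the bound forces `Φ = 0`; then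
any two free half-edges form an `okc` pair with `Φ' = 0`. -/
def P4Stmt : Prop := ∀ (d n M : ℕ) (m : List ℕ), 1 ≤ d → Val d (n * d) m →
  Phi d (n * d) m ≤ 5 * d ^ 2 * cnt (n * d) m ∧
  (10 ^ 6 * d ^ 10 ≤ M → 2 ≤ cnt (n * d) m →
    Phi d (n * d) m ^ 2 * M ≤ 25 * d ^ 4 * cnt (n * d) m ^ 3 →
    ∃ x y, okc d (n * d) m x y ∧
      Phi d (n * d) (upd (n * d) m x y) ^ 2 * M ≤ 25 * d ^ 4 * (cnt (n * d) m - 2) ^ 3)

/-- RUN4 (from COMB, SEL, P4): invariant `Φ² N3 ≤ 25 d⁴ cnt³`. -/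
def Run4Stmt : Prop := ∀ (d p n : ℕ) (s : St), 1 ≤ d → 10 ^ 6 * d ^ 10 ≤ N3 d n →
  Val d (n * d) s.1 → cnt (n * d) s.1 = N3 d n →
    Val d (n * d) ((nxt d p n)^[La d n ^ 11218] s).1 ∧
    cnt (n * d) ((nxt d p n)^[La d n ^ 11218] s).1 = 0 ∧
    Ext (n * d) s.1 ((nxt d p n)^[La d n ^ 11218] s).1

/-- PAR (from CONST, INIT): `Nat.pow_nthRoot_le`, `Nat.lt_pow_nthRoot_add_one`;
`(Λ+1)^k ≤ Λ^(k+1)` for large `Λ`. For INIT take `ι = Fin (n*d)`, `V = Fin n` (fibres: COMB). -/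
def ParStmt : Prop := ∀ d : ℕ, 3 ≤ d →
  (∀ n : ℕ, 1 ≤ n → (0 : ℝ) < tq d n ∧ (tq d n : ℝ) < 1 ∧ (0 : ℝ) < hq d n ∧
    (tq d n : ℝ) ^ 2 * (d - 1) ≤ 1 ∧ 1 ≤ (hq d n : ℝ) ^ 2 * (d - 1) ∧
    (hq d n : ℝ) = tq d n + 1 / (n * (d - 1)) ∧
    (tq d n : ℝ) * d + (1 - (tq d n : ℝ) ^ 2) / hq d n ≤ 2 * √((d : ℝ) - 1)) ∧
  ∃ p n₀ : ℕ, ∀ n, n₀ ≤ n → 1 ≤ n ∧ ∃ L, Big d p L (La d n) (n * d : ℕ) (tau d n) ∧
    pot1R p (La d n) (n * d : ℕ) (tau d n) (n * d : ℕ)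
      (F0 (Fin.divNat : Fin (n * d) → Fin n) d (tq d n) (hq d n) 1)
      (F0 (Fin.divNat : Fin (n * d) → Fin n) d (tq d n) (hq d n) (-1)) ≤ 1 / 4

/-- HT (from LAP part 3, PAR part 1, COMB fibres): `D₀ = n·n(d-1)·(sqq+1) ≤ n³d²`, `|M| ≤ 6d`,
`H = 6dD₀`, `2D₀² n! H^n ≤ 2^Bt`; `Rat.num_dvd`, `Rat.den_dvd`. -/
def HtStmt : Prop := ∀ (d n : ℕ) (ε : ℝ) (m : List ℕ) (F : QM), 3 ≤ d → (ε = 1 ∨ ε = -1) →
  LAs d n ε m F → (Uof (n * d) m).Nonempty → small (Bt d n) (n * d) F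

/-- RUN (from PH, BR, COMB, SEL, PAR, HT, LAS, LAP): induction on `k`. PH gives `(i,j)`; LAS and HT
make it `okp`; SEL gives the chosen pair, to which LAS and the last part of PH apply. -/
def RunStmt : Prop := ∀ (d p n : ℕ) (L : ℝ), 3 ≤ d → 1 ≤ n → Even n →
  Big d p L (La d n) (n * d : ℕ) (tau d n) →
  pot1R p (La d n) (n * d : ℕ) (tau d n) (n * d : ℕ)
      (F0 (Fin.divNat : Fin (n * d) → Fin n) d (tq d n) (hq d n) 1)
      (F0 (Fin.divNat : Fin (n * d) → Fin n) d (tq d n) (hq d n) (-1)) ≤ 1 / 4 →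
  ∀ k, N3 d n + 2 * k ≤ n * d →
    Inv d p n ((nxt d p n)^[k] (st0 d n)) ∧
      cnt (n * d) ((nxt d p n)^[k] (st0 d n)).1 + 2 * k = n * d

/-- PT1: the value of the matrices (`mpow` with a constant exponent by induction). -/
def Pt1Stmt : Prop := ∀ d p : ℕ,
  PT fun a : ℕ × ℕ × QM × QM => valM d p a.1 a.2.1 a.2.2.1 a.2.2.2

/-- PT2 (from PT1). -/
def Pt2Stmt : Prop := ∀ d p : ℕ, PT (fun a : ℕ × St => nxt d p a.1 a.2) ∧ PT (st0 d) ∧
  PT fun a : ℕ × List ℕ => outp d a.1 a.2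

/-- PT3 (from PT2): iterate `(n, s) ↦ (n, nxt n s)`; the state stays small: entries of `mate` are
`≤ nd`, the matrices are the initial ones or `mkM` of `small` entries (`sz_list_le`, `sz_q_le`). -/
def Pt3Stmt : Prop := ∀ d p : ℕ, Crest.Complexity.PolyTime (alg d p)

/-- realises equation lemmas once, here -/
theorem eqnsC : True := by
  have := @gq.eq_1; have := @gq.eq_def
  have := @mkM.eq_1; have := @mkM.eq_def
  have := @mmul.eq_1; have := @mmul.eq_def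
  have := @mpow.eq_1; have := @mpow.eq_def
  have := @trq.eq_1; have := @trq.eq_def
  have := @DlQ.eq_1; have := @DlQ.eq_def
  have := @stepQ.eq_1; have := @stepQ.eq_def
  have := @tkQ.eq_1; have := @tkQ.eq_def
  have := @PqQ.eq_1; have := @PqQ.eq_def
  have := @fqQ.eq_1; have := @fqQ.eq_def
  have := @obsQ.eq_1; have := @obsQ.eq_def
  have := @small.eq_1; have := @small.eq_def
  have := @La.eq_1; have := @La.eq_def
  have := @sqq.eq_1; have := @sqq.eq_def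
  have := @tq.eq_1; have := @tq.eq_def
  have := @hq.eq_1; have := @hq.eq_def
  have := @tau.eq_1; have := @tau.eq_def
  have := @Bt.eq_1; have := @Bt.eq_def
  have := @N3.eq_1; have := @N3.eq_def
  have := @F0Q.eq_1; have := @F0Q.eq_def
  have := @valM.eq_1; have := @valM.eq_def
  have := @fr.eq_1; have := @fr.eq_def
  have := @cnt.eq_1; have := @cnt.eq_def
  have := @adjv.eq_1; have := @adjv.eq_def
  have := @bad.eq_1; have := @bad.eq_def
  have := @okc.eq_1; have := @okc.eq_def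
  have := @upd.eq_1; have := @upd.eq_def
  have := @Phi.eq_1; have := @Phi.eq_def
  have := @okp.eq_1; have := @okp.eq_def
  have := @valQ.eq_1; have := @valQ.eq_def
  have := @mv.eq_1; have := @mv.eq_def
  have := @sel.eq_1; have := @sel.eq_def
  have := @nxt.eq_1; have := @nxt.eq_def
  have := @st0.eq_1; have := @st0.eq_def
  have := @outp.eq_1; have := @outp.eq_def
  have := @alg.eq_1; have := @alg.eq_def
  have := @toM.eq_1; have := @toM.eq_def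
  have := @Uof.eq_1; have := @Uof.eq_def
  have := @badS.eq_1; have := @badS.eq_def
  have := @AjR.eq_1; have := @AjR.eq_def
  have := @Val.eq_1; have := @Val.eq_def
  have := @Ext.eq_1; have := @Ext.eq_def
  have := @valR.eq_1; have := @valR.eq_def
  have := @PInv.eq_1; have := @PInv.eq_def
  have := @LAs.eq_1; have := @LAs.eq_def
  trivial

end Crest.Agent.R62
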