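import Crest.Agent.R62.DefsA

set_option autoImplicit false
set_option linter.unusedSectionVars false

namespace Crest.Agent.R62

open Matrix Finset

namespace F8

theorem bin8 (y d : ℝ) :
    (y + d) ^ 8 ≤ y ^ 8 + 8 * y ^ 7 * d + 246 * (y ^ 6 * d ^ 2 + |y| * |d| ^ 7) + d ^ 8 := by
  set M := max |y| |d| with hM
  have hy : |y| ≤ M := le_max_left _ _
  have hd : |d| ≤ M := le_max_right _ _
  have hM5 : M ^ 5 ≤ |y| ^ 5 + |d| ^ 5 := by
    rcases le_total |y| |d| with h | h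
    · rw [hM, max_eq_right h]; have : 0 ≤ |y| ^ 5 := by positivity
      linarith
    · rw [hM, max_eq_left h]; have : 0 ≤ |d| ^ 5 := by positivity
      linarith
  have t : ∀ a b : ℕ, a + b = 5 → y * d ^ 2 * (y ^ a * d ^ b) ≤ y ^ 6 * d ^ 2 + |y| * |d| ^ 7 := by
    intro a b hab
    have h1 : |y ^ a * d ^ b| ≤ M ^ 5 := by
      rw [abs_mul, abs_pow, abs_pow, ← hab, pow_add]; gcongr
    have h2 : y * d ^ 2 * (y ^ a * d ^ b) ≤ |y| * d ^ 2 * (|y| ^ 5 + |d| ^ 5) := by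
      refine (le_abs_self _).trans ?_
      rw [abs_mul, abs_mul, abs_of_nonneg (sq_nonneg d)]
      have := h1.trans hM5
      gcongr
    have h3 : |y| ^ 6 = y ^ 6 := Even.pow_abs (by decide) y
    have h4 : |d| ^ 2 = d ^ 2 := sq_abs d
    calc _ ≤ _ := h2
      _ = |y| ^ 6 * d ^ 2 + |y| * (|d| ^ 5 * d ^ 2) := by ring
      _ = _ := by rw [h3, ← h4]; ring
  have t0 := t 5 0 rfl
  have t1 := t 4 1 rfl
  have t2 := t 3 2 rfl
  have t3 := t 2 3 rfl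
  have t4 := t 1 4 rfl
  have t5 := t 0 5 rfl
  have e : (y + d) ^ 8 = y ^ 8 + 8 * y ^ 7 * d + d ^ 8 + (28 * (y * d ^ 2 * (y ^ 5 * d ^ 0))
      + 56 * (y * d ^ 2 * (y ^ 4 * d ^ 1)) + 70 * (y * d ^ 2 * (y ^ 3 * d ^ 2))
      + 56 * (y * d ^ 2 * (y ^ 2 * d ^ 3)) + 28 * (y * d ^ 2 * (y ^ 1 * d ^ 4))
      + 8 * (y * d ^ 2 * (y ^ 0 * d ^ 5))) := by ring
  linarith

theorem e8 (x y e : ℝ) (he : 0 < e) (he1 : e ≤ 1) :
    (x + y) ^ 8 ≤ (1 + e) * x ^ 8 + 8 * 17 ^ 7 / e ^ 7 * y ^ 8 := by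
  have h1 : (x + y) ^ 8 ≤ (|x| + |y|) ^ 8 := by
    rw [← Even.pow_abs (by decide : Even 8)]
    exact pow_le_pow_left₀ (abs_nonneg _) (abs_add_le x y) 8
  rw [← Even.pow_abs (by decide : Even 8) x, ← Even.pow_abs (by decide : Even 8) y]
  refine h1.trans ?_
  generalize hA : |x| = A
  generalize hB : |y| = B
  have A0 : 0 ≤ A := hA ▸ abs_nonneg x
  have B0 : 0 ≤ B := hB ▸ abs_nonneg y
  have h2 : (A + B) ^ 8 ≤ A ^ 8 + 8 * B * (A + B) ^ 7 := by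
    have : A ^ 8 + 8 * B * (A + B) ^ 7 - (A + B) ^ 8 = B ^ 2 * (28 * A ^ 6 + 112 * A ^ 5 * B
      + 210 * A ^ 4 * B ^ 2 + 224 * A ^ 3 * B ^ 3 + 140 * A ^ 2 * B ^ 4 + 48 * A * B ^ 5
      + 7 * B ^ 6) := by ring
    have h3 : 0 ≤ B ^ 2 * (28 * A ^ 6 + 112 * A ^ 5 * B
      + 210 * A ^ 4 * B ^ 2 + 224 * A ^ 3 * B ^ 3 + 140 * A ^ 2 * B ^ 4 + 48 * A * B ^ 5
      + 7 * B ^ 6) := by positivity
    linarith
  have p1 : 0 ≤ e * A ^ 8 := by positivity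
  have p2 : 0 ≤ 8 * 17 ^ 7 / e ^ 7 * B ^ 8 := by positivity
  rcases le_total (16 * B) (e * A) with h | h
  · have h3 : A + B ≤ 17 / 16 * A := by nlinarith
    have h4 : 8 * B * (A + B) ^ 7 ≤ (e * A / 2) * (17 / 16 * A) ^ 7 := by
      gcongr
      linarith
    have h5 : (e * A / 2) * (17 / 16 * A) ^ 7 = (17 / 16) ^ 7 / 2 * (e * A ^ 8) := by ring
    have h6 : ((17 : ℝ) / 16) ^ 7 / 2 ≤ 1 := by norm_num
    nlinarith
  · have h3 : A + B ≤ 17 / e * B := by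
      rw [div_mul_eq_mul_div, le_div_iff₀ he]; nlinarith
    have h4 : 8 * B * (A + B) ^ 7 ≤ 8 * B * (17 / e * B) ^ 7 := by gcongr
    have h5 : 8 * B * (17 / e * B) ^ 7 = 8 * 17 ^ 7 / e ^ 7 * B ^ 8 := by field_simp
    linarith

theorem pow3 (d A B C : ℝ) (n : ℕ) (hA : 0 ≤ A) (hB : 0 ≤ B) (hC : 0 ≤ C)
    (h : |d| ≤ 3 * (A + B + C)) : |d| ^ n ≤ 9 ^ n * (A ^ n + B ^ n + C ^ n) := by
  have a : 0 ≤ A ^ n := by positivity
  have b : 0 ≤ B ^ n := by positivity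
  have c : 0 ≤ C ^ n := by positivity
  have key : ∀ M : ℝ, A ≤ M → B ≤ M → C ≤ M → |d| ^ n ≤ 9 ^ n * M ^ n := by
    intro M h1 h2 h3
    rw [← mul_pow]
    exact pow_le_pow_left₀ (abs_nonneg _) (by linarith) n
  have p : (0 : ℝ) ≤ 9 ^ n := by positivity
  rcases le_total A B with h1 | h1 <;> rcases le_total B C with h2 | h2 <;>
    rcases le_total A C with h3 | h3 <;>
    first
    | (refine (key A le_rfl (by linarith) (by linarith)).trans ?_; gcongr; linarith)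
    | (refine (key B (by linarith) le_rfl (by linarith)).trans ?_; gcongr; linarith)
    | (refine (key C (by linarith) (by linarith) le_rfl).trans ?_; gcongr; linarith)

theorem int7 (f η e : ℝ) (hη : 0 ≤ η) (he : 0 < e) :
    η * |f| ^ 7 ≤ η ^ 6 / e ^ 5 * f ^ 2 + e * f ^ 8 := by
  rw [← Even.pow_abs (by decide : Even 8) f, ← sq_abs f]
  generalize hA : |f| = A
  have A0 : 0 ≤ A := hA ▸ abs_nonneg f
  have p1 : 0 ≤ η ^ 6 / e ^ 5 * A ^ 2 := by positivity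
  have p2 : 0 ≤ e * A ^ 8 := by positivity
  rcases le_total (e * A) η with h | h
  · have h1 : A ≤ η / e := by rw [le_div_iff₀ he]; linarith
    calc η * A ^ 7 = η * A ^ 5 * A ^ 2 := by ring
      _ ≤ η * (η / e) ^ 5 * A ^ 2 := by gcongr
      _ = η ^ 6 / e ^ 5 * A ^ 2 := by field_simp
      _ ≤ _ := by linarith
  · calc η * A ^ 7 ≤ (e * A) * A ^ 7 := by gcongr
      _ = e * A ^ 8 := by ring
      _ ≤ _ := by linarith

theorem int6 (f η e : ℝ) (hη : 0 ≤ η) (he : 0 < e) (he1 : e ≤ 1) :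
    η ^ 2 * f ^ 6 ≤ η ^ 6 / e ^ 5 * f ^ 2 + e * f ^ 8 := by
  rw [← Even.pow_abs (by decide : Even 8) f, ← Even.pow_abs (by decide : Even 6) f, ← sq_abs f]
  generalize hA : |f| = A
  have A0 : 0 ≤ A := hA ▸ abs_nonneg f
  have p1 : 0 ≤ η ^ 6 / e ^ 5 * A ^ 2 := by positivity
  have p2 : 0 ≤ e * A ^ 8 := by positivity
  rcases le_total (e * A) η with h | h
  · have h1 : A ≤ η / e := by rw [le_div_iff₀ he]; linarith
    calc η ^ 2 * A ^ 6 = η ^ 2 * A ^ 4 * A ^ 2 := by ring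
      _ ≤ η ^ 2 * (η / e) ^ 4 * A ^ 2 := by gcongr
      _ = e * (η ^ 6 / e ^ 5 * A ^ 2) := by field_simp
      _ ≤ _ := by nlinarith
  · calc η ^ 2 * A ^ 6 ≤ (e * A) ^ 2 * A ^ 6 := by gcongr
      _ = e * (e * A ^ 8) := by ring
      _ ≤ _ := by nlinarith

/-- facts on `Δ`. -/
theorem dl_facts (a b c z : ℝ) (ha : |a| ≤ z) (hb : |b| ≤ z) (hc : |c| ≤ z) (hz : z ≤ 1 / 20) :
    9 / 10 ≤ (1 - c) ^ 2 - a * b ∧
    |(1 - c) / ((1 - c) ^ 2 - a * b) - 1| ≤ 2 * (|c| + |a * b|) ∧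
    1 / ((1 - c) ^ 2 - a * b) ≤ 1 + 4 * z := by
  have z0 : 0 ≤ z := (abs_nonneg _).trans ha
  have hab : |a * b| ≤ z * z := by
    rw [abs_mul]; exact mul_le_mul ha hb (abs_nonneg _) z0
  have hab' := abs_le.1 hab
  have hc' := abs_le.1 hc
  have hD : 9 / 10 ≤ (1 - c) ^ 2 - a * b := by nlinarith
  have hD0 : 0 < (1 - c) ^ 2 - a * b := by linarith
  refine ⟨hD, ?_, ?_⟩
  · have : (1 - c) / ((1 - c) ^ 2 - a * b) - 1 = (c * (1 - c) + a * b) / ((1 - c) ^ 2 - a * b) := by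
      field_simp; ring
    rw [this, abs_div, abs_of_pos hD0, div_le_iff₀ hD0]
    have h1 : |c * (1 - c) + a * b| ≤ |c| * (21 / 20) + |a * b| := by
      refine (abs_add_le _ _).trans ?_
      rw [abs_mul c]
      gcongr
      rw [abs_le]; constructor <;> linarith
    have := abs_nonneg c
    have := abs_nonneg (a * b)
    nlinarith
  · rw [div_le_iff₀ hD0]
    have : 1 - 2 * z - z * z ≤ (1 - c) ^ 2 - a * b := by nlinarith
    nlinarith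

noncomputable def dl (a b c p q : ℝ) : ℝ :=
  (b * p * p + a * q * q + (1 - c) * (p * q + q * p)) / ((1 - c) ^ 2 - a * b)

theorem dl_first (a b c p q z : ℝ) (ha : |a| ≤ z) (hb : |b| ≤ z) (hc : |c| ≤ z) (hz : z ≤ 1 / 20) :
    |dl a b c p q - 2 * (p * q)| ≤
      4 * (|c| + |a * b|) * |p * q| + 2 * (|b| * p ^ 2) + 2 * (|a| * q ^ 2) := by
  obtain ⟨h1, h2, h3⟩ := dl_facts a b c z ha hb hc hz
  have hD0 : 0 < (1 - c) ^ 2 - a * b := by linarith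
  have e : dl a b c p q - 2 * (p * q) = 2 * ((1 - c) / ((1 - c) ^ 2 - a * b) - 1) * (p * q)
      + 1 / ((1 - c) ^ 2 - a * b) * (b * p ^ 2) + 1 / ((1 - c) ^ 2 - a * b) * (a * q ^ 2) := by
    unfold dl; field_simp; ring
  rw [e]
  have hi : |1 / ((1 - c) ^ 2 - a * b)| ≤ 2 := by
    rw [abs_of_pos (by positivity)]; linarith
  refine (abs_add_le _ _).trans (add_le_add ((abs_add_le _ _).trans (add_le_add ?_ ?_)) ?_)
  · rw [abs_mul, abs_mul, abs_two]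
    have := abs_nonneg (p * q)
    nlinarith
  · rw [abs_mul, abs_mul b, abs_of_nonneg (sq_nonneg p)]; gcongr
  · rw [abs_mul, abs_mul a, abs_of_nonneg (sq_nonneg q)]; gcongr

theorem dl_abs (a b c p q z : ℝ) (ha : |a| ≤ z) (hb : |b| ≤ z) (hc : |c| ≤ z) (hz : z ≤ 1 / 20) :
    |dl a b c p q| ≤ 3 * (|p * q| + |b| * p ^ 2 + |a| * q ^ 2) := by
  have h := dl_first a b c p q z ha hb hc hz
  have z0 : 0 ≤ z := (abs_nonneg _).trans ha
  have hab : |a * b| ≤ z * z := by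
    rw [abs_mul]; exact mul_le_mul ha hb (abs_nonneg _) z0
  have h1 : |dl a b c p q| ≤ |dl a b c p q - 2 * (p * q)| + 2 * |p * q| := by
    have := abs_add_le (dl a b c p q - 2 * (p * q)) (2 * (p * q))
    rw [sub_add_cancel, abs_mul 2, abs_two] at this
    exact this
  have p1 := abs_nonneg (p * q)
  have p2 : 0 ≤ |b| * p ^ 2 := by positivity
  have p3 : 0 ≤ |a| * q ^ 2 := by positivity
  have p4 : 4 * (|c| + |a * b|) ≤ 1 := by nlinarith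
  nlinarith

theorem dl_eight (a b c p q z z' e : ℝ) (ha : |a| ≤ z) (hb : |b| ≤ z) (hc : |c| ≤ z)
    (hz : z ≤ 1 / 20) (hpq : |p * q| ≤ z') (hz' : z' ≤ z) (he : 0 < e) (he1 : e ≤ 1) :
    dl a b c p q ^ 8 ≤ (1 + e) * (1 + 100 * z) * (b ^ 8 * p ^ 16 + a ^ 8 * q ^ 16)
      + 8 * 17 ^ 7 * 4 ^ 8 * (z' ^ 5 / e ^ 7) * (p ^ 2 * q ^ 2) := by
  obtain ⟨h1, h2, h3⟩ := dl_facts a b c z ha hb hc hz
  have z0 : 0 ≤ z := (abs_nonneg _).trans ha
  have z0' : 0 ≤ z' := (abs_nonneg _).trans hpq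
  have hD0 : 0 < (1 - c) ^ 2 - a * b := by linarith
  have hab : |a * b| ≤ z * z := by
    rw [abs_mul]; exact mul_le_mul ha hb (abs_nonneg _) z0
  set w := 1 / ((1 - c) ^ 2 - a * b) with hw
  set α := (1 - c) / ((1 - c) ^ 2 - a * b) with hα
  have w0 : 0 ≤ w := by positivity
  have e1 : dl a b c p q = w * (b * p ^ 2) + w * (a * q ^ 2) + 2 * α * (p * q) := by
    unfold dl; rw [hw, hα]; field_simp; ring
  have w8 : w ^ 8 ≤ 1 + 100 * z := by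
    have h4 : w ^ 8 ≤ (1 + 4 * z) ^ 8 := by gcongr
    have s1 : (1 + 4 * z) ^ 2 ≤ 1 + 9 * z := by nlinarith
    have s2 : (1 + 9 * z) ^ 2 ≤ 1 + 23 * z := by nlinarith
    have s3 : (1 + 23 * z) ^ 2 ≤ 1 + 100 * z := by nlinarith
    calc w ^ 8 ≤ (((1 + 4 * z) ^ 2) ^ 2) ^ 2 := by rw [← pow_mul, ← pow_mul]; exact h4
      _ ≤ ((1 + 9 * z) ^ 2) ^ 2 := by gcongr
      _ ≤ (1 + 23 * z) ^ 2 := by gcongr
      _ ≤ _ := s3
  have hα3 : |2 * α| ≤ 3 := by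
    have := abs_le.1 (h2.trans (show 2 * (|c| + |a * b|) ≤ 1 / 2 by nlinarith))
    rw [abs_le]; constructor <;> linarith
  have small : ∀ s t u : ℝ, |s| ≤ z → |t| ≤ |u| → |w * (s * t ^ 2)| ≤ |t * u| := by
    intro s t u hs htu
    rw [abs_mul, abs_mul, abs_mul, abs_of_nonneg w0, abs_pow]
    have t0 := abs_nonneg t
    have s0 := abs_nonneg s
    have : w * |s| ≤ 1 := by nlinarith
    have : |t| ^ 2 ≤ |t| * |u| := by nlinarith
    calc w * (|s| * |t| ^ 2) = (w * |s|) * |t| ^ 2 := by ring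
      _ ≤ 1 * (|t| * |u|) := by gcongr
      _ = _ := one_mul _
  have fin : ∀ y : ℝ, |y| ≤ 4 * |p * q| →
      8 * 17 ^ 7 / e ^ 7 * y ^ 8 ≤ 8 * 17 ^ 7 * 4 ^ 8 * (z' ^ 5 / e ^ 7) * (p ^ 2 * q ^ 2) := by
    intro y hy
    have y8 : y ^ 8 ≤ 4 ^ 8 * (z' ^ 5 * (p ^ 2 * q ^ 2)) := by
      rw [← Even.pow_abs (by decide : Even 8) y, ← mul_pow, ← sq_abs (p * q)]
      have t0 := abs_nonneg (p * q)
      calc |y| ^ 8 ≤ (4 * |p * q|) ^ 8 := by gcongr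
        _ = 4 ^ 8 * (|p * q| ^ 5 * (|p * q| * |p * q| ^ 2)) := by ring
        _ ≤ 4 ^ 8 * (z' ^ 5 * (1 * |p * q| ^ 2)) := by gcongr; linarith
        _ = _ := by ring
    calc 8 * 17 ^ 7 / e ^ 7 * y ^ 8 ≤ 8 * 17 ^ 7 / e ^ 7 * (4 ^ 8 * (z' ^ 5 * (p ^ 2 * q ^ 2))) := by
          gcongr
      _ = _ := by ring
  have m1 : (w * (b * p ^ 2)) ^ 8 ≤ (1 + 100 * z) * (b ^ 8 * p ^ 16) := by
    calc _ = w ^ 8 * (b ^ 8 * p ^ 16) := by ring
      _ ≤ _ := by gcongr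
  have m2 : (w * (a * q ^ 2)) ^ 8 ≤ (1 + 100 * z) * (a ^ 8 * q ^ 16) := by
    calc _ = w ^ 8 * (a ^ 8 * q ^ 16) := by ring
      _ ≤ _ := by gcongr
  have n1 : 0 ≤ (1 + 100 * z) * (b ^ 8 * p ^ 16) := by positivity
  have n2 : 0 ≤ (1 + 100 * z) * (a ^ 8 * q ^ 16) := by positivity
  have hpq3 : |2 * α * (p * q)| ≤ 3 * |p * q| := by rw [abs_mul]; gcongr
  rcases le_total |p| |q| with h | h
  · have := e8 (w * (a * q ^ 2)) (w * (b * p ^ 2) + 2 * α * (p * q)) e he he1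
    have f := fin (w * (b * p ^ 2) + 2 * α * (p * q)) (by
      have := abs_add_le (w * (b * p ^ 2)) (2 * α * (p * q))
      have := small b p q hb h
      linarith)
    rw [e1, show w * (b * p ^ 2) + w * (a * q ^ 2) + 2 * α * (p * q) =
      w * (a * q ^ 2) + (w * (b * p ^ 2) + 2 * α * (p * q)) by ring]
    nlinarith
  · have := e8 (w * (b * p ^ 2)) (w * (a * q ^ 2) + 2 * α * (p * q)) e he he1
    have f := fin (w * (a * q ^ 2) + 2 * α * (p * q)) (by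
      have := abs_add_le (w * (a * q ^ 2)) (2 * α * (p * q))
      have := small a q p ha h
      rw [mul_comm q p] at this
      linarith)
    rw [e1, add_assoc]
    nlinarith

/-- the nonnegative remainder -/
noncomputable def rem (a b y p q z z' e : ℝ) : ℝ :=
  246 * 81 * (y ^ 6 * (p ^ 2 * q ^ 2 + b ^ 2 * p ^ 4 + a ^ 2 * q ^ 4))
    + 246 * 9 ^ 7 * (|y| * (|b| ^ 7 * p ^ 14 + |a| ^ 7 * q ^ 14))
    + (246 * 9 ^ 7 + 8 * 17 ^ 7 * 4 ^ 8) * (z' ^ 5 / e ^ 7) * (p ^ 2 * q ^ 2)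
    + (1 + e) * (1 + 100 * z) * (b ^ 8 * p ^ 16 + a ^ 8 * q ^ 16)

theorem rem_nonneg (a b y p q z z' e : ℝ) (hz : 0 ≤ z) (hz' : 0 ≤ z') (he : 0 < e) :
    0 ≤ rem a b y p q z z' e := by unfold rem; positivity

theorem pt (a b c y p q z z' e : ℝ) (ha : |a| ≤ z) (hb : |b| ≤ z) (hc : |c| ≤ z) (hy : |y| ≤ z)
    (hz : z ≤ 1 / 20) (hpq : |p * q| ≤ z') (hz' : z' ≤ z) (he : 0 < e) (he1 : e ≤ 1) :
    (y + dl a b c p q) ^ 8 - y ^ 8 ≤ 8 * y ^ 7 * dl a b c p q + rem a b y p q z z' e := by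
  have h1 := bin8 y (dl a b c p q)
  have h2 := dl_eight a b c p q z z' e ha hb hc hz hpq hz' he he1
  have h3 := dl_abs a b c p q z ha hb hc hz
  have z0' : 0 ≤ z' := (abs_nonneg _).trans hpq
  have h4 := pow3 _ _ _ _ 2 (abs_nonneg _) (by positivity) (by positivity) h3
  have h5 := pow3 _ _ _ _ 7 (abs_nonneg _) (by positivity) (by positivity) h3
  have e4 : |p * q| ^ 2 + (|b| * p ^ 2) ^ 2 + (|a| * q ^ 2) ^ 2
      = p ^ 2 * q ^ 2 + b ^ 2 * p ^ 4 + a ^ 2 * q ^ 4 := by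
    rw [mul_pow, mul_pow, sq_abs, sq_abs, sq_abs]; ring
  rw [e4, sq_abs] at h4
  have y0 := abs_nonneg y
  have h6 : y ^ 6 * dl a b c p q ^ 2 ≤
      y ^ 6 * (9 ^ 2 * (p ^ 2 * q ^ 2 + b ^ 2 * p ^ 4 + a ^ 2 * q ^ 4)) := by gcongr
  have h7 : |y| * |dl a b c p q| ^ 7 ≤
      |y| * (9 ^ 7 * (|p * q| ^ 7 + (|b| * p ^ 2) ^ 7 + (|a| * q ^ 2) ^ 7)) := by gcongr
  have h8 : |y| * |p * q| ^ 7 ≤ z' ^ 5 / e ^ 7 * (p ^ 2 * q ^ 2) := by
    rw [← mul_pow, ← sq_abs (p * q)]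
    have t0 := abs_nonneg (p * q)
    have e7 : e ^ 7 ≤ 1 := pow_le_one₀ he.le he1
    have : z' ^ 5 ≤ z' ^ 5 / e ^ 7 := by
      rw [le_div_iff₀ (by positivity)]
      have : 0 ≤ z' ^ 5 := by positivity
      nlinarith
    calc |y| * |p * q| ^ 7 = |y| * |p * q| ^ 5 * |p * q| ^ 2 := by ring
      _ ≤ 1 * z' ^ 5 * |p * q| ^ 2 := by gcongr; linarith
      _ ≤ _ := by rw [one_mul]; gcongr
  unfold rem
  nlinarith

theorem corr (a b c z : ℝ) (ha : |a| ≤ z) (hb : |b| ≤ z) (hc : |c| ≤ z) (hz : z ≤ 1 / 20) :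
    -(8 * a ^ 7 * dl a b c a c) ≤ 40 * z * a ^ 8 := by
  have h := dl_abs a b c a c z ha hb hc hz
  have a0 := abs_nonneg a
  have b0 := abs_nonneg b
  have c0 := abs_nonneg c
  have z0 : 0 ≤ z := a0.trans ha
  have h1 : |dl a b c a c| ≤ 5 * z * |a| := by
    rw [abs_mul, ← sq_abs a, ← sq_abs c] at h
    have t1 : |a| * |c| ≤ |a| * z := by gcongr
    have t2 : |b| * |a| ^ 2 ≤ z * (|a| * (1 / 20)) := by
      rw [pow_two]; gcongr; linarith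
    have t3 : |a| * |c| ^ 2 ≤ |a| * (z * (1 / 20)) := by
      rw [pow_two]; gcongr; linarith
    have : 0 ≤ |a| * z := by positivity
    nlinarith
  refine (neg_le_abs _).trans ?_
  rw [abs_mul, abs_mul, abs_pow, ← Even.pow_abs (by decide : Even 8) a]
  calc |(8 : ℝ)| * |a| ^ 7 * |dl a b c a c| ≤ |(8 : ℝ)| * |a| ^ 7 * (5 * z * |a|) := by gcongr
    _ = _ := by rw [abs_of_pos (by norm_num : (0 : ℝ) < 8)]; ring

theorem dl_swap (a b c p q : ℝ) : dl a b c p q = dl b a c q p := by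
  unfold dl; rw [mul_comm a b]; ring

end F8

end Crest.Agent.R62
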