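import Crest.Agent.R62.O1E

set_option autoImplicit false

namespace Crest.Agent.R62

open Matrix Finset

open O1E Lg in
theorem O1X_proof (hS : SM1Stmt) (hAvg : AvgStmt) (hPot : PotStmt) : O1XStmt := by
  intro ι _ _ d p L Λ N₀ τ E F F' ε c
  obtain ⟨h, h10, hΛN, hN2, a, n, t, uy, ly, uN, lN, uT, lT, a0, a1, n0, an0, an1, t0, t1, t2,
    uth, uu, lu, uD, uz, uz'⟩ := setup c
  obtain ⟨-, -, -, -, hZ, s1, s2, s3, -, -, -, -, -, sSQ, -, -, -, -, -, -, -, -, -, -, -, -, sA,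
    sB, -, -, -, -, -, -, -, -, sX, -⟩ := hS ι d p L Λ N₀ τ E F F' ε c
  have h0 := pos h
  have hN0 : 0 < E.N := by linarith
  obtain ⟨e1, e2, e3, -⟩ := eta_nonneg c.ok
  have ue1 := upI h e1 s1
  have ue2 := upI h e2 s2
  have ue3 := upI h e3 s3
  have hΛ2 : 1 ≤ Λ ^ 2 := one_le_pow₀ (one_lt h).le
  have hs : E.N / Λ ^ 2 ≤ E.N := div_le_self hN0.le hΛ2
  have ls : Lo Λ (E.N / Λ ^ 2) (n - (2 : ℕ)) := lN.div h (upN h 2) (pow_pos h0 _)
  have us : Up Λ (E.N / Λ ^ 2) (n - (2 : ℕ)) := uN.div h (loN Λ 2)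
  constructor
  · obtain ⟨k1, k2⟩ := c.big.all.2.2.2.2.2.2.1 ι E F F' ε (-ε) c.hL c.ok c.sF c.sF'
    refine (hPot ι E Λ c.ok h10 hΛN hZ).2.1 (Om F F') (E.N / Λ ^ 2) ((E.N - 2) / Λ ^ 2) (-2)
      (fun i j => Om (step F i j) (step F' i j)) c.om (ls.pos h)
      (by rw [abs_neg, abs_two]; linarith) ?_ (fun hy => ?_) ?_
    · have e : (E.N - 2) / Λ ^ 2 = E.N / Λ ^ 2 * (1 + -2 / E.N) := by field_simp; ring
      rw [e]
      refine mul_le_mul_of_nonneg_left ?_ us.1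
      have : 0 ≤ 1 / (Λ * E.N) := by positivity
      linarith
    · have b1 := (abs_le.1 k1).2
      have b2 : Om F F' ^ 2 ≤ E.N * Om F F' := by
        rw [sq]; exact mul_le_mul_of_nonneg_right (c.om.trans hs) hy.le
      have b3 := (((up1 h).mul h (ue1.add3 h ue2 uz (-33))).mul h (uN.pow h 2)).le h
        ((lN.mul h ls).div h (up1 h) h0)
      linarith
    · obtain ⟨-, -, -, -, -, -, -, -, -, -, -, a12, -⟩ := hAvg ι E c.ok
      have b1 := a12 (fun i j => (Om (step F i j) (step F' i j) - Om F F') ^ 2)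
        (fun _ _ => (Λ * E.u) ^ 2 * 1) fun i j hij => by
          rw [mul_one, ← sq_abs]
          exact pow_le_pow_left₀ (abs_nonneg _) (k2 i j hij) 2
      rw [A26.av_mul] at b1
      have hZ2 : E.Z ≤ 2 * E.N ^ 2 := by
        have := (abs_le.1 hZ).2
        have h2 : E.N ^ 2 / Λ ^ 2 ≤ E.N ^ 2 := div_le_self (sq_nonneg _) hΛ2
        linarith
      refine b1.trans ((mul_le_mul_of_nonneg_left hZ2 (sq_nonneg _)).trans ?_)
      exact ((((up1 h).mul h uu).pow h 2).mul h ((upC h 2).mul h (uN.pow h 2))).le h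
        ((lN.mul h (ls.pow h 2)).div h (up1 h) h0)
  · have key := c.big.all.2.2.2.2.2.2.2.1 ι E F F' ε (-ε) c.hL c.ok c.sF c.sF'
    have hT0 : 0 < Λ ^ 39602 := pow_pos h0 _
    refine (hPot ι E Λ c.ok h10 hΛN hZ).1 (Xc F F') (Λ ^ 39602) (Λ ^ 39602) 0
      (fun i j => Xc (step F i j) (step F' i j)) sX c.xc hT0 (by rw [abs_zero]; linarith)
      (rate0 hT0 h0 hN0) (key.trans ?_)
    have uX : Up Λ (Xc F F') (39602 : ℕ) := (upN h _).of_le sX c.xc
    have u38 : Up Λ (E.N / Λ ^ 38) (n - (38 : ℕ)) := uN.div h (loN Λ 38)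
    have b1 : (4 * (tk F 2 - E.N) + 4 * (tk F' 2 - E.N) + 4 * Om F F') * Xc F F' ≤
        (8 * (E.N / Λ ^ 38) + 4 * (E.N / Λ ^ 2)) * Xc F F' :=
      mul_le_mul_of_nonneg_right (by linarith [(abs_le.1 sA).2, (abs_le.1 sB).2, c.om]) sX
    have c1 := (((upC h 8).mul h u38).add h ((upC h 4).mul h us) (n - 1.9)).mul h uX
    have c2 := ((ue1.add h ue2 (-33)).mul h uN).mul h (uX.add h uN 39603)
    have c3 := ((ue3.add h uz (-329.9)).mul h (uu.pow h 2)).mul h (uN.pow h 2)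
    have c4 := uu.mul h (uN.pow h 2)
    have c5 := (c1.add h ((up1 h).mul h (c2.add3 h c3 c4 (n + 39599.5))) (n + 39601)).le h
      (((lo_one (show (1 : ℝ) ≤ 3 by norm_num)).mul h lN).mul h (loN Λ 39602) |>.div h (up1 h) h0)
    rw [zero_mul, zero_mul, zero_add]
    linarith

end Crest.Agent.R62
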