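import Crest.Agent.R62.DefsC

/-! Row 62, PT1: the matrix computations are polynomial-time. -/

set_option autoImplicit false

namespace Crest.Agent.R62

open Finset Crest.Agent.PT Crest.Agent.QC Crest.Agent.R317 Crest.Agent.R300U

namespace PT1
variable {α : Type} [Enc α]

@[fun_prop] theorem pt_gq {M : α → QM} {x y : α → ℕ} (hM : PT M) (hx : PT x) (hy : PT y) :
    PT fun a => gq (M a) (x a) (y a) := by
  unfold gq; fun_prop

@[fun_prop] theorem pt_mkM {N : α → ℕ} {f : α → ℕ → ℕ → ℚ} (hN : PT N)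
    (hf : PT fun p : (α × ℕ) × ℕ => f p.1.1 p.1.2 p.2) : PT fun a => mkM (N a) (f a) :=
  pt_mkL (f := fun a x => mkL (N a) fun y => f a x y) hN
    (pt_mkL (f := fun (p : α × ℕ) y => f p.1 p.2 y) (by fun_prop) hf)

@[fun_prop] theorem pt_mmul {N : α → ℕ} {A B : α → QM} (hN : PT N) (hA : PT A) (hB : PT B) :
    PT fun a => mmul (N a) (A a) (B a) := by
  unfold mmul; fun_prop

@[fun_prop] theorem pt_mpow {N : α → ℕ} {A : α → QM} (hN : PT N) (hA : PT A) (k : ℕ) :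
    PT fun a => mpow (N a) (A a) k := by
  induction k with
  | zero =>
    have : PT fun a => mkM (N a) fun x y => if x = y then (1 : ℚ) else 0 := by fun_prop
    exact this
  | succ k ih =>
    exact (pt_mmul hN ih hA).congr fun a => by
      unfold mpow; rw [Function.iterate_succ_apply']

@[fun_prop] theorem pt_trq {N : α → ℕ} {A : α → QM} (hN : PT N) (hA : PT A) :
    PT fun a => trq (N a) (A a) := by
  unfold trq; fun_prop

@[fun_prop] theorem pt_DlQ {F : α → QM} {i j : α → ℕ} (hF : PT F) (hi : PT i) (hj : PT j) :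
    PT fun a => DlQ (F a) (i a) (j a) := by
  unfold DlQ; fun_prop

@[fun_prop] theorem pt_stepQ {N : α → ℕ} {F : α → QM} {i j : α → ℕ} (hN : PT N) (hF : PT F)
    (hi : PT i) (hj : PT j) : PT fun a => stepQ (N a) (F a) (i a) (j a) := by
  unfold stepQ; fun_prop

@[fun_prop] theorem pt_tkQ {N : α → ℕ} {A : α → QM} (hN : PT N) (hA : PT A) (k : ℕ) :
    PT fun a => tkQ (N a) (A a) k := pt_trq hN (pt_mpow hN hA k)

@[fun_prop] theorem pt_PqQ {N : α → ℕ} {A : α → QM} (hN : PT N) (hA : PT A) (k : ℕ) :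
    PT fun a => PqQ (N a) (A a) k := by
  unfold PqQ; fun_prop

@[fun_prop] theorem pt_fqQ {N : α → ℕ} {A : α → QM} (hN : PT N) (hA : PT A) (k : ℕ) :
    PT fun a => fqQ (N a) (A a) k := by
  unfold fqQ; fun_prop

@[fun_prop] theorem bt_La {n : α → ℕ} (hn : PT n) (d : ℕ) : BT fun a => La d (n a) := by
  unfold La; fun_prop

@[fun_prop] theorem bt_sqq {n : α → ℕ} (hn : PT n) (d : ℕ) : BT fun a => sqq d (n a) := by
  unfold sqq; fun_prop

@[fun_prop] theorem pt_tq {n : α → ℕ} (hn : PT n) (d : ℕ) : PT fun a => tq d (n a) := by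
  unfold tq; fun_prop

@[fun_prop] theorem pt_hq {n : α → ℕ} (hn : PT n) (d : ℕ) : PT fun a => hq d (n a) := by
  unfold hq; fun_prop

@[fun_prop] theorem pt_tau {n : α → ℕ} (hn : PT n) (d : ℕ) : PT fun a => tau d (n a) := by
  unfold tau; fun_prop

/-- All components are polynomial-time. -/
structure OP (o : α → Obs ℚ) : Prop where
  t1 : PT fun a => (o a).t1
  t2 : PT fun a => (o a).t2
  t3 : PT fun a => (o a).t3
  t4 : PT fun a => (o a).t4
  tK : PT fun a => (o a).tK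
  P2 : PT fun a => (o a).P2
  Pp : PT fun a => (o a).Pp
  f2 : PT fun a => (o a).f2
  f8 : PT fun a => (o a).f8

theorem op_obs {N : α → ℕ} {A : α → QM} (hN : PT N) (hA : PT A) (p : ℕ) :
    OP fun a => obsQ (N a) p (A a) :=
  ⟨pt_tkQ hN hA 1, pt_tkQ hN hA 2, pt_tkQ hN hA 3, pt_tkQ hN hA 4, pt_tkQ hN hA KK,
    pt_PqQ hN hA 2, pt_PqQ hN hA p, pt_fqQ hN hA 2, pt_fqQ hN hA 8⟩

theorem pt_csum {f : α → ℕ → ℚ} (n : ℕ) (h : ∀ k < n, PT fun a => f a k) :
    PT fun a => ∑ k ∈ range n, f a k := by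
  induction n with
  | zero => exact (PT.const 0).congr fun a => by simp
  | succ n ih =>
    exact (pt_qadd (ih fun k hk => h k (by omega)) (h n (by omega))).congr fun a => by
      rw [sum_range_succ]

theorem pt_c1 {Λ N₀ τ N : α → ℚ} {o : α → Obs ℚ} (hΛ : PT Λ) (h0 : PT N₀) (hτ : PT τ)
    (hN : PT N) (ho : OP o) (ε : ℚ) (k : ℕ) (hk : k < 11) :
    PT fun a => c1 (Λ a) (N₀ a) (τ a) (N a) ε (o a) k := by
  obtain ⟨h1, h2, h3, h4, h5, h6, h7, h8, h9⟩ := ho
  interval_cases k <;>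
    simp only [c1, T41, TK1, G1, sQ1, SQ1, K11, S11, TP1, Tp1, Tf1] <;> fun_prop

theorem pt_c2 {Λ N : α → ℚ} {o : α → Obs ℚ} (hΛ : PT Λ) (hN : PT N) (ho : OP o) (ε : ℚ) (k : ℕ)
    (hk : k < 8) : PT fun a => c2 (Λ a) (N a) ε (o a) k := by
  obtain ⟨h1, h2, h3, h4, h5, h6, h7, h8, h9⟩ := ho
  interval_cases k <;>
    simp only [c2, T42, TK2, TQ2, sQ2, K12, TP2, Tp2, Tf2, ww, xx, sg, be, mu] <;> fun_prop

end PT1

open PT1 in
theorem PT1_proof : Pt1Stmt := by
  intro d p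
  have hN : PT fun a : ℕ × ℕ × QM × QM => a.1 * d := by fun_prop
  have hA := op_obs hN (A := fun a => a.2.2.1) (by fun_prop) p
  have hB := op_obs hN (A := fun a => a.2.2.2) (by fun_prop) p
  have hΛ : PT fun a : ℕ × ℕ × QM × QM => (La d a.1 : ℚ) := by fun_prop
  have h0 : PT fun a : ℕ × ℕ × QM × QM => ((a.1 * d : ℕ) : ℚ) := by fun_prop
  have hτ : PT fun a : ℕ × ℕ × QM × QM => tau d a.1 := by fun_prop
  have hc : PT fun a : ℕ × ℕ × QM × QM => (a.2.1 : ℚ) - 2 := by fun_prop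
  refine PT.iteD (by fun_prop) ?_ (PT.iteD (by fun_prop) ?_ (by fun_prop))
  · refine pt_qadd (pt_qadd (pt_qadd (pt_csum 11 fun k hk => pt_c1 hΛ h0 hτ hc hA 1 k hk)
      (pt_csum 11 fun k hk => pt_c1 hΛ h0 hτ hc hB (-1) k hk)) ?_) ?_
    · unfold com; fun_prop
    · unfold cxc; fun_prop
  · exact pt_qadd (pt_csum 8 fun k hk => pt_c2 hΛ hc hA 1 k hk)
      (pt_csum 8 fun k hk => pt_c2 hΛ hc hB (-1) k hk)

end Crest.Agent.R62
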