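import Crest.Agent.R62.XA
import Crest.Agent.R62.AVG

/-! Row 62: averages of `wtr` and `s2` terms. -/

set_option autoImplicit false
set_option linter.unusedSectionVars false

namespace Crest.Agent.R62

open Matrix Finset

namespace WS

open XA

variable {ι : Type} [Fintype ι] [DecidableEq ι]

theorem N1 {E : Env ι} (h : E.Ok) : 1 ≤ E.N := by nlinarith [h.u1, h.uN]

theorem u_le {E : Env ι} (h : E.Ok) : E.u ≤ √E.N := Real.le_sqrt_of_sq_le h.uN

theorem z20 {E : Env ι} (h : E.Ok) : 0 ≤ E.z ∧ E.z ≤ 1 / 20 := by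
  have z0 : 0 ≤ E.z := h.z0.trans h.zz
  exact ⟨z0, by nlinarith [h.zL, h.L2]⟩

/-- `κ u = (η + η₂) N`. -/
noncomputable def kap (E : Env ι) : ℝ := E.th * E.u + E.D + √E.N + E.Tf + √(E.N * E.Tf)

theorem kap_u {E : Env ι} (h : E.Ok) : kap E * E.u = (E.eta + E.eta2) * E.N := by
  have hN : 0 < E.N := by linarith [N1 h]
  have e : √(E.Tf / E.N) * E.N = √(E.N * E.Tf) := by
    rw [show E.N * E.Tf = E.Tf / E.N * E.N ^ 2 by field_simp,
      Real.sqrt_mul' _ (sq_nonneg _), Real.sqrt_sq hN.le]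
  unfold kap Env.eta Env.eta2
  rw [add_mul, add_mul _ _ E.N, div_mul_cancel₀ _ hN.ne', mul_assoc E.u, e]
  ring

theorem eta3_N {E : Env ι} (h : E.Ok) : E.eta3 * E.N = E.u * √E.N + E.D := by
  have hN : 0 < E.N := by linarith [N1 h]
  unfold Env.eta3
  rw [div_mul_cancel₀ _ hN.ne']

theorem eta_N {E : Env ι} (h : E.Ok) : E.eta * E.N = (E.th * E.u + E.D + √E.N + E.Tf) * E.u := by
  have hN : 0 < E.N := by linarith [N1 h]
  unfold Env.eta
  rw [div_mul_cancel₀ _ hN.ne']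

theorem D1_le {E : Env ι} (h : E.Ok) : E.D1 ≤ 2 * E.L * (E.u * √E.N + E.D) := by
  have hL := h.L2
  have hN := N1 h
  have h1 : √(4 * E.L * E.N) ≤ 2 * E.L * √E.N := by
    rw [Real.sqrt_mul (by positivity)]
    refine mul_le_mul_of_nonneg_right ?_ (Real.sqrt_nonneg _)
    exact Real.sqrt_le_iff.2 ⟨by positivity, by nlinarith⟩
  have h2 : E.th * √(4 * E.L * E.N) ≤ E.u * (2 * E.L * √E.N) :=
    mul_le_mul h.thu h1 (Real.sqrt_nonneg _) (by linarith [h.u1])
  unfold Env.D1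
  nlinarith [h.D1']

theorem D1_nonneg {E : Env ι} (h : E.Ok) : 0 ≤ E.D1 := by
  unfold Env.D1
  have := h.th0
  have := h.D1'
  positivity

theorem Z_le {E : Env ι} (h : E.Ok) : E.Z ≤ 2 * E.N ^ 2 := by
  have := AVG.av_two h (fun _ _ => 1) fun _ _ => zero_le_one
  simp only [sum_const, nsmul_eq_mul, mul_one] at this
  unfold Env.Z Env.N
  linarith

theorem av_add (E : Env ι) (X Y : ι → ι → ℝ) :
    E.av (fun i j => X i j + Y i j) = E.av X + E.av Y := by
  simp only [Env.av, mul_add, sum_add_distrib]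

theorem av_sub (E : Env ι) (X Y : ι → ι → ℝ) :
    E.av (fun i j => X i j - Y i j) = E.av X - E.av Y := by
  simp only [Env.av, mul_sub, sum_sub_distrib]

theorem av_smul (E : Env ι) (c : ℝ) (X : ι → ι → ℝ) :
    E.av (fun i j => c * X i j) = c * E.av X := by
  simp only [Env.av, mul_sum]
  exact sum_congr rfl fun i _ => sum_congr rfl fun j _ => by ring

theorem av_const (E : Env ι) (c : ℝ) : E.av (fun _ _ => c) = c * E.Z := by
  rw [Env.Z, ← av_smul]; simp

theorem av_congr (E : Env ι) (X Y : ι → ι → ℝ) (h : ∀ i j, E.p i j ≠ 0 → X i j = Y i j) :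
    E.av X = E.av Y := by
  refine sum_congr rfl fun i _ => sum_congr rfl fun j _ => ?_
  by_cases h0 : E.p i j = 0
  · simp [h0]
  · rw [h i j h0]

theorem av_abs {E : Env ι} (h : E.Ok) (X Y : ι → ι → ℝ)
    (hXY : ∀ i j, E.p i j ≠ 0 → |X i j| ≤ Y i j) : |E.av X| ≤ E.av Y :=
  (AVG_proof ι E h).2.2.2.2.2.2.2.2.2.2.2.2.1 X Y hXY

theorem av_swap {E : Env ι} (h : E.Ok) (X : ι → ι → ℝ) : E.av (fun i j => X j i) = E.av X :=
  ((AVG_proof ι E h).2.2.1 X).symm

theorem av_abs_const {E : Env ι} (h : E.Ok) (X : ι → ι → ℝ) (c : ℝ) (hc : 0 ≤ c)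
    (hX : ∀ i j, E.p i j ≠ 0 → |X i j| ≤ c) : |E.av X| ≤ 2 * c * E.N ^ 2 := by
  refine (av_abs h X (fun _ _ => c) hX).trans ?_
  rw [av_const]
  nlinarith [Z_le h]

/-- `|av X| ≤ 2 ∑∑ Y` over all pairs. -/
theorem av_abs_all {E : Env ι} (h : E.Ok) (X Y : ι → ι → ℝ) (hY : ∀ i j, 0 ≤ Y i j)
    (hXY : ∀ i j, E.p i j ≠ 0 → |X i j| ≤ Y i j) : |E.av X| ≤ 2 * ∑ i, ∑ j, Y i j := by
  refine (av_abs h X Y hXY).trans ((AVG.av_two h Y hY).trans ?_)
  refine mul_le_mul_of_nonneg_left ?_ (by norm_num)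
  refine (sum_le_sum fun i _ => sum_le_sum_of_subset_of_nonneg (subset_univ _)
    fun j _ _ => hY i j).trans ?_
  exact sum_le_sum_of_subset_of_nonneg (subset_univ _) fun i _ _ => sum_nonneg fun j _ => hY i j

theorem cs2 (X Y : ι → ι → ℝ) :
    ∑ i, ∑ j, |X i j| * |Y i j| ≤ √(∑ i, ∑ j, X i j ^ 2) * √(∑ i, ∑ j, Y i j ^ 2) := by
  have h := Real.sum_mul_le_sqrt_mul_sqrt (univ : Finset (ι × ι)) (fun q => |X q.1 q.2|)
    (fun q => |Y q.1 q.2|)
  simpa only [Fintype.sum_prod_type, sq_abs] using h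

theorem fro_nonneg (X : Mat ι) : 0 ≤ fro X :=
  sum_nonneg fun _ _ => sum_nonneg fun _ _ => sq_nonneg _

theorem fro_le {U : Finset ι} {X : Mat ι} {R : ℝ} (hs : ∀ x y, x ∉ U → X x y = 0)
    (h : RowB X R) : fro X ≤ R * U.card := by
  unfold fro
  rw [← sum_subset (subset_univ U) fun x _ hx => by simp [hs x _ hx]]
  refine (sum_le_sum fun x _ => h x).trans ?_
  simp [mul_comm]

theorem op_shift {A : Mat ι} {u : ℝ} (h : Op A u) (hu : 1 ≤ u) (s : ℝ) (hs : s ^ 2 = 1) :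
    Op (A + s • (1 : Mat ι)) (2 * u) := by
  intro v
  have h1 : ∑ x, ((A + s • (1 : Mat ι)) *ᵥ v) x ^ 2 ≤ ∑ x, (2 * (A *ᵥ v) x ^ 2 + 2 * v x ^ 2) := by
    refine sum_le_sum fun x _ => ?_
    rw [add_mulVec, smul_mulVec, one_mulVec]
    simp only [Pi.add_apply, Pi.smul_apply, smul_eq_mul]
    nlinarith [sq_nonneg ((A *ᵥ v) x - s * v x)]
  rw [sum_add_distrib, ← mul_sum, ← mul_sum] at h1
  have h2 := h v
  have h3 : 0 ≤ ∑ x, v x ^ 2 := sum_nonneg fun _ _ => sq_nonneg _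
  have h4 : 1 ≤ u ^ 2 := by nlinarith
  nlinarith

theorem op_add {A : Mat ι} {u : ℝ} (h : Op A u) (hu : 1 ≤ u) : Op (A + 1) (2 * u) := by
  simpa using op_shift h hu 1 (by norm_num)

theorem op_sub {A : Mat ι} {u : ℝ} (h : Op A u) (hu : 1 ≤ u) : Op (A - 1) (2 * u) := by
  simpa [sub_eq_add_neg] using op_shift h hu (-1) (by norm_num)

theorem row_mul (X M : Mat ι) {m : ℝ} (hM : Op Mᵀ m) (x : ι) :
    ∑ y, (X * M) x y ^ 2 ≤ m ^ 2 * ∑ y, X x y ^ 2 := by
  have := hM (X x)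
  refine le_of_eq_of_le (sum_congr rfl fun y _ => ?_) this
  simp only [Matrix.mul_apply, mulVec, dotProduct, transpose_apply, mul_comm]

theorem RowB.mul {X M : Mat ι} {R m : ℝ} (hX : RowB X R) (hM : Op Mᵀ m) :
    RowB (X * M) (m ^ 2 * R) := fun x =>
  (row_mul X M hM x).trans (mul_le_mul_of_nonneg_left (hX x) (sq_nonneg _))

theorem fro_mul (X M : Mat ι) {m : ℝ} (hM : Op Mᵀ m) : fro (X * M) ≤ m ^ 2 * fro X := by
  unfold fro
  rw [mul_sum]
  exact sum_le_sum fun x _ => row_mul X M hM x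

theorem sum_zero {U : Finset ι} {A : Mat ι} (hA : Bas0 U A) (M : Mat ι) :
    ∑ i ∈ U, ∑ j ∈ U, ((A - 1) * M) i j = 0 := by
  refine sum_comm.trans (sum_eq_zero fun j _ => ?_)
  simp only [Matrix.mul_apply]
  rw [sum_comm]
  refine sum_eq_zero fun k _ => ?_
  rw [← sum_mul]
  have : ∑ i ∈ U, (A - 1) i k = 0 := by
    simp only [Matrix.sub_apply, sum_sub_distrib, one_apply, sum_ite_eq']
    rw [sum_subset (subset_univ U) fun x _ hx => hA.su x k hx]
    simp only [hA.sy _ k]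
    split_ifs with hk
    · rw [hA.on k hk, sub_self]
    · simp [hA.su k _ hk]
  rw [this, zero_mul]

theorem al_bd (F : Mat ι) (i j : ι) (z : ℝ) (ha : |F i i| ≤ z) (hb : |F j j| ≤ z)
    (hc : |F i j| ≤ z) (hz : z ≤ 1 / 20) :
    |(1 - F i j) / Dl F i j - 1| ≤ 2 * (|F i j| + |F i i| * |F j j|) := by
  have hD := (M1.W_bd F i j z ha hb hc hz).1
  have hD0 : 0 < Dl F i j := by linarith
  have : (1 - F i j) / Dl F i j - 1 = (F i j * (1 - F i j) + F i i * F j j) / Dl F i j := by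
    field_simp; unfold Dl; ring
  rw [this, abs_div, abs_of_pos hD0, div_le_iff₀ hD0]
  have h1 : |F i j * (1 - F i j) + F i i * F j j| ≤ |F i j| * (21 / 20) + |F i i| * |F j j| := by
    refine (abs_add_le _ _).trans ?_
    rw [abs_mul, abs_mul]
    have : |1 - F i j| ≤ 21 / 20 := by
      have := abs_le.1 hc
      rw [abs_le]; constructor <;> linarith
    gcongr
  have h2 : 0 ≤ |F i i| * |F j j| := by positivity
  have h3 := abs_nonneg (F i j)
  nlinarith

/-- Average of `tr (W Y_SS)` for `Y = H₁ᵀ H₂` with zero total sum on `U × U`. -/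
theorem wtr_av {E : Env ι} (h : E.Ok) {A : Mat ι} {ε : ℝ} (hA : Side E A ε) (H₁ H₂ : Mat ι)
    (f₁ f₂ : ℝ) (h1 : √(fro H₁) ≤ f₁) (h2 : √(fro H₂) ≤ f₂)
    (h0 : ∑ i ∈ E.U, ∑ j ∈ E.U, (H₁ᵀ * H₂) i j = 0) :
    |E.av fun i j => wtr A i j (H₁ᵀ * H₂)| ≤ 8 * E.L * kap E * (f₁ * f₂) := by
  obtain ⟨-, -, -, -, -, -, -, -, a9, a10, -⟩ := AVG_proof ι E h
  set Y := H₁ᵀ * H₂ with hY
  have f10 : 0 ≤ f₁ := (Real.sqrt_nonneg _).trans h1
  have f20 : 0 ≤ f₂ := (Real.sqrt_nonneg _).trans h2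
  have ff : √(fro H₁) * √(fro H₂) ≤ f₁ * f₂ := mul_le_mul h1 h2 (Real.sqrt_nonneg _) f10
  have ff0 : 0 ≤ f₁ * f₂ := mul_nonneg f10 f20
  have hL := h.L2
  have hN := N1 h
  have hu := h.u1
  have hth := h.th0
  have hD := h.D1'
  have hT := h.Tf1
  obtain ⟨z0, hz⟩ := z20 h
  set α : ι → ℝ := fun i => ∑ x, H₁ x i ^ 2 with hα
  set β : ι → ℝ := fun i => ∑ x, H₂ x i ^ 2 with hβ
  have α0 : ∀ i, 0 ≤ α i := fun i => sum_nonneg fun _ _ => sq_nonneg _
  have β0 : ∀ i, 0 ≤ β i := fun i => sum_nonneg fun _ _ => sq_nonneg _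
  have hYs : ∀ i j, Y i j ^ 2 ≤ α i * β j := fun i j => by
    simp only [hY, Matrix.mul_apply, transpose_apply]
    exact sum_mul_sq_le_sq_mul_sq _ _ _
  have sα : ∑ x, α x = fro H₁ := sum_comm
  have sβ : ∑ x, β x = fro H₂ := sum_comm
  -- the main term
  have m1 : |E.av fun i j => Y i j| ≤ (2 * E.th * E.u + E.D) * (f₁ * f₂) := by
    have b1 := a9 (fun i j => Y i j) α β α0 β0 hYs
    rw [h0, sα, sβ] at b1
    have b2 := a10 H₁ H₂
    rw [← hY] at b2
    have b3 : |E.th * ∑ i, ∑ j, E.C i j * Y i j| ≤ E.th * (2 * E.u * (f₁ * f₂)) := by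
      rw [abs_mul, abs_of_nonneg hth]
      refine mul_le_mul_of_nonneg_left (b2.trans ?_) hth
      rw [mul_assoc]
      exact mul_le_mul_of_nonneg_left ff (by linarith)
    have b4 : E.D * √(fro H₁) * √(fro H₂) ≤ E.D * (f₁ * f₂) := by
      rw [mul_assoc]; exact mul_le_mul_of_nonneg_left ff (by linarith)
    rw [abs_le] at b1 b3 ⊢
    constructor <;> linarith [b1.1, b1.2, b3.1, b3.2]
  have sY : √(∑ i, ∑ j, Y i j ^ 2) ≤ f₁ * f₂ := by
    refine le_trans ?_ ff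
    rw [← Real.sqrt_mul (fro_nonneg _), ← sα, ← sβ, sum_mul_sum]
    exact Real.sqrt_le_sqrt (sum_le_sum fun i _ => sum_le_sum fun j _ => hYs i j)
  have sA : √(∑ i, ∑ j, A i j ^ 2) ≤ E.L * √E.N := by
    have := fro_le (U := E.U) hA.su (R := E.L) hA.ro
    refine (Real.sqrt_le_sqrt this).trans ?_
    rw [Real.sqrt_mul (by linarith)]
    refine mul_le_mul_of_nonneg_right ?_ (Real.sqrt_nonneg _)
    exact Real.sqrt_le_iff.2 ⟨by linarith, by nlinarith⟩
  have sab : √(∑ i, ∑ j, (A i i * A j j) ^ 2) ≤ E.Tf := by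
    refine Real.sqrt_le_iff.2 ⟨by linarith, ?_⟩
    simp only [mul_pow]
    rw [← sum_mul_sum, sq]
    have := hA.f2
    unfold fq at this
    exact mul_le_mul this this (sum_nonneg fun _ _ => sq_nonneg _) (by linarith)
  have m2 : |E.av fun i j => ((1 - A i j) / Dl A i j - 1) * Y i j| ≤
      4 * (E.L * √E.N + E.Tf) * (f₁ * f₂) := by
    refine (av_abs_all h _ (fun i j => 2 * (|A i j| * |Y i j|) + 2 * (|A i i * A j j| * |Y i j|))
      (fun i j => by positivity) fun i j hp => ?_).trans ?_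
    · rw [abs_mul, abs_mul]
      have := mul_le_mul_of_nonneg_right (al_bd A i j E.z (hA.dg i) (hA.dg j) (hA.ad i j hp).1 hz)
        (abs_nonneg (Y i j))
      linarith
    · simp only [sum_add_distrib, ← mul_sum]
      have c1 := (cs2 (fun i j => A i j) fun i j => Y i j).trans
        (mul_le_mul sA sY (Real.sqrt_nonneg _) (by positivity))
      have c2 := (cs2 (fun i j => A i i * A j j) fun i j => Y i j).trans
        (mul_le_mul sab sY (Real.sqrt_nonneg _) (by positivity))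
      linarith
  have m3 : |E.av fun i j => A j j * Y i i / Dl A i j| ≤ 4 * √(E.N * E.Tf) * (f₁ * f₂) := by
    refine (av_abs_all h _ (fun i j => 2 * (|Y i i| * |A j j|))
      (fun i j => by positivity) fun i j hp => ?_).trans ?_
    · have hD := (M1.W_bd A i j E.z (hA.dg i) (hA.dg j) (hA.ad i j hp).1 hz).1
      have hD0 : 0 < Dl A i j := by linarith
      rw [abs_div, abs_of_pos hD0, div_le_iff₀ hD0, abs_mul]
      have : 0 ≤ |Y i i| * |A j j| := by positivity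
      nlinarith
    · simp only [← mul_sum]
      rw [← sum_mul]
      have c1 : ∑ i, |Y i i| ≤ f₁ * f₂ := by
        refine le_trans ?_ ff
        rw [← sα, ← sβ]
        have := Real.sum_mul_le_sqrt_mul_sqrt univ (fun i => √(α i)) (fun i => √(β i))
        simp only [Real.sq_sqrt (α0 _), Real.sq_sqrt (β0 _)] at this
        refine (sum_le_sum fun i _ => ?_).trans this
        rw [← Real.sqrt_mul (α0 i)]
        exact Real.abs_le_sqrt (hYs i i)
      have c2 : ∑ j, |A j j| ≤ √(E.N * E.Tf) := by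
        rw [← sum_subset (subset_univ E.U) fun x _ hx => by simp [hA.su x _ hx]]
        refine Real.le_sqrt_of_sq_le ((sq_sum_le_card_mul_sum_sq).trans ?_)
        refine mul_le_mul_of_nonneg_left ?_ (by positivity)
        simp only [sq_abs]
        exact (sum_le_sum_of_subset_of_nonneg (subset_univ _) fun _ _ _ => sq_nonneg _).trans hA.f2
      have := mul_le_mul c1 c2 (sum_nonneg fun _ _ => abs_nonneg _) ff0
      linarith
  have e : (E.av fun i j => wtr A i j Y) =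
      2 * (E.av (fun i j => Y i j) + E.av (fun i j => ((1 - A i j) / Dl A i j - 1) * Y i j)
        + E.av (fun i j => A j j * Y i i / Dl A i j)) := by
    rw [← av_add, ← av_add, two_mul]
    nth_rewrite 2 [← av_swap h]
    rw [← av_add]
    congr 1
    funext i j
    have : Dl A j i = Dl A i j := by simp only [Dl, hA.sy j i]; ring
    simp only [wtr, this, hA.sy j i]
    ring
  rw [e, abs_mul, abs_two]
  have t := (abs_add_le _ _).trans (add_le_add ((abs_add_le _ _).trans (add_le_add m1 m2)) m3)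
  have k : 2 * ((2 * E.th * E.u + E.D) + 4 * (E.L * √E.N + E.Tf) + 4 * √(E.N * E.Tf)) ≤
      8 * E.L * kap E := by
    unfold kap
    have := Real.sqrt_nonneg E.N
    have := Real.sqrt_nonneg (E.N * E.Tf)
    have : 0 ≤ E.th * E.u := by positivity
    nlinarith
  have := mul_le_mul_of_nonneg_right k ff0
  linarith

/-- Average of `s2 X Y`. -/
theorem s2_av {E : Env ι} (h : E.Ok) (X Y : Mat ι) (r s ρ₁ ρ₂ : ℝ) (hX : ∀ x y, |X x y| ≤ r)
    (hY : ∀ x y, |Y x y| ≤ s) (hr : 0 ≤ r) (hs : 0 ≤ s) (h1 : 0 ≤ ρ₁) (h2 : 0 ≤ ρ₂)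
    (rX : RowB X (ρ₁ ^ 2)) (rY : RowB Y (ρ₂ ^ 2)) :
    |E.av (s2 X Y) - 2 * (∑ x ∈ E.U, X x x) * ∑ x ∈ E.U, Y x x| ≤
      2 * E.D1 * E.N * (r * s) + 4 * E.N * (ρ₁ * ρ₂) := by
  obtain ⟨-, -, -, -, -, -, -, a8, -⟩ := AVG_proof ι E h
  have m1 := a8 (fun i j => X i i * Y j j) (fun _ => r * s / 2) (fun _ => by positivity)
    fun i _ j _ => by
      rw [abs_mul, add_halves]; exact mul_le_mul (hX _ _) (hY _ _) (abs_nonneg _) hr
  rw [← sum_mul_sum, sum_const, nsmul_eq_mul] at m1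
  have m2 : |E.av fun i j => X i j * Y i j| ≤ 2 * E.N * (ρ₁ * ρ₂) := by
    refine (av_abs h _ (fun i j => |X i j| * |Y i j|) fun i j _ => (abs_mul _ _).le).trans
      ((AVG.av_two h _ fun i j => by positivity).trans ?_)
    rw [mul_assoc]
    refine mul_le_mul_of_nonneg_left ?_ (by norm_num)
    have : ∀ i ∈ E.U, ∑ j ∈ E.U, |X i j| * |Y i j| ≤ ρ₁ * ρ₂ := by
      intro i _
      refine (sum_le_sum_of_subset_of_nonneg (subset_univ _) fun j _ _ => by positivity).trans ?_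
      have := Real.sum_mul_le_sqrt_mul_sqrt univ (fun j => |X i j|) (fun j => |Y i j|)
      simp only [sq_abs] at this
      refine this.trans (mul_le_mul ?_ ?_ (Real.sqrt_nonneg _) h1)
      · exact Real.sqrt_le_iff.2 ⟨h1, rX i⟩
      · exact Real.sqrt_le_iff.2 ⟨h2, rY i⟩
    refine (sum_le_sum this).trans ?_
    simp [Env.N]
  have e : E.av (s2 X Y) = 2 * (E.av (fun i j => X i i * Y j j) + E.av fun i j => X i j * Y i j) := by
    rw [← av_add, two_mul]
    nth_rewrite 2 [← av_swap h]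
    rw [← av_add]
    congr 1
    funext i j
    simp only [s2]
    ring
  rw [e]
  rw [abs_le] at m1 m2 ⊢
  unfold Env.N at *
  constructor <;> linarith [m1.1, m1.2, m2.1, m2.2]

theorem trU {U : Finset ι} {M : Mat ι} (hs : ∀ x y, x ∉ U → M x y = 0) :
    ∑ x ∈ U, M x x = trace M :=
  sum_subset (subset_univ U) fun x _ hx => hs x x hx

theorem su_mul {U : Finset ι} {M : Mat ι} (hs : ∀ x y, x ∉ U → M x y = 0) (X : Mat ι) :
    ∀ x y, x ∉ U → (M * X) x y = 0 := fun x y hx => by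
  simp [Matrix.mul_apply, hs x _ hx]

theorem sumU_le {U : Finset ι} {M : Mat ι} {r : ℝ} (h : ∀ x, |M x x| ≤ r) :
    |∑ x ∈ U, M x x| ≤ r * U.card := by
  refine (abs_sum_le_sum_abs _ _).trans ((sum_le_sum fun x _ => h x).trans ?_)
  simp [mul_comm]

theorem tr_le {U : Finset ι} {M : Mat ι} {r : ℝ} (hs : ∀ x y, x ∉ U → M x y = 0)
    (h : ∀ x, |M x x| ≤ r) : |trace M| ≤ r * U.card := by
  rw [← trU hs]; exact sumU_le h

end WS

end Crest.Agent.R62
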