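import Crest.Agent.R62.XB

/-! Row 62: second-order terms of `tr (A A B B)`. -/

set_option autoImplicit false
set_option linter.unusedSectionVars false

namespace Crest.Agent.R62

open Matrix Finset

namespace XC

open XA WS

variable {ι : Type} [Fintype ι] [DecidableEq ι]

theorem sh {E : Env ι} (hE : E.Ok) (X Y : Mat ι) (r s ρ₁ ρ₂ : ℝ) (hX : ∀ x y, |X x y| ≤ r)
    (hY : ∀ x y, |Y x y| ≤ s) (hr : 0 ≤ r) (hs : 0 ≤ s) (h1 : 0 ≤ ρ₁) (h2 : 0 ≤ ρ₂)
    (rX : RowB X (ρ₁ ^ 2)) (rY : RowB Y (ρ₂ ^ 2)) (e1 : r * s = 16 * E.L ^ 2 * E.u ^ 2)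
    (e2 : ρ₁ * ρ₂ = 16 * E.L ^ 2 * E.u ^ 4) :
    |E.av (s2 X Y) - 2 * (∑ x ∈ E.U, X x x) * ∑ x ∈ E.U, Y x x| ≤
      128 * E.L ^ 3 * (E.eta3 * E.u ^ 2 * E.N ^ 2) := by
  refine (s2_av hE X Y r s ρ₁ ρ₂ hX hY hr hs h1 h2 rX rY).trans ?_
  rw [e1, e2]
  have hL := hE.L2
  have hN := N1 hE
  have hu := hE.u1
  have d := D1_le hE
  rw [← eta3_N hE] at d
  have g : E.u ^ 2 ≤ E.L * (E.eta3 * E.N) := by
    rw [eta3_N hE]
    have := u_le hE
    have := hE.D1'
    have : E.u * E.u ≤ E.u * √E.N := by gcongr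
    have : 0 ≤ E.u * √E.N + E.D := by positivity
    nlinarith
  have a := mul_le_mul_of_nonneg_right d
    (show 0 ≤ 32 * E.N * E.L ^ 2 * E.u ^ 2 by positivity)
  have b := mul_le_mul_of_nonneg_right g
    (show 0 ≤ 64 * E.N * E.L ^ 2 * E.u ^ 2 by positivity)
  linarith

theorem prod_bd {a b x y : ℝ} (h1 : |a| ≤ x) (h2 : |b| ≤ y) : |a * b| ≤ x * y := by
  rw [abs_mul]; exact mul_le_mul h1 h2 (abs_nonneg _) ((abs_nonneg _).trans h1)

end XC

open XA WS XC in
theorem XC_proof (_hAvg : AvgStmt) : XCStmt := by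
  refine ⟨12, ?_⟩
  intro ι _ _ E A B ε ε' hE hA hB
  have hL := hE.L2
  have hL1 : 1 ≤ E.L := by linarith
  have hu := hE.u1
  have hu0 : 0 ≤ E.u := by linarith
  have hN := N1 hE
  obtain ⟨z0, hz⟩ := z20 hE
  have tA := Sy.tr hA.sy
  have tB := Sy.tr hB.sy
  have rA := rowB_sub hA.ro hL1
  have rB := rowB_sub hB.ro hL1
  have cA := colB_add hA.sy hA.ro hL1
  have cB := colB_add hB.sy hB.ro hL1
  have oA := hA.op
  have oB := hB.op
  have huu : 0 ≤ E.u * E.u := mul_nonneg hu0 hu0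
  have oa : ∀ {F : Mat ι} {e : ℝ}, Side E F e → Op (F + 1)ᵀ (2 * E.u) := fun hF => by
    rw [transpose_add, transpose_one, Sy.tr hF.sy]; exact op_add hF.op hu
  have w0 : ∀ {X : Mat ι}, RowB X (4 * E.L) → RowB X ((2 * E.L) ^ 2) := fun hX x =>
    (hX x).trans (by nlinarith)
  have w1 : ∀ {X M : Mat ι} {ρ m : ℝ}, RowB X (ρ ^ 2) → Op Mᵀ m → RowB (X * M) ((ρ * m) ^ 2) :=
    fun hX hM x => (WS.RowB.mul hX hM x).trans (le_of_eq (by ring))
  have oAt : Op Aᵀ E.u := by rwa [tA]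
  have oBt : Op Bᵀ E.u := by rwa [tB]
  have oBB : Op (B * B)ᵀ (E.u * E.u) := by rw [transpose_mul, tB]; exact op_mul oB oB
  have oBA : Op (B * A)ᵀ (E.u * E.u) := by rw [transpose_mul, tA, tB]; exact op_mul oA oB
  have f1 := sh hE _ _ _ _ _ _ (ent1 rA cA) (ent rA cA (op_mul oB oB) huu) (by positivity)
    (by positivity) (by positivity) (by positivity) (w1 (w0 rA) (oa hA))
    (w1 (w1 (w0 rA) oBB) (oa hA)) (by ring) (by ring)
  have f2 := sh hE _ _ _ _ _ _ (ent1 rA cB) (ent rB cA (op_mul oB oA) huu) (by positivity)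
    (by positivity) (by positivity) (by positivity) (w1 (w0 rA) (oa hB))
    (w1 (w1 (w0 rB) oBA) (oa hA)) (by ring) (by ring)
  have f3 := sh hE _ _ _ _ _ _ (ent rA cB oA hu0) (ent rB cA oB hu0) (by positivity)
    (by positivity) (by positivity) (by positivity) (w1 (w1 (w0 rA) oAt) (oa hB))
    (w1 (w1 (w0 rB) oBt) (oa hA)) (by ring) (by ring)
  have tr : ∀ {F G : Mat ι} {e e' : ℝ}, Side E F e → Side E G e' →
      ∑ x ∈ E.U, ((F - 1) * (G + 1)) x x = trace (F * G) - E.N + (trace F - trace G) := by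
    intro F G e e' hF hG
    have : (F - 1) * (G + 1) = F * G + F - G - 1 := by noncomm_ring
    rw [this]
    simp only [Matrix.sub_apply, Matrix.add_apply, sum_sub_distrib, sum_add_distrib,
      trU (su_mul hF.su G), trU hF.su, trU hG.su, one_apply_eq, sum_const, nsmul_eq_mul,
      mul_one, Env.N]
    ring
  have tr2 : ∀ {F : Mat ι} {e : ℝ} (M G : Mat ι), Side E F e → (∀ x y, x ∉ E.U → M x y = 0) →
      ∑ x ∈ E.U, ((F - 1) * M * (G + 1)) x x =
        trace (F * M * G) + trace (F * M) - trace (M * G) - trace M := by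
    intro F e M G hF hM
    have : (F - 1) * M * (G + 1) = F * M * G + F * M - M * G - M := by noncomm_ring
    rw [this]
    simp only [Matrix.sub_apply, Matrix.add_apply, sum_sub_distrib, sum_add_distrib,
      trU (su_mul (su_mul hF.su M) G), trU (su_mul hF.su M), trU (su_mul hM G), trU hM]
  rw [tr hA hA, tr2 _ _ hA (su_mul hB.su B)] at f1
  rw [tr hA hB, tr2 _ _ hB (su_mul hB.su A)] at f2
  rw [tr2 _ _ hA hA.su, tr2 _ _ hB hB.su] at f3
  have c1 : trace (A * (B * B) * A) = Xc A B := by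
    rw [trace_mul_comm, Xc]; simp only [Matrix.mul_assoc]
  have c2 : trace (A * (B * B)) = trace (A * B * B) := by simp only [Matrix.mul_assoc]
  have c3 : trace (B * B * A) = trace (A * B * B) := by
    rw [trace_mul_comm]; simp only [Matrix.mul_assoc]
  have c4 : trace (B * (B * A) * A) = Xc A B := by
    rw [XB.Xc_comm, Xc]; simp only [Matrix.mul_assoc]
  have c5 : trace (B * (B * A)) = trace (A * B * B) := by rw [← c3]; simp only [Matrix.mul_assoc]
  have c6 : trace (B * A * A) = trace (A * A * B) := by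
    rw [Matrix.mul_assoc, trace_mul_comm]
  have c7 : trace (B * A) = trace (A * B) := trace_mul_comm _ _
  simp only [c1, c2, c3, c4, c5, c6, c7] at f1 f2 f3
  have r0A : RowB A E.L := hA.ro
  have r0B : RowB B E.L := hB.ro
  have c0A := r0A.col hA.sy
  have c0B := r0B.col hB.sy
  have hNN : ((E.U.card : ℕ) : ℝ) = E.N := rfl
  have bA := tr_le hA.su hA.dg
  have bB := tr_le hB.su hB.dg
  have bAA := tr_le (su_mul hA.su A) fun x => ent1 r0A c0A x x
  have bBB := tr_le (su_mul hB.su B) fun x => ent1 r0B c0B x x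
  have bAB := tr_le (su_mul hA.su B) fun x => ent1 r0A c0B x x
  have bAAB := tr_le (su_mul (su_mul hA.su A) B) fun x => ent r0A c0B oA hu0 x x
  have bABB := tr_le (su_mul (su_mul hA.su B) B) fun x => ent r0A c0B oB hu0 x x
  have bX : |Xc A B| ≤ E.L * (E.u * E.u) * E.N := by
    rw [← c1]
    exact tr_le (su_mul (su_mul hA.su _) A) fun x => ent r0A c0A (op_mul oB oB) huu x x
  rw [hNN] at bA bB bAA bBB bAB bAAB bABB
  have e : E.av (xS A B) = E.av (s2 ((A - 1) * (A + 1)) ((A - 1) * (B * B) * (A + 1)))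
      + E.av (s2 ((A - 1) * (B + 1)) ((B - 1) * (B * A) * (A + 1)))
      + E.av (s2 ((A - 1) * A * (B + 1)) ((B - 1) * B * (A + 1))) := by
    rw [← av_add, ← av_add]; rfl
  have q2 : tk A 2 = trace (A * A) := by rw [tk, sq]
  rw [e, q2, Om]
  set X := Xc A B
  set QA := trace (A * A)
  set QB := trace (B * B)
  set O := trace (A * B)
  set P := trace (A * A * B)
  set R := trace (A * B * B)
  set a := trace A
  set b := trace B
  have LN : E.N ≤ E.L * E.N := le_mul_of_one_le_left (by linarith) hL1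
  have zN : E.z * E.N ≤ E.L * E.N := mul_le_mul_of_nonneg_right (by linarith) (by linarith)
  have LuN : E.L * E.N ≤ E.L * E.u * E.N := by
    rw [mul_right_comm]; exact le_mul_of_one_le_right (by positivity) hu
  have g1 : |(QA - E.N) * QB| ≤ (2 * (E.L * E.u * E.N)) * (E.L * E.N) :=
    prod_bd (by rw [abs_le] at *; constructor <;> linarith) bBB
  have g2 : |(a - b) * X| ≤ (2 * (E.z * E.N)) * (E.L * (E.u * E.u) * E.N) :=
    prod_bd (by rw [abs_le] at *; constructor <;> linarith) bX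
  have g3 : |(O - E.N + (a - b)) * (R - P - O)| ≤ (4 * (E.L * E.N)) * (3 * (E.L * E.u * E.N)) :=
    prod_bd (by rw [abs_le] at *; constructor <;> linarith)
      (by rw [abs_le] at *; constructor <;> linarith)
  have g4 : |P * (QB - O - b)| ≤ (E.L * E.u * E.N) * (3 * (E.L * E.N)) :=
    prod_bd bAAB (by rw [abs_le] at *; constructor <;> linarith)
  have g5 : |(QA - O - a) * (R + QB - O - b)| ≤ (3 * (E.L * E.N)) * (4 * (E.L * E.u * E.N)) :=
    prod_bd (by rw [abs_le] at *; constructor <;> linarith)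
      (by rw [abs_le] at *; constructor <;> linarith)
  have e3 : 0 ≤ E.eta3 := by
    unfold Env.eta3
    have := hE.D1'
    positivity
  set s := E.eta3 * E.u ^ 2 * E.N ^ 2 with hs
  set t := E.z * E.u ^ 2 * E.N ^ 2 with ht
  set v := E.u * E.N ^ 2 with hv
  have s0 : 0 ≤ s := by positivity
  have t0 : 0 ≤ t := by positivity
  have v0 : 0 ≤ v := by positivity
  have p : 2 ^ 9 * E.L ^ 3 ≤ E.L ^ 12 := by
    have : (2 : ℝ) ^ 9 ≤ E.L ^ 9 := pow_le_pow_left₀ (by norm_num) hL 9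
    rw [show E.L ^ 12 = E.L ^ 9 * E.L ^ 3 by ring]
    exact mul_le_mul_of_nonneg_right this (by positivity)
  have l2 : E.L ≤ E.L ^ 3 := by simpa using pow_le_pow_right₀ hL1 (show 1 ≤ 3 by norm_num)
  have l3 : E.L ^ 2 ≤ E.L ^ 3 := pow_le_pow_right₀ hL1 (by norm_num)
  have m1 := mul_le_mul_of_nonneg_right l2 t0
  have m2 := mul_le_mul_of_nonneg_right l3 v0
  have m3 := mul_le_mul_of_nonneg_right p (show 0 ≤ s + t + v by positivity)
  have m4 : 0 ≤ E.L ^ 3 * s := by positivity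
  have m5 : 0 ≤ E.L ^ 3 * t := by positivity
  have m6 : 0 ≤ E.L ^ 3 * v := by positivity
  have h1 : (2 * (E.L * E.u * E.N)) * (E.L * E.N) = 2 * (E.L ^ 2 * v) := by rw [hv]; ring
  have h2 : (2 * (E.z * E.N)) * (E.L * (E.u * E.u) * E.N) = 2 * (E.L * t) := by rw [ht]; ring
  have h3 : (4 * (E.L * E.N)) * (3 * (E.L * E.u * E.N)) = 12 * (E.L ^ 2 * v) := by rw [hv]; ring
  have h4 : (E.L * E.u * E.N) * (3 * (E.L * E.N)) = 3 * (E.L ^ 2 * v) := by rw [hv]; ring
  have h5 : (3 * (E.L * E.N)) * (4 * (E.L * E.u * E.N)) = 12 * (E.L ^ 2 * v) := by rw [hv]; ring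
  have h6 : (E.eta3 + E.z) * E.u ^ 2 * E.N ^ 2 + v = s + t + v := by rw [hs, ht]; ring
  rw [h1] at g1
  rw [h2] at g2
  rw [h3] at g3
  rw [h4] at g4
  rw [h5] at g5
  rw [h6]
  rw [abs_le] at f1 f2 f3 g1 g2 g3 g4 g5 ⊢
  constructor <;> linarith [f1.1, f1.2, f2.1, f2.2, f3.1, f3.2, g1.1, g1.2, g2.1, g2.2, g3.1, g3.2,
    g4.1, g4.2, g5.1, g5.2]

end Crest.Agent.R62
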